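import Mathlib
import Vale.Agent.P046.Defs

set_option linter.all false

section

section

namespace Vale.Agent.P046

/-- the potential function of one rescaled codegree -/
noncomputable def hh (x : ℝ) : ℝ :=
  if x ≤ 1 then (1 - x) ^ 2 * (1 + 2 * x) / 3 else (x - 1) ^ 2 / x + (max (x - 3) 0) ^ 2 / 200

/-- its derivative -/
noncomputable def gg (x : ℝ) : ℝ :=
  if x ≤ 1 then 2 * x * (x - 1) else 1 - 1 / x ^ 2 + max (x - 3) 0 / 100

/-- the part of `hh` without the quadratic tail -/
noncomputable def h0 (x : ℝ) : ℝ :=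
  if x ≤ 1 then (1 - x) ^ 2 * (1 + 2 * x) / 3 else (x - 1) ^ 2 / x

noncomputable def g0 (x : ℝ) : ℝ :=
  if x ≤ 1 then 2 * x * (x - 1) else 1 - 1 / x ^ 2

lemma Qineq (S w : ℝ) (hS : 0 ≤ S) (hw : 0 ≤ w) (hw2 : w ≤ 2) :
    (1/4) * (S^2 + w^3) ≤ S^3*(1-w)^2 + 2*S^2*(1-w)^2*(1+w) - S*w^2*(2-w^2)
      + (5/12)*w^3*(1+S+w)^2 := by
  rcases le_total w (17/20) with h | h
  · nlinarith only [h, hS, mul_nonneg hw (sq_nonneg (S*(1-w) - w^2)), mul_nonneg hw (sq_nonneg (S - w))]
  · have h3 : (3/5 : ℝ) ≤ w^3 := by nlinarith only [h, mul_self_nonneg (w - 17/20)]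
    have e1 : 0 ≤ S^3*(1-w)^2 := by positivity
    have e2 : 0 ≤ 2*S^2*(1-w)^2*(1+w) := by positivity
    have e3 : 0 ≤ S^2 * ((5/12)*w^3 - 1/4) := mul_nonneg (sq_nonneg S) (by linarith only [h3])
    have e4 : 0 ≤ (S*w^2)*((5/6)*w*(1+w) - (2-w^2)) := mul_nonneg (by positivity) (by nlinarith only [h])
    have e5 : 0 ≤ w^3 * ((5/12)*(1+w)^2 - 1/4) := mul_nonneg (by positivity) (by nlinarith only [h])
    linarith only [e1, e2, e3, e4, e5]

/-- per-variable data: `u = (x-1)_+`, `v = (1-x)_+` -/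
structure VarData (x u v : ℝ) : Prop where
  xpos : 0 < x
  u0 : 0 ≤ u
  v0 : 0 ≤ v
  v1 : v < 1
  uv : u * v = 0
  eq : x = 1 + u - v

lemma varData_exists (x : ℝ) (hx : 0 < x) : ∃ u v, VarData x u v := by
  rcases le_total x 1 with h | h
  · exact ⟨0, 1 - x, ⟨hx, le_refl _, by linarith, by linarith, by ring, by ring⟩⟩
  · exact ⟨x - 1, 0, ⟨hx, by linarith, le_refl _, by norm_num, by ring, by ring⟩⟩

/-- `P` term: `h0 (1+1/x) - (x-1) g0` -/
noncomputable def PP (x : ℝ) : ℝ := h0 x * (1 + 1 / x) - (x - 1) * g0 x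

noncomputable def AA (x : ℝ) : ℝ := 2 * g0 x - h0 x / x + 3 * (1 - 1 / x)

lemma VarData.cases {x u v : ℝ} (d : VarData x u v) : (u = 0 ∧ x = 1 - v) ∨ (v = 0 ∧ x = 1 + u) := by
  rcases mul_eq_zero.mp d.uv with h | h
  · left; exact ⟨h, by rw [d.eq, h]; ring⟩
  · right; exact ⟨h, by rw [d.eq, h]; ring⟩

lemma PP_ge {x u v : ℝ} (d : VarData x u v) : (5/3) * v^3 + (1/3) * (v^4 / x) ≤ PP x := by
  obtain ⟨hx, hu, hv, hv1, huv, he⟩ := d
  have hx' := hx.ne'
  rcases (VarData.cases ⟨hx, hu, hv, hv1, huv, he⟩) with ⟨h1, h2⟩ | ⟨h1, h2⟩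
  · have hx1 : x ≤ 1 := by linarith only [hv, he, h1]
    have hvx : v = 1 - x := by linarith only [hu, he, h1]
    unfold PP h0 g0
    rw [if_pos hx1, if_pos hx1, hvx]
    apply le_of_eq
    field_simp
    ring
  · subst h1
    rcases le_or_gt x 1 with hx1 | hx1
    · have : x = 1 := le_antisymm hx1 (by linarith)
      subst this
      unfold PP h0 g0; norm_num
    · unfold PP h0 g0
      rw [if_neg (not_le.mpr hx1), if_neg (not_le.mpr hx1)]
      apply le_of_eq
      field_simp
      ring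

lemma g0_eq {x u v : ℝ} (d : VarData x u v) : g0 x = (1 - 1 / (1 + u)^2) - 2 * v + 2 * v^2 := by
  obtain ⟨hx, hu, hv, hv1, huv, he⟩ := d
  rcases (VarData.cases ⟨hx, hu, hv, hv1, huv, he⟩) with ⟨h1, h2⟩ | ⟨h1, h2⟩
  · have hx1 : x ≤ 1 := by linarith
    unfold g0
    rw [if_pos hx1, h1, h2]; ring
  · rcases le_or_gt x 1 with hx1 | hx1
    · have : x = 1 := le_antisymm hx1 (by linarith)
      have hu0 : u = 0 := by linarith
      subst this; subst hu0; subst h1
      unfold g0; norm_num
    · unfold g0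
      rw [if_neg (not_le.mpr hx1), h1, h2]; ring

lemma AA_le_lin {x u v : ℝ} (d : VarData x u v) : AA x ≤ 7 * (u - v) := by
  obtain ⟨hx, hu, hv, hv1, huv, he⟩ := d
  have hx' := hx.ne'
  rcases (VarData.cases ⟨hx, hu, hv, hv1, huv, he⟩) with ⟨h1, h2⟩ | ⟨h1, h2⟩
  · have hx1 : x ≤ 1 := by linarith
    have hvx : v = 1 - x := by linarith only [hu, he, h1]
    unfold AA h0 g0
    rw [if_pos hx1, if_pos hx1, h1, hvx]
    have : 7 * (0 - (1 - x)) - (2 * (2 * x * (x - 1)) - (1 - x) ^ 2 * (1 + 2 * x) / 3 / x + 3 * (1 - 1 / x))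
        = (10/3) * (1-x)^3 / x := by
      field_simp; ring
    have h3 : 0 ≤ (10/3) * (1-x)^3 / x := by
      have : 0 ≤ 1 - x := by linarith only [hv, he, h1]
      positivity
    linarith
  · rcases le_or_gt x 1 with hx1 | hx1
    · have : x = 1 := le_antisymm hx1 (by linarith)
      have hu0 : u = 0 := by linarith
      subst this; subst hu0; subst h1
      unfold AA h0 g0; norm_num
    · unfold AA h0 g0
      rw [if_neg (not_le.mpr hx1), if_neg (not_le.mpr hx1), h1]
      have hux : u = x - 1 := by linarith only [hv, he, h1]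
      rw [hux]
      have : 7 * (x - 1 - 0) - (2 * (1 - 1 / x ^ 2) - (x - 1) ^ 2 / x / x + 3 * (1 - 1 / x))
        = (x-1)^2 * (3 + 7 * x) / x^2 := by
        field_simp; ring
      have h3 : 0 ≤ (x-1)^2 * (3 + 7 * x) / x^2 := by positivity
      linarith

lemma AA_ge_quad {x u v : ℝ} (d : VarData x u v) :
    7 * (u - v) - 10 * u^2 - (10/3) * v^3 - (10/3) * (v^4 / x) ≤ AA x := by
  obtain ⟨hx, hu, hv, hv1, huv, he⟩ := d
  have hx' := hx.ne'
  rcases (VarData.cases ⟨hx, hu, hv, hv1, huv, he⟩) with ⟨h1, h2⟩ | ⟨h1, h2⟩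
  · have hx1 : x ≤ 1 := by linarith
    have hvx : v = 1 - x := by linarith only [hu, he, h1]
    unfold AA h0 g0
    rw [if_pos hx1, if_pos hx1, h1, hvx]
    apply le_of_eq
    field_simp
    ring
  · rcases le_or_gt x 1 with hx1 | hx1
    · have : x = 1 := le_antisymm hx1 (by linarith)
      have hu0 : u = 0 := by linarith
      subst this; subst hu0; subst h1
      unfold AA h0 g0; norm_num
    · unfold AA h0 g0
      rw [if_neg (not_le.mpr hx1), if_neg (not_le.mpr hx1), h1]
      have hux : u = x - 1 := by linarith only [hv, he, h1]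
      rw [hux]
      have : (2 * (1 - 1 / x ^ 2) - (x - 1) ^ 2 / x / x + 3 * (1 - 1 / x)) -
         (7 * (x - 1 - 0) - 10 * (x-1)^2 - (10/3) * 0^3 - (10/3) * (0^4 / x))
        = (x-1)^3 * (10 * x + 3) / x^2 := by
        field_simp; ring
      have h3 : 0 ≤ (x-1)^3 * (10 * x + 3) / x^2 := by
        have : 0 ≤ x - 1 := by linarith only [hx1]
        positivity
      linarith

lemma AA_ge_far {x u v : ℝ} (d : VarData x u v) :
    - 7 * v - (10/3) * v^3 - (10/3) * (v^4 / x) ≤ AA x := by
  obtain ⟨hx, hu, hv, hv1, huv, he⟩ := d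
  have hx' := hx.ne'
  rcases (VarData.cases ⟨hx, hu, hv, hv1, huv, he⟩) with ⟨h1, h2⟩ | ⟨h1, h2⟩
  · have := AA_ge_quad (x := x) (u := u) (v := v) ⟨hx, hu, hv, hv1, huv, he⟩
    rw [h1] at this
    linarith
  · rcases le_or_gt x 1 with hx1 | hx1
    · have : x = 1 := le_antisymm hx1 (by linarith only [hu, he, h1])
      have hu0 : u = 0 := by linarith
      subst this; subst hu0; subst h1
      unfold AA h0 g0; norm_num
    · unfold AA h0 g0
      rw [if_neg (not_le.mpr hx1), if_neg (not_le.mpr hx1), h1]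
      have : (2 * (1 - 1 / x ^ 2) - (x - 1) ^ 2 / x / x + 3 * (1 - 1 / x))
        = (x-1) * (4 * x + 3) / x^2 := by
        field_simp; ring
      have h3 : 0 ≤ (x-1) * (4 * x + 3) / x^2 := by
        have : 0 ≤ x - 1 := by linarith only [hx1]
        positivity
      rw [this]
      simp only [ne_eq, OfNat.ofNat_ne_zero, not_false_eq_true, zero_pow, mul_zero, zero_div]
      linarith only [h3]

lemma AA_le_far {x u v : ℝ} (d : VarData x u v) : AA x ≤ 5 := by
  obtain ⟨hx, hu, hv, hv1, huv, he⟩ := d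
  have hx' := hx.ne'
  rcases (VarData.cases ⟨hx, hu, hv, hv1, huv, he⟩) with ⟨h1, h2⟩ | ⟨h1, h2⟩
  · have := AA_le_lin (x := x) (u := u) (v := v) ⟨hx, hu, hv, hv1, huv, he⟩
    rw [h1] at this
    linarith
  · rcases le_or_gt x 1 with hx1 | hx1
    · have := AA_le_lin (x := x) (u := u) (v := v) ⟨hx, hu, hv, hv1, huv, he⟩
      linarith only [he, hx1, this]
    · unfold AA h0 g0
      rw [if_neg (not_le.mpr hx1), if_neg (not_le.mpr hx1)]
      have : (2 * (1 - 1 / x ^ 2) - (x - 1) ^ 2 / x / x + 3 * (1 - 1 / x))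
        = (x-1) * (4 * x + 3) / x^2 := by
        field_simp; ring
      rw [this, div_le_iff₀ (by positivity)]
      linarith only [hx1, sq_nonneg (x - 1)]

end Vale.Agent.P046
end
end

section

section

namespace Vale.Agent.P046

lemma caseNeg0 (s q2 n3 w : ℝ) (hw0 : 0 ≤ w) (hw : w ≤ 3) (hn : 0 ≤ n3) (hq : q2 ^ 2 ≤ w * n3) :
    0 ≤ 2 * s^2 - 2 * s * q2 + (5/3) * n3 := by
  have h1 : w * n3 ≤ 3 * n3 := mul_le_mul_of_nonneg_right hw hn
  nlinarith only [hn, hq, h1, sq_nonneg (s - q2/2)]

lemma caseNeg (U w q2 n3 e : ℝ) (hU : 0 ≤ U) (hUw : U ≤ w) (hw : w ≤ 3) (hn : 0 ≤ n3)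
    (hq0 : 0 ≤ q2) (hq : q2 ^ 2 ≤ w * n3) (hn3 : w ^ 3 ≤ 9 * n3) (hnw : n3 ≤ w)
    (he0 : 0 ≤ e) (he : e ≤ 1e-10) :
    e * (7 * (w - U) + 10 * U^2 + (10/3) * n3) ≤
      2 * (w-U)^2 - 2 * (w-U) * q2 + (5/3) * n3 + 9 * e^2 := by
  have hw0 : 0 ≤ w := le_trans hU hUw
  rcases le_total w (1/10) with h | h
  · -- near
    have h1 : 2 * (w-U) * q2 ≤ (6/10) * (w-U)^2 + (10/6) * q2^2 := by
      nlinarith only [sq_nonneg ((w-U) * (6/10) - q2)]
    have h2 : q2^2 ≤ (1/10) * n3 := le_trans hq (mul_le_mul_of_nonneg_right h hn)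
    have h3 : 7 * e * (w-U) ≤ (14/10) * (w-U)^2 + (875/100) * e^2 := by
      nlinarith only [sq_nonneg ((w-U) * (28/10) - 7 * e)]
    have h4 : U^2 ≤ w^2 := by nlinarith only [hU, hUw]
    -- 10 e w^2 <= 0.15 w^3 + 6584 e^3
    have h5 : 10 * e * w^2 ≤ (1/9) * w^3 + 12000 * e^3 := by
      have h60 : 0 ≤ (w - 60 * e)^2 * (w + 30 * e) := by positivity
      have h61 : (w - 60 * e)^2 * (w + 30 * e) = w^3 - 90 * (e * w^2) + 108000 * e^3 := by ring
      have h62 := pow_nonneg he0 3
      have h63 := pow_nonneg hw0 3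
      linarith only [h60]
    have h6 : 12000 * e^3 ≤ (1/4) * e^2 := by
      have : 12000 * e ≤ 1/4 := by linarith only [he]
      linarith only [mul_nonneg (sq_nonneg e) (by linarith : 0 ≤ 1/4 - 12000 * e)]
    have h7 : e * ((10/3) * n3) ≤ (1/100) * n3 := by nlinarith only [hn, he]
    have h8 : e * (10 * U^2) ≤ 10 * e * w^2 := by nlinarith only [he0, h4]
    linarith only [hn, hn3, h1, h2, h3, h5, h6, h7, h8]
  · -- far
    have h1 : (1:ℝ)/9000 ≤ n3 := by
      have : (1/10:ℝ)^3 ≤ w^3 := pow_le_pow_left₀ (by norm_num) h 3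
      linarith only [hn3, this]
    have h2 : 7 * (w - U) + 10 * U^2 + (10/3) * n3 ≤ 121 := by nlinarith only [hUw, hw, hnw, hU]
    have h3 : e * (7 * (w - U) + 10 * U^2 + (10/3) * n3) ≤ 121e-10 := by
      have h30 : 0 ≤ 7 * (w - U) + 10 * U^2 + (10/3) * n3 := by
        have : 0 ≤ w - U := by linarith only [hUw]
        positivity
      calc e * (7 * (w - U) + 10 * U^2 + (10/3) * n3) ≤ 1e-10 * 121 :=
            mul_le_mul he h2 h30 (by norm_num)
        _ = 121e-10 := by norm_num
    have h4 : (1/6) * n3 ≤ 2 * (w-U)^2 - 2 * (w-U) * q2 + (5/3) * n3 := by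
      have h40 : w * n3 ≤ 3 * n3 := mul_le_mul_of_nonneg_right hw hn
      nlinarith only [hq, h40, sq_nonneg ((w-U) - q2/2)]
    linarith only [h1, h3, h4, sq_nonneg e]

/-- the function `J` on the positive side -/
lemma Jfar (S w : ℝ) (hS : 0 ≤ S) (hw : 0 ≤ w) (hw2 : w ≤ 2) :
    (1/4) * (S^2 + w^3) / (1+S+w)^2 ≤ (5/12)*w^3 + S * ((1-w)^2 - 1/(1+S+w)^2) := by
  have hpos : 0 < (1+S+w)^2 := by positivity
  rw [div_le_iff₀ hpos]
  have := Qineq S w hS hw hw2
  have h2 : ((5/12)*w^3 + S * ((1-w)^2 - 1/(1+S+w)^2)) * (1+S+w)^2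
      = (5/12)*w^3*(1+S+w)^2 + S * ((1-w)^2*(1+S+w)^2 - 1) := by
    field_simp
  rw [h2]
  linarith only [this]

lemma Jnear (S w : ℝ) (hS : 0 ≤ S) (hw : 0 ≤ w) (hS1 : S ≤ 1/100) (hw1 : w ≤ 1/100) :
    (16/10) * S^2 + (3/10) * w^3 ≤ (5/12)*w^3 + S * ((1-w)^2 - 1/(1+S+w)^2) := by
  have h1 : 1/(1+S+w)^2 ≤ 1 - 2*(S+w) + 3*(S+w)^2 := by
    rw [div_le_iff₀ (by positivity)]
    have : 0 ≤ S + w := by linarith only [hS, hw]
    linarith only [pow_nonneg this 3, pow_nonneg this 4]
  have h2 : 2*S - 3*S^2 - 6*S*w - 2*w^2 ≤ (1-w)^2 - 1/(1+S+w)^2 := by linarith only [h1]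
  have h3 : S * (2*S - 3*S^2 - 6*S*w - 2*w^2) ≤ S * ((1-w)^2 - 1/(1+S+w)^2) :=
    mul_le_mul_of_nonneg_left h2 hS
  have h4 : 2 * S * w^2 ≤ (1/4) * S^2 + 4 * w^4 := by nlinarith only [sq_nonneg (S/2 - 2*w^2)]
  have h5 : w^4 ≤ (1/100) * w^3 := by nlinarith only [hw1, pow_nonneg hw 3]
  have h6 : S^3 ≤ (1/100) * S^2 := by nlinarith only [hS1]
  have h7 : S^2*w ≤ (1/100) * S^2 := by nlinarith only [hw1]
  nlinarith only [h3, h4, h5, h6, h7]

/-- far region lower bound for `J` -/
lemma Jfar' (S w : ℝ) (hS : 0 ≤ S) (hw : 0 ≤ w) (hw2 : w ≤ 2) (h : 1/100 ≤ S ∨ 1/100 ≤ w) :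
    (1e-8 : ℝ) ≤ (5/12)*w^3 + S * ((1-w)^2 - 1/(1+S+w)^2) := by
  refine le_trans ?_ (Jfar S w hS hw hw2)
  rw [le_div_iff₀ (by positivity)]
  have hb : (1+S+w)^2 ≤ (3+S)^2 := by nlinarith
  have h1 : (1e-6 : ℝ) + S^2/2 ≤ S^2 + w^3 := by
    rcases h with h | h
    · nlinarith only [h, pow_nonneg hw 3]
    · have : (1/100:ℝ)^3 ≤ w^3 := pow_le_pow_left₀ (by norm_num) h 3
      linarith only [this, sq_nonneg S]
  linarith only [hb, h1, sq_nonneg S, sq_nonneg (S-1)]

lemma casePosEtaPos (S w y η : ℝ) (hS : 0 ≤ S) (hw : 0 ≤ w) (hw2 : w ≤ 2)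
    (a : ℝ) (ha1 : a ≤ 7 * S) (ha2 : a ≤ 15) (hy : 9 / (3 + S) ≤ y) (hη0 : 0 ≤ η) (hη : η ≤ 1e-10) :
    η * a - 3 * η^2 * y ≤ (5/12)*w^3 + S * ((1-w)^2 - 1/(1+S+w)^2) := by
  have hy0 : 0 ≤ y := le_trans (by positivity) hy
  by_cases hnear : S ≤ 1/100 ∧ w ≤ 1/100
  · obtain ⟨h1, h2⟩ := hnear
    have hJ := Jnear S w hS hw h1 h2
    have hy1 : (299/100 : ℝ) ≤ y := by
      refine le_trans ?_ hy
      rw [le_div_iff₀ (by positivity)]
      linarith only [h1]
    have h3 : η * a ≤ η * (7 * S) := mul_le_mul_of_nonneg_left ha1 hη0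
    have h4 : 7 * η * S ≤ (16/10) * S^2 + (8:ℝ) * η^2 := by
      nlinarith only [sq_nonneg ((32/10) * S - 7 * η)]
    have h5 : 3 * η^2 * (299/100) ≤ 3 * η^2 * y := by
      apply mul_le_mul_of_nonneg_left hy1; positivity
    nlinarith only [hJ, h3, h4, h5, pow_nonneg hw 3]
  · have hJ := Jfar' S w hS hw hw2 (by
      by_contra hcon
      push Not at hcon
      exact hnear ⟨hcon.1.le, hcon.2.le⟩)
    have h3 : η * a ≤ η * 15 := mul_le_mul_of_nonneg_left ha2 hη0
    have h4 : 0 ≤ 3 * η^2 * y := by positivity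
    linarith only [hη, hJ, h3, h4]

lemma casePosEtaNeg (S w y e : ℝ) (hS : 0 ≤ S) (hw : 0 ≤ w) (hw2 : w ≤ 2)
    (a : ℝ) (ha1 : a ≤ 20 * S^2 + 20 * w^2 + 4 * w^3) (ha2 : a ≤ 42) (hy : 9 / (3 + S) ≤ y)
    (he0 : 0 ≤ e) (he : e ≤ 1e-10) :
    e * a - 3 * e^2 * y ≤ (5/12)*w^3 + S * ((1-w)^2 - 1/(1+S+w)^2) := by
  have hy0 : 0 ≤ y := le_trans (by positivity) hy
  by_cases hnear : S ≤ 1/100 ∧ w ≤ 1/100
  · obtain ⟨h1, h2⟩ := hnear
    have hJ := Jnear S w hS hw h1 h2
    have hy1 : (299/100 : ℝ) ≤ y := by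
      refine le_trans ?_ hy
      rw [le_div_iff₀ (by positivity)]
      linarith only [h1]
    have h3 : e * a ≤ e * (20 * S^2 + 20 * w^2 + 4 * w^3) := mul_le_mul_of_nonneg_left ha1 he0
    have h5 : 3 * e^2 * (299/100) ≤ 3 * e^2 * y := by
      apply mul_le_mul_of_nonneg_left hy1; positivity
    have h6 : 20 * e * w^2 ≤ (1/5) * w^3 + 120000 * e^3 := by
      have h60 : 0 ≤ (w - 80 * e)^2 * (w + 40 * e) := by positivity
      have h61 : (w - 80 * e)^2 * (w + 40 * e) = w^3 - 120 * (e * w^2) + 256000 * e^3 := by ring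
      have h62 := pow_nonneg he0 3
      have h63 := pow_nonneg hw 3
      linarith only [h60, h62, h63]
    have h7 : 120000 * e^3 ≤ (1/4) * e^2 := by
      have : 120000 * e ≤ 1/4 := by linarith only [he]
      linarith only [mul_nonneg (sq_nonneg e) (by linarith : 0 ≤ 1/4 - 120000 * e)]
    have h8 : e * (20 * S^2) ≤ (1/10) * S^2 := by nlinarith only [he]
    have h9 : e * (4 * w^3) ≤ (1/100) * w^3 := by nlinarith only [he, pow_nonneg hw 3]
    have h10 := pow_nonneg hw 3
    have h11 := sq_nonneg S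
    have h12 := sq_nonneg e
    linarith
  · have hJ := Jfar' S w hS hw hw2 (by
      by_contra hcon
      push Not at hcon
      exact hnear ⟨hcon.1.le, hcon.2.le⟩)
    have h3 : e * a ≤ e * 42 := mul_le_mul_of_nonneg_left ha2 he0
    have h4 : 0 ≤ 3 * e^2 * y := by positivity
    linarith only [he, hJ, h3, h4]

end Vale.Agent.P046
end
end

section

section

namespace Vale.Agent.P046

lemma subadd (a b : ℝ) (ha : 0 ≤ a) (hb : 0 ≤ b) :
    1 - 1 / (1 + (a + b)) ^ 2 ≤ (1 - 1 / (1 + a) ^ 2) + (1 - 1 / (1 + b) ^ 2) := by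
  have h1 : 1 / (1 + a) ^ 2 + 1 / (1 + b) ^ 2 ≤ 1 + 1 / (1 + (a + b)) ^ 2 := by
    have hA : 0 < (1 + a)^2 := by positivity
    have hB : 0 < (1 + b)^2 := by positivity
    have hC : 0 < (1 + (a + b))^2 := by positivity
    rw [div_add_div _ _ hA.ne' hB.ne', ← sub_nonneg]
    have : 1 + 1 / (1 + (a + b)) ^ 2 - (1 * (1 + b) ^ 2 + (1 + a) ^ 2 * 1) / ((1 + a) ^ 2 * (1 + b) ^ 2)
      = (((1 + (a + b)) ^ 2 + 1) * ((1 + a) ^ 2 * (1 + b) ^ 2) -
          ((1 + b) ^ 2 + (1 + a) ^ 2) * (1 + (a + b)) ^ 2) /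
          ((1 + (a + b)) ^ 2 * ((1 + a) ^ 2 * (1 + b) ^ 2)) := by
      field_simp
    rw [this]
    apply div_nonneg _ (by positivity)
    have hab : 0 ≤ a * b := mul_nonneg ha hb
    have e : ((1 + (a + b)) ^ 2 + 1) * ((1 + a) ^ 2 * (1 + b) ^ 2) -
          ((1 + b) ^ 2 + (1 + a) ^ 2) * (1 + (a + b)) ^ 2
        = (a*b) * ((1 + (a+b))^2 * (2 * (1 + a + b) + a * b) - (a*b)
            + (a*b) + 2 * (1 + a + b) + a*b
            - 2 * (1 + a + b)^2 + (2 * (1+a+b)^2 - 0) - 2 * (1 + (a+b))^2) + 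
          (((1 + (a + b)) ^ 2 + 1) * ((1 + a) ^ 2 * (1 + b) ^ 2) -
          ((1 + b) ^ 2 + (1 + a) ^ 2) * (1 + (a + b)) ^ 2 - (a*b) * ((1 + (a+b))^2 * (2 * (1 + a + b) + a * b) - (a*b)
            + (a*b) + 2 * (1 + a + b) + a*b
            - 2 * (1 + a + b)^2 + (2 * (1+a+b)^2 - 0) - 2 * (1 + (a+b))^2)) := by ring
    -- direct: set s = 1+a+b, p = ab; (1+a)(1+b) = s+p, (1+a)^2+(1+b)^2 = (1+s)^2 - 2(s+p)
    have k1 : (1 + a)^2 * (1 + b)^2 = (1 + a + b + a*b)^2 := by ring
    have k2 : (1 + b)^2 + (1 + a)^2 = (2 + a + b)^2 - 2 * (1 + a + b + a*b) := by ring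
    rw [k1, k2]
    set s := 1 + a + b with hs
    set p := a * b with hp
    have hs1 : 1 ≤ s := by linarith only [ha, hb]
    have hs2 : 1 + (a + b) = s := by rw [hs]; ring
    have hs3 : 2 + a + b = 1 + s := by rw [hs]; ring
    rw [hs2, hs3]
    have : (s^2 + 1) * (s + p)^2 - ((1 + s)^2 - 2 * (s + p)) * s^2
        = p * (2 * s^3 + 2 * s + 2 * s^2 + p * (s^2 + 1)) := by ring
    rw [this]
    positivity
  linarith

lemma one_sub_le (a : ℝ) (ha : 0 ≤ a) : 1 - 1 / (1 + a)^2 ≤ 2 * a := by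
  have : 1 - 2 * a ≤ 1 / (1+a)^2 := by
    rw [le_div_iff₀ (by positivity)]
    linarith only [pow_nonneg ha 3, sq_nonneg a]
  linarith

lemma cs3 (a b c : ℝ) (ha : 0 ≤ a) (hb : 0 ≤ b) (hc : 0 ≤ c) :
    (a^2 + b^2 + c^2)^2 ≤ (a + b + c) * (a^3 + b^3 + c^3) := by
  linarith only [mul_nonneg (mul_nonneg ha hb) (sq_nonneg (a - b)), mul_nonneg (mul_nonneg ha hc) (sq_nonneg (a - c)), mul_nonneg (mul_nonneg hb hc) (sq_nonneg (b - c))]

lemma pm3 (a b c : ℝ) (ha : 0 ≤ a) (hb : 0 ≤ b) (hc : 0 ≤ c) :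
    (a + b + c)^3 ≤ 9 * (a^3 + b^3 + c^3) := by
  linarith only [mul_nonneg (add_nonneg ha hb) (sq_nonneg (a - b)), mul_nonneg (add_nonneg ha hc) (sq_nonneg (a - c)), mul_nonneg (add_nonneg hb hc) (sq_nonneg (b - c)), mul_nonneg ha (sq_nonneg (b - c)), mul_nonneg hb (sq_nonneg (a - c)), mul_nonneg hc (sq_nonneg (a - b))]

lemma pm2 (a b : ℝ) (ha : 0 ≤ a) (hb : 0 ≤ b) :
    (a + b)^3 ≤ 4 * (a^3 + b^3) := by
  linarith only [mul_nonneg (add_nonneg ha hb) (sq_nonneg (a - b))]

lemma sqsum3 (a b c : ℝ) (ha : 0 ≤ a) (hb : 0 ≤ b) (hc : 0 ≤ c) :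
    a^2 + b^2 + c^2 ≤ (a + b + c)^2 := by
  linarith only [mul_nonneg ha hb, mul_nonneg ha hc, mul_nonneg hb hc]

lemma cubesum3 (a b c : ℝ) (ha : 0 ≤ a) (hb : 0 ≤ b) (hc : 0 ≤ c) :
    a^3 + b^3 + c^3 ≤ (a + b + c)^3 := by
  have h1 := mul_nonneg (mul_nonneg ha hb) hc
  have h2 := mul_nonneg (mul_nonneg ha hb) ha
  have h3 := mul_nonneg (mul_nonneg ha hb) hb
  have h4 := mul_nonneg (mul_nonneg ha hc) ha
  have h5 := mul_nonneg (mul_nonneg ha hc) hc
  have h6 := mul_nonneg (mul_nonneg hb hc) hb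
  have h7 := mul_nonneg (mul_nonneg hb hc) hc
  have e : (a + b + c)^3 = a^3 + b^3 + c^3 + 6 * (a * b * c) + 3 * (a * b * a) + 3 * (a * b * b)
    + 3 * (a * c * a) + 3 * (a * c * c) + 3 * (b * c * b) + 3 * (b * c * c) := by ring
  linarith only [h1, h2, h3, h4, h5, h6, h7]

lemma cube_le_self (a : ℝ) (ha : 0 ≤ a) (ha1 : a ≤ 1) : a^3 ≤ a := by
  nlinarith only [ha, mul_nonneg (mul_nonneg ha ha) (by linarith : 0 ≤ 1 - a)]

lemma combineNeg (P S G A y η w U q2 n3 V : ℝ)
    (hP : (5/3) * n3 + (1/3) * V ≤ P) (hSG : -S * G ≤ (w - U) * (2 * U - 2 * w + 2 * q2))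
    (hA1 : A ≤ 7 * (U - w)) (hA2 : 7 * (U - w) - 10 * U^2 - (10/3) * n3 - (10/3) * V ≤ A)
    (hy3 : 3 ≤ y) (hη : |η| ≤ 1e-10) (hU0 : 0 ≤ U) (hUw : U ≤ w) (hw3 : w ≤ 3) (hn30 : 0 ≤ n3)
    (hq20 : 0 ≤ q2) (cs : q2 ^ 2 ≤ w * n3) (pm : w ^ 3 ≤ 9 * n3) (hnw : n3 ≤ w) (hV0 : 0 ≤ V) :
    -P - S * G + η * A - 3 * η^2 * y ≤ 0 := by
  rcases le_total 0 η with hη0 | hη0
  · have t1 : η * A ≤ 0 := by
      apply mul_nonpos_of_nonneg_of_nonpos hη0
      linarith only [hA1, hUw]
    have t2 : 0 ≤ 3 * η^2 * y := by positivity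
    have t3 := caseNeg0 (w - U) q2 n3 w (le_trans hU0 hUw) hw3 hn30 cs
    linarith only [hP, hSG, hV0, t1, t2, t3]
  · have he : -η ≤ 1e-10 := le_trans (neg_le_abs η) hη
    have t1 := caseNeg U w q2 n3 (-η) hU0 hUw hw3 hn30 hq20 cs pm hnw (by linarith only [hη0]) he
    have t2 : η * A ≤ η * (7 * (U - w) - 10 * U^2 - (10/3) * n3 - (10/3) * V) :=
      mul_le_mul_of_nonpos_left hA2 hη0
    have t3 : 3 * η^2 * 3 ≤ 3 * η^2 * y := by
      apply mul_le_mul_of_nonneg_left hy3; positivity
    have t4 : (-η) * ((10/3) * V) ≤ (1/3) * V := by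
      have : (-η) * ((10/3) * V) ≤ 1e-10 * ((10/3) * V) :=
        mul_le_mul_of_nonneg_right he (by positivity)
      linarith only [hV0, this]
    linarith only [hP, hSG, t1, t2, t3, t4]

lemma combinePos (P S G A y η w n3 V : ℝ)
    (hP : (5/12) * w^3 + (1/3) * V ≤ P) 
    (hSG : S * ((1-w)^2 - 1/(1+S+w)^2) ≤ S * G)
    (hA1 : A ≤ 7 * S) (hA1' : A ≤ 15)
    (hA2 : 7 * S - 10 * (S + w)^2 - (10/3) * n3 - (10/3) * V ≤ A)
    (hA3 : - 7 * w - (10/3) * n3 - (10/3) * V ≤ A)
    (hy : 9 / (3 + S) ≤ y) (hη : |η| ≤ 1e-10) (hS0 : 0 ≤ S) (hw0 : 0 ≤ w) (hw2 : w ≤ 2)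
    (hn30 : 0 ≤ n3) (hn' : n3 ≤ w^3) (hnw : n3 ≤ w) (hV0 : 0 ≤ V) :
    -P - S * G + η * A - 3 * η^2 * y ≤
      - ((5/12)*w^3 + S * ((1-w)^2 - 1/(1+S+w)^2)) + |η| * 42 ∧
    -P - S * G + η * A - 3 * η^2 * y ≤ 0 := by
  have hη1 : η ≤ |η| := le_abs_self η
  have hη2 : -η ≤ |η| := neg_le_abs η
  have habs : 0 ≤ |η| := abs_nonneg η
  have hy0 : 0 ≤ y := le_trans (by positivity) hy
  have t2 : 0 ≤ 3 * η^2 * y := by positivity
  rcases le_total 0 η with hη0 | hη0
  · constructor
    · have t1 : η * A ≤ |η| * 42 := by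
        calc η * A ≤ η * 15 := mul_le_mul_of_nonneg_left hA1' hη0
          _ ≤ |η| * 15 := mul_le_mul_of_nonneg_right hη1 (by norm_num)
          _ ≤ |η| * 42 := mul_le_mul_of_nonneg_left (by norm_num) habs
      linarith only [hP, hSG, hV0, t2, t1]
    · have t := casePosEtaPos S w y η hS0 hw0 hw2 _ hA1 hA1' hy hη0 (le_trans hη1 hη)
      linarith only [hP, hSG, hV0, t]
  · have he : -η ≤ 1e-10 := le_trans hη2 hη
    have t4 : (-η) * ((10/3) * V) ≤ (1/3) * V := by
      have : (-η) * ((10/3) * V) ≤ 1e-10 * ((10/3) * V) :=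
        mul_le_mul_of_nonneg_right he (by positivity)
      linarith only [hV0, this]
    constructor
    · have t1 : η * A ≤ η * (- 7 * w - (10/3) * n3 - (10/3) * V) :=
        mul_le_mul_of_nonpos_left hA3 hη0
      have t5 : (-η) * (7 * w + (10/3) * n3) ≤ |η| * 42 := by
        have : 7 * w + (10/3) * n3 ≤ 42 := by linarith only [hw2, hnw]
        have h0' : 0 ≤ 7 * w + (10/3) * n3 := by positivity
        calc (-η) * (7 * w + (10/3) * n3) ≤ |η| * (7 * w + (10/3) * n3) :=
              mul_le_mul_of_nonneg_right hη2 h0'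
          _ ≤ |η| * 42 := mul_le_mul_of_nonneg_left this habs
      linarith only [hP, hSG, t2, t4, t1, t5]
    · have ha1 : -A - (10/3) * V ≤ 20 * S^2 + 20 * w^2 + 4 * w^3 := by
        have : (S + w)^2 ≤ 2 * S^2 + 2 * w^2 := by linarith only [sq_nonneg (S - w)]
        have hw3 : 0 ≤ w^3 := by positivity
        linarith only [hA2, hS0, hn30, hn', this]
      have ha2 : -A - (10/3) * V ≤ 42 := by linarith only [hA3, hw2, hnw]
      have t := casePosEtaNeg S w y (-η) hS0 hw0 hw2 _ ha1 ha2 hy (by linarith only [hη0]) he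
      have t6 : η * A = (-η) * (-A - (10/3) * V) + (-η) * ((10/3) * V) := by ring
      have t7 : (-η)^2 = η^2 := by ring
      rw [t7] at t
      rw [t6]
      linarith only [hP, hSG, t4, t]

/-- the three-variable functional for `h0`, `η = ρ - 1` -/
noncomputable def FF0 (x1 x2 x3 η : ℝ) : ℝ :=
  -(PP x1 + PP x2 + PP x3) - (x1 + x2 + x3 - 3) * (g0 x1 + g0 x2 + g0 x3)
    + η * (AA x1 + AA x2 + AA x3) - 3 * η^2 * (1/x1 + 1/x2 + 1/x3)

lemma harm (x1 x2 x3 : ℝ) (h1 : 0 < x1) (h2 : 0 < x2) (h3 : 0 < x3) :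
    9 / (x1 + x2 + x3) ≤ 1/x1 + 1/x2 + 1/x3 := by
  rw [div_le_iff₀ (by positivity)]
  have e : (1/x1 + 1/x2 + 1/x3) * (x1 + x2 + x3) - 9 =
      (x1 - x2)^2/(x1*x2) + (x1-x3)^2/(x1*x3) + (x2-x3)^2/(x2*x3) := by
    field_simp; ring
  have : 0 ≤ (x1 - x2)^2/(x1*x2) + (x1-x3)^2/(x1*x3) + (x2-x3)^2/(x2*x3) := by positivity
  linarith

/-- nonpositive side -/
lemma FF0_neg (x1 x2 x3 η : ℝ) (h1 : 0 < x1) (h2 : 0 < x2) (h3 : 0 < x3) (hη : |η| ≤ 1e-10)
    (hS : x1 + x2 + x3 ≤ 3) : FF0 x1 x2 x3 η ≤ 0 := by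
  obtain ⟨u1, v1, d1⟩ := varData_exists x1 h1
  obtain ⟨u2, v2, d2⟩ := varData_exists x2 h2
  obtain ⟨u3, v3, d3⟩ := varData_exists x3 h3
  have P1 := PP_ge d1
  have P2 := PP_ge d2
  have P3 := PP_ge d3
  have G1 := g0_eq d1
  have G2 := g0_eq d2
  have G3 := g0_eq d3
  have L1 := AA_le_lin d1
  have L2 := AA_le_lin d2
  have L3 := AA_le_lin d3
  have Q1 := AA_ge_quad d1
  have Q2 := AA_ge_quad d2
  have Q3 := AA_ge_quad d3
  have o1 := one_sub_le u1 d1.u0
  have o2 := one_sub_le u2 d2.u0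
  have o3 := one_sub_le u3 d3.u0
  have hu1 := d1.u0
  have hu2 := d2.u0
  have hu3 := d3.u0
  have hv1 := d1.v0
  have hv2 := d2.v0
  have hv3 := d3.v0
  have hv1' := d1.v1
  have hv2' := d2.v1
  have hv3' := d3.v1
  have e1 := d1.eq
  have e2 := d2.eq
  have e3 := d3.eq
  have hV1 : 0 ≤ v1^4/x1 := by positivity
  have hV2 : 0 ≤ v2^4/x2 := by positivity
  have hV3 : 0 ≤ v3^4/x3 := by positivity
  set V := v1^4/x1 + v2^4/x2 + v3^4/x3 with hV
  set U := u1 + u2 + u3 with hUdef
  set w := v1 + v2 + v3 with hwdef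
  set q2 := v1^2 + v2^2 + v3^2 with hq2
  set n3 := v1^3 + v2^3 + v3^3 with hn3
  have hU0 : 0 ≤ U := by positivity
  have hw0 : 0 ≤ w := by positivity
  have hUw : U ≤ w := by rw [hUdef, hwdef]; linarith only [hS, e1, e2, e3]
  have hw3 : w ≤ 3 := by rw [hwdef]; linarith only [hv1', hv2', hv3']
  have hq20 : 0 ≤ q2 := by positivity
  have hn30 : 0 ≤ n3 := by positivity
  have cs : q2^2 ≤ w * n3 := cs3 v1 v2 v3 hv1 hv2 hv3
  have pm : w^3 ≤ 9 * n3 := pm3 v1 v2 v3 hv1 hv2 hv3
  have c1 : v1^3 ≤ v1 := cube_le_self v1 hv1 hv1'.le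
  have c2 : v2^3 ≤ v2 := cube_le_self v2 hv2 hv2'.le
  have c3 : v3^3 ≤ v3 := cube_le_self v3 hv3 hv3'.le
  have hnw : n3 ≤ w := by rw [hn3, hwdef]; linarith only [c1, c2, c3]
  have hSeq : x1 + x2 + x3 - 3 = U - w := by rw [hUdef, hwdef]; linarith only [e1, e2, e3]
  have hG : g0 x1 + g0 x2 + g0 x3 ≤ 2 * U - 2 * w + 2 * q2 := by
    rw [G1, G2, G3, hUdef, hwdef, hq2]; linarith only [o1, o2, o3]
  have hSG : -(x1 + x2 + x3 - 3) * (g0 x1 + g0 x2 + g0 x3) ≤ (w - U) * (2 * U - 2 * w + 2 * q2) := by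
    rw [hSeq]
    have : -(U - w) = w - U := by ring
    rw [this]
    exact mul_le_mul_of_nonneg_left hG (by linarith only [hS, e1, e2, e3])
  have hP : (5/3) * n3 + (1/3) * V ≤ PP x1 + PP x2 + PP x3 := by
    rw [hn3, hV]; linarith only [P1, P2, P3]
  have hy : (9:ℝ) / (x1 + x2 + x3) ≤ 1/x1 + 1/x2 + 1/x3 := harm x1 x2 x3 h1 h2 h3
  have hy3 : (3:ℝ) ≤ 1/x1 + 1/x2 + 1/x3 := by
    refine le_trans ?_ hy
    rw [le_div_iff₀ (by positivity)]; linarith only [hS]
  have hA1 : AA x1 + AA x2 + AA x3 ≤ 7 * (U - w) := by rw [hUdef, hwdef]; linarith only [L1, L2, L3]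
  have hsq : u1^2 + u2^2 + u3^2 ≤ U^2 := sqsum3 u1 u2 u3 hu1 hu2 hu3
  have hA2 : 7 * (U - w) - 10 * U^2 - (10/3) * n3 - (10/3) * V ≤ AA x1 + AA x2 + AA x3 := by
    rw [hn3, hV]
    have : 7 * (U - w) = 7 * (u1 - v1) + 7 * (u2 - v2) + 7 * (u3 - v3) := by rw [hUdef, hwdef]; ring
    linarith only [Q1, Q2, Q3, hsq]
  have hV0 : 0 ≤ V := by positivity
  exact combineNeg _ _ _ _ _ _ w U q2 n3 V hP hSG hA1 hA2 hy3 hη hU0 hUw hw3 hn30 hq20 cs pm hnw hV0

lemma FF0_pos_aux (x1 x2 x3 η : ℝ) (h1 : 0 < x1) (h2 : 0 < x2) (h3 : 0 < x3) (hη : |η| ≤ 1e-10)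
    (hS : 3 ≤ x1 + x2 + x3) : ∃ U w : ℝ, U - w = x1 + x2 + x3 - 3 ∧ 0 ≤ w ∧ w ≤ 2 ∧
      x1 - 1 ≤ U ∧ x2 - 1 ≤ U ∧ x3 - 1 ≤ U ∧ 
      FF0 x1 x2 x3 η ≤ - ((5/12)*w^3 + (U - w) * ((1-w)^2 - 1/(1+(U-w)+w)^2)) 
        + |η| * 42 ∧ FF0 x1 x2 x3 η ≤ 0 := by
  obtain ⟨u1, v1, d1⟩ := varData_exists x1 h1
  obtain ⟨u2, v2, d2⟩ := varData_exists x2 h2
  obtain ⟨u3, v3, d3⟩ := varData_exists x3 h3
  have P1 := PP_ge d1
  have P2 := PP_ge d2
  have P3 := PP_ge d3
  have G1 := g0_eq d1
  have G2 := g0_eq d2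
  have G3 := g0_eq d3
  have L1 := AA_le_lin d1
  have L2 := AA_le_lin d2
  have L3 := AA_le_lin d3
  have M1 := AA_le_far d1
  have M2 := AA_le_far d2
  have M3 := AA_le_far d3
  have Q1 := AA_ge_quad d1
  have Q2 := AA_ge_quad d2
  have Q3 := AA_ge_quad d3
  have R1 := AA_ge_far d1
  have R2 := AA_ge_far d2
  have R3 := AA_ge_far d3
  have hu1 := d1.u0
  have hu2 := d2.u0
  have hu3 := d3.u0
  have hv1 := d1.v0
  have hv2 := d2.v0
  have hv3 := d3.v0
  have hv1' := d1.v1
  have hv2' := d2.v1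
  have hv3' := d3.v1
  have e1 := d1.eq
  have e2 := d2.eq
  have e3 := d3.eq
  have sa := subadd u1 u2 hu1 hu2
  have sb := subadd (u1 + u2) u3 (by linarith only [hu1, hu2]) hu3
  have hV1 : 0 ≤ v1^4/x1 := by positivity
  have hV2 : 0 ≤ v2^4/x2 := by positivity
  have hV3 : 0 ≤ v3^4/x3 := by positivity
  -- one of the v is zero
  have hz : v1 = 0 ∨ v2 = 0 ∨ v3 = 0 := by
    by_contra hcon
    push Not at hcon
    obtain ⟨n1, n2, n3⟩ := hcon
    have z1 : u1 = 0 := (mul_eq_zero.mp d1.uv).resolve_right n1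
    have z2 : u2 = 0 := (mul_eq_zero.mp d2.uv).resolve_right n2
    have z3 : u3 = 0 := (mul_eq_zero.mp d3.uv).resolve_right n3
    have : 0 < v1 := lt_of_le_of_ne hv1 (Ne.symm n1)
    linarith only [hS, hv2, hv3, e1, e2, e3, z1, z2, z3, this]
  set V := v1^4/x1 + v2^4/x2 + v3^4/x3 with hV
  set U := u1 + u2 + u3 with hUdef
  set w := v1 + v2 + v3 with hwdef
  set q2 := v1^2 + v2^2 + v3^2 with hq2
  set n3 := v1^3 + v2^3 + v3^3 with hn3
  have hU0 : 0 ≤ U := by positivity
  have hw0 : 0 ≤ w := by positivity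
  have hSeq : x1 + x2 + x3 - 3 = U - w := by rw [hUdef, hwdef]; linarith only [e1, e2, e3]
  have hw2 : w ≤ 2 := by
    rw [hwdef]
    rcases hz with h | h | h <;> rw [h] <;> linarith only [hv2', hv3', hv1']
  have hq : w^2 ≤ 2 * q2 := by
    rw [hwdef, hq2]
    rcases hz with h | h | h
    · rw [h]; linarith only [sq_nonneg (v2 - v3)]
    · rw [h]; linarith only [sq_nonneg (v1 - v3)]
    · rw [h]; linarith only [sq_nonneg (v1 - v2)]
  have hn : w^3 ≤ 4 * n3 := by
    rw [hwdef, hn3]
    rcases hz with h | h | h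
    · rw [h]
      have := pm2 v2 v3 hv2 hv3
      calc (0 + v2 + v3)^3 = (v2 + v3)^3 := by ring
        _ ≤ 4 * (v2^3 + v3^3) := this
        _ = 4 * (0^3 + v2^3 + v3^3) := by ring
    · rw [h]
      have := pm2 v1 v3 hv1 hv3
      calc (v1 + 0 + v3)^3 = (v1 + v3)^3 := by ring
        _ ≤ 4 * (v1^3 + v3^3) := this
        _ = 4 * (v1^3 + 0^3 + v3^3) := by ring
    · rw [h]
      have := pm2 v1 v2 hv1 hv2
      calc (v1 + v2 + 0)^3 = (v1 + v2)^3 := by ring
        _ ≤ 4 * (v1^3 + v2^3) := this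
        _ = 4 * (v1^3 + v2^3 + 0^3) := by ring
  have hn' : n3 ≤ w^3 := cubesum3 v1 v2 v3 hv1 hv2 hv3
  have c1 : v1^3 ≤ v1 := cube_le_self v1 hv1 hv1'.le
  have c2 : v2^3 ≤ v2 := cube_le_self v2 hv2 hv2'.le
  have c3 : v3^3 ≤ v3 := cube_le_self v3 hv3 hv3'.le
  have hnw : n3 ≤ w := by rw [hn3, hwdef]; linarith only [c1, c2, c3]
  have hSnn : 0 ≤ U - w := by linarith only [hS, e1, e2, e3]
  have hG : (1 - 1 / (1 + U)^2) - 2 * w + w^2 ≤ g0 x1 + g0 x2 + g0 x3 := by
    rw [G1, G2, G3]
    have : 1 + U = 1 + (u1 + u2 + u3) := by rw [hUdef]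
    rw [this]
    have hh2 : 2 * w = 2 * v1 + 2 * v2 + 2 * v3 := by rw [hwdef]; ring
    have hh3 : 2 * q2 = 2 * v1^2 + 2 * v2^2 + 2 * v3^2 := by rw [hq2]; ring
    linarith only [sa, sb, hq]
  have hSG : (U - w) * ((1-w)^2 - 1/(1+(U-w)+w)^2) ≤ (x1 + x2 + x3 - 3) * (g0 x1 + g0 x2 + g0 x3) := by
    rw [hSeq]
    apply mul_le_mul_of_nonneg_left _ hSnn
    refine le_trans (le_of_eq ?_) hG
    have : 1 + (U - w) + w = 1 + U := by ring
    rw [this]; ring
  have hP : (5/12) * w^3 + (1/3) * V ≤ PP x1 + PP x2 + PP x3 := by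
    have : (5/3) * n3 + (1/3) * V ≤ PP x1 + PP x2 + PP x3 := by rw [hn3, hV]; linarith only [P1, P2, P3]
    linarith only [P1, P2, P3, hn]
  have hy : (9:ℝ) / (3 + (U - w)) ≤ 1/x1 + 1/x2 + 1/x3 := by
    have := harm x1 x2 x3 h1 h2 h3
    have e : 3 + (U - w) = x1 + x2 + x3 := by linarith only [e1, e2, e3]
    rw [e]; exact this
  have hy0 : 0 ≤ 1/x1 + 1/x2 + 1/x3 := by positivity
  have hV0 : 0 ≤ V := by positivity
  have hsq : u1^2 + u2^2 + u3^2 ≤ U^2 := sqsum3 u1 u2 u3 hu1 hu2 hu3
  have hA1 : AA x1 + AA x2 + AA x3 ≤ 7 * (U - w) := by rw [hUdef, hwdef]; linarith only [L1, L2, L3]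
  have hA1' : AA x1 + AA x2 + AA x3 ≤ 15 := by linarith only [M1, M2, M3]
  have hA2 : 7 * (U - w) - 10 * ((U - w) + w)^2 - (10/3) * n3 - (10/3) * V ≤
      AA x1 + AA x2 + AA x3 := by
    have e0 : (U - w) + w = U := by ring
    rw [e0, hn3, hV]
    have : 7 * (U - w) = 7 * (u1 - v1) + 7 * (u2 - v2) + 7 * (u3 - v3) := by rw [hUdef, hwdef]; ring
    linarith only [Q1, Q2, Q3, hsq]
  have hA3 : - 7 * w - (10/3) * n3 - (10/3) * V ≤ AA x1 + AA x2 + AA x3 := by
    rw [hn3, hV, hwdef]
    linarith only [R1, R2, R3]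
  have sum1 : x1 - 1 ≤ U := by rw [hUdef]; linarith only [hu2, hu3, hv1, e1]
  have sum2 : x2 - 1 ≤ U := by rw [hUdef]; linarith only [hu1, hu3, hv2, e2]
  have sum3 : x3 - 1 ≤ U := by rw [hUdef]; linarith only [hu1, hu2, hv3, e3]
  rw [hSeq] at hSG
  have key := combinePos _ (U - w) _ _ _ η w n3 V hP hSG hA1 hA1' hA2 hA3 hy hη hSnn hw0 hw2
    (by positivity) hn' hnw hV0
  refine ⟨U, w, hSeq.symm, hw0, hw2, sum1, sum2, sum3, ?_, ?_⟩
  · unfold FF0; rw [hSeq]; exact key.1
  · unfold FF0; rw [hSeq]; exact key.2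

end Vale.Agent.P046
end
end

section

section

namespace Vale.Agent.P046

/-- tail function -/
noncomputable def tt (x : ℝ) : ℝ := max (x - 3) 0

lemma hh_eq (x : ℝ) : hh x = h0 x + (tt x)^2 / 200 := by
  unfold hh h0 tt
  split_ifs with h
  · rw [max_eq_right (by linarith)]; ring
  · rfl

lemma gg_eq (x : ℝ) : gg x = g0 x + tt x / 100 := by
  unfold gg g0 tt
  split_ifs with h
  · rw [max_eq_right (by linarith)]; ring
  · rfl

lemma tt_nonneg (x : ℝ) : 0 ≤ tt x := le_max_right _ _

lemma tailJ (U w : ℝ) (hU : 2 ≤ U) (hw0 : 0 ≤ w) (hw2 : w ≤ 2) :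
    (16/100) * (1+U)^2 ≤ (U-w)^2 + w^3 := by
  have hw3 : 0 ≤ w^3 := by positivity
  rcases le_total U 10 with h | h
  · have hc : 0 ≤ (w + 2 * (9/10)) * (w - 9/10)^2 := by positivity
    have hd : (w + 2 * (9/10)) * (w - 9/10)^2 = w^3 - (243/100) * w + 1458/1000 := by ring
    nlinarith only [hc, sq_nonneg (w - (U - 1215/1000)), mul_nonneg (by linarith : 0 ≤ U - 2) (by linarith : 0 ≤ 10 - U)]
  · have h1 : (4/10) * (1 + U) ≤ U - w := by linarith
    have h2 : ((4/10) * (1 + U))^2 ≤ (U - w)^2 := pow_le_pow_left₀ (by linarith only [h]) h1 2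
    linarith only [hw3, h2]

lemma e1aux (x s η : ℝ) (hη : 0 ≤ 1 + η) (hx : 0 < x) :
    (-(tt x)^2 / 200 * (1 + (1 + η) / x) + 2 * (1 + η) * (tt x / 100)) -
      tt x / 100 * s ≤ (if 3 ≤ x then (1:ℝ) else 0) * (-(tt x)^2/200 + 
        tt x / 100 * (2 * (1 + η) - s)) := by
  split_ifs with h
  · have : 0 ≤ (tt x)^2 / 200 * ((1 + η) / x) := by positivity
    linarith
  · have : tt x = 0 := by
      unfold tt; rw [max_eq_right (by linarith)]
    rw [this]; norm_num





lemma h0_nonneg (x : ℝ) (hx : 0 ≤ x) : 0 ≤ h0 x := by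
  unfold h0
  split_ifs with h
  · positivity
  · positivity

lemma hh_nonneg (x : ℝ) (hx : 0 ≤ x) : 0 ≤ hh x := by
  rw [hh_eq]
  have := h0_nonneg x hx
  positivity

/-- quadratic lower bound -/
lemma hh_lower (x : ℝ) (hx : 0 ≤ x) : (x - 1)^2 / 1800 ≤ hh x := by
  unfold hh
  split_ifs with h
  · have : 0 ≤ (1-x)^2 := sq_nonneg _
    nlinarith only [mul_nonneg this hx]
  · push Not at h
    have hx0 : 0 < x := by linarith
    rcases le_or_gt x 4 with h4 | h4
    · have h5 : (x-1)^2/1800 ≤ (x-1)^2/x := by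
        apply div_le_div_of_nonneg_left (sq_nonneg _) hx0 (by linarith)
      have : 0 ≤ (max (x - 3) 0)^2 / 200 := by positivity
      linarith
    · rw [max_eq_left (by linarith)]
      have h5 : 0 ≤ (x-1)^2/x := by positivity
      nlinarith only [h4, h5]


lemma tt_taylor (x y : ℝ) : (tt y)^2 ≤ (tt x)^2 + 2 * tt x * (y - x) + (y-x)^2 := by
  unfold tt
  rcases le_total (x - 3) 0 with h | h <;> rcases le_total (y - 3) 0 with h' | h'
  · rw [max_eq_right h, max_eq_right h']; linarith only [sq_nonneg (y - x)]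
  · rw [max_eq_right h, max_eq_left h']; nlinarith only [h, h']
  · rw [max_eq_left h, max_eq_right h']; linarith only [sq_nonneg (x - 3 + (y - x))]
  · rw [max_eq_left h, max_eq_left h']; linarith only []

lemma h0_taylor (x y : ℝ) (hx : 0 ≤ x) (hy : 0 ≤ y) :
    h0 y ≤ h0 x + g0 x * (y - x) + (y - x)^2 := by
  unfold h0 g0
  split_ifs with h1 h2 h2
  · linarith only [mul_nonneg (sq_nonneg (y - x)) (by linarith : 0 ≤ 1 - x), mul_nonneg (sq_nonneg (y - x)) (by linarith : 0 ≤ 1 - y)]
  · -- y ≤ 1 < x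
    push Not at h2
    have hx0 : 0 < x := by linarith
    have e : (x - 1) ^ 2 / x + (1 - 1 / x ^ 2) * (y - x) + (y - x) ^ 2 - (1 - y) ^ 2 * (1 + 2 * y) / 3
      = ((x-1)^2 * x * 3 + 3 * (x^2 - 1) * (y - x) + 3 * x^2 * (y-x)^2 - x^2 * (1-y)^2 * (1 + 2*y)) / (3 * x^2) := by
      field_simp
    have hnum : 0 ≤ (x-1)^2 * x * 3 + 3 * (x^2 - 1) * (y - x) + 3 * x^2 * (y-x)^2 - x^2 * (1-y)^2 * (1 + 2*y) := by
      -- set p = x - 1, v = 1 - y
      obtain ⟨p, hp⟩ : ∃ p, p = x - 1 := ⟨_, rfl⟩
      obtain ⟨v, hv⟩ : ∃ v, v = 1 - y := ⟨_, rfl⟩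
      have hx' : x = 1 + p := by linarith only [hp]
      have hy' : y = 1 - v := by linarith only [hv]
      have hp0 : 0 ≤ p := by linarith only [h2, hp]
      have hv0 : 0 ≤ v := by linarith only [h1, hv]
      have hv1 : v ≤ 1 := by linarith only [hy, hv]
      rw [hx', hy']
      have : (1 + p - 1) ^ 2 * (1 + p) * 3 + 3 * ((1 + p) ^ 2 - 1) * (1 - v - (1 + p)) +
        3 * (1 + p) ^ 2 * (1 - v - (1 + p)) ^ 2 - (1 + p) ^ 2 * (1 - (1 - v)) ^ 2 * (1 + 2 * (1 - v))
        = 3 * p^4 + 6 * p^3 + 3 * p * v * (2 * p^2 + 3 * p) + (1+p)^2 * (2 * v^3) := by ring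
      rw [this]
      positivity
    have : 0 ≤ ((x-1)^2 * x * 3 + 3 * (x^2 - 1) * (y - x) + 3 * x^2 * (y-x)^2 - x^2 * (1-y)^2 * (1 + 2*y)) / (3 * x^2) := by
      positivity
    linarith
  · -- x ≤ 1 < y
    push Not at h1
    have hy0 : 0 < y := by linarith
    have h5 : (y-1)^2/y ≤ (y-1)^2 := by
      rw [div_le_iff₀ hy0]; nlinarith only [h1]
    obtain ⟨v, hv⟩ : ∃ v, v = 1 - x := ⟨_, rfl⟩
    obtain ⟨p, hp⟩ : ∃ p, p = y - 1 := ⟨_, rfl⟩
    have hx' : x = 1 - v := by linarith only [hv]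
    have hy' : y = 1 + p := by linarith only [hp]
    have hp0 : 0 ≤ p := by linarith only [h1, hp]
    have hv0 : 0 ≤ v := by linarith only [h2, hv]
    rw [hx', hy'] 
    rw [hy'] at h5
    refine le_trans h5 ?_
    have : (1 - (1 - v)) ^ 2 * (1 + 2 * (1 - v)) / 3 + 2 * (1 - v) * (1 - v - 1) * (1 + p - (1 - v)) +
        (1 + p - (1 - v)) ^ 2 - (1 + p - 1)^2 = (4/3) * v^3 + 2 * v^2 * p := by ring
    have h6 : 0 ≤ (4/3) * v^3 + 2 * v^2 * p := by positivity
    linarith only [h6]
  · push Not at h1 h2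
    have hx0 : 0 < x := by linarith
    have hy0 : 0 < y := by linarith
    have e : (x - 1) ^ 2 / x + (1 - 1 / x ^ 2) * (y - x) + (y - x) ^ 2 - (y - 1)^2 / y =
      (y-x)^2 * (x^2 * y - 1) / (x^2 * y) := by
      field_simp; ring
    have : 0 ≤ (y-x)^2 * (x^2 * y - 1) / (x^2 * y) := by
      have : 1 ≤ x^2 * y := by nlinarith only [h2, h1]
      have : 0 ≤ x^2 * y - 1 := by linarith only [this]
      positivity
    linarith

lemma hh_taylor (x y : ℝ) (hx : 0 ≤ x) (hy : 0 ≤ y) :
    hh y ≤ hh x + gg x * (y - x) + 2 * (y - x)^2 := by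
  rw [hh_eq, hh_eq, gg_eq]
  have h1 := h0_taylor x y hx hy
  have h2 := tt_taylor x y
  linarith only [h1, h2, sq_nonneg (y - x)]

end Vale.Agent.P046
end
end

section

section

set_option autoImplicit false

namespace Vale.Agent.P046.C

open Vale.Agent.P046

/-- quadratic mass of the heavy part -/
noncomputable def hv (x : ℝ) : ℝ := if 12 < x then x ^ 2 else 0

lemma hv_nonneg (x : ℝ) : 0 ≤ hv x := by
  unfold hv; split_ifs
  · positivity
  · exact le_refl _

lemma slack_aux (x : ℝ) : (if 3 ≤ x then (1:ℝ) else 0) * (-(tt x)^2/200 +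
    tt x / 100 * (201/100)) + hv x / 800 ≤ 21/1000 := by
  unfold hv
  split_ifs with h3 h12 h12
  · have ht : tt x = x - 3 := by
      unfold tt; rw [max_eq_left (by linarith)]
    rw [ht]
    nlinarith
  · have ht := tt_nonneg x
    nlinarith only [sq_nonneg (tt x - 2)]
  · linarith
  · norm_num

lemma slack_aux2 (x s : ℝ) (hs : 2 ≤ s) : (if 3 ≤ x then (1:ℝ) else 0) * (-(tt x)^2/200 +
    tt x / 100 * (2 - s)) + hv x / 800 ≤ 0 := by
  unfold hv
  split_ifs with h3 h12 h12
  · have ht : tt x = x - 3 := by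
      unfold tt; rw [max_eq_left (by linarith)]
    rw [ht]
    nlinarith only [h12, hs]
  · have ht := tt_nonneg x
    linarith only [sq_nonneg (tt x), mul_nonneg ht (by linarith : 0 ≤ s - 2)]
  · linarith
  · norm_num

lemma slack_aux1 (x s : ℝ) (hs : 0 ≤ s) : (if 3 ≤ x then (1:ℝ) else 0) * (-(tt x)^2/200 +
    tt x / 100 * (2 - s)) + hv x / 800 ≤ 21/1000 := by
  refine le_trans ?_ (slack_aux x)
  have ht := tt_nonneg x
  have : tt x / 100 * (2 - s) ≤ tt x / 100 * (201/100) :=
    mul_le_mul_of_nonneg_left (by linarith only [hs]) (by positivity)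
  split_ifs
  · linarith
  · linarith only []

/-- the three variable inequality with slack in the tail -/
theorem key_slack (x1 x2 x3 : ℝ) (h1 : 0 < x1) (h2 : 0 < x2) (h3 : 0 < x3) :
    -(hh x1) * (1 + 1 / x1) - (hh x2) * (1 + 1 / x2) - (hh x3) * (1 + 1 / x3) -
    (gg x1 * (x2 + x3 - 2) + gg x2 * (x1 + x3 - 2) + gg x3 * (x1 + x2 - 2)) ≤
      -(hv x1 + hv x2 + hv x3) / 800 := by
  have hη : |(0:ℝ)| ≤ 1e-10 := by norm_num
  have e0 : ∀ x, 0 < x → (-(hh x) * (1 + 1 / x) + 2 * gg x) =
      (-(PP x) - (x - 3) * g0 x) + (-(tt x)^2 / 200 * (1 + 1 / x) + 2 * (tt x / 100)) := by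
    intro x hx
    rw [hh_eq, gg_eq, PP]
    field_simp
    ring
  have k1 := e0 x1 h1
  have k2 := e0 x2 h2
  have k3 := e0 x3 h3
  have f : ∀ x s : ℝ, 0 < x → (-(tt x)^2 / 200 * (1 + 1 / x) + 2 * (tt x / 100)) - tt x / 100 * s ≤
      (if 3 ≤ x then (1:ℝ) else 0) * (-(tt x)^2/200 + tt x / 100 * (2 - s)) := by
    intro x s hx
    have := e1aux x s 0 (by norm_num) hx
    simpa only [one_div, ite_mul, one_mul, zero_mul, tsub_le_iff_right, ge_iff_le, add_zero, mul_one] using this
  have f1 := f x1 (x2 + x3) h1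
  have f2 := f x2 (x1 + x3) h2
  have f3 := f x3 (x1 + x2) h3
  have hF : FF0 x1 x2 x3 0 = (-(PP x1) - (x1 - 3) * g0 x1) +
      (-(PP x2) - (x2 - 3) * g0 x2) + (-(PP x3) - (x3 - 3) * g0 x3) -
      (g0 x1 * (x2 + x3) + g0 x2 * (x1 + x3) + g0 x3 * (x1 + x2)) := by
    unfold FF0; ring
  have tot : ((if 3 ≤ x1 then (1:ℝ) else 0) * (-(tt x1)^2/200 +
        tt x1 / 100 * (2 - (x2 + x3))) + hv x1 / 800) +
      ((if 3 ≤ x2 then (1:ℝ) else 0) * (-(tt x2)^2/200 +
        tt x2 / 100 * (2 - (x1 + x3))) + hv x2 / 800) +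
      ((if 3 ≤ x3 then (1:ℝ) else 0) * (-(tt x3)^2/200 +
        tt x3 / 100 * (2 - (x1 + x2))) + hv x3 / 800) + FF0 x1 x2 x3 0 ≤ 0 := by
    by_cases hbig : 3 ≤ x1 ∨ 3 ≤ x2 ∨ 3 ≤ x3
    · have hS : 3 ≤ x1 + x2 + x3 := by rcases hbig with h | h | h <;> linarith only [h2, h3, h, h1]
      obtain ⟨U, w, hUw, hw0, hw2, s1, s2, s3, hF1, hF2⟩ := FF0_pos_aux x1 x2 x3 0 h1 h2 h3 hη hS
      have hU2 : 2 ≤ U := by rcases hbig with h | h | h <;> linarith only [s1, h, s2, s3]
      have hJ := Jfar (U - w) w (by linarith only [hS, hUw]) hw0 hw2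
      have hJ2 : (4/100 : ℝ) ≤ (1/4) * ((U-w)^2 + w^3) / (1+(U-w)+w)^2 := by
        have e : 1 + (U - w) + w = 1 + U := by ring
        have hU1 : 0 < 1 + U := by linarith only [hU2]
        rw [e, le_div_iff₀ (by positivity)]
        have := tailJ U w hU2 hw0 hw2
        linarith only [this]
      have hF3 : FF0 x1 x2 x3 0 ≤ -3/100 := by
        have : |(0:ℝ)| * 42 ≤ 1e-10 * 42 := mul_le_mul_of_nonneg_right hη (by norm_num)
        linarith only [hF1, hJ, hJ2]
      have b1 := slack_aux1 x1 (x2 + x3) (by linarith only [h2, h3])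
      have b2 := slack_aux1 x2 (x1 + x3) (by linarith only [h1, h3])
      have b3 := slack_aux1 x3 (x1 + x2) (by linarith only [h1, h2])
      by_cases c1 : 3 ≤ x1
      · have b2' := slack_aux2 x2 (x1 + x3) (by linarith only [h1, h3, c1])
        have b3' := slack_aux2 x3 (x1 + x2) (by linarith only [h1, h2, c1])
        linarith only [hF1, hJ, hJ2, b1, b2', b3']
      · by_cases c2 : 3 ≤ x2
        · have b1' := slack_aux2 x1 (x2 + x3) (by linarith only [h3, c2])
          have b3' := slack_aux2 x3 (x1 + x2) (by linarith only [h1, c2])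
          linarith only [hF1, hJ, hJ2, b2, b1', b3']
        · have c3 : 3 ≤ x3 := by
            rcases hbig with h | h | h
            · exact absurd h c1
            · exact absurd h c2
            · exact h
          have b1' := slack_aux2 x1 (x2 + x3) (by linarith only [h2, c3])
          have b2' := slack_aux2 x2 (x1 + x3) (by linarith only [h1, c3])
          linarith only [hF1, hJ, hJ2, b3, b1', b2']
    · push Not at hbig
      have g : ∀ x : ℝ, x < 3 → hv x = 0 := by
        intro x hx; unfold hv; rw [if_neg (by linarith only [hx])]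
      rw [if_neg (by linarith only [hbig.1]), if_neg (by linarith only [hbig.2.1]),
        if_neg (by linarith only [hbig.2.2]), g x1 hbig.1, g x2 hbig.2.1, g x3 hbig.2.2]
      have : FF0 x1 x2 x3 0 ≤ 0 := by
        rcases le_total (x1 + x2 + x3) 3 with hS | hS
        · exact FF0_neg x1 x2 x3 0 h1 h2 h3 hη hS
        · obtain ⟨U, w, -, -, -, -, -, -, -, hF2⟩ := FF0_pos_aux x1 x2 x3 0 h1 h2 h3 hη hS
          exact hF2
      linarith only [this]
  rw [hF] at tot
  have ex : -(hh x1) * (1 + 1 / x1) - (hh x2) * (1 + 1 / x2) - (hh x3) * (1 + 1 / x3) -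
    (gg x1 * (x2 + x3 - 2) + gg x2 * (x1 + x3 - 2) + gg x3 * (x1 + x2 - 2)) =
    (-(hh x1) * (1 + 1 / x1) + 2 * gg x1) + (-(hh x2) * (1 + 1 / x2) + 2 * gg x2) +
    (-(hh x3) * (1 + 1 / x3) + 2 * gg x3) -
    (gg x1 * (x2 + x3) + gg x2 * (x1 + x3) + gg x3 * (x1 + x2)) := by ring
  rw [ex, k1, k2, k3, gg_eq x1, gg_eq x2, gg_eq x3]
  linarith only [f1, f2, f3, tot]

/-- behaviour of `gg` near `1` -/
lemma gg_near (x : ℝ) (hx : |x - 1| ≤ 1/100) : |gg x - 2 * (x - 1)| ≤ 4 * (x - 1)^2 := by
  have h := abs_le.mp hx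
  unfold gg
  split_ifs with h1
  · have : 2 * x * (x - 1) - 2 * (x - 1) = 2 * (x - 1)^2 := by ring
    rw [this, abs_of_nonneg (by positivity)]
    linarith only [sq_nonneg (x - 1)]
  · push Not at h1
    rw [max_eq_right (by linarith only [h])]
    have hx0 : 0 < x := by linarith only [h1]
    have e : 1 - 1 / x ^ 2 + 0 / 100 - 2 * (x - 1) = -((x - 1)^2 * (2 * x + 1) / x^2) := by
      field_simp; ring
    rw [e, abs_neg, abs_of_nonneg (by positivity), div_le_iff₀ (by positivity)]
    have : 2 * x + 1 ≤ 4 * x^2 := by nlinarith only [h1]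
    linarith only [mul_le_mul_of_nonneg_left this (sq_nonneg (x - 1))]

/-- global linear bound for `gg` -/
lemma gg_lin (x : ℝ) (hx : 0 ≤ x) : |gg x| ≤ 3 * |x - 1| := by
  unfold gg
  split_ifs with h1
  · have e : |2 * x * (x - 1)| = 2 * x * |x - 1| := by
      rw [abs_mul, abs_of_nonneg (by positivity)]
    rw [e]
    exact mul_le_mul_of_nonneg_right (by linarith) (abs_nonneg _)
  · push Not at h1
    have hx0 : 0 < x := by linarith
    have hz : 0 < x - 1 := by linarith
    rw [abs_of_pos hz]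
    have h2 : 1 - 1 / x^2 ≤ 2 * (x - 1) := by
      have e : 2 * (x - 1) - (1 - 1 / x^2) = (x - 1) * (2 * x^2 - x - 1) / x^2 := by
        field_simp; ring
      have : 0 ≤ (x - 1) * (2 * x^2 - x - 1) / x^2 := by
        have : 0 ≤ 2 * x^2 - x - 1 := by nlinarith only [h1]
        positivity
      linarith
    have h3 : 0 ≤ 1 - 1 / x^2 := by
      have : 1 / x^2 ≤ 1 := by
        rw [div_le_one (by positivity)]; nlinarith only [h1, hx]
      linarith only [this]
    have h4 : max (x - 3) 0 ≤ x - 1 := max_le (by linarith only []) hz.le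
    have h5 : 0 ≤ max (x - 3) 0 := le_max_right _ _
    rw [abs_of_nonneg (by positivity)]
    linarith only [h1, h2, h4]

/-- lower bound for `hh` near `1` -/
lemma hh_near (x : ℝ) (hx0 : 0 ≤ x) : (x - 1)^2 * (1 - |x - 1|) ≤ hh x := by
  unfold hh
  split_ifs with h1
  · have e : |x - 1| = 1 - x := by rw [abs_of_nonpos (by linarith)]; ring
    rw [e]
    linarith only [mul_nonneg (sq_nonneg (x - 1)) (by linarith : 0 ≤ 1 - x)]
  · push Not at h1
    have hx : 0 < x := by linarith
    have hz : 0 < x - 1 := by linarith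
    rw [abs_of_pos hz]
    have h5 : 0 ≤ (max (x - 3) 0)^2 / 200 := by positivity
    have h6 : (x - 1)^2 * (1 - (x - 1)) ≤ (x - 1)^2 / x := by
      rw [le_div_iff₀ hx]
      have : (1 - (x - 1)) * x ≤ 1 := by linarith only [sq_nonneg (x - 1)]
      linarith only [mul_le_mul_of_nonneg_left this (sq_nonneg (x - 1))]
    linarith

lemma hh_far (x : ℝ) (hx : 0 < x) (h : 1e-4 ≤ |x - 1|) : 1e-12 * (1 + x + 1 / x) ≤ hh x / x := by
  have h1 := hh_lower x hx.le
  rw [le_div_iff₀ hx]
  have e : 1e-12 * (1 + x + 1 / x) * x = 1e-12 * (x + x^2 + 1) := by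
    field_simp
  rw [e]
  refine le_trans ?_ h1
  have h2 : (1e-4:ℝ)^2 ≤ (x - 1)^2 := by
    rw [← sq_abs (x - 1)]
    exact pow_le_pow_left₀ (by norm_num) h 2
  rcases le_total x 1 with hx1 | hx1
  · linarith only [h2, hx1]
  · have h3 : 1e-4 ≤ x - 1 := by
      rwa [abs_of_nonneg (by linarith only [hx1])] at h
    nlinarith only [h2]

end Vale.Agent.P046.C
end
end

section

section

set_option autoImplicit false

namespace Vale.Agent.P046.C

/-- Bernoulli for the shift by three -/
lemma rpow_shift (p e s : ℝ) (hp : 0 ≤ p) (hp1 : p ≤ 1) (he : 3 < e) (hs : 0 < s) :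
    ((e - 3) / s) ^ p ≤ (e / s) ^ p * (1 - p * (3 / e)) := by
  have he0 : 0 < e := by linarith
  have h1 : (e - 3) / s = (e / s) * (1 + (-(3 / e))) := by field_simp; ring
  have h3 : 3 / e < 1 := by rw [div_lt_one he0]; exact he
  have h2 := rpow_one_add_le_one_add_mul_self (s := -(3 / e)) (by linarith only [h3]) hp hp1
  rw [h1, Real.mul_rpow (by positivity) (by linarith only [h3])]
  have h4 : 0 ≤ (e / s) ^ p := by positivity
  calc (e / s) ^ p * (1 + -(3 / e)) ^ p ≤ (e / s) ^ p * (1 + p * -(3 / e)) :=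
        mul_le_mul_of_nonneg_left h2 h4
    _ = _ := by ring

/-- coefficient of the main functional -/
noncomputable def a1L (A Es e : ℝ) : ℝ := A * e * (e / Es) ^ (1 / 150 : ℝ)

/-- constant term -/
noncomputable def a3L (D M0 N Es e : ℝ) : ℝ := M0 - D * N ^ 2 / (Es * e)

lemma a1L_nonneg (A Es e : ℝ) (hA : 0 ≤ A) (hEs : 0 < Es) (he : 0 ≤ e) : 0 ≤ a1L A Es e := by
  unfold a1L; positivity

lemma a1L_shift (A Es e : ℝ) (hA : 0 ≤ A) (hEs : 0 < Es) (he : 3 < e) :
    a1L A Es (e - 3) ≤ a1L A Es e * ((1 - 3 / e) * (1 - (1 / 150) * (3 / e))) := by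
  have he0 : 0 < e := by linarith
  have h := rpow_shift (1 / 150) e Es (by norm_num) (by norm_num) he hEs
  unfold a1L
  have h1 : A * (e - 3) = A * e * (1 - 3 / e) := by field_simp
  have h3 : 3 / e < 1 := by rw [div_lt_one he0]; exact he
  calc A * (e - 3) * ((e - 3) / Es) ^ (1 / 150 : ℝ)
      ≤ A * (e - 3) * ((e / Es) ^ (1 / 150 : ℝ) * (1 - (1 / 150) * (3 / e))) := by
        apply mul_le_mul_of_nonneg_left h
        have : 0 ≤ e - 3 := by linarith only [he]
        positivity
    _ = _ := by rw [h1]; ring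

/-- coefficient of `F`, late phase -/
lemma late_F (T c e κL B : ℝ) (he : 100000 ≤ e) (hc : 0 < c)
    (hT1 : (1 - 1 / 10000) * c * e / 3 ≤ T) (hT2 : T ≤ (1 + 1 / 10000) * c * e / 3)
    (hκ : 65536 * B * κL ≤ (1 / 1000) * c) :
    (1 - 3 / e) * (1 - (1 / 150) * (3 / e)) * (T + (1 + 1 / 200) * c) + 65536 * B * κL ≤ T := by
  have he0 : 0 < e := by linarith only [he]
  obtain ⟨x, hx⟩ : ∃ x, x = 3 / e := ⟨_, rfl⟩
  rw [← hx]
  have hx0 : 0 < x := by rw [hx]; positivity
  have hx1 : x ≤ 3 / 100000 := by rw [hx]; gcongr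
  have hTx1 : (1 - 1 / 10000) * c ≤ T * x := by
    rw [hx]
    have : (1 - 1 / 10000) * c = ((1 - 1 / 10000) * c * e / 3) * (3 / e) := by field_simp
    rw [this]
    exact mul_le_mul_of_nonneg_right hT1 (by positivity)
  have hTx2 : T * x ≤ (1 + 1 / 10000) * c := by
    rw [hx]
    have : (1 + 1 / 10000) * c = ((1 + 1 / 10000) * c * e / 3) * (3 / e) := by field_simp
    rw [this]
    exact mul_le_mul_of_nonneg_right hT2 (by positivity)
  have e1 : (1 - x) * (1 - (1 / 150) * x) = 1 - (1 + 1 / 150) * x + (1 / 150) * x ^ 2 := by ring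
  rw [e1]
  have h2 : T * x ^ 2 ≤ (1 + 1 / 10000) * c * x := by
    calc T * x ^ 2 = (T * x) * x := by ring
      _ ≤ _ := mul_le_mul_of_nonneg_right hTx2 hx0.le
  have h3 : c * x ≤ c * (3 / 100000) := mul_le_mul_of_nonneg_left hx1 hc.le
  have h4 : c * x ^ 2 ≤ c * x := by nlinarith only [h2, hT1, he, mul_pos hc hx0]
  have h5 : 0 ≤ c * x := by positivity
  linarith only [hc, hκ, hTx1, h2, h4, h5]

/-- coefficient of `W`, late phase -/
lemma late_W (T c e C B m : ℝ) (he : 100000 ≤ e) (hc : 10000 ≤ c)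
    (hT1 : (1 - 1 / 10000) * c * e / 3 ≤ T) (hT2 : T ≤ (1 + 1 / 10000) * c * e / 3)
    (hB : 0 < B) (hCB : 2 * C ≤ B) (hm0 : 1 ≤ m) (hm : m ≤ 1 + (71 / 10) * (3 / e)) :
    C * c / B + m * (T + 64 - 8 * (1 - 1 / 100) * c) ≤ T := by
  have he0 : 0 < e := by linarith only [he]
  have hc0 : 0 < c := by linarith only [hc]
  have h1 : C * c / B ≤ c / 2 := by
    rw [div_le_iff₀ hB]; nlinarith only [hCB, hc]
  have hTx2 : T * (3 / e) ≤ (1 + 1 / 10000) * c := by
    have : (1 + 1 / 10000) * c = ((1 + 1 / 10000) * c * e / 3) * (3 / e) := by field_simp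
    rw [this]
    exact mul_le_mul_of_nonneg_right hT2 (by positivity)
  have hx1 : 3 / e ≤ 3 / 100000 := by gcongr
  have hx0 : 0 < 3 / e := by positivity
  have hT0 : 0 ≤ T := by
    refine le_trans ?_ hT1
    have : (0:ℝ) ≤ 1 - 1 / 10000 := by norm_num
    positivity
  have h2 : m * T ≤ T + (71 / 10) * ((1 + 1 / 10000) * c) := by
    calc m * T ≤ (1 + (71 / 10) * (3 / e)) * T := mul_le_mul_of_nonneg_right hm hT0
      _ = T + (71 / 10) * (T * (3 / e)) := by ring
      _ ≤ _ := by linarith only [hTx2]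
  have h3 : m ≤ 2 := by linarith only [hm, hx1]
  have h4 : 8 * (1 - 1 / 100) * c ≤ m * (8 * (1 - 1 / 100) * c) := by
    have : 0 ≤ 8 * (1 - 1 / 100) * c := by positivity
    nlinarith only [hm0, hc]
  linarith only [hc, hm, h1, hx1, h2, h4]

/-- the factor from the scale change in the wheel coefficient -/
lemma wheel_factor (e : ℝ) (he : 100000 ≤ e) :
    (1 - 3 / e) * (e / (e - 3)) ^ 8 ≤ 1 + (71 / 10) * (3 / e) ∧ 1 ≤ (1 - 3 / e) * (e / (e - 3)) ^ 8 := by
  have he0 : 0 < e := by linarith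
  obtain ⟨x, hx⟩ : ∃ x, x = 3 / e := ⟨_, rfl⟩
  have hx0 : 0 < x := by rw [hx]; positivity
  have hx1 : x ≤ 3 / 100000 := by rw [hx]; gcongr
  have h1 : e / (e - 3) = 1 / (1 - x) := by
    rw [hx]; field_simp
  rw [← hx, h1]
  have h1x : 0 < 1 - x := by linarith only [hx0, hx1]
  have h2 : (1 - x) * (1 / (1 - x)) ^ 8 = 1 / (1 - x) ^ 7 := by
    field_simp
  rw [h2]
  constructor
  · rw [div_le_iff₀ (by positivity)]
    have h3 : 1 - 7 * x ≤ (1 - x) ^ 7 := by
      have := one_add_mul_le_pow (a := -x) (by linarith only [hx0, hx1]) 7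
      push_cast at this
      have e2 : (1 + -x) = 1 - x := by ring
      rw [e2] at this
      linarith only [this]
    have h4 : 0 ≤ 1 + (71 / 10) * x := by positivity
    nlinarith only [hx0, hx1, mul_le_mul_of_nonneg_left h3 h4]
  · rw [le_div_iff₀ (by positivity), one_mul]
    exact pow_le_one₀ h1x.le (by linarith only [hx0])

/-- constant term, late phase -/
lemma late_const (A C D N Es e c T M0 : ℝ) (hA : 0 ≤ A) (hC : 0 ≤ C) (hN : 0 < N) (hEs : 0 < Es)
    (he : 100000 ≤ e) (hEe : Es ≤ e) (hcd : c = 4 * e ^ 2 / N)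
    (hT1 : (1 - 1 / 10000) * c * e / 3 ≤ T) (hD : A * C ≤ D) :
    a1L A Es e * (C * (e / c)) + T * a3L D M0 N Es (e - 3) ≤ T * a3L D M0 N Es e := by
  have he0 : 0 < e := by linarith only [he]
  have he3 : 0 < e - 3 := by linarith only [he]
  have hc0 : 0 < c := by rw [hcd]; positivity
  have hD0 : 0 ≤ D := le_trans (by positivity) hD
  -- power bounded by the ratio
  have hr : 1 ≤ e / Es := by rw [le_div_iff₀ hEs]; linarith only [hEe]
  have hpow : (e / Es) ^ (1 / 150 : ℝ) ≤ e / Es := by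
    calc (e / Es) ^ (1 / 150 : ℝ) ≤ (e / Es) ^ (1 : ℝ) :=
          Real.rpow_le_rpow_of_exponent_le hr (by norm_num)
      _ = e / Es := Real.rpow_one _
  have ha : a1L A Es e ≤ A * e * (e / Es) := by
    unfold a1L
    exact mul_le_mul_of_nonneg_left hpow (by positivity)
  have hlhs : a1L A Es e * (C * (e / c)) ≤ A * e * (e / Es) * (C * (e / c)) :=
    mul_le_mul_of_nonneg_right ha (by positivity)
  have hdiff : a3L D M0 N Es e - a3L D M0 N Es (e - 3) =
      D * N ^ 2 / Es * (3 / (e * (e - 3))) := by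
    unfold a3L
    field_simp
    ring
  have hdiff2 : D * N ^ 2 / Es * (3 / e ^ 2) ≤ a3L D M0 N Es e - a3L D M0 N Es (e - 3) := by
    rw [hdiff]
    apply mul_le_mul_of_nonneg_left _ (by positivity)
    apply div_le_div_of_nonneg_left (by norm_num) (by positivity)
    linarith only [he]
  have hT0 : (99 / 100) * c * e / 3 ≤ T := by
    refine le_trans ?_ hT1
    have : 0 ≤ c * e := by positivity
    linarith only [this]
  have hTn : 0 ≤ T := le_trans (by positivity) hT0
  have h1 : (99 / 100) * c * e / 3 * (D * N ^ 2 / Es * (3 / e ^ 2)) ≤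
      T * (a3L D M0 N Es e - a3L D M0 N Es (e - 3)) :=
    mul_le_mul hT0 hdiff2 (by positivity) hTn
  have h2 : A * e * (e / Es) * (C * (e / c)) ≤
      (99 / 100) * c * e / 3 * (D * N ^ 2 / Es * (3 / e ^ 2)) := by
    have e1 : A * e * (e / Es) * (C * (e / c)) = (A * C) * (e ^ 3 / (Es * c)) := by
      field_simp
    have e2 : (99 / 100) * c * e / 3 * (D * N ^ 2 / Es * (3 / e ^ 2)) =
        D * ((99 / 100) * c * N ^ 2 / (Es * e)) := by
      field_simp
    rw [e1, e2]
    apply mul_le_mul hD _ (by positivity) hD0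
    rw [div_le_div_iff₀ (by positivity) (by positivity)]
    have e3 : (99 / 100) * c * N ^ 2 * (Es * c) = (99 / 100 * 16) * (e ^ 4 * Es) := by
      rw [hcd]; field_simp; ring
    rw [e3]
    have : 0 ≤ e ^ 4 * Es := by positivity
    linarith only [this]
  linarith only [hlhs, h1, h2]

lemma part_F (a a' y T g c e C F W SF : ℝ) (ha'0 : 0 < a') (hc0 : 0 < c) (he0 : 0 < e)
    (hC : 0 ≤ C) (hF : 0 ≤ F) (hW : 0 ≤ W) (hT0 : 0 ≤ T) (hg : 0 ≤ g)
    (hsh : a' ≤ a * y) (ha'a : a' ≤ a)
    (hSF : SF ≤ (T + g * c) * F + C * (e / c + W / c ^ 3)) :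
    a' * SF ≤ a * (y * (T + g * c)) * F + a * (C * (e / c)) + a * C * (W / c ^ 3) := by
  have q1 : a' * SF ≤ a' * ((T + g * c) * F) + a' * (C * (e / c + W / c ^ 3)) := by
    have := mul_le_mul_of_nonneg_left hSF ha'0.le
    linarith
  have q2 : a' * ((T + g * c) * F) ≤ (a * y) * ((T + g * c) * F) :=
    mul_le_mul_of_nonneg_right hsh (by positivity)
  have q3 : a' * (C * (e / c + W / c ^ 3)) ≤ a * (C * (e / c + W / c ^ 3)) :=
    mul_le_mul_of_nonneg_right ha'a (by positivity)
  linarith only [q1, q2, q3]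

lemma part_W (a a' f m B c X κL F W L SW : ℝ) (ha : 0 < a) (ha' : 0 < a') (hf : 0 < f)
    (hB : 0 < B) (hc0 : 0 < c) (hX : 0 ≤ X) (hκL : 0 ≤ κL) (hF : 0 ≤ F) (hW : 0 ≤ W)
    (haf : a' * f ≤ a * m) (hm : m ≤ 2) (hL : L ≤ κL * F)
    (hSW : SW ≤ X * W + 32768 * c ^ 4 * L) :
    B * (a' * f) / c ^ 4 * SW ≤ B * a / c ^ 4 * (m * X) * W + a * (65536 * B * κL) * F := by
  have haf2 : a' * f ≤ 2 * a := by nlinarith only [haf, ha, hm]
  have q1 : B * (a' * f) / c ^ 4 * SW ≤ B * (a' * f) / c ^ 4 *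
      (X * W + 32768 * c ^ 4 * (κL * F)) := by
    apply mul_le_mul_of_nonneg_left _ (by positivity)
    refine hSW.trans ?_
    have : 32768 * c ^ 4 * L ≤ 32768 * c ^ 4 * (κL * F) :=
      mul_le_mul_of_nonneg_left hL (by positivity)
    linarith only [this]
  have q2 : B * (a' * f) / c ^ 4 * (X * W) ≤ B * (a * m) / c ^ 4 * (X * W) := by
    apply mul_le_mul_of_nonneg_right _ (by positivity)
    exact div_le_div_of_nonneg_right (mul_le_mul_of_nonneg_left haf hB.le) (by positivity)
  have q3 : B * (a' * f) / c ^ 4 * (32768 * c ^ 4 * (κL * F)) ≤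
      B * (2 * a) / c ^ 4 * (32768 * c ^ 4 * (κL * F)) := by
    apply mul_le_mul_of_nonneg_right _ (by positivity)
    exact div_le_div_of_nonneg_right (mul_le_mul_of_nonneg_left haf2 hB.le) (by positivity)
  have q4 : B * (2 * a) / c ^ 4 * (32768 * c ^ 4 * (κL * F)) = a * (65536 * B * κL) * F := by
    field_simp
    ring
  have q5 : B * (a * m) / c ^ 4 * (X * W) = B * a / c ^ 4 * (m * X) * W := by ring
  linarith

lemma part_sum (a B C c e T y Xg Kκ m X F W : ℝ) (ha : 0 < a) (hB : 0 < B) (hc0 : 0 < c)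
    (hF : 0 ≤ F) (hW : 0 ≤ W)
    (hFc : y * Xg + Kκ ≤ T) (hWc : C * c / B + m * X ≤ T) :
    a * (y * Xg) * F + a * C * (W / c ^ 3) + (B * a / c ^ 4 * (m * X) * W + a * Kκ * F) ≤
      T * (a * F + B * a / c ^ 4 * W) := by
  have r1 : a * (y * Xg) * F + a * Kκ * F ≤ T * (a * F) := by
    have : a * F * (y * Xg + Kκ) ≤ a * F * T :=
      mul_le_mul_of_nonneg_left hFc (by positivity)
    linarith only [this]
  have r2 : a * C * (W / c ^ 3) + B * a / c ^ 4 * (m * X) * W ≤ T * (B * a / c ^ 4 * W) := by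
    have h1 : B * a / c ^ 4 * W * (C * c / B + m * X) ≤
        B * a / c ^ 4 * W * T := mul_le_mul_of_nonneg_left hWc (by positivity)
    have e2 : B * a / c ^ 4 * W * (C * c / B) = a * C * (W / c ^ 3) := by
      field_simp
    linarith only [h1, e2]
  linarith

/-- one step of the late phase, real-number version -/
lemma late_step (A B C D N Es e c T M0 κL F W L SF SW : ℝ)
    (hA : 0 < A) (hB : 0 < B) (hC : 0 ≤ C) (hN : 0 < N) (hEs : 0 < Es)
    (he : 100000 ≤ e) (hEe : Es ≤ e) (hcd : c = 4 * e ^ 2 / N) (hc : 10000 ≤ c)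
    (hT1 : (1 - 1 / 10000) * c * e / 3 ≤ T) (hT2 : T ≤ (1 + 1 / 10000) * c * e / 3)
    (hD : A * C ≤ D) (hCB : 2 * C ≤ B) (hκ : 65536 * B * κL ≤ (1 / 1000) * c)
    (hF : 0 ≤ F) (hW : 0 ≤ W) (hL : L ≤ κL * F) (hκL : 0 ≤ κL)
    (hSF : SF ≤ (T + (1 + 1 / 200) * c) * F + C * (e / c + W / c ^ 3))
    (hSW : SW ≤ (T + 64 - 8 * (1 - 1 / 100) * c) * W + 32768 * c ^ 4 * L) :
    a1L A Es (e - 3) * SF + B * a1L A Es (e - 3) / (4 * (e - 3) ^ 2 / N) ^ 4 * SW +
        T * a3L D M0 N Es (e - 3) ≤
      T * (a1L A Es e * F + B * a1L A Es e / c ^ 4 * W + a3L D M0 N Es e) := by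
  have he0 : 0 < e := by linarith only [he]
  have he3 : 0 < e - 3 := by linarith only [he]
  have hc0 : 0 < c := by linarith only [hc]
  obtain ⟨a, ha⟩ : ∃ a, a = a1L A Es e := ⟨_, rfl⟩
  obtain ⟨a', ha'⟩ : ∃ a', a' = a1L A Es (e - 3) := ⟨_, rfl⟩
  have ha0 : 0 < a := by rw [ha]; unfold a1L; positivity
  have ha'0 : 0 < a' := by rw [ha']; unfold a1L; positivity
  have hsh := a1L_shift A Es e hA.le hEs (by linarith only [he])
  have hcst := late_const A C D N Es e c T M0 hA.le hC hN hEs he hEe hcd hT1 hD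
  rw [← ha, ← ha'] at hsh
  rw [← ha] at hcst
  rw [← ha, ← ha']
  obtain ⟨y, hy⟩ : ∃ y, y = (1 - 3 / e) * (1 - (1 / 150) * (3 / e)) := ⟨_, rfl⟩
  rw [← hy] at hsh
  have hx1 : 3 / e ≤ 3 / 100000 := div_le_div_of_nonneg_left (by norm_num) (by norm_num) he
  have hx0 : 0 < 3 / e := by positivity
  have hy1 : y ≤ 1 - 3 / e := by rw [hy]; nlinarith only [hx0, hx1]
  have ha'a : a' ≤ a := by
    have : a * y ≤ a * 1 := mul_le_mul_of_nonneg_left (by linarith only [hx0, hy1]) ha0.le
    linarith only [hsh, this]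
  have hcr : (4 * (e - 3) ^ 2 / N) ^ 4 = c ^ 4 / (e / (e - 3)) ^ 8 := by
    rw [hcd]; field_simp
  obtain ⟨f, hf⟩ : ∃ f, f = (e / (e - 3)) ^ 8 := ⟨_, rfl⟩
  obtain ⟨hw1, hw2⟩ := wheel_factor e he
  rw [← hf] at hw1 hw2 hcr
  have hf0 : 0 < f := by rw [hf]; positivity
  rw [hcr]
  have e1 : B * a' / (c ^ 4 / f) = B * (a' * f) / c ^ 4 := by field_simp
  rw [e1]
  obtain ⟨m, hm⟩ : ∃ m, m = (1 - 3 / e) * f := ⟨_, rfl⟩
  rw [← hm] at hw1 hw2
  have hyf : a' * f ≤ a * m := by
    calc a' * f ≤ (a * y) * f := mul_le_mul_of_nonneg_right hsh hf0.le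
      _ ≤ (a * (1 - 3 / e)) * f :=
        mul_le_mul_of_nonneg_right (mul_le_mul_of_nonneg_left hy1 ha0.le) hf0.le
      _ = _ := by rw [hm]; ring
  have hFc := late_F T c e κL B he hc0 hT1 hT2 hκ
  rw [← hy] at hFc
  have hWc := late_W T c e C B m he hc hT1 hT2 hB hCB hw2 hw1
  have hT100 : 100 * c ≤ T := by
    refine le_trans ?_ hT1
    have : 0 ≤ c * (e - 100000) := mul_nonneg hc0.le (by linarith only [he])
    linarith only [hc, this]
  have hT0 : 0 ≤ T := by linarith only [hc, hT100]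
  have hXpos : 0 ≤ (T + 64 - 8 * (1 - 1 / 100) * c) := by linarith only [hc, hT100]
  have p1 := part_F a a' y T (1 + 1 / 200) c e C F W SF ha'0 hc0 he0 hC hF hW hT0 (by norm_num)
    hsh ha'a hSF
  have p2 := part_W a a' f m B c (T + 64 - 8 * (1 - 1 / 100) * c) κL F W L SW ha0 ha'0 hf0 hB hc0
    hXpos hκL hF hW hyf (by linarith only [hx1, hw1]) hL hSW
  have p3 := part_sum a B C c e T y (T + (1 + 1 / 200) * c) (65536 * B * κL) m
    (T + 64 - 8 * (1 - 1 / 100) * c) F W ha0 hB hc0 hF hW hFc hWc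
  linarith only [hcst, p1, p2, p3]

end Vale.Agent.P046.C
end
end

section

section

set_option autoImplicit false

open scoped Classical
open Finset

namespace Vale.Agent.P046

/-- Expectation of a real function under a PMF on a finite type. -/
noncomputable def expect {α : Type*} [Fintype α] (μ : PMF α) (f : α → ℝ) : ℝ :=
  ∑ a, (μ a).toReal * f a

section expect
variable {α β : Type*} [Fintype α] [Fintype β]

lemma expect_pure (a : α) (f : α → ℝ) : expect (PMF.pure a) f = f a := by
  unfold expect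
  rw [Finset.sum_eq_single a]
  · simp
  · intro b _ hb
    simp [PMF.pure_apply, hb]
  · simp only [mem_univ, not_true_eq_false, PMF.pure_apply, ↓reduceIte, ENNReal.toReal_one, one_mul, IsEmpty.forall_iff]

lemma expect_bind (μ : PMF α) (k : α → PMF β) (f : β → ℝ) :
    expect (μ.bind k) f = expect μ (fun a => expect (k a) f) := by
  unfold expect
  have h1 : ∀ b : β, ((μ.bind k) b).toReal = ∑ a, (μ a).toReal * (k a b).toReal := by
    intro b
    rw [PMF.bind_apply, tsum_fintype, ENNReal.toReal_sum]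
    · simp only [ENNReal.toReal_mul]
    · intro a _
      exact ENNReal.mul_ne_top (PMF.apply_ne_top _ _) (PMF.apply_ne_top _ _)
  simp_rw [h1, Finset.sum_mul, Finset.mul_sum]
  rw [Finset.sum_comm]
  refine Finset.sum_congr rfl fun a _ => Finset.sum_congr rfl fun b _ => by ring

lemma expect_map (μ : PMF α) (g : α → β) (f : β → ℝ) :
    expect (μ.map g) f = expect μ (fun a => f (g a)) := by
  rw [← PMF.bind_pure_comp, expect_bind]
  congr 1
  funext a
  simp [Function.comp, expect_pure]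

lemma expect_uniformOfFinset (s : Finset α) (hs : s.Nonempty) (f : α → ℝ) :
    expect (PMF.uniformOfFinset s hs) f = (∑ a ∈ s, f a) / s.card := by
  unfold expect
  simp only [PMF.uniformOfFinset_apply]
  rw [Finset.sum_div, ← Finset.sum_subset (Finset.subset_univ s)]
  · refine Finset.sum_congr rfl fun a ha => ?_
    simp only [ha, ↓reduceIte, ENNReal.toReal_inv, ENNReal.toReal_natCast, div_eq_inv_mul]
  · intro a _ ha
    simp [ha]

lemma expect_mono (μ : PMF α) (f g : α → ℝ) (h : ∀ a, f a ≤ g a) :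
    expect μ f ≤ expect μ g :=
  Finset.sum_le_sum fun a _ => mul_le_mul_of_nonneg_left (h a) ENNReal.toReal_nonneg

lemma sum_toReal (μ : PMF α) : ∑ a, (μ a).toReal = 1 := by
  have h := μ.tsum_coe
  rw [tsum_fintype] at h
  rw [← ENNReal.toReal_sum (fun a _ => PMF.apply_ne_top _ _), h]
  simp

lemma expect_const (μ : PMF α) (c : ℝ) : expect μ (fun _ => c) = c := by
  unfold expect
  rw [← Finset.sum_mul, sum_toReal, one_mul]

end expect

variable {n : ℕ}

/-- expectation of `f` of the graph after `k` steps from `G` -/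
noncomputable def V (f : SimpleGraph (Fin n) → ℝ) (k : ℕ) (G : SimpleGraph (Fin n)) : ℝ :=
  expect (run k G) f

lemma V_zero (f : SimpleGraph (Fin n) → ℝ) (G : SimpleGraph (Fin n)) : V f 0 G = f G :=
  expect_pure _ _

lemma V_succ (f : SimpleGraph (Fin n) → ℝ) (k : ℕ) (G : SimpleGraph (Fin n)) :
    V f (k + 1) G = expect (step G) (V f k) := by
  unfold V
  rw [run, expect_bind]

lemma V_succ_of_nonempty (f : SimpleGraph (Fin n) → ℝ) (k : ℕ) (G : SimpleGraph (Fin n))
    (h : (triangles G).Nonempty) :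
    V f (k + 1) G = (∑ t ∈ triangles G, V f k (removeTriangle G t)) / (triangles G).card := by
  rw [V_succ, step, dif_pos h, expect_map, expect_uniformOfFinset]

lemma V_succ_of_empty (f : SimpleGraph (Fin n) → ℝ) (k : ℕ) (G : SimpleGraph (Fin n))
    (h : ¬ (triangles G).Nonempty) :
    V f (k + 1) G = V f k G := by
  rw [V_succ, step, dif_neg h, expect_pure]

lemma V_of_empty (f : SimpleGraph (Fin n) → ℝ) (k : ℕ) (G : SimpleGraph (Fin n))
    (h : ¬ (triangles G).Nonempty) :
    V f k G = f G := by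
  induction k with
  | zero => exact V_zero f G
  | succ k ih => rw [V_succ_of_empty f k G h, ih]

lemma numEdges_eq_ncard (G : SimpleGraph (Fin n)) : numEdges G = G.edgeSet.ncard := by
  rw [numEdges, ← Set.ncard_coe_finset, SimpleGraph.coe_edgeFinset]

/-- removing a triangle deletes exactly three edges -/
lemma numEdges_removeTriangle (G : SimpleGraph (Fin n)) (t : Finset (Fin n))
    (ht : t ∈ triangles G) : numEdges (removeTriangle G t) + 3 = numEdges G := by
  unfold triangles at ht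
  rw [SimpleGraph.mem_cliqueFinset_iff, SimpleGraph.is3Clique_iff] at ht
  obtain ⟨a, b, c, hab, hac, hbc, rfl⟩ := ht
  unfold removeTriangle
  have h1 : (G.deleteEdges ((({a, b, c} : Finset (Fin n)).sym2 : Finset (Sym2 (Fin n))) :
      Set (Sym2 (Fin n)))).edgeFinset = G.edgeFinset \ ({s(a,b), s(a,c), s(b,c)} : Finset _) := by
    ext e
    induction e with
    | _ x y =>
      simp only [SimpleGraph.mem_edgeFinset, SimpleGraph.edgeSet_deleteEdges, Set.mem_sdiff,
        Finset.mem_coe, Finset.mem_sdiff, SimpleGraph.mem_edgeSet, Finset.mk_mem_sym2_iff,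
        Finset.mem_insert, Finset.mem_singleton, Sym2.eq_iff]
      constructor
      · rintro ⟨h, h2⟩
        refine ⟨h, fun h3 => h2 ?_⟩
        rcases h3 with (⟨rfl, rfl⟩ | ⟨rfl, rfl⟩) | (⟨rfl, rfl⟩ | ⟨rfl, rfl⟩) |
          (⟨rfl, rfl⟩ | ⟨rfl, rfl⟩) <;> simp
      · rintro ⟨h, h2⟩
        refine ⟨h, fun h3 => h2 ?_⟩
        have hne : x ≠ y := G.ne_of_adj h
        rcases h3 with ⟨rfl | rfl | rfl, rfl | rfl | rfl⟩ <;> simp_all
  have h2 : ({s(a,b), s(a,c), s(b,c)} : Finset (Sym2 (Fin n))) ⊆ G.edgeFinset := by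
    intro e he
    simp only [Finset.mem_insert, Finset.mem_singleton] at he
    rcases he with rfl | rfl | rfl <;> simp [hab, hac, hbc]
  have h3 : ({s(a,b), s(a,c), s(b,c)} : Finset (Sym2 (Fin n))).card = 3 := by
    have hab' := G.ne_of_adj hab
    have hac' := G.ne_of_adj hac
    have hbc' := G.ne_of_adj hbc
    rw [Finset.card_insert_of_notMem, Finset.card_insert_of_notMem, Finset.card_singleton]
    · simp only [Finset.mem_singleton, Sym2.eq_iff]
      rintro (⟨h, -⟩ | ⟨h, -⟩)
      · exact hab' h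
      · exact hac' h
    · simp only [Finset.mem_insert, Finset.mem_singleton, Sym2.eq_iff]
      rintro ((⟨-, h⟩ | ⟨h, -⟩) | (⟨h, -⟩ | ⟨h, -⟩))
      · exact hbc' h
      · exact hac' h
      · exact hab' h
      · exact hac' h
  have h4 := Finset.card_sdiff_add_card_eq_card h2
  rw [h3] at h4
  rw [numEdges_eq_ncard, numEdges_eq_ncard]
  have h5 := congrArg Finset.card h1
  rw [← Set.ncard_coe_finset, SimpleGraph.coe_edgeFinset] at h5
  rw [h5, h4, ← Set.ncard_coe_finset, SimpleGraph.coe_edgeFinset]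

end Vale.Agent.P046
end
end

section

section

set_option autoImplicit false

open scoped Classical
open Finset

namespace Vale.Agent.P046

variable {n : ℕ}

/-- codegree of a pair of vertices -/
noncomputable def codeg (G : SimpleGraph (Fin n)) (u v : Fin n) : ℕ :=
  (univ.filter fun w => G.Adj u w ∧ G.Adj v w).card

/-- sum over ordered adjacent pairs (each edge is counted twice) -/
noncomputable def edgeSum (G : SimpleGraph (Fin n)) (f : Fin n → Fin n → ℝ) : ℝ :=
  ∑ u, ∑ v, if G.Adj u v then f u v else 0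

/-- the one-variable function of the potential -/
noncomputable def hfun (x : ℝ) : ℝ :=
  if x ≤ 1 then (1 - x) ^ 2 * (1 + 2 * x) / 3 else (x - 1) ^ 2 / x + (max (x - 3) 0) ^ 2 / 200

/-- normalised codegree: codegree divided by `4 E^2 / n^3` -/
noncomputable def rr (G : SimpleGraph (Fin n)) (u v : Fin n) : ℝ :=
  (codeg G u v : ℝ) * (n : ℝ) ^ 3 / (4 * (numEdges G : ℝ) ^ 2)

/-- the potential `E * sum over edges of h (r_e)` -/
noncomputable def Psi (G : SimpleGraph (Fin n)) : ℝ :=
  (numEdges G : ℝ) * (edgeSum G (fun u v => hfun (rr G u v)) / 2)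

/-- `ρ(G) = 3 T n^3 / (4 E^3)`: the average of `r_e` over the edges -/
noncomputable def rho (G : SimpleGraph (Fin n)) : ℝ :=
  3 * ((triangles G).card : ℝ) * (n : ℝ) ^ 3 / (4 * (numEdges G : ℝ) ^ 3)


end Vale.Agent.P046
end
end

section

section

set_option autoImplicit false

open scoped Classical
open Finset

namespace Vale.Agent.P046.OS

variable {n : ℕ}

lemma removeTriangle_adj (G : SimpleGraph (Fin n)) (t : Finset (Fin n)) (u v : Fin n) :
    (removeTriangle G t).Adj u v ↔ G.Adj u v ∧ ¬ (u ∈ t ∧ v ∈ t) := by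
  unfold removeTriangle
  rw [SimpleGraph.deleteEdges_adj]
  simp only [coe_sym2, Set.mk_mem_sym2_iff, SetLike.mem_coe, not_and]

lemma codeg_comm (G : SimpleGraph (Fin n)) (u v : Fin n) : codeg G u v = codeg G v u := by
  unfold codeg
  congr 1
  ext w
  simp only [mem_filter, mem_univ, true_and, and_comm]

/-- sum over ordered triangles -/
noncomputable def triSum (G : SimpleGraph (Fin n)) (f : Fin n → Fin n → Fin n → ℝ) : ℝ :=
  ∑ u, ∑ v, ∑ w, if G.Adj u v ∧ G.Adj u w ∧ G.Adj v w then f u v w else 0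

lemma codeg_real (G : SimpleGraph (Fin n)) (u v : Fin n) :
    (codeg G u v : ℝ) = ∑ w, if G.Adj u w ∧ G.Adj v w then (1:ℝ) else 0 := by
  unfold codeg
  rw [Finset.card_filter]
  push_cast
  rfl

lemma codeg_le (G : SimpleGraph (Fin n)) (u v : Fin n) : codeg G u v ≤ n := by
  unfold codeg
  calc _ ≤ (univ : Finset (Fin n)).card := Finset.card_filter_le _ _
    _ = n := by simp only [card_univ, Fintype.card_fin]

lemma edgeSum_codeg_mul (G : SimpleGraph (Fin n)) (f : Fin n → Fin n → ℝ) :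
    edgeSum G (fun u v => (codeg G u v : ℝ) * f u v) = triSum G (fun u v _ => f u v) := by
  unfold edgeSum triSum
  refine Finset.sum_congr rfl fun u _ => Finset.sum_congr rfl fun v _ => ?_
  beta_reduce
  by_cases h : G.Adj u v
  · rw [if_pos h, codeg_real, Finset.sum_mul]
    refine Finset.sum_congr rfl fun w _ => ?_
    by_cases h2 : G.Adj u w ∧ G.Adj v w
    · rw [if_pos h2, if_pos ⟨h, h2⟩, one_mul]
    · rw [if_neg h2, if_neg (fun h3 => h2 h3.2), zero_mul]
  · rw [if_neg h]
    symm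
    apply Finset.sum_eq_zero
    intro w _
    rw [if_neg (fun h3 => h h3.1)]

lemma triSum_swap12 (G : SimpleGraph (Fin n)) (f : Fin n → Fin n → Fin n → ℝ) :
    triSum G f = triSum G (fun u v w => f v u w) := by
  unfold triSum
  rw [Finset.sum_comm]
  refine Finset.sum_congr rfl fun u _ => Finset.sum_congr rfl fun v _ =>
    Finset.sum_congr rfl fun w _ => ?_
  have : (G.Adj v u ∧ G.Adj v w ∧ G.Adj u w) ↔ (G.Adj u v ∧ G.Adj u w ∧ G.Adj v w) := by
    rw [G.adj_comm v u]; (clear * -; tauto)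
  by_cases h : G.Adj u v ∧ G.Adj u w ∧ G.Adj v w
  · rw [if_pos h, if_pos (this.mpr h)]
  · rw [if_neg h, if_neg (fun h' => h (this.mp h'))]

lemma triSum_swap23 (G : SimpleGraph (Fin n)) (f : Fin n → Fin n → Fin n → ℝ) :
    triSum G f = triSum G (fun u v w => f u w v) := by
  unfold triSum
  refine Finset.sum_congr rfl fun u _ => ?_
  rw [Finset.sum_comm]
  refine Finset.sum_congr rfl fun v _ => Finset.sum_congr rfl fun w _ => ?_
  have : (G.Adj u w ∧ G.Adj u v ∧ G.Adj w v) ↔ (G.Adj u v ∧ G.Adj u w ∧ G.Adj v w) := by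
    rw [G.adj_comm w v]; (clear * -; tauto)
  by_cases h : G.Adj u v ∧ G.Adj u w ∧ G.Adj v w
  · rw [if_pos h, if_pos (this.mpr h)]
  · rw [if_neg h, if_neg (fun h' => h (this.mp h'))]

lemma triSum_add (G : SimpleGraph (Fin n)) (f g : Fin n → Fin n → Fin n → ℝ) :
    triSum G (fun u v w => f u v w + g u v w) = triSum G f + triSum G g := by
  unfold triSum
  simp only [← Finset.sum_add_distrib]
  refine Finset.sum_congr rfl fun u _ => Finset.sum_congr rfl fun v _ =>
    Finset.sum_congr rfl fun w _ => ?_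
  split_ifs <;> ring

lemma triSum_mul (G : SimpleGraph (Fin n)) (c : ℝ) (f : Fin n → Fin n → Fin n → ℝ) :
    triSum G (fun u v w => c * f u v w) = c * triSum G f := by
  unfold triSum
  simp only [Finset.mul_sum]
  refine Finset.sum_congr rfl fun u _ => Finset.sum_congr rfl fun v _ =>
    Finset.sum_congr rfl fun w _ => ?_
  split_ifs <;> ring

lemma triSum_mono (G : SimpleGraph (Fin n)) (f g : Fin n → Fin n → Fin n → ℝ)
    (h : ∀ u v w, G.Adj u v → G.Adj u w → G.Adj v w → f u v w ≤ g u v w) :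
    triSum G f ≤ triSum G g := by
  unfold triSum
  refine Finset.sum_le_sum fun u _ => Finset.sum_le_sum fun v _ =>
    Finset.sum_le_sum fun w _ => ?_
  split_ifs with h1
  · exact h u v w h1.1 h1.2.1 h1.2.2
  · exact le_refl _

lemma edgeSum_add (G : SimpleGraph (Fin n)) (f g : Fin n → Fin n → ℝ) :
    edgeSum G (fun u v => f u v + g u v) = edgeSum G f + edgeSum G g := by
  unfold edgeSum
  simp only [← Finset.sum_add_distrib]
  refine Finset.sum_congr rfl fun u _ => Finset.sum_congr rfl fun v _ => ?_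
  split_ifs <;> ring

lemma edgeSum_mul (G : SimpleGraph (Fin n)) (c : ℝ) (f : Fin n → Fin n → ℝ) :
    edgeSum G (fun u v => c * f u v) = c * edgeSum G f := by
  unfold edgeSum
  simp only [Finset.mul_sum]
  refine Finset.sum_congr rfl fun u _ => Finset.sum_congr rfl fun v _ => ?_
  split_ifs <;> ring

lemma edgeSum_mono (G : SimpleGraph (Fin n)) (f g : Fin n → Fin n → ℝ)
    (h : ∀ u v, G.Adj u v → f u v ≤ g u v) :
    edgeSum G f ≤ edgeSum G g := by
  unfold edgeSum
  refine Finset.sum_le_sum fun u _ => Finset.sum_le_sum fun v _ => ?_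
  split_ifs with h1
  · exact h u v h1
  · exact le_refl _

lemma edgeSum_one (G : SimpleGraph (Fin n)) :
    edgeSum G (fun _ _ => 1) = 2 * (numEdges G : ℝ) := by
  unfold edgeSum numEdges
  have h1 : ∀ u, (∑ v, if G.Adj u v then (1:ℝ) else 0) = (G.degree u : ℝ) := by
    intro u
    rw [← SimpleGraph.card_neighborFinset_eq_degree, SimpleGraph.neighborFinset_eq_filter,
      Finset.card_filter]
    push_cast
    rfl
  simp only [h1]
  have := G.sum_degrees_eq_twice_card_edges
  have h2 : ((∑ u, G.degree u : ℕ) : ℝ) = ((2 * G.edgeFinset.card : ℕ) : ℝ) := by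
    rw [this]
  push_cast at h2
  exact h2

/-- triangles through an edge correspond to common neighbours -/
lemma triangles_filter_eq (G : SimpleGraph (Fin n)) (u v : Fin n) (h : G.Adj u v) :
    (triangles G).filter (fun t => u ∈ t ∧ v ∈ t) =
      (univ.filter fun w => G.Adj u w ∧ G.Adj v w).image (fun w => ({u, v, w} : Finset (Fin n))) := by
  ext t
  simp only [triangles, Finset.mem_filter, SimpleGraph.mem_cliqueFinset_iff, Finset.mem_image,
    Finset.mem_univ, true_and]
  constructor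
  · rintro ⟨ht, hu, hv⟩
    have hne : u ≠ v := G.ne_of_adj h
    have hcard := ht.card_eq
    -- third vertex
    have h2 : (t \ {u, v}).card = 1 := by
      rw [Finset.card_sdiff_of_subset (by
        intro x hx
        simp only [Finset.mem_insert, Finset.mem_singleton] at hx
        rcases hx with rfl | rfl <;> assumption), hcard, Finset.card_pair hne]
    obtain ⟨w, hw⟩ := Finset.card_eq_one.mp h2
    have hwt : w ∈ t \ {u, v} := by rw [hw]; simp
    simp only [Finset.mem_sdiff, Finset.mem_insert, Finset.mem_singleton, not_or] at hwt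
    refine ⟨w, ⟨?_, ?_⟩, ?_⟩
    · exact ht.isClique hu hwt.1 (Ne.symm hwt.2.1)
    · exact ht.isClique hv hwt.1 (Ne.symm hwt.2.2)
    · ext x
      simp only [Finset.mem_insert, Finset.mem_singleton]
      constructor
      · rintro (rfl | rfl | rfl)
        · exact hu
        · exact hv
        · exact hwt.1
      · intro hx
        by_cases hxu : x = u
        · exact Or.inl hxu
        · by_cases hxv : x = v
          · exact Or.inr (Or.inl hxv)
          · right; right
            have : x ∈ t \ {u, v} := by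
              simp only [Finset.mem_sdiff, Finset.mem_insert, Finset.mem_singleton, not_or]
              exact ⟨hx, hxu, hxv⟩
            rw [hw] at this
            simpa using this
  · rintro ⟨w, ⟨huw, hvw⟩, rfl⟩
    refine ⟨?_, by simp, by simp⟩
    rw [SimpleGraph.is3Clique_iff]
    exact ⟨u, v, w, h, huw, hvw, rfl⟩

lemma image_injOn (G : SimpleGraph (Fin n)) (u v : Fin n) :
    Set.InjOn (fun w => ({u, v, w} : Finset (Fin n)))
      (↑(univ.filter fun w => G.Adj u w ∧ G.Adj v w) : Set (Fin n)) := by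
  intro a ha b hb hab
  simp only [Finset.coe_filter, Finset.mem_univ, true_and, Set.mem_ofPred_eq] at ha hb
  have h1 : a ∈ ({u, v, b} : Finset (Fin n)) := by
    have : a ∈ ({u, v, a} : Finset (Fin n)) := by simp
    simpa only [mem_insert, mem_singleton] using (show a ∈ ({u, v, b} : Finset (Fin n)) by
      have h3 : ({u, v, a} : Finset (Fin n)) = {u, v, b} := hab
      rw [← h3]; simp)
  simp only [Finset.mem_insert, Finset.mem_singleton] at h1
  rcases h1 with h | h | h
  · exact absurd h.symm (G.ne_of_adj ha.1)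
  · exact absurd h.symm (G.ne_of_adj ha.2)
  · exact h

lemma card_triangles_edge (G : SimpleGraph (Fin n)) (u v : Fin n) (h : G.Adj u v) :
    ((triangles G).filter (fun t => u ∈ t ∧ v ∈ t)).card = codeg G u v := by
  rw [triangles_filter_eq G u v h, Finset.card_image_of_injOn (image_injOn G u v)]
  rfl

lemma triangles_filter3 (G : SimpleGraph (Fin n)) (u v w : Fin n) (h : G.Adj u v)
    (h2 : G.Adj u w) (h3 : G.Adj v w) :
    (triangles G).filter (fun t => u ∈ t ∧ v ∈ t ∧ w ∈ t) = {({u, v, w} : Finset (Fin n))} := by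
  ext t
  simp only [triangles, Finset.mem_filter, SimpleGraph.mem_cliqueFinset_iff, Finset.mem_singleton]
  constructor
  · rintro ⟨ht, hu, hv, hw⟩
    symm
    apply Finset.eq_of_subset_of_card_le
    · intro x hx
      simp only [Finset.mem_insert, Finset.mem_singleton] at hx
      rcases hx with rfl | rfl | rfl <;> assumption
    · rw [ht.card_eq, Finset.card_eq_three.mpr ⟨u, v, w, G.ne_of_adj h, G.ne_of_adj h2,
        G.ne_of_adj h3, rfl⟩]
  · rintro rfl
    refine ⟨?_, by simp, by simp, by simp⟩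
    rw [SimpleGraph.is3Clique_iff]
    exact ⟨u, v, w, h, h2, h3, rfl⟩

/-- number of triangles containing `u, w` but not `v`, for a triangle `u v w` -/
lemma card_triangles_edge_not (G : SimpleGraph (Fin n)) (u v w : Fin n) (h : G.Adj u v)
    (h2 : G.Adj u w) (h3 : G.Adj v w) :
    (((triangles G).filter (fun t => (u ∈ t ∧ w ∈ t) ∧ ¬ (v ∈ t))).card : ℝ) =
      (codeg G u w : ℝ) - 1 := by
  have e1 := card_triangles_edge G u w h2
  have e2 : ((triangles G).filter (fun t => u ∈ t ∧ v ∈ t ∧ w ∈ t)).card = 1 := by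
    rw [triangles_filter3 G u v w h h2 h3, Finset.card_singleton]
  have e3 : ((triangles G).filter (fun t => u ∈ t ∧ w ∈ t)).card =
      ((triangles G).filter (fun t => (u ∈ t ∧ w ∈ t) ∧ ¬ (v ∈ t))).card +
      ((triangles G).filter (fun t => u ∈ t ∧ v ∈ t ∧ w ∈ t)).card := by
    rw [← Finset.card_union_of_disjoint]
    · congr 1
      ext t
      simp only [Finset.mem_union, Finset.mem_filter]
      (clear * -; tauto)
    · rw [Finset.disjoint_left]
      intro t ht1 ht2
      simp only [Finset.mem_filter] at ht1 ht2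
      exact ht1.2.2 ht2.2.2.1
  rw [e2, e1] at e3
  have : (codeg G u w : ℝ) = (((triangles G).filter (fun t => (u ∈ t ∧ w ∈ t) ∧ ¬ (v ∈ t))).card : ℝ) + 1 := by
    exact_mod_cast e3
  linarith only [this]

/-- number of triangles on the pair `u v` killed by the removal of `t` -/
noncomputable def kk (G : SimpleGraph (Fin n)) (t : Finset (Fin n)) (u v : Fin n) : ℝ :=
  ∑ w, if G.Adj u w ∧ G.Adj v w then
    ((if u ∈ t ∧ w ∈ t then (1:ℝ) else 0) + (if v ∈ t ∧ w ∈ t then (1:ℝ) else 0)) else 0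

lemma codeg_remove (G : SimpleGraph (Fin n)) (t : Finset (Fin n)) (u v : Fin n)
    (huv : ¬ (u ∈ t ∧ v ∈ t)) :
    (codeg (removeTriangle G t) u v : ℝ) = codeg G u v - kk G t u v := by
  rw [codeg_real, codeg_real, kk, ← Finset.sum_sub_distrib]
  refine Finset.sum_congr rfl fun w _ => ?_
  simp only [removeTriangle_adj]
  by_cases h1 : G.Adj u w ∧ G.Adj v w
  · rw [if_pos h1, if_pos h1]
    by_cases h2 : u ∈ t ∧ w ∈ t
    · have h3 : ¬ (v ∈ t ∧ w ∈ t) := fun h => huv ⟨h2.1, h.1⟩
      rw [if_pos h2, if_neg h3, if_neg (fun h => h.1.2 h2)]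
      ring
    · by_cases h3 : v ∈ t ∧ w ∈ t
      · rw [if_neg h2, if_pos h3, if_neg (fun h => h.2.2 h3)]
        ring
      · rw [if_neg h2, if_neg h3, if_pos ⟨⟨h1.1, h2⟩, ⟨h1.2, h3⟩⟩]
        ring
  · rw [if_neg h1, if_neg h1, if_neg (fun h => h1 ⟨h.1.1, h.2.1⟩)]
    ring

lemma kk_nonneg (G : SimpleGraph (Fin n)) (t : Finset (Fin n)) (u v : Fin n) :
    0 ≤ kk G t u v := by
  unfold kk
  refine Finset.sum_nonneg fun w _ => ?_
  split_ifs <;> norm_num

lemma kk_le_two (G : SimpleGraph (Fin n)) (t : Finset (Fin n)) (ht : t ∈ triangles G)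
    (u v : Fin n) (huv : ¬ (u ∈ t ∧ v ∈ t)) :
    kk G t u v ≤ 2 := by
  have hcard : t.card = 3 := by
    unfold triangles at ht
    rw [SimpleGraph.mem_cliqueFinset_iff] at ht
    exact ht.card_eq
  have aux : ∀ a : Fin n, a ∈ t → ∑ w, (if G.Adj a w ∧ w ∈ t then (1:ℝ) else 0) ≤ 2 := by
    intro a ha
    rw [← Finset.sum_filter, Finset.sum_const, nsmul_eq_mul, mul_one]
    have : (univ.filter fun w => G.Adj a w ∧ w ∈ t) ⊆ t.erase a := by
      intro w hw
      simp only [Finset.mem_filter, Finset.mem_univ, true_and] at hw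
      rw [Finset.mem_erase]
      exact ⟨(G.ne_of_adj hw.1).symm, hw.2⟩
    have h2 := Finset.card_le_card this
    rw [Finset.card_erase_of_mem ha, hcard] at h2
    exact_mod_cast h2
  unfold kk
  by_cases hu : u ∈ t
  · have hv : v ∉ t := fun h => huv ⟨hu, h⟩
    refine le_trans ?_ (aux u hu)
    refine Finset.sum_le_sum fun w _ => ?_
    by_cases h1 : G.Adj u w ∧ G.Adj v w
    · rw [if_pos h1, if_neg (fun h : v ∈ t ∧ w ∈ t => hv h.1)]
      by_cases h2 : w ∈ t
      · rw [if_pos ⟨hu, h2⟩, if_pos ⟨h1.1, h2⟩]; norm_num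
      · rw [if_neg (fun h => h2 h.2), if_neg (fun h => h2 h.2)]; norm_num
    · rw [if_neg h1]
      split_ifs <;> norm_num
  · by_cases hv : v ∈ t
    · refine le_trans ?_ (aux v hv)
      refine Finset.sum_le_sum fun w _ => ?_
      by_cases h1 : G.Adj u w ∧ G.Adj v w
      · rw [if_pos h1, if_neg (fun h : u ∈ t ∧ w ∈ t => hu h.1)]
        by_cases h2 : w ∈ t
        · rw [if_pos ⟨hv, h2⟩, if_pos ⟨h1.2, h2⟩]; norm_num
        · rw [if_neg (fun h => h2 h.2), if_neg (fun h => h2 h.2)]; norm_num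
      · rw [if_neg h1]
        split_ifs <;> norm_num
    · have : ∀ w, (if G.Adj u w ∧ G.Adj v w then
        ((if u ∈ t ∧ w ∈ t then (1:ℝ) else 0) + (if v ∈ t ∧ w ∈ t then (1:ℝ) else 0)) else 0) = 0 := by
        intro w
        rw [if_neg (fun h : u ∈ t ∧ w ∈ t => hu h.1), if_neg (fun h : v ∈ t ∧ w ∈ t => hv h.1)]
        simp
      simp only [this, Finset.sum_const_zero]
      norm_num

/-- the total number of kills over all choices of the removed triangle -/
noncomputable def KK (G : SimpleGraph (Fin n)) (u v : Fin n) : ℝ :=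
  ∑ w, if G.Adj u w ∧ G.Adj v w then ((codeg G u w : ℝ) + codeg G v w - 2) else 0

lemma sum_kk (G : SimpleGraph (Fin n)) (u v : Fin n) (h : G.Adj u v) :
    ∑ t ∈ (triangles G).filter (fun t => ¬ (u ∈ t ∧ v ∈ t)), kk G t u v = KK G u v := by
  unfold kk KK
  rw [Finset.sum_comm]
  refine Finset.sum_congr rfl fun w _ => ?_
  by_cases h1 : G.Adj u w ∧ G.Adj v w
  · simp only [if_pos h1]
    rw [Finset.sum_add_distrib]
    have e1 : ∑ t ∈ (triangles G).filter (fun t => ¬ (u ∈ t ∧ v ∈ t)),
        (if u ∈ t ∧ w ∈ t then (1:ℝ) else 0) = (codeg G u w : ℝ) - 1 := by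
      rw [← card_triangles_edge_not G u v w h h1.1 h1.2, Finset.sum_filter, Finset.card_filter]
      push_cast
      refine Finset.sum_congr rfl fun t _ => ?_
      by_cases a : u ∈ t <;> by_cases b : w ∈ t <;> by_cases c : v ∈ t <;> simp [a, b, c]
    have e2 : ∑ t ∈ (triangles G).filter (fun t => ¬ (u ∈ t ∧ v ∈ t)),
        (if v ∈ t ∧ w ∈ t then (1:ℝ) else 0) = (codeg G v w : ℝ) - 1 := by
      rw [← card_triangles_edge_not G v u w h.symm h1.2 h1.1, Finset.sum_filter,
        Finset.card_filter]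
      push_cast
      refine Finset.sum_congr rfl fun t _ => ?_
      by_cases a : u ∈ t <;> by_cases b : w ∈ t <;> by_cases c : v ∈ t <;> simp [a, b, c]
    rw [e1, e2]
    ring
  · simp only [if_neg h1, Finset.sum_const_zero]

lemma card_triangles_not_edge (G : SimpleGraph (Fin n)) (u v : Fin n) (h : G.Adj u v) :
    (((triangles G).filter (fun t => ¬ (u ∈ t ∧ v ∈ t))).card : ℝ) =
      ((triangles G).card : ℝ) - codeg G u v := by
  have h1 := Finset.card_filter_add_card_filter_not (s := triangles G) (fun t => u ∈ t ∧ v ∈ t)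
  rw [card_triangles_edge G u v h] at h1
  have : ((triangles G).card : ℝ) = (codeg G u v : ℝ) +
      (((triangles G).filter (fun t => ¬ (u ∈ t ∧ v ∈ t))).card : ℝ) := by
    exact_mod_cast h1.symm
  linarith only [this]

lemma edgeSum_mul_KK (G : SimpleGraph (Fin n)) (f : Fin n → Fin n → ℝ) :
    edgeSum G (fun u v => f u v * KK G u v) =
      triSum G (fun u v w => f u v * ((codeg G u w : ℝ) + codeg G v w - 2)) := by
  unfold edgeSum triSum KK
  refine Finset.sum_congr rfl fun u _ => Finset.sum_congr rfl fun v _ => ?_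
  beta_reduce
  by_cases h : G.Adj u v
  · rw [if_pos h, Finset.mul_sum]
    refine Finset.sum_congr rfl fun w _ => ?_
    by_cases h2 : G.Adj u w ∧ G.Adj v w
    · rw [if_pos h2, if_pos ⟨h, h2⟩]
    · rw [if_neg h2, if_neg (fun h3 => h2 h3.2), mul_zero]
  · rw [if_neg h]
    symm
    apply Finset.sum_eq_zero
    intro w _
    rw [if_neg (fun h3 => h h3.1)]

end Vale.Agent.P046.OS
end
end

section

section

/-!
Definitions for the log-free upper bound (target C).
Notation: `cc = 4 E^2 / n^3` (the scale), `rr = codeg / cc`, `zz = rr - 1`.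
-/

set_option autoImplicit false

open scoped Classical
open Finset

namespace Vale.Agent.P046.C

open Vale.Agent.P046 Vale.Agent.P046.OS

variable {n : ℕ}

/-- the scale `c = 4 E^2 / n^3` -/
noncomputable def cc (G : SimpleGraph (Fin n)) : ℝ := 4 * (numEdges G : ℝ) ^ 2 / (n : ℝ) ^ 3

/-- normalised codegree deviation `codeg / c - 1` (defined for all pairs) -/
noncomputable def zz (G : SimpleGraph (Fin n)) (u v : Fin n) : ℝ := rr G u v - 1

/-- `S_{uv} = ∑_{x ~ u,v} (codeg u x + codeg v x)` -/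
noncomputable def SS (G : SimpleGraph (Fin n)) (u v : Fin n) : ℝ :=
  ∑ x, if G.Adj u x ∧ G.Adj v x then ((codeg G u x : ℝ) + codeg G v x) else 0

/-- `w_{uv} = (1/c) ∑_{x ~ u,v} (z_{ux} + z_{vx})` -/
noncomputable def ww (G : SimpleGraph (Fin n)) (u v : Fin n) : ℝ :=
  (∑ x, if G.Adj u x ∧ G.Adj v x then (zz G u x + zz G v x) else 0) / cc G

/-- `q_{uv} = (1/c) ∑_{x ~ u,v} (z_{ux} + z_{vx})^2` -/
noncomputable def qq (G : SimpleGraph (Fin n)) (u v : Fin n) : ℝ :=
  (∑ x, if G.Adj u x ∧ G.Adj v x then (zz G u x + zz G v x) ^ 2 else 0) / cc G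


/-- `u` is the hub of the wheel with rim `v x s y` -/
def IsWheel (G : SimpleGraph (Fin n)) (u v x s y : Fin n) : Prop :=
  G.Adj u v ∧ G.Adj u x ∧ G.Adj u s ∧ G.Adj u y ∧
    G.Adj v x ∧ G.Adj x s ∧ G.Adj s y ∧ G.Adj y v ∧ v ≠ s ∧ x ≠ y

/-- number of labelled wheels with four spokes -/
noncomputable def wheels (G : SimpleGraph (Fin n)) : ℝ :=
  ∑ u, ∑ v, ∑ x, ∑ s, ∑ y, if IsWheel G u v x s y then (1 : ℝ) else 0

/-- number of ordered adjacent pairs of low codegree -/
noncomputable def lowCount (G : SimpleGraph (Fin n)) (ε : ℝ) : ℝ :=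
  edgeSum G (fun u v => if rr G u v < 1 - ε then 1 else 0)

/-- Huber function with threshold `d` -/
noncomputable def huber (d w : ℝ) : ℝ := if |w| ≤ d then w ^ 2 else 2 * d * |w| - d ^ 2

/-- half of the derivative of `huber d` -/
noncomputable def clip (d w : ℝ) : ℝ := max (-d) (min w d)

end Vale.Agent.P046.C
end
end

section

section

set_option autoImplicit false

open scoped Classical
open Finset

namespace Vale.Agent.P046

variable {n : ℕ}

/-- Sum over ordered triples spanning a triangle equals six times the sum over triangles. -/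
lemma sum_ordered_triangles (G : SimpleGraph (Fin n)) (f : Finset (Fin n) → ℝ) :
    (∑ u, ∑ v, ∑ w, if G.Adj u v ∧ G.Adj u w ∧ G.Adj v w then f {u, v, w} else 0) =
      6 * ∑ t ∈ triangles G, f t := by
  have h1 : (∑ u, ∑ v, ∑ w, if G.Adj u v ∧ G.Adj u w ∧ G.Adj v w then f {u, v, w} else 0) =
      ∑ p : Fin n × Fin n × Fin n,
        if G.Adj p.1 p.2.1 ∧ G.Adj p.1 p.2.2 ∧ G.Adj p.2.1 p.2.2 then
          f {p.1, p.2.1, p.2.2} else 0 := by
    rw [Fintype.sum_prod_type]
    refine Finset.sum_congr rfl fun u _ => ?_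
    rw [Fintype.sum_prod_type]
  rw [h1, ← Finset.sum_filter]
  set P := (Finset.univ.filter fun p : Fin n × Fin n × Fin n =>
    G.Adj p.1 p.2.1 ∧ G.Adj p.1 p.2.2 ∧ G.Adj p.2.1 p.2.2) with hP
  have h2 : ∀ p ∈ P, ({p.1, p.2.1, p.2.2} : Finset (Fin n)) ∈ triangles G := by
    rintro ⟨u, v, w⟩ hp
    rw [hP, Finset.mem_filter] at hp
    obtain ⟨-, h1, h2, h3⟩ := hp
    unfold triangles
    rw [SimpleGraph.mem_cliqueFinset_iff, SimpleGraph.is3Clique_iff]
    exact ⟨u, v, w, h1, h2, h3, rfl⟩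
  rw [← Finset.sum_fiberwise_of_maps_to h2, Finset.mul_sum]
  refine Finset.sum_congr rfl fun t ht => ?_
  have h3 : ∀ p ∈ P.filter (fun p => ({p.1, p.2.1, p.2.2} : Finset (Fin n)) = t),
      f {p.1, p.2.1, p.2.2} = f t := by
    intro p hp
    rw [(Finset.mem_filter.mp hp).2]
  rw [Finset.sum_congr rfl h3, Finset.sum_const, nsmul_eq_mul]
  congr 1
  have ht' := ht
  unfold triangles at ht'
  rw [SimpleGraph.mem_cliqueFinset_iff, SimpleGraph.is3Clique_iff] at ht'
  obtain ⟨a, b, c, hab, hac, hbc, rfl⟩ := ht'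
  have hab' := G.ne_of_adj hab
  have hac' := G.ne_of_adj hac
  have hbc' := G.ne_of_adj hbc
  have h4 : P.filter (fun p => ({p.1, p.2.1, p.2.2} : Finset (Fin n)) = {a, b, c}) =
      {(a, b, c), (a, c, b), (b, a, c), (b, c, a), (c, a, b), (c, b, a)} := by
    ext ⟨u, v, w⟩
    simp only [hP, Finset.mem_filter, Finset.mem_univ, true_and, Finset.mem_insert,
      Finset.mem_singleton, Prod.mk.injEq]
    constructor
    · rintro ⟨⟨huv, huw, hvw⟩, h⟩
      have huv' := G.ne_of_adj huv
      have huw' := G.ne_of_adj huw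
      have hvw' := G.ne_of_adj hvw
      have hu : u ∈ ({a, b, c} : Finset (Fin n)) := h ▸ (by simp)
      have hv : v ∈ ({a, b, c} : Finset (Fin n)) := h ▸ (by simp)
      have hw : w ∈ ({a, b, c} : Finset (Fin n)) := h ▸ (by simp)
      simp only [Finset.mem_insert, Finset.mem_singleton] at hu hv hw
      clear h hP h2 h3 ht huv huw hvw
      rcases hu with h | h | h <;> rcases hv with h' | h' | h' <;>
        first
        | exact absurd (h.trans h'.symm) huv'
        | (rcases hw with h'' | h'' | h'' <;>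
            first
            | exact absurd (h.trans h''.symm) huw'
            | exact absurd (h'.trans h''.symm) hvw'
            | (rw [h, h', h'']; simp only [and_self, true_or, or_true]))
    · have e1 : ({a, c, b} : Finset (Fin n)) = {a, b, c} := by
        ext x; simp only [mem_insert, mem_singleton]; (clear * -; tauto)
      have e2 : ({b, a, c} : Finset (Fin n)) = {a, b, c} := by
        ext x; simp only [mem_insert, mem_singleton]; (clear * -; tauto)
      have e3 : ({b, c, a} : Finset (Fin n)) = {a, b, c} := by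
        ext x; simp only [mem_insert, mem_singleton]; (clear * -; tauto)
      have e4 : ({c, a, b} : Finset (Fin n)) = {a, b, c} := by
        ext x; simp only [mem_insert, mem_singleton]; (clear * -; tauto)
      have e5 : ({c, b, a} : Finset (Fin n)) = {a, b, c} := by
        ext x; simp only [mem_insert, mem_singleton]; (clear * -; tauto)
      rintro (⟨rfl, rfl, rfl⟩ | ⟨rfl, rfl, rfl⟩ | ⟨rfl, rfl, rfl⟩ | ⟨rfl, rfl, rfl⟩ |
        ⟨rfl, rfl, rfl⟩ | ⟨rfl, rfl, rfl⟩)
      · exact ⟨⟨hab, hac, hbc⟩, rfl⟩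
      · exact ⟨⟨hac, hab, hbc.symm⟩, e1⟩
      · exact ⟨⟨hab.symm, hbc, hac⟩, e2⟩
      · exact ⟨⟨hbc, hab.symm, hac.symm⟩, e3⟩
      · exact ⟨⟨hac.symm, hbc.symm, hab⟩, e4⟩
      · exact ⟨⟨hbc.symm, hac.symm, hab.symm⟩, e5⟩
  rw [h4]
  rw [Finset.card_insert_of_notMem, Finset.card_insert_of_notMem, Finset.card_insert_of_notMem,
    Finset.card_insert_of_notMem, Finset.card_insert_of_notMem, Finset.card_singleton]
  · norm_num
  all_goals
    clear h4 h3 h2 hP ht hab hac hbc
    simp only [mem_singleton, Prod.mk.injEq, hab', Ne.symm hab', and_self, and_false, not_false_eq_true, mem_insert, hbc', Ne.symm hac', Ne.symm hbc', and_true, or_self, hac']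

/-- number of ordered adjacent pairs -/
lemma edgeSum_one (G : SimpleGraph (Fin n)) :
    edgeSum G (fun _ _ => 1) = 2 * (numEdges G : ℝ) := by
  unfold edgeSum numEdges
  have h := G.sum_degrees_eq_twice_card_edges
  have h2 : ∀ u : Fin n, (∑ v, if G.Adj u v then (1 : ℝ) else 0) = (G.degree u : ℝ) := by
    intro u
    rw [Finset.sum_ite, Finset.sum_const_zero, add_zero, Finset.sum_const, nsmul_eq_mul, mul_one,
      ← SimpleGraph.card_neighborFinset_eq_degree]
    congr 2
    ext v
    simp only [mem_filter, mem_univ, true_and, SimpleGraph.mem_neighborFinset]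
  simp_rw [h2]
  rw [← Nat.cast_sum]
  exact_mod_cast (by convert h)

lemma edgeSum_const (G : SimpleGraph (Fin n)) (c : ℝ) :
    edgeSum G (fun _ _ => c) = 2 * (numEdges G : ℝ) * c := by
  rw [← edgeSum_one]
  unfold edgeSum
  simp_rw [Finset.sum_mul]
  refine Finset.sum_congr rfl fun u _ => Finset.sum_congr rfl fun v _ => ?_
  split_ifs <;> simp

lemma edgeSum_mono (G : SimpleGraph (Fin n)) (f g : Fin n → Fin n → ℝ)
    (h : ∀ u v, G.Adj u v → f u v ≤ g u v) : edgeSum G f ≤ edgeSum G g := by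
  unfold edgeSum
  refine Finset.sum_le_sum fun u _ => Finset.sum_le_sum fun v _ => ?_
  split_ifs with h1
  · exact h u v h1
  · exact le_rfl

lemma edgeSum_congr (G : SimpleGraph (Fin n)) (f g : Fin n → Fin n → ℝ)
    (h : ∀ u v, G.Adj u v → f u v = g u v) : edgeSum G f = edgeSum G g :=
  le_antisymm (edgeSum_mono G f g fun u v h1 => (h u v h1).le)
    (edgeSum_mono G g f fun u v h1 => (h u v h1).ge)

lemma codeg_cast (G : SimpleGraph (Fin n)) (u v : Fin n) :
    (codeg G u v : ℝ) = ∑ w, if G.Adj u w ∧ G.Adj v w then (1 : ℝ) else 0 := by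
  unfold codeg
  rw [Finset.card_filter]
  push_cast
  rfl

lemma edgeSum_codeg (G : SimpleGraph (Fin n)) :
    edgeSum G (fun u v => (codeg G u v : ℝ)) = 6 * ((triangles G).card : ℝ) := by
  have h := sum_ordered_triangles G (fun _ => 1)
  rw [Finset.sum_const, nsmul_eq_mul, mul_one] at h
  rw [← h]
  unfold edgeSum
  refine Finset.sum_congr rfl fun u _ => Finset.sum_congr rfl fun v _ => ?_
  simp only [codeg_cast]
  split_ifs with h1
  · refine Finset.sum_congr rfl fun w _ => ?_
    simp [h1]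
  · simp only [h1, false_and, ↓reduceIte, sum_const_zero]

lemma edgeSum_add (G : SimpleGraph (Fin n)) (f g : Fin n → Fin n → ℝ) :
    edgeSum G (fun u v => f u v + g u v) = edgeSum G f + edgeSum G g := by
  unfold edgeSum
  simp_rw [← Finset.sum_add_distrib]
  refine Finset.sum_congr rfl fun u _ => Finset.sum_congr rfl fun v _ => ?_
  split_ifs <;> simp

lemma edgeSum_mul (G : SimpleGraph (Fin n)) (c : ℝ) (f : Fin n → Fin n → ℝ) :
    edgeSum G (fun u v => c * f u v) = c * edgeSum G f := by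
  unfold edgeSum
  simp_rw [Finset.mul_sum]
  refine Finset.sum_congr rfl fun u _ => Finset.sum_congr rfl fun v _ => ?_
  split_ifs <;> simp

lemma edgeSum_nonneg (G : SimpleGraph (Fin n)) (f : Fin n → Fin n → ℝ)
    (h : ∀ u v, G.Adj u v → 0 ≤ f u v) : 0 ≤ edgeSum G f := by
  unfold edgeSum
  refine Finset.sum_nonneg fun u _ => Finset.sum_nonneg fun v _ => ?_
  split_ifs with h1
  · exact h u v h1
  · exact le_rfl


end Vale.Agent.P046
end
end

section

section

set_option autoImplicit false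

open scoped Classical
open Finset

namespace Vale.Agent.P046

variable {n : ℕ}

lemma hfun_nonneg (x : ℝ) (hx : 0 ≤ x) : 0 ≤ hfun x := by
  unfold hfun
  split_ifs with h
  · positivity
  · push Not at h
    have : 0 ≤ (x - 1) := by linarith
    positivity

lemma rr_nonneg (G : SimpleGraph (Fin n)) (u v : Fin n) : 0 ≤ rr G u v := by
  unfold rr
  positivity




/-- the number of edges never increases -/
lemma V_le_sq (k : ℕ) (G : SimpleGraph (Fin n)) :
    V (fun H => (numEdges H : ℝ) ^ 2) k G ≤ (numEdges G : ℝ) ^ 2 := by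
  induction k generalizing G with
  | zero => rw [V_zero]
  | succ k ih =>
    by_cases h : (triangles G).Nonempty
    · rw [V_succ_of_nonempty _ _ _ h]
      have hc : (0 : ℝ) < (triangles G).card := by exact_mod_cast h.card_pos
      rw [div_le_iff₀ hc]
      calc (∑ t ∈ triangles G, V (fun H => (numEdges H : ℝ) ^ 2) k (removeTriangle G t))
          ≤ ∑ t ∈ triangles G, (numEdges G : ℝ) ^ 2 := by
            refine Finset.sum_le_sum fun t ht => (ih _).trans ?_
            have := numEdges_removeTriangle G t ht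
            have h2 : (numEdges (removeTriangle G t) : ℝ) ≤ numEdges G := by
              exact_mod_cast (by omega)
            exact pow_le_pow_left₀ (by positivity) h2 2
        _ = (numEdges G : ℝ) ^ 2 * (triangles G).card := by
            rw [Finset.sum_const, nsmul_eq_mul]
            ring
    · rw [V_of_empty _ _ _ h]




end Vale.Agent.P046
end
end

section

section

set_option autoImplicit false

open scoped Classical
open Finset

namespace Vale.Agent.P046.C

open Vale.Agent.P046 Vale.Agent.P046.OS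

variable {n : ℕ}

/-- union bound from below when pairwise intersections have at most one element -/
lemma sum_card_le_union {ι α : Type*} [DecidableEq ι] [DecidableEq α] (I : Finset ι)
    (A : ι → Finset α)
    (h : ∀ i ∈ I, ∀ j ∈ I, i ≠ j → (A i ∩ A j).card ≤ 1) :
    ∑ i ∈ I, (A i).card ≤ (I.biUnion A).card + I.card ^ 2 := by
  induction I using Finset.induction_on with
  | empty => simp
  | insert i I hi ih =>
    rw [Finset.sum_insert hi, Finset.biUnion_insert, Finset.card_insert_of_notMem hi]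
    have h1 := ih (fun a ha b hb hab => h a (Finset.mem_insert_of_mem ha) b
      (Finset.mem_insert_of_mem hb) hab)
    have h2 : (A i ∩ I.biUnion A).card ≤ I.card := by
      rw [Finset.inter_biUnion]
      calc (I.biUnion fun j => A i ∩ A j).card ≤ ∑ j ∈ I, (A i ∩ A j).card :=
            Finset.card_biUnion_le
        _ ≤ ∑ j ∈ I, 1 := Finset.sum_le_sum fun j hj => h i (Finset.mem_insert_self _ _) j
            (Finset.mem_insert_of_mem hj) (fun hij => hi (hij ▸ hj))
        _ = I.card := by simp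
    have h3 := Finset.card_union_add_card_inter (A i) (I.biUnion A)
    linarith only [h1, h2, h3]

lemma card_three_le_one (G : SimpleGraph (Fin n)) (a b r : Fin n) (hab : a ≠ b) (har : a ≠ r)
    (hbr : b ≠ r) :
    ((triangles G).filter (fun t => a ∈ t ∧ b ∈ t ∧ r ∈ t)).card ≤ 1 := by
  rw [Finset.card_le_one]
  have key : ∀ t ∈ (triangles G).filter (fun t => a ∈ t ∧ b ∈ t ∧ r ∈ t),
      t = ({a, b, r} : Finset (Fin n)) := by
    intro t ht
    simp only [triangles, Finset.mem_filter, SimpleGraph.mem_cliqueFinset_iff] at ht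
    obtain ⟨ht, h1, h2, h3⟩ := ht
    symm
    apply Finset.eq_of_subset_of_card_le
    · intro x hx
      simp only [Finset.mem_insert, Finset.mem_singleton] at hx
      rcases hx with rfl | rfl | rfl <;> assumption
    · rw [ht.card_eq, Finset.card_eq_three.mpr ⟨a, b, r, hab, har, hbr, rfl⟩]
  intro s hs t ht
  rw [key s hs, key t ht]

/-- first endpoints of the eight edges of a wheel -/
def wp (u v x s y : Fin n) : Fin 8 → Fin n := ![u, u, u, u, v, x, s, y]

/-- second endpoints of the eight edges of a wheel -/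
def wq (_u v x s y : Fin n) : Fin 8 → Fin n := ![v, x, s, y, x, s, y, v]

lemma isWheel_adj {G : SimpleGraph (Fin n)} {u v x s y : Fin n} (h : IsWheel G u v x s y) :
    ∀ i, G.Adj (wp u v x s y i) (wq u v x s y i) := by
  obtain ⟨h1, h2, h3, h4, h5, h6, h7, h8, h9, h10⟩ := h
  intro i
  fin_cases i <;> simp only [wp, Fin.zero_eta, Fin.isValue, Matrix.cons_val_zero, wq, Fin.mk_one, Matrix.cons_val_one, Fin.reduceFinMk, Matrix.cons_val] <;> assumption

lemma isWheel_sep {G : SimpleGraph (Fin n)} {u v x s y : Fin n} (h : IsWheel G u v x s y) :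
    ∀ i j, i ≠ j →
      (wp u v x s y j ≠ wp u v x s y i ∧ wp u v x s y j ≠ wq u v x s y i) ∨
      (wq u v x s y j ≠ wp u v x s y i ∧ wq u v x s y j ≠ wq u v x s y i) := by
  obtain ⟨h1, h2, h3, h4, h5, h6, h7, h8, h9, h10⟩ := h
  have e1 := G.ne_of_adj h1
  have e2 := G.ne_of_adj h2
  have e3 := G.ne_of_adj h3
  have e4 := G.ne_of_adj h4
  have e5 := G.ne_of_adj h5
  have e6 := G.ne_of_adj h6
  have e7 := G.ne_of_adj h7
  have e8 := G.ne_of_adj h8
  have f1 := e1.symm
  have f2 := e2.symm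
  have f3 := e3.symm
  have f4 := e4.symm
  have f5 := e5.symm
  have f6 := e6.symm
  have f7 := e7.symm
  have f8 := e8.symm
  have f9 := h9.symm
  have f10 := h10.symm
  intro i j hij
  fin_cases i <;> fin_cases j <;> simp_all [wp, wq]

/-- number of triangles hitting a wheel -/
lemma wheel_hit (G : SimpleGraph (Fin n)) (u v x s y : Fin n) (h : IsWheel G u v x s y) :
    (((triangles G).filter (fun t => ∀ i, ¬ (wp u v x s y i ∈ t ∧ wq u v x s y i ∈ t))).card : ℝ) ≤
      ((triangles G).card : ℝ) + 64 - ∑ i, (codeg G (wp u v x s y i) (wq u v x s y i) : ℝ) := by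
  set A : Fin 8 → Finset (Finset (Fin n)) := fun i =>
    (triangles G).filter (fun t => wp u v x s y i ∈ t ∧ wq u v x s y i ∈ t) with hA
  have h1 : ∑ i, (A i).card ≤ (univ.biUnion A).card + (univ : Finset (Fin 8)).card ^ 2 := by
    apply sum_card_le_union
    intro i _ j _ hij
    have hne := G.ne_of_adj (isWheel_adj h i)
    rcases isWheel_sep h i j hij with ⟨a1, a2⟩ | ⟨a1, a2⟩
    · refine le_trans (Finset.card_le_card ?_)
        (card_three_le_one G (wp u v x s y i) (wq u v x s y i) (wp u v x s y j) hne a1.symm a2.symm)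
      intro t ht
      simp only [hA, Finset.mem_inter, Finset.mem_filter] at ht ⊢
      exact ⟨ht.1.1, ht.1.2.1, ht.1.2.2, ht.2.2.1⟩
    · refine le_trans (Finset.card_le_card ?_)
        (card_three_le_one G (wp u v x s y i) (wq u v x s y i) (wq u v x s y j) hne a1.symm a2.symm)
      intro t ht
      simp only [hA, Finset.mem_inter, Finset.mem_filter] at ht ⊢
      exact ⟨ht.1.1, ht.1.2.1, ht.1.2.2, ht.2.2.2⟩
  have h2 : ∀ i, (A i).card = codeg G (wp u v x s y i) (wq u v x s y i) := fun i =>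
    card_triangles_edge G _ _ (isWheel_adj h i)
  have h3 : (univ.biUnion A) = (triangles G).filter
      (fun t => ¬ ∀ i, ¬ (wp u v x s y i ∈ t ∧ wq u v x s y i ∈ t)) := by
    ext t
    simp only [hA, Finset.mem_biUnion, Finset.mem_univ, true_and, Finset.mem_filter]
    push Not
    constructor
    · rintro ⟨i, h1, h2⟩
      exact ⟨h1, i, h2⟩
    · rintro ⟨h1, i, h2⟩
      exact ⟨i, h1, h2⟩
  have h4 := Finset.card_filter_add_card_filter_not (s := triangles G)
    (fun t => ∀ i, ¬ (wp u v x s y i ∈ t ∧ wq u v x s y i ∈ t))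
  rw [h3] at h1
  simp only [h2, Finset.card_univ, Fintype.card_fin] at h1
  have h5 : (∑ i, (codeg G (wp u v x s y i) (wq u v x s y i) : ℝ)) ≤
      (((triangles G).filter
      (fun t => ¬ ∀ i, ¬ (wp u v x s y i ∈ t ∧ wq u v x s y i ∈ t))).card : ℝ) + 64 := by
    have : ((∑ i, codeg G (wp u v x s y i) (wq u v x s y i) : ℕ) : ℝ) ≤
      (((((triangles G).filter
      (fun t => ¬ ∀ i, ¬ (wp u v x s y i ∈ t ∧ wq u v x s y i ∈ t))).card + 8 ^ 2 : ℕ)) : ℝ) := by
      exact_mod_cast h1
    push_cast at this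
    linarith only [this]
  have h6 : ((triangles G).card : ℝ) = (((triangles G).filter (fun t => ∀ i, ¬ (wp u v x s y i ∈ t ∧ wq u v x s y i ∈ t))).card : ℝ) +
    (((triangles G).filter
      (fun t => ¬ ∀ i, ¬ (wp u v x s y i ∈ t ∧ wq u v x s y i ∈ t))).card : ℝ) := by
    exact_mod_cast h4.symm
  linarith only [h5, h6]

lemma isWheel_remove (G : SimpleGraph (Fin n)) (t : Finset (Fin n)) (u v x s y : Fin n) :
    IsWheel (removeTriangle G t) u v x s y ↔
      IsWheel G u v x s y ∧ ∀ i, ¬ (wp u v x s y i ∈ t ∧ wq u v x s y i ∈ t) := by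
  have e : (∀ i, ¬ (wp u v x s y i ∈ t ∧ wq u v x s y i ∈ t)) ↔
      (¬ (u ∈ t ∧ v ∈ t) ∧ ¬ (u ∈ t ∧ x ∈ t) ∧ ¬ (u ∈ t ∧ s ∈ t) ∧ ¬ (u ∈ t ∧ y ∈ t) ∧
        ¬ (v ∈ t ∧ x ∈ t) ∧ ¬ (x ∈ t ∧ s ∈ t) ∧ ¬ (s ∈ t ∧ y ∈ t) ∧ ¬ (y ∈ t ∧ v ∈ t)) := by
    constructor
    · intro h
      exact ⟨h 0, h 1, h 2, h 3, h 4, h 5, h 6, h 7⟩
    · rintro ⟨h0, h1, h2, h3, h4, h5, h6, h7⟩ i
      fin_cases i <;> simp only [wp, wq] <;> assumption
  rw [e]
  unfold IsWheel
  simp only [removeTriangle_adj]
  constructor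
  · rintro ⟨⟨a1, b1⟩, ⟨a2, b2⟩, ⟨a3, b3⟩, ⟨a4, b4⟩, ⟨a5, b5⟩, ⟨a6, b6⟩, ⟨a7, b7⟩, ⟨a8, b8⟩, a9, a10⟩
    exact ⟨⟨a1, a2, a3, a4, a5, a6, a7, a8, a9, a10⟩, b1, b2, b3, b4, b5, b6, b7, b8⟩
  · rintro ⟨⟨a1, a2, a3, a4, a5, a6, a7, a8, a9, a10⟩, b1, b2, b3, b4, b5, b6, b7, b8⟩
    exact ⟨⟨a1, b1⟩, ⟨a2, b2⟩, ⟨a3, b3⟩, ⟨a4, b4⟩, ⟨a5, b5⟩, ⟨a6, b6⟩, ⟨a7, b7⟩, ⟨a8, b8⟩, a9, a10⟩

lemma sum_wheels_remove (G : SimpleGraph (Fin n)) :
    ∑ t ∈ triangles G, wheels (removeTriangle G t) ≤
      ∑ u, ∑ v, ∑ x, ∑ s, ∑ y, if IsWheel G u v x s y then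
        (((triangles G).card : ℝ) + 64 -
          ∑ i, (codeg G (wp u v x s y i) (wq u v x s y i) : ℝ)) else 0 := by
  have h1 : ∑ t ∈ triangles G, wheels (removeTriangle G t) =
      ∑ u, ∑ v, ∑ x, ∑ s, ∑ y, ∑ t ∈ triangles G,
        if IsWheel (removeTriangle G t) u v x s y then (1 : ℝ) else 0 := by
    unfold wheels
    rw [Finset.sum_comm]
    refine Finset.sum_congr rfl fun u _ => ?_
    rw [Finset.sum_comm]
    refine Finset.sum_congr rfl fun v _ => ?_
    rw [Finset.sum_comm]
    refine Finset.sum_congr rfl fun x _ => ?_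
    rw [Finset.sum_comm]
    refine Finset.sum_congr rfl fun s _ => ?_
    rw [Finset.sum_comm]
  rw [h1]
  refine Finset.sum_le_sum fun u _ => Finset.sum_le_sum fun v _ => Finset.sum_le_sum fun x _ =>
    Finset.sum_le_sum fun s _ => Finset.sum_le_sum fun y _ => ?_
  by_cases h : IsWheel G u v x s y
  · rw [if_pos h]
    refine le_trans (le_of_eq ?_) (wheel_hit G u v x s y h)
    rw [Finset.card_filter]
    push_cast
    refine Finset.sum_congr rfl fun t _ => ?_
    have := isWheel_remove G t u v x s y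
    by_cases h2 : ∀ i, ¬ (wp u v x s y i ∈ t ∧ wq u v x s y i ∈ t)
    · rw [if_pos h2, if_pos (this.mpr ⟨h, h2⟩)]
    · rw [if_neg h2, if_neg (fun h3 => h2 (this.mp h3).2)]
  · rw [if_neg h]
    apply le_of_eq
    apply Finset.sum_eq_zero
    intro t _
    rw [if_neg]
    intro h3
    exact h ((isWheel_remove G t u v x s y).mp h3).1

end Vale.Agent.P046.C
end
end

section

section

set_option autoImplicit false

open scoped Classical
open Finset

namespace Vale.Agent.P046.OS

variable {n : ℕ}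


/-- `edgeSum` of codegrees is six times the number of triangles -/
lemma edgeSum_codeg (G : SimpleGraph (Fin n)) :
    edgeSum G (fun u v => (codeg G u v : ℝ)) = 6 * ((triangles G).card : ℝ) := by
  have h1 : edgeSum G (fun u v => (codeg G u v : ℝ)) =
      ∑ t ∈ triangles G, ∑ u, ∑ v, if G.Adj u v ∧ (u ∈ t ∧ v ∈ t) then (1:ℝ) else 0 := by
    unfold edgeSum
    rw [Finset.sum_comm' (t' := univ) (s' := fun _ => triangles G) (by simp only [mem_univ, and_true, implies_true])]
    refine Finset.sum_congr rfl fun u _ => ?_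
    rw [Finset.sum_comm' (t' := univ) (s' := fun _ => triangles G) (by simp only [mem_univ, and_true, implies_true])]
    refine Finset.sum_congr rfl fun v _ => ?_
    beta_reduce
    by_cases h : G.Adj u v
    · rw [if_pos h, ← card_triangles_edge G u v h, Finset.card_filter]
      push_cast
      refine Finset.sum_congr rfl fun t _ => ?_
      by_cases h2 : u ∈ t ∧ v ∈ t
      · rw [if_pos h2, if_pos ⟨h, h2⟩]
      · rw [if_neg h2, if_neg (fun h3 => h2 h3.2)]
    · rw [if_neg h]
      symm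
      apply Finset.sum_eq_zero
      intro t _
      rw [if_neg (fun h3 => h h3.1)]
  rw [h1]
  have h2 : ∀ t ∈ triangles G, (∑ u, ∑ v, if G.Adj u v ∧ (u ∈ t ∧ v ∈ t) then (1:ℝ) else 0) = 6 := by
    intro t ht
    have htc : G.IsNClique 3 t := by
      unfold triangles at ht
      exact (SimpleGraph.mem_cliqueFinset_iff).mp ht
    have hcard := htc.card_eq
    have h3 : ∀ u, (∑ v, if G.Adj u v ∧ (u ∈ t ∧ v ∈ t) then (1:ℝ) else 0) =
        if u ∈ t then 2 else 0 := by
      intro u
      by_cases hu : u ∈ t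
      · rw [if_pos hu, ← Finset.sum_filter, Finset.sum_const, nsmul_eq_mul, mul_one]
        have : (univ.filter fun v => G.Adj u v ∧ (u ∈ t ∧ v ∈ t)) = t.erase u := by
          ext v
          simp only [Finset.mem_filter, Finset.mem_univ, true_and, Finset.mem_erase]
          constructor
          · rintro ⟨h, -, hv⟩
            exact ⟨(G.ne_of_adj h).symm, hv⟩
          · rintro ⟨h, hv⟩
            exact ⟨htc.isClique hu hv (Ne.symm h), hu, hv⟩
        rw [this, Finset.card_erase_of_mem hu, hcard]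
        norm_num
      · rw [if_neg hu]
        apply Finset.sum_eq_zero
        intro v _
        rw [if_neg (fun h => hu h.2.1)]
    simp only [h3]
    rw [← Finset.sum_filter, Finset.sum_const, nsmul_eq_mul]
    have : (univ.filter fun u => u ∈ t) = t := by ext; simp only [subset_univ, filter_mem_eq_of_subset]
    rw [this, hcard]
    norm_num
  rw [Finset.sum_congr rfl h2, Finset.sum_const, nsmul_eq_mul]
  ring



end Vale.Agent.P046.OS
end
end

section

section

set_option autoImplicit false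

open scoped Classical
open Finset

namespace Vale.Agent.P046.C

open Vale.Agent.P046 Vale.Agent.P046.OS

variable {n : ℕ}

lemma rot4 (F : Fin n → Fin n → Fin n → Fin n → ℝ) :
    ∑ v, ∑ x, ∑ s, ∑ y, F v x s y = ∑ v, ∑ x, ∑ s, ∑ y, F y v x s := by
  symm
  calc ∑ v, ∑ x, ∑ s, ∑ y, F y v x s = ∑ v, ∑ x, ∑ y, ∑ s, F y v x s := by
        refine Finset.sum_congr rfl fun v _ => Finset.sum_congr rfl fun x _ => ?_
        rw [Finset.sum_comm]
    _ = ∑ v, ∑ y, ∑ x, ∑ s, F y v x s := by
        refine Finset.sum_congr rfl fun v _ => ?_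
        rw [Finset.sum_comm]
    _ = ∑ y, ∑ v, ∑ x, ∑ s, F y v x s := by
        rw [Finset.sum_comm]

/-- indicator of wheels all of whose codegrees are at most `K` -/
noncomputable def wInd (G : SimpleGraph (Fin n)) (K : ℝ) (u v x s y : Fin n) : ℝ :=
  if IsWheel G u v x s y ∧ ∀ i, (codeg G (wp u v x s y i) (wq u v x s y i) : ℝ) ≤ K then 1 else 0

lemma wInd_nonneg (G : SimpleGraph (Fin n)) (K : ℝ) (u v x s y : Fin n) :
    0 ≤ wInd G K u v x s y := by
  unfold wInd; split_ifs <;> norm_num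

lemma wInd_rot (G : SimpleGraph (Fin n)) (K : ℝ) (u v x s y : Fin n) :
    wInd G K u y v x s = wInd G K u v x s y := by
  unfold wInd
  have h1 : IsWheel G u y v x s ↔ IsWheel G u v x s y := by
    unfold IsWheel
    constructor
    · rintro ⟨a1, a2, a3, a4, a5, a6, a7, a8, a9, a10⟩
      exact ⟨a2, a3, a4, a1, a6, a7, a8, a5, a10, a9.symm⟩
    · rintro ⟨a1, a2, a3, a4, a5, a6, a7, a8, a9, a10⟩
      exact ⟨a4, a1, a2, a3, a8, a5, a6, a7, a10.symm, a9⟩
  have h2 : (∀ i, (codeg G (wp u y v x s i) (wq u y v x s i) : ℝ) ≤ K) ↔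
      (∀ i, (codeg G (wp u v x s y i) (wq u v x s y i) : ℝ) ≤ K) := by
    constructor
    · intro h i
      fin_cases i
      · exact h 1
      · exact h 2
      · exact h 3
      · exact h 0
      · exact h 5
      · exact h 6
      · exact h 7
      · exact h 4
    · intro h i
      fin_cases i
      · exact h 3
      · exact h 0
      · exact h 1
      · exact h 2
      · exact h 7
      · exact h 4
      · exact h 5
      · exact h 6
  by_cases h : IsWheel G u v x s y ∧
      (∀ i, (codeg G (wp u v x s y i) (wq u v x s y i) : ℝ) ≤ K)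
  · rw [if_pos h, if_pos ⟨h1.mpr h.1, h2.mpr h.2⟩]
  · rw [if_neg h, if_neg (fun h3 => h ⟨h1.mp h3.1, h2.mp h3.2⟩)]

lemma wInd_le (G : SimpleGraph (Fin n)) (K : ℝ) (u v x s y : Fin n) :
    wInd G K u v x s y ≤ (if G.Adj u x ∧ G.Adj v x then (1:ℝ) else 0) *
      ((if (codeg G u x : ℝ) ≤ K then (1:ℝ) else 0) * (if G.Adj u s ∧ G.Adj x s then (1:ℝ) else 0)) *
      (if G.Adj u y ∧ G.Adj v y then (1:ℝ) else 0) := by
  unfold wInd
  split_ifs with h h1 h2 h3 h4 <;> try norm_num
  all_goals
    obtain ⟨⟨a1, a2, a3, a4, a5, a6, a7, a8, a9, a10⟩, hK⟩ := h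
  · exact h4 ⟨a4, a8.symm⟩
  · exact h3 ⟨a3, a6⟩
  · exact h3 ⟨a3, a6⟩
  · exact h2 (hK 1)
  · exact h2 (hK 1)
  · exact h2 (hK 1)
  · exact h2 (hK 1)
  all_goals exact h1 ⟨a2, a5⟩

lemma spoke_bound (G : SimpleGraph (Fin n)) (K : ℝ) (hK : 0 ≤ K) (L : Fin n → Fin n → ℝ)
    (hL : ∀ a b, 0 ≤ L a b) :
    ∑ u, ∑ v, ∑ x, ∑ s, ∑ y, wInd G K u v x s y * L u v ≤ K ^ 3 * edgeSum G L := by
  unfold edgeSum
  simp only [Finset.mul_sum]
  refine Finset.sum_le_sum fun u _ => Finset.sum_le_sum fun v _ => ?_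
  by_cases huv : G.Adj u v ∧ (codeg G u v : ℝ) ≤ K
  · rw [if_pos huv.1]
    calc ∑ x, ∑ s, ∑ y, wInd G K u v x s y * L u v
        ≤ ∑ x, ∑ s, ∑ y, ((if G.Adj u x ∧ G.Adj v x then (1:ℝ) else 0) *
      ((if (codeg G u x : ℝ) ≤ K then (1:ℝ) else 0) * (if G.Adj u s ∧ G.Adj x s then (1:ℝ) else 0)) *
      (if G.Adj u y ∧ G.Adj v y then (1:ℝ) else 0)) * L u v := by
          refine Finset.sum_le_sum fun x _ => Finset.sum_le_sum fun s _ =>
            Finset.sum_le_sum fun y _ => ?_
          exact mul_le_mul_of_nonneg_right (wInd_le G K u v x s y) (hL u v)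
      _ = ∑ x, ((if G.Adj u x ∧ G.Adj v x then (1:ℝ) else 0) *
      ((if (codeg G u x : ℝ) ≤ K then (1:ℝ) else 0) * (codeg G u x : ℝ)) * (codeg G u v : ℝ)) * L u v := by
          refine Finset.sum_congr rfl fun x _ => ?_
          rw [codeg_real G u x, codeg_real G u v]
          simp only [← Finset.sum_mul, ← Finset.mul_sum]
      _ ≤ ∑ x, ((if G.Adj u x ∧ G.Adj v x then (1:ℝ) else 0) * K * K) * L u v := by
          refine Finset.sum_le_sum fun x _ => ?_
          refine mul_le_mul_of_nonneg_right ?_ (hL u v)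
          have h1 : (if (codeg G u x : ℝ) ≤ K then (1:ℝ) else 0) * (codeg G u x : ℝ) ≤ K := by
            split_ifs with h
            · linarith
            · linarith
          have h0 : 0 ≤ (if (codeg G u x : ℝ) ≤ K then (1:ℝ) else 0) * (codeg G u x : ℝ) := by
            split_ifs <;> positivity
          have h2 : 0 ≤ (if G.Adj u x ∧ G.Adj v x then (1:ℝ) else 0) := by
            split_ifs <;> norm_num
          have h3 : (0:ℝ) ≤ codeg G u v := by positivity
          calc _ ≤ (if G.Adj u x ∧ G.Adj v x then (1:ℝ) else 0) * K * (codeg G u v : ℝ) := by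
                gcongr
            _ ≤ _ := by
                gcongr
                exact huv.2
      _ = (codeg G u v : ℝ) * K * K * L u v := by
          rw [codeg_real G u v]
          simp only [← Finset.sum_mul]
      _ ≤ K * K * K * L u v := by
          have := huv.2
          have h4 := hL u v
          gcongr
      _ = K ^ 3 * L u v := by ring
  · have h0 : ∀ x s y, wInd G K u v x s y = 0 := by
      intro x s y
      unfold wInd
      rw [if_neg]
      rintro ⟨h1, h2⟩
      exact huv ⟨h1.1, h2 0⟩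
    simp only [h0, zero_mul, Finset.sum_const_zero]
    split_ifs
    · exact mul_nonneg (by positivity) (hL u v)
    · simp

lemma rim_bound (G : SimpleGraph (Fin n)) (K : ℝ) (hK : 0 ≤ K) (L : Fin n → Fin n → ℝ)
    (hL : ∀ a b, 0 ≤ L a b) :
    ∑ u, ∑ v, ∑ x, ∑ s, ∑ y, wInd G K u v x s y * L v x ≤ K ^ 3 * edgeSum G L := by
  have hcomm : ∑ u, ∑ v, ∑ x, ∑ s, ∑ y, wInd G K u v x s y * L v x =
      ∑ v, ∑ x, ∑ u, ∑ s, ∑ y, wInd G K u v x s y * L v x := by
    rw [Finset.sum_comm]
    refine Finset.sum_congr rfl fun v _ => ?_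
    rw [Finset.sum_comm]
  rw [hcomm]
  unfold edgeSum
  simp only [Finset.mul_sum]
  refine Finset.sum_le_sum fun v _ => Finset.sum_le_sum fun x _ => ?_
  by_cases hvx : G.Adj v x ∧ (codeg G v x : ℝ) ≤ K
  · rw [if_pos hvx.1]
    have hle : ∀ u s y, wInd G K u v x s y ≤ (if G.Adj v u ∧ G.Adj x u then (1:ℝ) else 0) *
      ((if (codeg G u x : ℝ) ≤ K then (1:ℝ) else 0) * (if G.Adj u s ∧ G.Adj x s then (1:ℝ) else 0)) *
      ((if (codeg G u v : ℝ) ≤ K then (1:ℝ) else 0) * (if G.Adj u y ∧ G.Adj v y then (1:ℝ) else 0)) := by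
      intro u s y
      by_cases h : IsWheel G u v x s y ∧ ∀ i, (codeg G (wp u v x s y i) (wq u v x s y i) : ℝ) ≤ K
      · have h' := h
        obtain ⟨⟨a1, a2, a3, a4, a5, a6, a7, a8, a9, a10⟩, hK'⟩ := h
        unfold wInd
        have e1 : (codeg G u v : ℝ) ≤ K := hK' 0
        have e2 : (codeg G u x : ℝ) ≤ K := hK' 1
        rw [if_pos h', if_pos ⟨a1.symm, a2.symm⟩, if_pos e2, if_pos ⟨a3, a6⟩, if_pos e1,
          if_pos ⟨a4, a8.symm⟩]
        norm_num
      · unfold wInd
        rw [if_neg h]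
        split_ifs <;> norm_num
    calc ∑ u, ∑ s, ∑ y, wInd G K u v x s y * L v x
        ≤ ∑ u, ∑ s, ∑ y, ((if G.Adj v u ∧ G.Adj x u then (1:ℝ) else 0) *
      ((if (codeg G u x : ℝ) ≤ K then (1:ℝ) else 0) * (if G.Adj u s ∧ G.Adj x s then (1:ℝ) else 0)) *
      ((if (codeg G u v : ℝ) ≤ K then (1:ℝ) else 0) * (if G.Adj u y ∧ G.Adj v y then (1:ℝ) else 0))) *
        L v x := by
          refine Finset.sum_le_sum fun u _ => Finset.sum_le_sum fun s _ =>
            Finset.sum_le_sum fun y _ => ?_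
          exact mul_le_mul_of_nonneg_right (hle u s y) (hL v x)
      _ = ∑ u, ((if G.Adj v u ∧ G.Adj x u then (1:ℝ) else 0) *
      ((if (codeg G u x : ℝ) ≤ K then (1:ℝ) else 0) * (codeg G u x : ℝ)) *
      ((if (codeg G u v : ℝ) ≤ K then (1:ℝ) else 0) * (codeg G u v : ℝ))) * L v x := by
          refine Finset.sum_congr rfl fun u _ => ?_
          rw [codeg_real G u x, codeg_real G u v]
          simp only [← Finset.sum_mul, ← Finset.mul_sum]
      _ ≤ ∑ u, ((if G.Adj v u ∧ G.Adj x u then (1:ℝ) else 0) * K * K) * L v x := by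
          refine Finset.sum_le_sum fun u _ => ?_
          refine mul_le_mul_of_nonneg_right ?_ (hL v x)
          have h1 : ∀ a b, (if (codeg G a b : ℝ) ≤ K then (1:ℝ) else 0) * (codeg G a b : ℝ) ≤ K := by
            intro a b
            split_ifs with h
            · linarith
            · linarith
          have h0 : ∀ a b, 0 ≤ (if (codeg G a b : ℝ) ≤ K then (1:ℝ) else 0) * (codeg G a b : ℝ) := by
            intro a b
            split_ifs <;> positivity
          have h2 : 0 ≤ (if G.Adj v u ∧ G.Adj x u then (1:ℝ) else 0) := by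
            split_ifs <;> norm_num
          have g1 := h1 u x
          have g2 := h1 u v
          have g3 := h0 u x
          have g4 := h0 u v
          gcongr
      _ = (codeg G v x : ℝ) * K * K * L v x := by
          rw [codeg_real G v x]
          simp only [← Finset.sum_mul]
      _ ≤ K * K * K * L v x := by
          have := hvx.2
          have h4 := hL v x
          gcongr
      _ = K ^ 3 * L v x := by ring
  · have h0 : ∀ u s y, wInd G K u v x s y = 0 := by
      intro u s y
      unfold wInd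
      rw [if_neg]
      rintro ⟨h1, h2⟩
      exact hvx ⟨h1.2.2.2.2.1, h2 4⟩
    simp only [h0, zero_mul, Finset.sum_const_zero]
    split_ifs
    · exact mul_nonneg (by positivity) (hL v x)
    · simp

/-- rotating the rim -/
lemma rot_L (G : SimpleGraph (Fin n)) (K : ℝ) (F : Fin n → Fin n → Fin n → Fin n → Fin n → ℝ) :
    ∑ u, ∑ v, ∑ x, ∑ s, ∑ y, wInd G K u v x s y * F u v x s y =
      ∑ u, ∑ v, ∑ x, ∑ s, ∑ y, wInd G K u v x s y * F u y v x s := by
  refine Finset.sum_congr rfl fun u _ => ?_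
  rw [rot4]
  refine Finset.sum_congr rfl fun v _ => Finset.sum_congr rfl fun x _ =>
    Finset.sum_congr rfl fun s _ => Finset.sum_congr rfl fun y _ => ?_
  rw [wInd_rot]

lemma all_edges_bound (G : SimpleGraph (Fin n)) (K : ℝ) (hK : 0 ≤ K) (L : Fin n → Fin n → ℝ)
    (hL : ∀ a b, 0 ≤ L a b) :
    ∑ u, ∑ v, ∑ x, ∑ s, ∑ y, wInd G K u v x s y *
      (∑ i, L (wp u v x s y i) (wq u v x s y i)) ≤ 8 * (K ^ 3 * edgeSum G L) := by
  have s0 := spoke_bound G K hK L hL
  have r0 := rim_bound G K hK L hL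
  have s1 : ∑ u, ∑ v, ∑ x, ∑ s, ∑ y, wInd G K u v x s y * L u y =
      ∑ u, ∑ v, ∑ x, ∑ s, ∑ y, wInd G K u v x s y * L u v := by
    rw [rot_L G K (fun u v _ _ _ => L u v)]
  have s2 : ∑ u, ∑ v, ∑ x, ∑ s, ∑ y, wInd G K u v x s y * L u s =
      ∑ u, ∑ v, ∑ x, ∑ s, ∑ y, wInd G K u v x s y * L u y := by
    rw [rot_L G K (fun u _ _ _ y => L u y)]
  have s3 : ∑ u, ∑ v, ∑ x, ∑ s, ∑ y, wInd G K u v x s y * L u x =
      ∑ u, ∑ v, ∑ x, ∑ s, ∑ y, wInd G K u v x s y * L u s := by
    rw [rot_L G K (fun u _ _ s _ => L u s)]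
  have r1 : ∑ u, ∑ v, ∑ x, ∑ s, ∑ y, wInd G K u v x s y * L y v =
      ∑ u, ∑ v, ∑ x, ∑ s, ∑ y, wInd G K u v x s y * L v x := by
    rw [rot_L G K (fun _ v x _ _ => L v x)]
  have r2 : ∑ u, ∑ v, ∑ x, ∑ s, ∑ y, wInd G K u v x s y * L s y =
      ∑ u, ∑ v, ∑ x, ∑ s, ∑ y, wInd G K u v x s y * L y v := by
    rw [rot_L G K (fun _ v _ _ y => L y v)]
  have r3 : ∑ u, ∑ v, ∑ x, ∑ s, ∑ y, wInd G K u v x s y * L x s =
      ∑ u, ∑ v, ∑ x, ∑ s, ∑ y, wInd G K u v x s y * L s y := by
    rw [rot_L G K (fun _ _ _ s y => L s y)]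
  have e : ∀ u v x s y : Fin n, (∑ i, L (wp u v x s y i) (wq u v x s y i)) =
      L u v + L u x + L u s + L u y + L v x + L x s + L s y + L y v := by
    intro u v x s y
    simp [Fin.sum_univ_eight, wp, wq]
  simp only [e, mul_add, Finset.sum_add_distrib]
  linarith

/-- the wheel inequality -/
theorem wheel_drift (G : SimpleGraph (Fin n)) (ε : ℝ) (hε : 0 ≤ ε) :
    ∑ t ∈ triangles G, wheels (removeTriangle G t) ≤
      (((triangles G).card : ℝ) + 64 - 8 * (1 - ε) * cc G) * wheels G +
        32768 * (cc G) ^ 4 * lowCount G ε := by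
  set c := cc G with hc
  have hc0 : 0 ≤ c := by rw [hc]; unfold cc; positivity
  set T := ((triangles G).card : ℝ) with hT
  set L : Fin n → Fin n → ℝ := fun u v => if rr G u v < 1 - ε then 1 else 0 with hLdef
  have hL : ∀ a b, 0 ≤ L a b := by
    intro a b; simp only [hLdef]; split_ifs <;> norm_num
  have hb := all_edges_bound G (8 * c) (by positivity) L hL
  have hlow : edgeSum G L = lowCount G ε := rfl
  rw [hlow] at hb
  refine le_trans (sum_wheels_remove G) ?_
  have hpt : ∀ u v x s y : Fin n, (if IsWheel G u v x s y then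
        (T + 64 - ∑ i, (codeg G (wp u v x s y i) (wq u v x s y i) : ℝ)) else 0) ≤
      (T + 64 - 8 * (1 - ε) * c) * (if IsWheel G u v x s y then 1 else 0) +
        8 * c * (wInd G (8 * c) u v x s y *
      (∑ i, L (wp u v x s y i) (wq u v x s y i))) := by
    intro u v x s y
    have hLs : 0 ≤ ∑ i, L (wp u v x s y i) (wq u v x s y i) := Finset.sum_nonneg fun i _ => hL _ _
    have hwi := wInd_nonneg G (8 * c) u v x s y
    by_cases hW : IsWheel G u v x s y
    · rw [if_pos hW, if_pos hW, mul_one]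
      have hadj := isWheel_adj hW
      -- c > 0 since there is an edge
      have hn : 0 < n := by
        rcases Nat.eq_zero_or_pos n with h0 | h0
        · subst h0; exact u.elim0
        · exact h0
      have hE : 0 < numEdges G := by
        unfold numEdges
        rw [Finset.card_pos]
        exact ⟨s(u, v), by simpa using hW.1⟩
      have hcpos : 0 < c := by
        rw [hc]; unfold cc
        have h1 : (0:ℝ) < numEdges G := by exact_mod_cast hE
        have h2 : (0:ℝ) < n := by exact_mod_cast hn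
        positivity
      have hrr : ∀ a b, rr G a b = (codeg G a b : ℝ) / c := by
        intro a b
        rw [hc]; unfold rr cc
        rw [div_div_eq_mul_div]
      by_cases hall : ∀ i, (codeg G (wp u v x s y i) (wq u v x s y i) : ℝ) ≤ 8 * c
      · by_cases hlowi : ∃ i, rr G (wp u v x s y i) (wq u v x s y i) < 1 - ε
        · obtain ⟨i, hi⟩ := hlowi
          have h1 : 1 ≤ ∑ i, L (wp u v x s y i) (wq u v x s y i) := by
            have h2 : L (wp u v x s y i) (wq u v x s y i) = 1 := by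
              simp only [hLdef]; rw [if_pos hi]
            rw [← h2]
            exact Finset.single_le_sum (f := fun j => L (wp u v x s y j) (wq u v x s y j))
              (fun j _ => hL _ _) (Finset.mem_univ i)
          have h3 : wInd G (8 * c) u v x s y = 1 := by
            unfold wInd; rw [if_pos ⟨hW, hall⟩]
          rw [h3, one_mul]
          have h4 : 0 ≤ ∑ i, (codeg G (wp u v x s y i) (wq u v x s y i) : ℝ) :=
            Finset.sum_nonneg fun i _ => by positivity
          nlinarith only [h4, hε, hc0, h1]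
        · push Not at hlowi
          have h4 : 8 * (1 - ε) * c ≤ ∑ i, (codeg G (wp u v x s y i) (wq u v x s y i) : ℝ) := by
            calc 8 * (1 - ε) * c = ∑ _i : Fin 8, (1 - ε) * c := by
                  rw [Finset.sum_const, Finset.card_univ, Fintype.card_fin, nsmul_eq_mul]
                  push_cast; ring
              _ ≤ _ := by
                  refine Finset.sum_le_sum fun i _ => ?_
                  have := hlowi i
                  rw [hrr, le_div_iff₀ hcpos] at this
                  exact this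
          have h5 : 0 ≤ 8 * c * (wInd G (8 * c) u v x s y *
            (∑ i, L (wp u v x s y i) (wq u v x s y i))) := by positivity
          linarith only [h4, h5]
      · push Not at hall
        obtain ⟨i, hi⟩ := hall
        have h4 : 8 * c ≤ ∑ i, (codeg G (wp u v x s y i) (wq u v x s y i) : ℝ) := by
          refine le_trans hi.le ?_
          exact Finset.single_le_sum (f := fun j => (codeg G (wp u v x s y j) (wq u v x s y j) : ℝ))
              (fun j _ => by positivity) (Finset.mem_univ i)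
        have h5 : 0 ≤ 8 * c * (wInd G (8 * c) u v x s y *
            (∑ i, L (wp u v x s y i) (wq u v x s y i))) := by positivity
        nlinarith only [h4, h5, hε, hc0]
    · rw [if_neg hW, if_neg hW, mul_zero, zero_add]
      positivity
  calc ∑ u, ∑ v, ∑ x, ∑ s, ∑ y, (if IsWheel G u v x s y then
        (T + 64 - ∑ i, (codeg G (wp u v x s y i) (wq u v x s y i) : ℝ)) else 0)
      ≤ ∑ u, ∑ v, ∑ x, ∑ s, ∑ y, ((T + 64 - 8 * (1 - ε) * c) *
          (if IsWheel G u v x s y then 1 else 0) +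
        8 * c * (wInd G (8 * c) u v x s y *
      (∑ i, L (wp u v x s y i) (wq u v x s y i)))) := by
        refine Finset.sum_le_sum fun u _ => Finset.sum_le_sum fun v _ =>
          Finset.sum_le_sum fun x _ => Finset.sum_le_sum fun s _ => Finset.sum_le_sum fun y _ => ?_
        exact hpt u v x s y
    _ = (T + 64 - 8 * (1 - ε) * c) * wheels G + 8 * c *
        (∑ u, ∑ v, ∑ x, ∑ s, ∑ y, wInd G (8 * c) u v x s y *
      (∑ i, L (wp u v x s y i) (wq u v x s y i))) := by
        unfold wheels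
        simp only [Finset.sum_add_distrib, ← Finset.mul_sum]
    _ ≤ _ := by
        have : 8 * c * (∑ u, ∑ v, ∑ x, ∑ s, ∑ y, wInd G (8 * c) u v x s y *
          (∑ i, L (wp u v x s y i) (wq u v x s y i))) ≤ 8 * c * (8 * ((8 * c) ^ 3 * lowCount G ε)) :=
          mul_le_mul_of_nonneg_left hb (by positivity)
        linarith only [this]

end Vale.Agent.P046.C
end
end

section

section

set_option autoImplicit false

open scoped Classical
open Finset

namespace Vale.Agent.P046

lemma numEdges_top (n : ℕ) : numEdges (⊤ : SimpleGraph (Fin n)) = n.choose 2 := by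
  have := SimpleGraph.card_edgeFinset_top_eq_card_choose_two (V := Fin n)
  rw [Fintype.card_fin] at this
  rw [numEdges_eq_ncard, ← this, ← Set.ncard_coe_finset, SimpleGraph.coe_edgeFinset]

lemma codeg_top (n : ℕ) (u v : Fin n) (h : u ≠ v) :
    codeg (⊤ : SimpleGraph (Fin n)) u v = n - 2 := by
  have h1 : codeg (⊤ : SimpleGraph (Fin n)) u v = (univ \ {u, v} : Finset (Fin n)).card := by
    unfold codeg
    congr 1
    ext w
    simp only [SimpleGraph.top_adj, mem_filter, mem_univ, true_and, mem_sdiff, mem_insert,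
      mem_singleton, not_or]
    constructor
    · rintro ⟨h1, h2⟩
      exact ⟨fun h => h1 h.symm, fun h => h2 h.symm⟩
    · rintro ⟨h1, h2⟩
      exact ⟨fun h => h1 h.symm, fun h => h2 h.symm⟩
  rw [h1, Finset.card_sdiff_of_subset (Finset.subset_univ _), Finset.card_univ, Fintype.card_fin,
    Finset.card_pair h]

lemma choose_two_real (n : ℕ) : ((n.choose 2 : ℕ) : ℝ) = (n : ℝ) * ((n : ℝ) - 1) / 2 := by
  rw [Nat.cast_choose_two]



end Vale.Agent.P046
end
end

section

section

/-!
The noise lemma for the secondary kills.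
-/

set_option autoImplicit false

open scoped Classical
open Finset

namespace Vale.Agent.P046.C

open Vale.Agent.P046 Vale.Agent.P046.OS

variable {n : ℕ}

/-- secondary kills at the pair `u v` when the triangle `t` is removed -/
noncomputable def BB (G : SimpleGraph (Fin n)) (t : Finset (Fin n)) (u v : Fin n) : ℝ :=
  ∑ x, if G.Adj u x ∧ G.Adj v x ∧ ¬ (u ∈ t ∧ x ∈ t) ∧ ¬ (v ∈ t ∧ x ∈ t) then
    (kk G t u x + kk G t v x) else 0

/-- one side of `BB`, restricted to the edges `u x` with `p u x` -/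
noncomputable def BU (G : SimpleGraph (Fin n)) (t : Finset (Fin n)) (p : Fin n → Fin n → Prop)
    (u v : Fin n) : ℝ :=
  ∑ x, if (G.Adj u x ∧ G.Adj v x ∧ ¬ (u ∈ t ∧ x ∈ t) ∧ ¬ (v ∈ t ∧ x ∈ t)) ∧ p u x then
    kk G t u x else 0

lemma BU_nonneg (G : SimpleGraph (Fin n)) (t : Finset (Fin n)) (p : Fin n → Fin n → Prop)
    (u v : Fin n) : 0 ≤ BU G t p u v := by
  unfold BU
  refine Finset.sum_nonneg fun x _ => ?_
  split_ifs
  · exact kk_nonneg G t u x
  · exact le_rfl

/-- light pairs -/
def lgt (G : SimpleGraph (Fin n)) (K : ℝ) (u v : Fin n) : Prop := (codeg G u v : ℝ) ≤ K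

/-- heavy pairs -/
def hvy (G : SimpleGraph (Fin n)) (K : ℝ) (u v : Fin n) : Prop := K < (codeg G u v : ℝ)

lemma BB_split (G : SimpleGraph (Fin n)) (t : Finset (Fin n)) (K : ℝ) (u v : Fin n) :
    BB G t u v = (BU G t (lgt G K) u v + BU G t (lgt G K) v u) +
      (BU G t (hvy G K) u v + BU G t (hvy G K) v u) := by
  unfold BB BU
  rw [← Finset.sum_add_distrib, ← Finset.sum_add_distrib, ← Finset.sum_add_distrib]
  refine Finset.sum_congr rfl fun x _ => ?_
  by_cases h : G.Adj u x ∧ G.Adj v x ∧ ¬ (u ∈ t ∧ x ∈ t) ∧ ¬ (v ∈ t ∧ x ∈ t)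
  · have h' : G.Adj v x ∧ G.Adj u x ∧ ¬ (v ∈ t ∧ x ∈ t) ∧ ¬ (u ∈ t ∧ x ∈ t) :=
      ⟨h.2.1, h.1, h.2.2.2, h.2.2.1⟩
    rw [if_pos h]
    simp only [h, true_and, and_self, not_false_iff]
    by_cases h1 : (codeg G u x : ℝ) ≤ K <;> by_cases h2 : (codeg G v x : ℝ) ≤ K
    · rw [if_pos (show lgt G K u x from h1), if_pos (show lgt G K v x from h2),
        if_neg (show ¬ hvy G K u x from not_lt.2 h1), if_neg (show ¬ hvy G K v x from not_lt.2 h2)]
      ring
    · rw [if_pos (show lgt G K u x from h1), if_neg (show ¬ lgt G K v x from h2),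
        if_neg (show ¬ hvy G K u x from not_lt.2 h1), if_pos (show hvy G K v x from not_le.1 h2)]
      ring
    · rw [if_neg (show ¬ lgt G K u x from h1), if_pos (show lgt G K v x from h2),
        if_pos (show hvy G K u x from not_le.1 h1), if_neg (show ¬ hvy G K v x from not_lt.2 h2)]
      ring
    · rw [if_neg (show ¬ lgt G K u x from h1), if_neg (show ¬ lgt G K v x from h2),
        if_pos (show hvy G K u x from not_le.1 h1), if_pos (show hvy G K v x from not_le.1 h2)]
      ring
  · have h' : ¬ (G.Adj v x ∧ G.Adj u x ∧ ¬ (v ∈ t ∧ x ∈ t) ∧ ¬ (u ∈ t ∧ x ∈ t)) :=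
      fun h2 => h ⟨h2.2.1, h2.1, h2.2.2.2, h2.2.2.1⟩
    rw [if_neg h, if_neg (fun h2 => h h2.1), if_neg (fun h2 => h' h2.1),
      if_neg (fun h2 => h h2.1), if_neg (fun h2 => h' h2.1)]
    ring

lemma min_split (a b d : ℝ) (ha : 0 ≤ a) (hb : 0 ≤ b) (hd : 0 ≤ d) :
    min ((a + b) ^ 2) (4 * d * (a + b)) ≤ 4 * a ^ 2 + 16 * d * b := by
  by_cases h : b ≤ a
  · refine (min_le_left _ _).trans ?_
    have : 0 ≤ d * b := mul_nonneg hd hb
    nlinarith only [this, h, hb]
  · push Not at h
    refine (min_le_right _ _).trans ?_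
    have h1 : 0 ≤ d * (b - a) := mul_nonneg hd (by linarith only [h])
    linarith only [h1, sq_nonneg a, mul_nonneg hd hb]

/-- swapping the two vertices -/
lemma edgeSum_swap (G : SimpleGraph (Fin n)) (f : Fin n → Fin n → ℝ) :
    edgeSum G (fun u v => f v u) = edgeSum G f := by
  unfold edgeSum
  rw [Finset.sum_comm]
  refine Finset.sum_congr rfl fun u _ => Finset.sum_congr rfl fun v _ => ?_
  by_cases h : G.Adj u v
  · rw [if_pos h, if_pos h.symm]
  · rw [if_neg h, if_neg (fun h2 => h h2.symm)]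

/-- the sum over the triangles missing the pair -/
noncomputable def tS (G : SimpleGraph (Fin n)) (f : Finset (Fin n) → Fin n → Fin n → ℝ)
    (u v : Fin n) : ℝ :=
  ∑ t ∈ (triangles G).filter (fun t => ¬ (u ∈ t ∧ v ∈ t)), f t u v

lemma edgeSum_tS_swap (G : SimpleGraph (Fin n)) (f : Finset (Fin n) → Fin n → Fin n → ℝ) :
    edgeSum G (tS G (fun t u v => f t v u)) = edgeSum G (tS G f) := by
  rw [← edgeSum_swap G (tS G f)]
  congr 1
  funext u v
  unfold tS
  have : (triangles G).filter (fun t => ¬ (u ∈ t ∧ v ∈ t)) =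
      (triangles G).filter (fun t => ¬ (v ∈ t ∧ u ∈ t)) := by
    refine Finset.filter_congr fun t _ => ?_
    rw [and_comm]
  rw [this]

lemma split_bound (G : SimpleGraph (Fin n)) (K c d : ℝ) (hc : 0 < c) (hd : 0 ≤ d) :
    edgeSum G (tS G (fun t u v => min ((BB G t u v / c ^ 2) ^ 2) (4 * d * (BB G t u v / c ^ 2)))) ≤
      16 / c ^ 4 * edgeSum G (tS G (fun t u v => BU G t (lgt G K) u v ^ 2)) +
      32 * d / c ^ 2 * edgeSum G (tS G (fun t u v => BU G t (hvy G K) u v)) := by
  have hpt : ∀ t u v, min ((BB G t u v / c ^ 2) ^ 2) (4 * d * (BB G t u v / c ^ 2)) ≤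
      8 / c ^ 4 * BU G t (lgt G K) u v ^ 2 + 8 / c ^ 4 * BU G t (lgt G K) v u ^ 2 +
      (16 * d / c ^ 2 * BU G t (hvy G K) u v + 16 * d / c ^ 2 * BU G t (hvy G K) v u) := by
    intro t u v
    rw [BB_split G t K u v]
    set l1 := BU G t (lgt G K) u v
    set l2 := BU G t (lgt G K) v u
    set h1 := BU G t (hvy G K) u v
    set h2 := BU G t (hvy G K) v u
    have e1 : 0 ≤ l1 := BU_nonneg _ _ _ _ _
    have e2 : 0 ≤ l2 := BU_nonneg _ _ _ _ _
    have e3 : 0 ≤ h1 := BU_nonneg _ _ _ _ _
    have e4 : 0 ≤ h2 := BU_nonneg _ _ _ _ _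
    rw [add_div]
    refine (min_split ((l1 + l2) / c ^ 2) ((h1 + h2) / c ^ 2) d (by positivity) (by positivity)
      hd).trans ?_
    have e5 : 4 * ((l1 + l2) / c ^ 2) ^ 2 ≤ 8 / c ^ 4 * l1 ^ 2 + 8 / c ^ 4 * l2 ^ 2 := by
      have : 4 * ((l1 + l2) / c ^ 2) ^ 2 = (4 * (l1 + l2) ^ 2) / c ^ 4 := by
        rw [div_pow, ← pow_mul]; ring
      rw [this, ← mul_add, div_mul_eq_mul_div]
      refine div_le_div_of_nonneg_right ?_ (by positivity)
      linarith only [sq_nonneg (l1 - l2)]
    have e6 : 16 * d * ((h1 + h2) / c ^ 2) = 16 * d / c ^ 2 * h1 + 16 * d / c ^ 2 * h2 := by ring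
    linarith
  have h1 : edgeSum G (tS G (fun t u v =>
      min ((BB G t u v / c ^ 2) ^ 2) (4 * d * (BB G t u v / c ^ 2)))) ≤
      edgeSum G (fun u v => (8 / c ^ 4 * tS G (fun t u v => BU G t (lgt G K) u v ^ 2) u v +
        8 / c ^ 4 * tS G (fun t u v => BU G t (lgt G K) v u ^ 2) u v) +
      (16 * d / c ^ 2 * tS G (fun t u v => BU G t (hvy G K) u v) u v +
        16 * d / c ^ 2 * tS G (fun t u v => BU G t (hvy G K) v u) u v)) := by
    refine edgeSum_mono G _ _ fun u v _ => ?_
    unfold tS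
    rw [Finset.mul_sum, Finset.mul_sum, Finset.mul_sum, Finset.mul_sum, ← Finset.sum_add_distrib,
      ← Finset.sum_add_distrib, ← Finset.sum_add_distrib]
    exact Finset.sum_le_sum fun t _ => hpt t u v
  refine h1.trans (le_of_eq ?_)
  rw [edgeSum_add, edgeSum_add, edgeSum_add, edgeSum_mul, edgeSum_mul, edgeSum_mul, edgeSum_mul,
    edgeSum_tS_swap G (fun t u v => BU G t (lgt G K) u v ^ 2),
    edgeSum_tS_swap G (fun t u v => BU G t (hvy G K) u v)]
  ring

/-- sums over pairs with a common neighbour -/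
lemma sum_third (G : SimpleGraph (Fin n)) (F : Fin n → Fin n → ℝ) :
    edgeSum G (fun u v => ∑ x, if G.Adj u x ∧ G.Adj v x then F u x else 0) =
      edgeSum G (fun u x => (codeg G u x : ℝ) * F u x) := by
  unfold edgeSum
  refine Finset.sum_congr rfl fun u _ => ?_
  have h1 : ∀ v, (if G.Adj u v then ∑ x, (if G.Adj u x ∧ G.Adj v x then F u x else 0) else 0) =
      ∑ x, if G.Adj u x then (if G.Adj u v ∧ G.Adj x v then F u x else 0) else 0 := by
    intro v
    by_cases h : G.Adj u v
    · rw [if_pos h]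
      refine Finset.sum_congr rfl fun x _ => ?_
      by_cases h2 : G.Adj u x
      · by_cases h3 : G.Adj v x
        · rw [if_pos ⟨h2, h3⟩, if_pos h2, if_pos ⟨h, h3.symm⟩]
        · rw [if_neg (fun h4 => h3 h4.2), if_pos h2, if_neg (fun h4 => h3 h4.2.symm)]
      · rw [if_neg (fun h4 => h2 h4.1), if_neg h2]
    · rw [if_neg h]
      symm
      refine Finset.sum_eq_zero fun x _ => ?_
      rw [if_neg (fun h4 : G.Adj u v ∧ G.Adj x v => h h4.1)]
      simp
  rw [Finset.sum_congr rfl fun v _ => h1 v, Finset.sum_comm]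
  refine Finset.sum_congr rfl fun x _ => ?_
  by_cases h : G.Adj u x
  · simp only [if_pos h]
    rw [codeg_real, Finset.sum_mul]
    refine Finset.sum_congr rfl fun v _ => ?_
    split_ifs <;> simp
  · simp only [if_neg h, Finset.sum_const_zero]

/-- the heavy part -/
lemma heavy_bound (G : SimpleGraph (Fin n)) (K : ℝ) :
    edgeSum G (tS G (fun t u v => BU G t (hvy G K) u v)) ≤
      4 * edgeSum G (fun u v => if hvy G K u v then (codeg G u v : ℝ) ^ 3 else 0) := by
  have h1 : edgeSum G (tS G (fun t u v => BU G t (hvy G K) u v)) ≤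
      edgeSum G (fun u v => ∑ x, if G.Adj u x ∧ G.Adj v x then
        (if hvy G K u x then KK G u x else 0) else 0) := by
    refine edgeSum_mono G _ _ fun u v _ => ?_
    unfold tS BU
    rw [Finset.sum_comm]
    refine Finset.sum_le_sum fun x _ => ?_
    by_cases hx : G.Adj u x ∧ G.Adj v x
    · rw [if_pos hx]
      by_cases hh : hvy G K u x
      · rw [if_pos hh, ← sum_kk G u x hx.1]
        have h2 : ∑ t ∈ (triangles G).filter (fun t => ¬ (u ∈ t ∧ v ∈ t)),
            (if (G.Adj u x ∧ G.Adj v x ∧ ¬ (u ∈ t ∧ x ∈ t) ∧ ¬ (v ∈ t ∧ x ∈ t)) ∧ hvy G K u x then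
              kk G t u x else 0) ≤
            ∑ t ∈ triangles G, (if ¬ (u ∈ t ∧ x ∈ t) then kk G t u x else 0) := by
          refine (Finset.sum_le_sum_of_subset_of_nonneg (Finset.filter_subset _ _)
            fun t _ _ => ?_).trans (Finset.sum_le_sum fun t _ => ?_)
          · have hk := kk_nonneg G t u x
            split_ifs
            · exact hk
            · exact le_rfl
          · have hk := kk_nonneg G t u x
            by_cases h4 : (G.Adj u x ∧ G.Adj v x ∧ ¬ (u ∈ t ∧ x ∈ t) ∧ ¬ (v ∈ t ∧ x ∈ t)) ∧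
                hvy G K u x
            · rw [if_pos h4, if_pos h4.1.2.2.1]
            · rw [if_neg h4]
              split_ifs
              · exact le_rfl
              · exact hk
        refine h2.trans (le_of_eq ?_)
        rw [Finset.sum_filter]
      · rw [if_neg hh]
        refine le_of_eq (Finset.sum_eq_zero fun t _ => ?_)
        rw [if_neg (fun h4 => hh h4.2)]
    · rw [if_neg hx]
      refine le_of_eq (Finset.sum_eq_zero fun t _ => ?_)
      rw [if_neg (fun h4 => hx ⟨h4.1.1, h4.1.2.1⟩)]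
  refine h1.trans ?_
  rw [sum_third G (fun u x => if hvy G K u x then KK G u x else 0)]
  set g : Fin n → Fin n → ℝ := fun u v => if hvy G K u v then (codeg G u v : ℝ) ^ 2 else 0 with hg
  have h2 : edgeSum G (fun u x => (codeg G u x : ℝ) * (if hvy G K u x then KK G u x else 0)) =
      edgeSum G (fun u x => (if hvy G K u x then (codeg G u x : ℝ) else 0) * KK G u x) := by
    congr 1
    funext u x
    split_ifs <;> ring
  rw [h2, edgeSum_mul_KK]
  have h3 : triSum G (fun u v w => (if hvy G K u v then (codeg G u v : ℝ) else 0) *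
      ((codeg G u w : ℝ) + codeg G v w - 2)) ≤
      triSum G (fun u v w => ((g u v + g u v) + (g u w + g v w))) := by
    refine triSum_mono G _ _ fun u v w _ _ _ => ?_
    have key : ∀ a b : ℝ, K < a → 0 ≤ a → 0 ≤ b → a * b ≤ a ^ 2 + (if K < b then b ^ 2 else 0) := by
      intro a b hKa ha hb
      by_cases hab : a ≤ b
      · rw [if_pos (lt_of_lt_of_le hKa hab)]
        nlinarith only []
      · push Not at hab
        split_ifs <;> nlinarith only [ha, hab]
    have p1 : (0:ℝ) ≤ codeg G u v := Nat.cast_nonneg _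
    have p2 : (0:ℝ) ≤ codeg G u w := Nat.cast_nonneg _
    have p3 : (0:ℝ) ≤ codeg G v w := Nat.cast_nonneg _
    have q2 : 0 ≤ g u w := by simp only [hg]; split_ifs <;> positivity
    have q3 : 0 ≤ g v w := by simp only [hg]; split_ifs <;> positivity
    by_cases hh : hvy G K u v
    · have e1 : g u v = (codeg G u v : ℝ) ^ 2 := by simp only [hg]; rw [if_pos hh]
      rw [if_pos hh, e1]
      have k1 := key _ _ hh p1 p2
      have k2 := key _ _ hh p1 p3
      have e2 : g u w = if K < (codeg G u w : ℝ) then (codeg G u w : ℝ) ^ 2 else 0 := rfl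
      have e3 : g v w = if K < (codeg G v w : ℝ) then (codeg G v w : ℝ) ^ 2 else 0 := rfl
      rw [← e2] at k1
      rw [← e3] at k2
      linarith only [k1, k2]
    · have q1 : 0 ≤ g u v := by simp only [hg]; split_ifs <;> positivity
      rw [if_neg hh]
      linarith only [q2, q3, q1]
  refine h3.trans (le_of_eq ?_)
  have t1 : triSum G (fun u v w => g u w) = triSum G (fun u v w => g u v) :=
    (triSum_swap23 G (fun u v _ => g u v)).symm
  have t2 : triSum G (fun u v w => g v w) = triSum G (fun u v w => g u v) := by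
    rw [triSum_swap12]; exact t1
  rw [triSum_add G (fun u v _ => g u v + g u v) (fun u v w => g u w + g v w),
    triSum_add G (fun u v _ => g u v) (fun u v _ => g u v),
    triSum_add G (fun u _ w => g u w) (fun _ v w => g v w), t1, t2, ← edgeSum_codeg_mul G g]
  have t3 : edgeSum G (fun u v => (codeg G u v : ℝ) * g u v) =
      edgeSum G (fun u v => if hvy G K u v then (codeg G u v : ℝ) ^ 3 else 0) := by
    congr 1
    funext u v
    simp only [hg]
    split_ifs <;> ring
  rw [t3]
  ring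


/-- total number of kills of the first kind -/
noncomputable def Al (G : SimpleGraph (Fin n)) (t : Finset (Fin n)) (K : ℝ) (u v : Fin n) : ℝ :=
  ∑ x, if G.Adj u x ∧ G.Adj v x then (if lgt G K u x then
    (∑ y, if G.Adj u y ∧ G.Adj x y then (if x ∈ t ∧ y ∈ t then (1:ℝ) else 0) else 0) else 0) else 0

/-- light common neighbours of three vertices -/
noncomputable def C3 (G : SimpleGraph (Fin n)) (K : ℝ) (u v y : Fin n) : ℝ :=
  ∑ x, if (G.Adj u x ∧ G.Adj v x) ∧ G.Adj y x ∧ lgt G K u x then (1:ℝ) else 0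

/-- total number of kills of the second kind -/
noncomputable def Be (G : SimpleGraph (Fin n)) (t : Finset (Fin n)) (K : ℝ) (u v : Fin n) : ℝ :=
  ∑ y, if G.Adj u y ∧ u ∈ t ∧ y ∈ t then C3 G K u v y else 0

lemma C3_nonneg (G : SimpleGraph (Fin n)) (K : ℝ) (u v y : Fin n) : 0 ≤ C3 G K u v y := by
  unfold C3
  refine Finset.sum_nonneg fun x _ => ?_
  split_ifs <;> norm_num

lemma Al_nonneg (G : SimpleGraph (Fin n)) (t : Finset (Fin n)) (K : ℝ) (u v : Fin n) :
    0 ≤ Al G t K u v := by
  unfold Al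
  refine Finset.sum_nonneg fun x _ => ?_
  split_ifs
  · refine Finset.sum_nonneg fun y _ => ?_
    split_ifs <;> norm_num
  · exact le_rfl
  · exact le_rfl

lemma Be_nonneg (G : SimpleGraph (Fin n)) (t : Finset (Fin n)) (K : ℝ) (u v : Fin n) :
    0 ≤ Be G t K u v := by
  unfold Be
  refine Finset.sum_nonneg fun y _ => ?_
  split_ifs
  · exact C3_nonneg G K u v y
  · exact le_rfl

lemma BU_light_le (G : SimpleGraph (Fin n)) (t : Finset (Fin n)) (K : ℝ) (u v : Fin n) :
    BU G t (lgt G K) u v ≤ Al G t K u v + Be G t K u v := by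
  have hBe : Be G t K u v = ∑ x, if G.Adj u x ∧ G.Adj v x then (if lgt G K u x then
      (∑ y, if G.Adj u y ∧ G.Adj x y then (if u ∈ t ∧ y ∈ t then (1:ℝ) else 0) else 0) else 0)
        else 0 := by
    unfold Be C3
    have h1 : ∀ y, (if G.Adj u y ∧ u ∈ t ∧ y ∈ t then
        (∑ x, if (G.Adj u x ∧ G.Adj v x) ∧ G.Adj y x ∧ lgt G K u x then (1:ℝ) else 0) else 0) =
        ∑ x, if G.Adj u x ∧ G.Adj v x then (if lgt G K u x then
          (if G.Adj u y ∧ G.Adj x y then (if u ∈ t ∧ y ∈ t then (1:ℝ) else 0) else 0) else 0)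
            else 0 := by
      intro y
      by_cases h : G.Adj u y ∧ u ∈ t ∧ y ∈ t
      · rw [if_pos h]
        refine Finset.sum_congr rfl fun x _ => ?_
        by_cases h2 : G.Adj u x ∧ G.Adj v x <;> by_cases h3 : G.Adj y x <;>
          by_cases h4 : lgt G K u x
        · rw [if_pos ⟨h2, h3, h4⟩, if_pos h2, if_pos h4, if_pos ⟨h.1, h3.symm⟩, if_pos h.2]
        · rw [if_neg (fun h5 => h4 h5.2.2), if_pos h2, if_neg h4]
        · rw [if_neg (fun h5 => h3 h5.2.1), if_pos h2, if_pos h4,
            if_neg (fun h5 => h3 h5.2.symm)]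
        · rw [if_neg (fun h5 => h3 h5.2.1), if_pos h2, if_neg h4]
        · rw [if_neg (fun h5 => h2 h5.1), if_neg h2]
        · rw [if_neg (fun h5 => h2 h5.1), if_neg h2]
        · rw [if_neg (fun h5 => h2 h5.1), if_neg h2]
        · rw [if_neg (fun h5 => h2 h5.1), if_neg h2]
      · rw [if_neg h]
        symm
        refine Finset.sum_eq_zero fun x _ => ?_
        by_cases h2 : G.Adj u y
        · rw [if_neg (fun h5 : u ∈ t ∧ y ∈ t => h ⟨h2, h5⟩)]
          simp
        · rw [if_neg (fun h5 : G.Adj u y ∧ G.Adj x y => h2 h5.1)]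
          simp
    rw [Finset.sum_congr rfl fun y _ => h1 y, Finset.sum_comm]
    refine Finset.sum_congr rfl fun x _ => ?_
    by_cases h2 : G.Adj u x ∧ G.Adj v x
    · simp only [if_pos h2]
      by_cases h3 : lgt G K u x
      · simp only [if_pos h3]
      · simp only [if_neg h3, Finset.sum_const_zero]
    · simp only [if_neg h2, Finset.sum_const_zero]
  rw [hBe]
  unfold BU Al
  rw [← Finset.sum_add_distrib]
  refine Finset.sum_le_sum fun x _ => ?_
  have hk : kk G t u x = (∑ y, if G.Adj u y ∧ G.Adj x y then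
      (if x ∈ t ∧ y ∈ t then (1:ℝ) else 0) else 0) +
      (∑ y, if G.Adj u y ∧ G.Adj x y then (if u ∈ t ∧ y ∈ t then (1:ℝ) else 0) else 0) := by
    unfold kk
    rw [← Finset.sum_add_distrib]
    refine Finset.sum_congr rfl fun y _ => ?_
    by_cases h : G.Adj u y ∧ G.Adj x y
    · rw [if_pos h, if_pos h, if_pos h, add_comm]
    · rw [if_neg h, if_neg h, if_neg h, add_zero]
  by_cases h2 : G.Adj u x ∧ G.Adj v x
  · by_cases h3 : lgt G K u x
    · rw [if_pos h2, if_pos h2, if_pos h3, if_pos h3, ← hk]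
      have hk0 := kk_nonneg G t u x
      split_ifs
      · exact le_rfl
      · exact hk0
    · rw [if_neg (fun h5 => h3 h5.2), if_pos h2, if_pos h2, if_neg h3, if_neg h3, add_zero]
  · rw [if_neg (fun h5 => h2 ⟨h5.1.1, h5.1.2.1⟩), if_neg h2, if_neg h2, add_zero]

lemma card_of_mem_triangles (G : SimpleGraph (Fin n)) {t : Finset (Fin n)}
    (ht : t ∈ triangles G) : t.card = 3 := by
  unfold triangles at ht
  rw [SimpleGraph.mem_cliqueFinset_iff] at ht
  exact ht.card_eq

lemma Al_le_six (G : SimpleGraph (Fin n)) {t : Finset (Fin n)} (ht : t ∈ triangles G) (K : ℝ)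
    (u v : Fin n) : Al G t K u v ≤ 6 := by
  have h1 : Al G t K u v ≤ ∑ x, ∑ y, if (x, y) ∈ t.offDiag then (1:ℝ) else 0 := by
    unfold Al
    refine Finset.sum_le_sum fun x _ => ?_
    have h0 : 0 ≤ ∑ y, if (x, y) ∈ t.offDiag then (1:ℝ) else 0 :=
      Finset.sum_nonneg fun y _ => by split_ifs <;> norm_num
    by_cases h2 : G.Adj u x ∧ G.Adj v x
    · rw [if_pos h2]
      by_cases h3 : lgt G K u x
      · rw [if_pos h3]
        refine Finset.sum_le_sum fun y _ => ?_
        by_cases h4 : G.Adj u y ∧ G.Adj x y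
        · rw [if_pos h4]
          by_cases h5 : x ∈ t ∧ y ∈ t
          · rw [if_pos h5, if_pos (Finset.mem_offDiag.2 ⟨h5.1, h5.2, G.ne_of_adj h4.2⟩)]
          · rw [if_neg h5]
            split_ifs <;> norm_num
        · rw [if_neg h4]
          split_ifs <;> norm_num
      · rw [if_neg h3]
        exact h0
    · rw [if_neg h2]
      exact h0
  refine h1.trans (le_of_eq ?_)
  rw [← Fintype.sum_prod_type' (f := fun x y => if (x, y) ∈ t.offDiag then (1:ℝ) else 0)]
  have h2 : ∑ p : Fin n × Fin n, (if (p.1, p.2) ∈ t.offDiag then (1:ℝ) else 0) =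
      (t.offDiag.card : ℝ) := by
    rw [← Finset.sum_filter, Finset.sum_const, nsmul_eq_mul, mul_one]
    congr 2
    ext p
    simp only [Prod.mk.eta, mem_offDiag, ne_eq, mem_filter, mem_univ, true_and]
  rw [h2, Finset.offDiag_card, card_of_mem_triangles G ht]
  norm_num

lemma edgeSum_third (G : SimpleGraph (Fin n)) (F : Fin n → Fin n → Fin n → ℝ) :
    edgeSum G (fun u x => ∑ y, if G.Adj u y ∧ G.Adj x y then F u x y else 0) = triSum G F := by
  unfold edgeSum triSum
  refine Finset.sum_congr rfl fun u _ => Finset.sum_congr rfl fun x _ => ?_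
  by_cases h : G.Adj u x
  · simp only [if_pos h]
    refine Finset.sum_congr rfl fun y _ => ?_
    by_cases h2 : G.Adj u y ∧ G.Adj x y
    · rw [if_pos h2, if_pos ⟨h, h2⟩]
    · rw [if_neg h2, if_neg (fun h3 => h2 h3.2)]
  · rw [if_neg h]
    symm
    refine Finset.sum_eq_zero fun y _ => ?_
    rw [if_neg (fun h3 => h h3.1)]

/-- sum of squared codegrees over the edges -/
noncomputable def S2 (G : SimpleGraph (Fin n)) : ℝ :=
  edgeSum G (fun u v => (codeg G u v : ℝ) ^ 2)

lemma S2_eq (G : SimpleGraph (Fin n)) :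
    edgeSum G (fun u v => (codeg G u v : ℝ) * (codeg G u v : ℝ)) = S2 G := by
  unfold S2
  congr 1
  funext u v
  ring

lemma sum_tri_mem (G : SimpleGraph (Fin n)) (x y : Fin n) (h : G.Adj x y) :
    ∑ t ∈ triangles G, (if x ∈ t ∧ y ∈ t then (1:ℝ) else 0) = (codeg G x y : ℝ) := by
  rw [← card_triangles_edge G x y h, Finset.card_filter]
  push_cast
  rfl

lemma Al_sum (G : SimpleGraph (Fin n)) (K : ℝ) (hK : 0 ≤ K) :
    edgeSum G (tS G (fun t u v => Al G t K u v)) ≤ K * S2 G := by
  have h1 : edgeSum G (tS G (fun t u v => Al G t K u v)) ≤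
      edgeSum G (fun u v => ∑ x, if G.Adj u x ∧ G.Adj v x then (if lgt G K u x then
        (∑ y, if G.Adj u y ∧ G.Adj x y then (codeg G x y : ℝ) else 0) else 0) else 0) := by
    refine edgeSum_mono G _ _ fun u v _ => ?_
    unfold tS
    refine (Finset.sum_le_sum_of_subset_of_nonneg (Finset.filter_subset _ _)
      fun t _ _ => Al_nonneg G t K u v).trans (le_of_eq ?_)
    unfold Al
    rw [Finset.sum_comm]
    refine Finset.sum_congr rfl fun x _ => ?_
    by_cases h2 : G.Adj u x ∧ G.Adj v x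
    · simp only [if_pos h2]
      by_cases h3 : lgt G K u x
      · simp only [if_pos h3]
        rw [Finset.sum_comm]
        refine Finset.sum_congr rfl fun y _ => ?_
        by_cases h4 : G.Adj u y ∧ G.Adj x y
        · simp only [if_pos h4]
          exact sum_tri_mem G x y h4.2
        · simp only [if_neg h4, Finset.sum_const_zero]
      · simp only [if_neg h3, Finset.sum_const_zero]
    · simp only [if_neg h2, Finset.sum_const_zero]
  refine h1.trans ?_
  rw [sum_third G (fun u x => if lgt G K u x then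
        (∑ y, if G.Adj u y ∧ G.Adj x y then (codeg G x y : ℝ) else 0) else 0)]
  have h2 : edgeSum G (fun u x => (codeg G u x : ℝ) * (if lgt G K u x then
        (∑ y, if G.Adj u y ∧ G.Adj x y then (codeg G x y : ℝ) else 0) else 0)) ≤
      edgeSum G (fun u x => K * (∑ y, if G.Adj u y ∧ G.Adj x y then (codeg G x y : ℝ) else 0)) := by
    refine edgeSum_mono G _ _ fun u x _ => ?_
    have h0 : 0 ≤ ∑ y, (if G.Adj u y ∧ G.Adj x y then (codeg G x y : ℝ) else 0) :=
      Finset.sum_nonneg fun y _ => by split_ifs <;> positivity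
    by_cases h3 : lgt G K u x
    · rw [if_pos h3]
      exact mul_le_mul_of_nonneg_right h3 h0
    · rw [if_neg h3, mul_zero]
      exact mul_nonneg hK h0
  refine h2.trans (le_of_eq ?_)
  rw [edgeSum_mul, edgeSum_third G (fun u x y => (codeg G x y : ℝ)), triSum_swap12,
    triSum_swap23, ← edgeSum_codeg_mul G (fun u v => (codeg G u v : ℝ)), S2_eq]

lemma Be_sq (G : SimpleGraph (Fin n)) {t : Finset (Fin n)} (ht : t ∈ triangles G) (K : ℝ)
    (u v : Fin n) (huv : ¬ (u ∈ t ∧ v ∈ t)) :
    Be G t K u v ^ 2 ≤ 2 * ∑ y, if (G.Adj u y ∧ y ≠ v) ∧ u ∈ t ∧ y ∈ t then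
      C3 G K u v y ^ 2 else 0 := by
  have h0 : 0 ≤ ∑ y, (if (G.Adj u y ∧ y ≠ v) ∧ u ∈ t ∧ y ∈ t then C3 G K u v y ^ 2 else 0) :=
    Finset.sum_nonneg fun y _ => by split_ifs <;> positivity
  by_cases hu : u ∈ t
  · have hv : v ∉ t := fun h => huv ⟨hu, h⟩
    have h1 : Be G t K u v = ∑ y ∈ univ.filter (fun y => G.Adj u y ∧ u ∈ t ∧ y ∈ t),
        C3 G K u v y := by
      unfold Be
      rw [Finset.sum_filter]
    rw [h1]
    refine sq_sum_le_card_mul_sum_sq.trans ?_
    have h2 : (univ.filter (fun y => G.Adj u y ∧ u ∈ t ∧ y ∈ t)).card ≤ 2 := by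
      have h3 : (univ.filter (fun y => G.Adj u y ∧ u ∈ t ∧ y ∈ t)) ⊆ t.erase u := by
        intro y hy
        simp only [Finset.mem_filter, Finset.mem_univ, true_and] at hy
        rw [Finset.mem_erase]
        exact ⟨(G.ne_of_adj hy.1).symm, hy.2.2⟩
      have h4 := Finset.card_le_card h3
      rw [Finset.card_erase_of_mem hu, card_of_mem_triangles G ht] at h4
      exact h4
    have h3 : ∑ y ∈ univ.filter (fun y => G.Adj u y ∧ u ∈ t ∧ y ∈ t), C3 G K u v y ^ 2 =
        ∑ y, (if (G.Adj u y ∧ y ≠ v) ∧ u ∈ t ∧ y ∈ t then C3 G K u v y ^ 2 else 0) := by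
      rw [Finset.sum_filter]
      refine Finset.sum_congr rfl fun y _ => ?_
      by_cases h4 : G.Adj u y ∧ u ∈ t ∧ y ∈ t
      · rw [if_pos h4, if_pos ⟨⟨h4.1, fun h5 => hv (h5 ▸ h4.2.2)⟩, h4.2⟩]
      · rw [if_neg h4, if_neg (fun h5 => h4 ⟨h5.1.1, h5.2⟩)]
    rw [h3]
    refine mul_le_mul_of_nonneg_right ?_ h0
    exact_mod_cast h2
  · have h1 : Be G t K u v = 0 := by
      unfold Be
      refine Finset.sum_eq_zero fun y _ => ?_
      rw [if_neg (fun h => hu h.2.1)]
    rw [h1]
    linarith [h0, show (0:ℝ) ^ 2 = 0 by norm_num]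

/-- first moment of the second kind over the triangles -/
lemma Be_sum1 (G : SimpleGraph (Fin n)) (K : ℝ) :
    edgeSum G (tS G (fun t u v => Be G t K u v ^ 2)) ≤
      2 * edgeSum G (fun u v => ∑ y, if G.Adj u y ∧ y ≠ v then
        (codeg G u y : ℝ) * C3 G K u v y ^ 2 else 0) := by
  rw [← edgeSum_mul]
  refine edgeSum_mono G _ _ fun u v _ => ?_
  unfold tS
  have h1 : ∑ t ∈ (triangles G).filter (fun t => ¬ (u ∈ t ∧ v ∈ t)), Be G t K u v ^ 2 ≤
      ∑ t ∈ (triangles G).filter (fun t => ¬ (u ∈ t ∧ v ∈ t)),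
        2 * ∑ y, (if (G.Adj u y ∧ y ≠ v) ∧ u ∈ t ∧ y ∈ t then C3 G K u v y ^ 2 else 0) := by
    refine Finset.sum_le_sum fun t ht => ?_
    rw [Finset.mem_filter] at ht
    exact Be_sq G ht.1 K u v ht.2
  refine h1.trans ?_
  rw [← Finset.mul_sum]
  refine mul_le_mul_of_nonneg_left ?_ (by norm_num)
  refine (Finset.sum_le_sum_of_subset_of_nonneg (Finset.filter_subset _ _)
      fun t _ _ => Finset.sum_nonneg fun y _ => by split_ifs <;> positivity).trans (le_of_eq ?_)
  rw [Finset.sum_comm]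
  refine Finset.sum_congr rfl fun y _ => ?_
  by_cases h2 : G.Adj u y ∧ y ≠ v
  · simp only [if_pos h2]
    rw [← sum_tri_mem G u y h2.1, Finset.sum_mul]
    refine Finset.sum_congr rfl fun t _ => ?_
    by_cases h3 : u ∈ t ∧ y ∈ t
    · rw [if_pos ⟨h2, h3⟩, if_pos h3, one_mul]
    · rw [if_neg (fun h => h3 h.2), if_neg h3, zero_mul]
  · rw [if_neg h2]
    refine Finset.sum_eq_zero fun t _ => ?_
    rw [if_neg (fun h => h2 h.1)]

/-- first moment of `C3` -/
lemma C3_sum (G : SimpleGraph (Fin n)) (K : ℝ) :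
    edgeSum G (fun u v => ∑ y, if G.Adj u y ∧ y ≠ v then C3 G K u v y else 0) ≤ S2 G := by
  have h1 : edgeSum G (fun u v => ∑ y, if G.Adj u y ∧ y ≠ v then C3 G K u v y else 0) ≤
      edgeSum G (fun u v => ∑ x, if G.Adj u x ∧ G.Adj v x then (codeg G u x : ℝ) else 0) := by
    refine edgeSum_mono G _ _ fun u v _ => ?_
    have h2 : ∀ y, (if G.Adj u y ∧ y ≠ v then C3 G K u v y else 0) ≤
        ∑ x, if G.Adj u x ∧ G.Adj v x then (if G.Adj u y ∧ G.Adj x y then (1:ℝ) else 0) else 0 := by
      intro y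
      have h0 : 0 ≤ ∑ x, (if G.Adj u x ∧ G.Adj v x then
          (if G.Adj u y ∧ G.Adj x y then (1:ℝ) else 0) else 0) :=
        Finset.sum_nonneg fun x _ => by split_ifs <;> norm_num
      by_cases h3 : G.Adj u y ∧ y ≠ v
      · rw [if_pos h3]
        unfold C3
        refine Finset.sum_le_sum fun x _ => ?_
        by_cases h4 : (G.Adj u x ∧ G.Adj v x) ∧ G.Adj y x ∧ lgt G K u x
        · rw [if_pos h4, if_pos h4.1, if_pos ⟨h3.1, h4.2.1.symm⟩]
        · rw [if_neg h4]
          split_ifs <;> norm_num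
      · rw [if_neg h3]
        exact h0
    refine (Finset.sum_le_sum fun y _ => h2 y).trans (le_of_eq ?_)
    rw [Finset.sum_comm]
    refine Finset.sum_congr rfl fun x _ => ?_
    by_cases h3 : G.Adj u x ∧ G.Adj v x
    · simp only [if_pos h3]
      rw [codeg_real]
    · simp only [if_neg h3, Finset.sum_const_zero]
  refine h1.trans (le_of_eq ?_)
  rw [sum_third G (fun u x => (codeg G u x : ℝ)), S2_eq]

/-- second moment of `C3` -/
lemma C3_sq_sum (G : SimpleGraph (Fin n)) (K : ℝ) :
    edgeSum G (fun u v => ∑ y, if G.Adj u y ∧ y ≠ v then C3 G K u v y ^ 2 else 0) ≤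
      wheels G + S2 G := by
  have hpt : ∀ u v y, G.Adj u v → (if G.Adj u y ∧ y ≠ v then C3 G K u v y ^ 2 else 0) ≤
      (∑ x, ∑ x', if IsWheel G u v x y x' then (1:ℝ) else 0) +
        (if G.Adj u y ∧ y ≠ v then C3 G K u v y else 0) := by
    intro u v y huv
    have h0 : 0 ≤ ∑ x, ∑ x', (if IsWheel G u v x y x' then (1:ℝ) else 0) :=
      Finset.sum_nonneg fun x _ => Finset.sum_nonneg fun x' _ => by split_ifs <;> norm_num
    by_cases h : G.Adj u y ∧ y ≠ v
    · rw [if_pos h, if_pos h]
      have e1 : C3 G K u v y ^ 2 = ∑ x, ∑ x',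
          (if (G.Adj u x ∧ G.Adj v x) ∧ G.Adj y x ∧ lgt G K u x then (1:ℝ) else 0) *
          (if (G.Adj u x' ∧ G.Adj v x') ∧ G.Adj y x' ∧ lgt G K u x' then (1:ℝ) else 0) := by
        rw [sq]
        conv_lhs => unfold C3
        rw [Finset.sum_mul_sum]
      have e2 : C3 G K u v y = ∑ x, ∑ x', if x = x' then
          (if (G.Adj u x ∧ G.Adj v x) ∧ G.Adj y x ∧ lgt G K u x then (1:ℝ) else 0) else 0 := by
        unfold C3
        refine Finset.sum_congr rfl fun x _ => ?_
        rw [Finset.sum_ite_eq, if_pos (Finset.mem_univ x)]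
      rw [e1]
      conv_rhs => rw [e2]
      rw [← Finset.sum_add_distrib]
      refine Finset.sum_le_sum fun x _ => ?_
      rw [← Finset.sum_add_distrib]
      refine Finset.sum_le_sum fun x' _ => ?_
      by_cases h1 : (G.Adj u x ∧ G.Adj v x) ∧ G.Adj y x ∧ lgt G K u x
      · by_cases h2 : (G.Adj u x' ∧ G.Adj v x') ∧ G.Adj y x' ∧ lgt G K u x'
        · by_cases h3 : x = x'
          · rw [if_pos h1, if_pos h2, if_pos h3]
            have : (0:ℝ) ≤ if IsWheel G u v x y x' then (1:ℝ) else 0 := by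
              split_ifs <;> norm_num
            linarith only [this]
          · have hw : IsWheel G u v x y x' :=
              ⟨huv, h1.1.1, h.1, h2.1.1, h1.1.2, h1.2.1.symm, h2.2.1, h2.1.2.symm,
                fun h5 => h.2 h5.symm, h3⟩
            rw [if_pos h1, if_pos h2, if_neg h3, if_pos hw]
            norm_num
        · rw [if_neg h2, mul_zero]
          split_ifs <;> norm_num
      · rw [if_neg h1, zero_mul]
        split_ifs <;> norm_num
    · rw [if_neg h, if_neg h, add_zero]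
      exact h0
  have h1 : edgeSum G (fun u v => ∑ y, if G.Adj u y ∧ y ≠ v then C3 G K u v y ^ 2 else 0) ≤
      edgeSum G (fun u v => (∑ y, ∑ x, ∑ x', if IsWheel G u v x y x' then (1:ℝ) else 0) +
        (∑ y, if G.Adj u y ∧ y ≠ v then C3 G K u v y else 0)) := by
    refine edgeSum_mono G _ _ fun u v huv => ?_
    rw [← Finset.sum_add_distrib]
    exact Finset.sum_le_sum fun y _ => hpt u v y huv
  refine h1.trans ?_
  rw [edgeSum_add]
  have h2 : edgeSum G (fun u v => ∑ y, ∑ x, ∑ x', if IsWheel G u v x y x' then (1:ℝ) else 0) ≤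
      wheels G := by
    unfold edgeSum wheels
    refine Finset.sum_le_sum fun u _ => Finset.sum_le_sum fun v _ => ?_
    have h3 : ∑ y, ∑ x, ∑ x', (if IsWheel G u v x y x' then (1:ℝ) else 0) =
        ∑ x, ∑ s, ∑ y, if IsWheel G u v x s y then (1:ℝ) else 0 := Finset.sum_comm
    beta_reduce
    rw [h3]
    split_ifs
    · exact le_rfl
    · exact Finset.sum_nonneg fun x _ => Finset.sum_nonneg fun s _ =>
        Finset.sum_nonneg fun y _ => by split_ifs <;> norm_num
  have h3 := C3_sum G K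
  linarith

/-- sum of cubed codegrees over the heavy edges -/
noncomputable def H3 (G : SimpleGraph (Fin n)) (K : ℝ) : ℝ :=
  edgeSum G (fun u v => if hvy G K u v then (codeg G u v : ℝ) ^ 3 else 0)

lemma C3_le_codeg (G : SimpleGraph (Fin n)) (K : ℝ) (u v y : Fin n) :
    C3 G K u v y ≤ codeg G u y := by
  unfold C3
  rw [codeg_real]
  refine Finset.sum_le_sum fun x _ => ?_
  by_cases h : (G.Adj u x ∧ G.Adj v x) ∧ G.Adj y x ∧ lgt G K u x
  · rw [if_pos h, if_pos ⟨h.1.1, h.2.1⟩]
  · rw [if_neg h]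
    split_ifs <;> norm_num

/-- sum of `C3` over `v` -/
lemma C3_sum_v (G : SimpleGraph (Fin n)) (K : ℝ) (hK : 0 ≤ K) (u y : Fin n) :
    ∑ v, (if G.Adj u v then C3 G K u v y else 0) ≤ K * codeg G u y := by
  have h1 : ∑ v, (if G.Adj u v then C3 G K u v y else 0) =
      ∑ x, if G.Adj u x ∧ G.Adj y x then (if lgt G K u x then (codeg G u x : ℝ) else 0) else 0 := by
    have h2 : ∀ v, (if G.Adj u v then C3 G K u v y else 0) =
        ∑ x, if G.Adj u x ∧ G.Adj y x then (if lgt G K u x then
          (if G.Adj u v ∧ G.Adj x v then (1:ℝ) else 0) else 0) else 0 := by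
      intro v
      unfold C3
      by_cases h : G.Adj u v
      · rw [if_pos h]
        refine Finset.sum_congr rfl fun x _ => ?_
        by_cases h3 : G.Adj u x ∧ G.Adj y x
        · by_cases h4 : lgt G K u x
          · by_cases h5 : G.Adj v x
            · rw [if_pos ⟨⟨h3.1, h5⟩, h3.2, h4⟩, if_pos h3, if_pos h4, if_pos ⟨h, h5.symm⟩]
            · rw [if_neg (fun h6 => h5 h6.1.2), if_pos h3, if_pos h4,
                if_neg (fun h6 => h5 h6.2.symm)]
          · rw [if_neg (fun h6 => h4 h6.2.2), if_pos h3, if_neg h4]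
        · rw [if_neg (fun h6 => h3 ⟨h6.1.1, h6.2.1⟩), if_neg h3]
      · rw [if_neg h]
        symm
        refine Finset.sum_eq_zero fun x _ => ?_
        rw [if_neg (fun h6 : G.Adj u v ∧ G.Adj x v => h h6.1)]
        simp
    rw [Finset.sum_congr rfl fun v _ => h2 v, Finset.sum_comm]
    refine Finset.sum_congr rfl fun x _ => ?_
    by_cases h3 : G.Adj u x ∧ G.Adj y x
    · simp only [if_pos h3]
      by_cases h4 : lgt G K u x
      · simp only [if_pos h4]
        rw [codeg_real]
      · simp only [if_neg h4, Finset.sum_const_zero]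
    · simp only [if_neg h3, Finset.sum_const_zero]
  rw [h1, codeg_real G u y, Finset.mul_sum]
  refine Finset.sum_le_sum fun x _ => ?_
  by_cases h3 : G.Adj u x ∧ G.Adj y x
  · rw [if_pos h3, if_pos h3, mul_one]
    by_cases h4 : lgt G K u x
    · rw [if_pos h4]
      exact h4
    · rw [if_neg h4]
      exact hK
  · rw [if_neg h3, if_neg h3, mul_zero]

lemma C3_heavy (G : SimpleGraph (Fin n)) (K : ℝ) (hK : 0 ≤ K) :
    edgeSum G (fun u v => ∑ y, if G.Adj u y ∧ hvy G K u y then
      (codeg G u y : ℝ) * C3 G K u v y ^ 2 else 0) ≤ K * H3 G K := by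
  unfold H3 edgeSum
  rw [Finset.mul_sum]
  refine Finset.sum_le_sum fun u _ => ?_
  rw [Finset.mul_sum]
  have h1 : ∑ v, (if G.Adj u v then (∑ y, if G.Adj u y ∧ hvy G K u y then
      (codeg G u y : ℝ) * C3 G K u v y ^ 2 else 0) else 0) =
      ∑ y, ∑ v, if G.Adj u v then (if G.Adj u y ∧ hvy G K u y then
        (codeg G u y : ℝ) * C3 G K u v y ^ 2 else 0) else 0 := by
    rw [Finset.sum_comm]
    refine Finset.sum_congr rfl fun v _ => ?_
    by_cases h : G.Adj u v
    · simp only [if_pos h]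
    · simp only [if_neg h, Finset.sum_const_zero]
  rw [h1]
  refine Finset.sum_le_sum fun y _ => ?_
  by_cases h2 : G.Adj u y ∧ hvy G K u y
  · rw [if_pos h2.1]
    beta_reduce
    rw [if_pos h2.2]
    simp only [if_pos h2]
    have h3 : ∀ v, (if G.Adj u v then (codeg G u y : ℝ) * C3 G K u v y ^ 2 else 0) ≤
        (codeg G u y : ℝ) ^ 2 * (if G.Adj u v then C3 G K u v y else 0) := by
      intro v
      by_cases h : G.Adj u v
      · rw [if_pos h, if_pos h]
        have e1 := C3_le_codeg G K u v y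
        have e2 := C3_nonneg G K u v y
        have e3 : (0:ℝ) ≤ codeg G u y := Nat.cast_nonneg _
        have e4 : C3 G K u v y ^ 2 ≤ codeg G u y * C3 G K u v y := by nlinarith only [e1, e2]
        calc (codeg G u y : ℝ) * C3 G K u v y ^ 2 ≤
              (codeg G u y : ℝ) * (codeg G u y * C3 G K u v y) :=
              mul_le_mul_of_nonneg_left e4 e3
          _ = _ := by ring
      · rw [if_neg h, if_neg h, mul_zero]
    refine (Finset.sum_le_sum fun v _ => h3 v).trans ?_
    rw [← Finset.mul_sum]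
    have h4 := C3_sum_v G K hK u y
    have h5 := mul_le_mul_of_nonneg_left h4 (sq_nonneg (codeg G u y : ℝ))
    refine h5.trans (le_of_eq ?_)
    ring
  · simp only [if_neg h2]
    have : ∑ _v : Fin n, (if G.Adj u _v then (0:ℝ) else 0) = 0 := by simp only [ite_self, sum_const_zero]
    rw [this]
    have e3 : (0:ℝ) ≤ codeg G u y := Nat.cast_nonneg _
    split_ifs <;> positivity

/-- the light part -/
lemma light_bound (G : SimpleGraph (Fin n)) (K : ℝ) (hK : 0 ≤ K) :
    edgeSum G (tS G (fun t u v => BU G t (lgt G K) u v ^ 2)) ≤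
      16 * K * S2 G + 4 * K * wheels G + 4 * K * H3 G K := by
  have h1 : edgeSum G (tS G (fun t u v => BU G t (lgt G K) u v ^ 2)) ≤
      edgeSum G (fun u v => 12 * tS G (fun t u v => Al G t K u v) u v +
        2 * tS G (fun t u v => Be G t K u v ^ 2) u v) := by
    refine edgeSum_mono G _ _ fun u v _ => ?_
    unfold tS
    rw [Finset.mul_sum, Finset.mul_sum, ← Finset.sum_add_distrib]
    refine Finset.sum_le_sum fun t ht => ?_
    rw [Finset.mem_filter] at ht
    have e1 := BU_light_le G t K u v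
    have e2 := BU_nonneg G t (lgt G K) u v
    have e3 := Al_nonneg G t K u v
    have e4 := Be_nonneg G t K u v
    have e5 := Al_le_six G ht.1 K u v
    nlinarith only [e1, e2, e3, e5, sq_nonneg (Al G t K u v - Be G t K u v)]
  refine h1.trans ?_
  rw [edgeSum_add, edgeSum_mul, edgeSum_mul]
  have h2 := Al_sum G K hK
  have h3 := Be_sum1 G K
  have h4 : edgeSum G (fun u v => ∑ y, if G.Adj u y ∧ y ≠ v then
        (codeg G u y : ℝ) * C3 G K u v y ^ 2 else 0) ≤
      K * (wheels G + S2 G) + K * H3 G K := by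
    have h5 : edgeSum G (fun u v => ∑ y, if G.Adj u y ∧ y ≠ v then
        (codeg G u y : ℝ) * C3 G K u v y ^ 2 else 0) ≤
        edgeSum G (fun u v => K * (∑ y, if G.Adj u y ∧ y ≠ v then C3 G K u v y ^ 2 else 0) +
          (∑ y, if G.Adj u y ∧ hvy G K u y then
            (codeg G u y : ℝ) * C3 G K u v y ^ 2 else 0)) := by
      refine edgeSum_mono G _ _ fun u v _ => ?_
      rw [Finset.mul_sum, ← Finset.sum_add_distrib]
      refine Finset.sum_le_sum fun y _ => ?_
      have e1 : (0:ℝ) ≤ codeg G u y := Nat.cast_nonneg _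
      have e2 := sq_nonneg (C3 G K u v y)
      by_cases h6 : G.Adj u y ∧ y ≠ v
      · rw [if_pos h6, if_pos h6]
        by_cases h7 : hvy G K u y
        · rw [if_pos ⟨h6.1, h7⟩]
          have := mul_nonneg hK e2
          linarith only [this]
        · rw [if_neg (fun h8 => h7 h8.2), add_zero]
          exact mul_le_mul_of_nonneg_right (not_lt.1 h7) e2
      · rw [if_neg h6, if_neg h6, mul_zero, zero_add]
        split_ifs
        · exact mul_nonneg e1 e2
        · exact le_rfl
    refine h5.trans ?_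
    rw [edgeSum_add, edgeSum_mul]
    have h6 := mul_le_mul_of_nonneg_left (C3_sq_sum G K) hK
    have h7 := C3_heavy G K hK
    linarith only [h6, h7]
  linarith only [h2, h3, h4]

/-- M6: the noise bound for the secondary kills. -/
theorem noiseB (G : SimpleGraph (Fin n)) (d : ℝ) (hd : 0 < d) (_hd1 : d ≤ 1)
    (_hn : 0 < n) (_hE : 0 < numEdges G) (hc : 1 ≤ cc G) :
    edgeSum G (fun u v => ∑ t ∈ (triangles G).filter (fun t => ¬ (u ∈ t ∧ v ∈ t)),
      min ((BB G t u v / cc G ^ 2) ^ 2) (4 * d * (BB G t u v / cc G ^ 2))) ≤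
    2048 * (wheels G / cc G ^ 3 + 1 / cc G * edgeSum G (fun u v => rr G u v ^ 2) +
      (numEdges G : ℝ) / cc G + (1 + d * cc G) *
        edgeSum G (fun u v => if 8 < rr G u v then rr G u v ^ 3 else 0)) := by
  set c := cc G with hcdef
  have hc0 : 0 < c := by linarith only [hc]
  have hrr : ∀ a b, rr G a b = (codeg G a b : ℝ) / c := by
    intro a b
    rw [hcdef]; unfold rr cc
    rw [div_div_eq_mul_div]
  have h1 := split_bound G (8 * c) c d hc0 hd.le
  have h2 := light_bound G (8 * c) (by positivity)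
  have h3 := heavy_bound G (8 * c)
  have hS2 : S2 G = c ^ 2 * edgeSum G (fun u v => rr G u v ^ 2) := by
    unfold S2
    rw [← edgeSum_mul]
    congr 1
    funext u v
    rw [hrr]
    field_simp
  have hH3 : H3 G (8 * c) =
      c ^ 3 * edgeSum G (fun u v => if 8 < rr G u v then rr G u v ^ 3 else 0) := by
    unfold H3
    rw [← edgeSum_mul]
    congr 1
    funext u v
    have hiff : hvy G (8 * c) u v ↔ 8 < rr G u v := by
      unfold hvy
      rw [hrr, lt_div_iff₀ hc0]
    by_cases h : 8 < rr G u v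
    · rw [if_pos h, if_pos (hiff.2 h), hrr]
      field_simp
    · rw [if_neg h, if_neg (fun h' => h (hiff.1 h')), mul_zero]
  have hH3' : edgeSum G (fun u v => if hvy G (8 * c) u v then (codeg G u v : ℝ) ^ 3 else 0) =
      H3 G (8 * c) := rfl
  rw [hH3', hH3] at h3
  rw [hS2, hH3] at h2
  set s2 := edgeSum G (fun u v => rr G u v ^ 2) with hs2
  set h3' := edgeSum G (fun u v => if 8 < rr G u v then rr G u v ^ 3 else 0) with hh3
  have hs2n : 0 ≤ s2 := by
    rw [hs2]; unfold edgeSum
    exact Finset.sum_nonneg fun u _ => Finset.sum_nonneg fun v _ => by split_ifs <;> positivity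
  have hrn : ∀ u v, 0 ≤ rr G u v := by
    intro u v; rw [hrr]; positivity
  have hh3n : 0 ≤ h3' := by
    rw [hh3]; unfold edgeSum
    refine Finset.sum_nonneg fun u _ => Finset.sum_nonneg fun v _ => ?_
    have := hrn u v
    split_ifs <;> positivity
  have hWn : 0 ≤ wheels G := by
    unfold wheels
    exact Finset.sum_nonneg fun u _ => Finset.sum_nonneg fun v _ => Finset.sum_nonneg fun x _ =>
      Finset.sum_nonneg fun s _ => Finset.sum_nonneg fun y _ => by split_ifs <;> norm_num
  have hEn : (0:ℝ) ≤ (numEdges G : ℝ) / c := by positivity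
  have e1 := mul_le_mul_of_nonneg_left h2 (show 0 ≤ 16 / c ^ 4 by positivity)
  have e2 := mul_le_mul_of_nonneg_left h3 (show 0 ≤ 32 * d / c ^ 2 by positivity)
  have e3 : 16 / c ^ 4 * (16 * (8 * c) * (c ^ 2 * s2) + 4 * (8 * c) * wheels G +
      4 * (8 * c) * (c ^ 3 * h3')) = 2048 * (1 / c * s2) + 512 * (wheels G / c ^ 3) + 512 * h3' := by
    field_simp
    ring
  have e4 : 32 * d / c ^ 2 * (4 * (c ^ 3 * h3')) = 128 * (d * c * h3') := by
    field_simp
    ring
  rw [e3] at e1
  rw [e4] at e2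
  have e5 : 0 ≤ wheels G / c ^ 3 := by positivity
  have e6 : 0 ≤ d * c * h3' := by positivity
  have e7 : 0 ≤ 1 / c * s2 := by positivity
  refine h1.trans ?_
  linarith only [hh3n, hEn, e1, e2, e5, e6]

end Vale.Agent.P046.C
end
end

section

section

set_option autoImplicit false

open scoped Classical
open Finset

namespace Vale.Agent.P046.OS

variable {n : ℕ}

lemma rr_nonneg (G : SimpleGraph (Fin n)) (u v : Fin n) : 0 ≤ rr G u v := by
  unfold rr; positivity









lemma n_pos_of_triangle (G : SimpleGraph (Fin n)) (hT : (triangles G).Nonempty) : 0 < n := by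
  rcases Nat.eq_zero_or_pos n with h | h
  · exfalso
    obtain ⟨t, ht⟩ := hT
    unfold triangles at ht
    rw [SimpleGraph.mem_cliqueFinset_iff] at ht
    have h1 := ht.card_eq
    have h2 : t.card ≤ Fintype.card (Fin n) := Finset.card_le_univ t
    rw [h1, Fintype.card_fin, h] at h2
    omega
  · exact h








end Vale.Agent.P046.OS
end
end

section

section

set_option autoImplicit false

open scoped Classical
open Finset

namespace Vale.Agent.P046.LB

open Vale.Agent.P046.OS (triSum removeTriangle_adj card_triangles_edge card_triangles_edge_not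
  triSum_swap12 triSum_swap23 triSum_add triSum_mul triSum_mono edgeSum_codeg_mul codeg_comm
  codeg_remove kk kk_nonneg kk_le_two KK sum_kk card_triangles_not_edge edgeSum_mul_KK)

variable {n : ℕ}

/-- the other triangles sharing an edge with `t` -/
noncomputable def nb (G : SimpleGraph (Fin n)) (t : Finset (Fin n)) : Finset (Finset (Fin n)) :=
  (triangles G).filter (fun t' => t' ≠ t ∧ 2 ≤ (t' ∩ t).card)

lemma mem_nb (G : SimpleGraph (Fin n)) (t t' : Finset (Fin n)) :
    t' ∈ nb G t ↔ t' ∈ triangles G ∧ t' ≠ t ∧ 2 ≤ (t' ∩ t).card := by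
  unfold nb
  rw [Finset.mem_filter]

lemma nb_symm (G : SimpleGraph (Fin n)) (t t' : Finset (Fin n)) (ht : t ∈ triangles G)
    (h : t' ∈ nb G t) : t ∈ nb G t' := by
  rw [mem_nb] at h ⊢
  refine ⟨ht, fun h1 => h.2.1 h1.symm, ?_⟩
  rw [Finset.inter_comm]
  exact h.2.2

lemma tri_card (G : SimpleGraph (Fin n)) (t : Finset (Fin n)) (ht : t ∈ triangles G) :
    t.card = 3 := by
  unfold triangles at ht
  rw [SimpleGraph.mem_cliqueFinset_iff] at ht
  exact ht.card_eq

lemma tri_adj (G : SimpleGraph (Fin n)) (t : Finset (Fin n)) (ht : t ∈ triangles G)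
    (x y : Fin n) (hx : x ∈ t) (hy : y ∈ t) (hxy : x ≠ y) : G.Adj x y := by
  unfold triangles at ht
  rw [SimpleGraph.mem_cliqueFinset_iff] at ht
  exact ht.isClique hx hy hxy

lemma tri_exists (G : SimpleGraph (Fin n)) (t : Finset (Fin n)) (ht : t ∈ triangles G) :
    ∃ a b c, G.Adj a b ∧ G.Adj a c ∧ G.Adj b c ∧ t = {a, b, c} := by
  unfold triangles at ht
  rw [SimpleGraph.mem_cliqueFinset_iff, SimpleGraph.is3Clique_iff] at ht
  exact ht

lemma mem_tri (G : SimpleGraph (Fin n)) (a b c : Fin n) (hab : G.Adj a b) (hac : G.Adj a c)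
    (hbc : G.Adj b c) : ({a, b, c} : Finset (Fin n)) ∈ triangles G := by
  unfold triangles
  rw [SimpleGraph.mem_cliqueFinset_iff, SimpleGraph.is3Clique_iff]
  exact ⟨a, b, c, hab, hac, hbc, rfl⟩

/-- triangles surviving the removal of `t` -/
lemma mem_triangles_remove (G : SimpleGraph (Fin n)) (t t' : Finset (Fin n)) :
    t' ∈ triangles (removeTriangle G t) ↔ t' ∈ triangles G ∧ (t' ∩ t).card ≤ 1 := by
  unfold triangles
  rw [SimpleGraph.mem_cliqueFinset_iff, SimpleGraph.mem_cliqueFinset_iff]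
  constructor
  · intro h
    refine ⟨⟨?_, h.card_eq⟩, ?_⟩
    · intro x hx y hy hxy
      exact ((removeTriangle_adj G t x y).mp (h.isClique hx hy hxy)).1
    · by_contra hc
      push Not at hc
      obtain ⟨x, hx, y, hy, hxy⟩ := Finset.one_lt_card.mp hc
      rw [Finset.mem_inter] at hx hy
      exact ((removeTriangle_adj G t x y).mp (h.isClique hx.1 hy.1 hxy)).2 ⟨hx.2, hy.2⟩
  · rintro ⟨h, hc⟩
    refine ⟨?_, h.card_eq⟩
    intro x hx y hy hxy
    rw [removeTriangle_adj]
    refine ⟨h.isClique hx hy hxy, fun hxyt => ?_⟩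
    have : 1 < (t' ∩ t).card := Finset.one_lt_card.mpr
      ⟨x, Finset.mem_inter.mpr ⟨hx, hxyt.1⟩, y, Finset.mem_inter.mpr ⟨hy, hxyt.2⟩, hxy⟩
    omega

lemma triangles_remove_eq (G : SimpleGraph (Fin n)) (t : Finset (Fin n)) (ht : t ∈ triangles G) :
    triangles (removeTriangle G t) = triangles G \ (insert t (nb G t)) := by
  ext t'
  rw [mem_triangles_remove, Finset.mem_sdiff, Finset.mem_insert, mem_nb]
  constructor
  · rintro ⟨h1, h2⟩
    refine ⟨h1, ?_⟩
    rintro (rfl | h3)
    · rw [Finset.inter_self, tri_card G _ ht] at h2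
      omega
    · omega
  · rintro ⟨h1, h2⟩
    refine ⟨h1, ?_⟩
    by_contra h3
    apply h2
    by_cases h4 : t' = t
    · exact Or.inl h4
    · exact Or.inr ⟨h1, h4, by omega⟩

lemma self_notMem_nb (G : SimpleGraph (Fin n)) (t : Finset (Fin n)) : t ∉ nb G t := by
  rw [mem_nb]
  exact fun h => h.2.1 rfl

lemma nb_subset (G : SimpleGraph (Fin n)) (t : Finset (Fin n)) : nb G t ⊆ triangles G :=
  Finset.filter_subset _ _

lemma card_triangles_remove (G : SimpleGraph (Fin n)) (t : Finset (Fin n))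
    (ht : t ∈ triangles G) :
    (triangles (removeTriangle G t)).card + 1 + (nb G t).card = (triangles G).card := by
  rw [triangles_remove_eq G t ht]
  have h1 : insert t (nb G t) ⊆ triangles G := by
    intro x hx
    rw [Finset.mem_insert] at hx
    rcases hx with rfl | hx
    · exact ht
    · exact nb_subset G t hx
  have h2 := Finset.card_sdiff_add_card_eq_card h1
  rw [Finset.card_insert_of_notMem (self_notMem_nb G t)] at h2
  omega

/-- neighbourhood in the graph after removal -/
lemma nb_remove (G : SimpleGraph (Fin n)) (t t' : Finset (Fin n)) (ht : t ∈ triangles G) :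
    nb (removeTriangle G t) t' = nb G t' \ (insert t (nb G t)) := by
  ext s
  rw [mem_nb, triangles_remove_eq G t ht, Finset.mem_sdiff, Finset.mem_sdiff, mem_nb]
  tauto

/-- size of the neighbourhood in terms of codegrees -/
lemma card_nb (G : SimpleGraph (Fin n)) (u v w : Fin n) (huv : G.Adj u v) (huw : G.Adj u w)
    (hvw : G.Adj v w) :
    ((nb G {u, v, w}).card : ℝ) = (codeg G u v : ℝ) + codeg G u w + codeg G v w - 3 := by
  have huv' := G.ne_of_adj huv
  have huw' := G.ne_of_adj huw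
  have hvw' := G.ne_of_adj hvw
  have e1 := card_triangles_edge_not G u w v huw huv hvw.symm
  have e2 := card_triangles_edge_not G u v w huv huw hvw
  have e3 := card_triangles_edge_not G v u w huv.symm hvw huw
  -- pointwise identity
  have key : ∀ t' ∈ triangles G,
      (if t' ≠ ({u, v, w} : Finset (Fin n)) ∧ 2 ≤ (t' ∩ {u, v, w}).card then (1:ℝ) else 0) =
      (if (u ∈ t' ∧ v ∈ t') ∧ ¬ w ∈ t' then (1:ℝ) else 0) +
      (if (u ∈ t' ∧ w ∈ t') ∧ ¬ v ∈ t' then (1:ℝ) else 0) +
      (if (v ∈ t' ∧ w ∈ t') ∧ ¬ u ∈ t' then (1:ℝ) else 0) := by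
    intro t' ht'
    have hc := tri_card G t' ht'
    have hall : u ∈ t' → v ∈ t' → w ∈ t' → t' = {u, v, w} := by
      intro hu hv hw
      symm
      apply Finset.eq_of_subset_of_card_le
      · intro x hx
        simp only [Finset.mem_insert, Finset.mem_singleton] at hx
        rcases hx with rfl | rfl | rfl <;> assumption
      · rw [hc, Finset.card_eq_three.mpr ⟨u, v, w, huv', huw', hvw', rfl⟩]
    have hinter : (t' ∩ {u, v, w}).card = (if u ∈ t' then 1 else 0) + (if v ∈ t' then 1 else 0) +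
        (if w ∈ t' then 1 else 0) := by
      have : (t' ∩ {u, v, w}) = ({u, v, w} : Finset (Fin n)).filter (fun x => x ∈ t') := by
        ext x
        simp only [Finset.mem_inter, Finset.mem_filter]
        (clear * - hall; tauto)
      rw [this, Finset.card_filter, Finset.sum_insert, Finset.sum_insert, Finset.sum_singleton]
      · ring
      · simpa using hvw'
      · simp only [Finset.mem_insert, Finset.mem_singleton, not_or]
        exact ⟨huv', huw'⟩
    rw [hinter]
    by_cases hu : u ∈ t' <;> by_cases hv : v ∈ t' <;> by_cases hw : w ∈ t'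
    · have := hall hu hv hw
      simp only [this, ne_eq, not_true_eq_false, mem_insert, mem_singleton, true_or, ↓reduceIte, or_true, Nat.reduceAdd, Nat.reduceLeDiff, and_true, and_self, and_false, add_zero]
    all_goals
      have hne : t' ≠ ({u, v, w} : Finset (Fin n)) := by
        rintro rfl
        simp only [mem_insert, mem_singleton, true_or, or_true, not_true_eq_false] at hu hv hw
      simp only [ne_eq, hne, not_false_eq_true, hu, ↓reduceIte, hv, Nat.reduceAdd, hw, add_zero, Std.le_refl, and_self, and_false, not_true_eq_false, zero_add, and_true, Nat.not_ofNat_le_one, nonpos_iff_eq_zero, OfNat.ofNat_ne_zero]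
  unfold nb
  rw [Finset.card_filter]
  push_cast
  rw [Finset.sum_congr rfl key, Finset.sum_add_distrib, Finset.sum_add_distrib]
  have c1 : ∑ t' ∈ triangles G, (if (u ∈ t' ∧ v ∈ t') ∧ ¬ w ∈ t' then (1:ℝ) else 0) =
      (codeg G u v : ℝ) - 1 := by
    rw [← e1, Finset.card_filter]
    push_cast
    rfl
  have c2 : ∑ t' ∈ triangles G, (if (u ∈ t' ∧ w ∈ t') ∧ ¬ v ∈ t' then (1:ℝ) else 0) =
      (codeg G u w : ℝ) - 1 := by
    rw [← e2, Finset.card_filter]
    push_cast
    rfl
  have c3 : ∑ t' ∈ triangles G, (if (v ∈ t' ∧ w ∈ t') ∧ ¬ u ∈ t' then (1:ℝ) else 0) =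
      (codeg G v w : ℝ) - 1 := by
    rw [← e3, Finset.card_filter]
    push_cast
    rfl
  rw [c1, c2, c3]
  ring

/-- second moment of codegrees -/
noncomputable def M2 (G : SimpleGraph (Fin n)) : ℝ :=
  edgeSum G (fun u v => (codeg G u v : ℝ) ^ 2) / 2

/-- third moment of codegrees -/
noncomputable def M3 (G : SimpleGraph (Fin n)) : ℝ :=
  edgeSum G (fun u v => (codeg G u v : ℝ) ^ 3) / 2

lemma triSum_tri (G : SimpleGraph (Fin n)) (f : Finset (Fin n) → ℝ) :
    triSum G (fun u v w => f {u, v, w}) = 6 * ∑ t ∈ triangles G, f t :=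
  sum_ordered_triangles G f

lemma triSum_congr (G : SimpleGraph (Fin n)) (f g : Fin n → Fin n → Fin n → ℝ)
    (h : ∀ u v w, G.Adj u v → G.Adj u w → G.Adj v w → f u v w = g u v w) :
    triSum G f = triSum G g :=
  le_antisymm (triSum_mono G f g fun u v w a b c => (h u v w a b c).le)
    (triSum_mono G g f fun u v w a b c => (h u v w a b c).ge)

lemma triSum_sym (G : SimpleGraph (Fin n)) (f : Fin n → Fin n → ℝ)
    (hf : ∀ u v, f u v = f v u) :
    triSum G (fun u v w => f u v + f u w + f v w) = 3 * triSum G (fun u v _ => f u v) := by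
  rw [triSum_add, triSum_add]
  have a1 : triSum G (fun u v w => f v w) = triSum G (fun u v _ => f u v) := by
    rw [triSum_swap12 G (fun u v w => f v w), triSum_swap23]
  have a2 : triSum G (fun u v w => f u w) = triSum G (fun u v _ => f u v) := by
    rw [triSum_swap23 G (fun u v w => f u w)]
  rw [a1, a2]
  ring

lemma sum_card_nb (G : SimpleGraph (Fin n)) :
    ∑ t ∈ triangles G, ((nb G t).card : ℝ) = M2 G - 3 * ((triangles G).card : ℝ) := by
  have h1 := triSum_tri G (fun t => ((nb G t).card : ℝ))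
  have h2 : triSum G (fun u v w => ((nb G {u, v, w}).card : ℝ)) =
      triSum G (fun u v w => ((codeg G u v : ℝ) + codeg G u w + codeg G v w) + (-3) * 1) := by
    apply triSum_congr
    intro u v w huv huw hvw
    rw [card_nb G u v w huv huw hvw]
    ring
  have h3 := triSum_sym G (fun u v => (codeg G u v : ℝ)) (fun u v => by rw [codeg_comm])
  have h4 : triSum G (fun u v _ => (codeg G u v : ℝ)) = 2 * M2 G := by
    rw [← edgeSum_codeg_mul]
    unfold M2
    have : (fun u v => (codeg G u v : ℝ) * (codeg G u v : ℝ)) =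
        (fun u v => (codeg G u v : ℝ) ^ 2) := by
      funext u v; ring
    rw [this]
    ring
  have h5 : triSum G (fun _ _ _ => (1:ℝ)) = 6 * ((triangles G).card : ℝ) := by
    rw [triSum_tri G (fun _ => 1)]
    simp only [sum_const, nsmul_eq_mul, mul_one]
  rw [h2, triSum_add, triSum_mul, h3, h4, h5] at h1
  linarith only [h1]

end Vale.Agent.P046.LB
end
end

section

section

set_option autoImplicit false

open scoped Classical
open Finset

namespace Vale.Agent.P046.LB

open Vale.Agent.P046.OS (triSum removeTriangle_adj card_triangles_edge card_triangles_edge_not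
  triSum_swap12 triSum_swap23 triSum_add triSum_mul triSum_mono edgeSum_codeg_mul codeg_comm
  codeg_remove kk kk_nonneg kk_le_two KK sum_kk card_triangles_not_edge edgeSum_mul_KK)

variable {n : ℕ}

/-- an edge sum after removal of `t` -/
lemma edgeSum_remove (G : SimpleGraph (Fin n)) (t : Finset (Fin n)) (f : Fin n → Fin n → ℝ) :
    edgeSum (removeTriangle G t) f =
      edgeSum G (fun u v => if ¬ (u ∈ t ∧ v ∈ t) then f u v else 0) := by
  unfold edgeSum
  refine Finset.sum_congr rfl fun u _ => Finset.sum_congr rfl fun v _ => ?_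
  simp only [removeTriangle_adj]
  by_cases h : G.Adj u v
  · by_cases h3 : u ∈ t ∧ v ∈ t
    · simp [h, h3]
    · simp only [h, h3, not_false_eq_true, and_self, if_true]
  · simp [h]

/-- swapping the sum over removed triangles with the sum over edges -/
lemma sum_edgeSum_remove (G : SimpleGraph (Fin n)) (f : Finset (Fin n) → Fin n → Fin n → ℝ) :
    ∑ t ∈ triangles G, edgeSum (removeTriangle G t) (f t) =
      edgeSum G (fun u v => ∑ t ∈ (triangles G).filter (fun t => ¬ (u ∈ t ∧ v ∈ t)), f t u v) := by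
  simp only [edgeSum_remove]
  unfold edgeSum
  rw [Finset.sum_comm' (t' := univ) (s' := fun _ => triangles G) (by simp only [mem_univ, and_true, implies_true])]
  refine Finset.sum_congr rfl fun u _ => ?_
  rw [Finset.sum_comm' (t' := univ) (s' := fun _ => triangles G) (by simp only [mem_univ, and_true, implies_true])]
  refine Finset.sum_congr rfl fun v _ => ?_
  by_cases h : G.Adj u v
  · simp only [if_pos h]
    rw [Finset.sum_filter]
  · simp only [if_neg h, Finset.sum_const_zero]

/-- the functional `J` -/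
noncomputable def J (G : SimpleGraph (Fin n)) : ℝ := M2 G + 8 * ((triangles G).card : ℝ)




lemma sum_M2_remove (G : SimpleGraph (Fin n)) :
    ∑ t ∈ triangles G, M2 (removeTriangle G t) ≤
      ((triangles G).card : ℝ) * M2 G - M3 G + 8 * M2 G - 12 * ((triangles G).card : ℝ) := by
  have h1 : ∑ t ∈ triangles G, M2 (removeTriangle G t) =
      edgeSum G (fun u v => ∑ t ∈ (triangles G).filter (fun t => ¬ (u ∈ t ∧ v ∈ t)),
        (codeg (removeTriangle G t) u v : ℝ) ^ 2) / 2 := by
    unfold M2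
    rw [← Finset.sum_div, sum_edgeSum_remove G (fun t u v => (codeg (removeTriangle G t) u v : ℝ) ^ 2)]
  rw [h1]
  have h2 : edgeSum G (fun u v => ∑ t ∈ (triangles G).filter (fun t => ¬ (u ∈ t ∧ v ∈ t)),
        (codeg (removeTriangle G t) u v : ℝ) ^ 2) ≤
      edgeSum G (fun u v => (((triangles G).card : ℝ) * (codeg G u v : ℝ) ^ 2 +
        (-1) * (codeg G u v : ℝ) ^ 3) + (2 - 2 * (codeg G u v : ℝ)) * KK G u v) := by
    apply edgeSum_mono
    intro u v huv
    rw [← sum_kk G u v huv]
    have hc := card_triangles_not_edge G u v huv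
    calc ∑ t ∈ (triangles G).filter (fun t => ¬ (u ∈ t ∧ v ∈ t)),
        (codeg (removeTriangle G t) u v : ℝ) ^ 2
        ≤ ∑ t ∈ (triangles G).filter (fun t => ¬ (u ∈ t ∧ v ∈ t)),
          ((codeg G u v : ℝ) ^ 2 + (2 - 2 * (codeg G u v : ℝ)) * kk G t u v) := by
          refine Finset.sum_le_sum fun t ht => ?_
          rw [Finset.mem_filter] at ht
          rw [codeg_remove G t u v ht.2]
          have k0 := kk_nonneg G t u v
          have k2 := kk_le_two G t ht.1 u v ht.2
          have : (kk G t u v) ^ 2 ≤ 2 * kk G t u v := by nlinarith only [k0, k2]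
          linarith only [this]
      _ = (((triangles G).filter (fun t => ¬ (u ∈ t ∧ v ∈ t))).card : ℝ) * (codeg G u v : ℝ) ^ 2 +
          (2 - 2 * (codeg G u v : ℝ)) *
            ∑ t ∈ (triangles G).filter (fun t => ¬ (u ∈ t ∧ v ∈ t)), kk G t u v := by
          rw [Finset.sum_add_distrib, Finset.sum_const, nsmul_eq_mul, ← Finset.mul_sum]
      _ = _ := by
          rw [hc]
          ring
  have h3 : edgeSum G (fun u v => (((triangles G).card : ℝ) * (codeg G u v : ℝ) ^ 2 +
        (-1) * (codeg G u v : ℝ) ^ 3) + (2 - 2 * (codeg G u v : ℝ)) * KK G u v) =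
      ((triangles G).card : ℝ) * (2 * M2 G) - 2 * M3 G +
        triSum G (fun u v w => (2 - 2 * (codeg G u v : ℝ)) *
          ((codeg G u w : ℝ) + codeg G v w - 2)) := by
    rw [edgeSum_add, edgeSum_add, edgeSum_mul, edgeSum_mul, edgeSum_mul_KK]
    unfold M2 M3
    ring
  have h4 : triSum G (fun u v w => (2 - 2 * (codeg G u v : ℝ)) *
          ((codeg G u w : ℝ) + codeg G v w - 2)) ≤
      triSum G (fun u v w => (2 * ((codeg G u w : ℝ) + codeg G v w) + 4 * (codeg G u v : ℝ)) +
        (-4) * 1) := by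
    apply triSum_mono
    intro u v w _ _ _
    have a : (0:ℝ) ≤ codeg G u v := Nat.cast_nonneg _
    have b : (0:ℝ) ≤ codeg G u w := Nat.cast_nonneg _
    have c : (0:ℝ) ≤ codeg G v w := Nat.cast_nonneg _
    have ab := mul_nonneg a b
    have ac := mul_nonneg a c
    linarith only [ab, ac]
  have e0 : triSum G (fun u v _ => (codeg G u v : ℝ)) = 2 * M2 G := by
    rw [← edgeSum_codeg_mul]
    unfold M2
    have : (fun u v => (codeg G u v : ℝ) * (codeg G u v : ℝ)) =
        (fun u v => (codeg G u v : ℝ) ^ 2) := by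
      funext u v; ring
    rw [this]
    ring
  have h5 : triSum G (fun u v w => (2 * ((codeg G u w : ℝ) + codeg G v w) +
      4 * (codeg G u v : ℝ)) + (-4) * 1) = 16 * M2 G - 24 * ((triangles G).card : ℝ) := by
    have e1 : triSum G (fun _ _ _ => (1:ℝ)) = 6 * ((triangles G).card : ℝ) := by
      rw [triSum_tri G (fun _ => 1)]
      simp only [sum_const, nsmul_eq_mul, mul_one]
    have a1 : triSum G (fun u v w => (codeg G v w : ℝ)) = 2 * M2 G := by
      rw [triSum_swap12 G (fun u v w => (codeg G v w : ℝ)), triSum_swap23, e0]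
    have a2 : triSum G (fun u v w => (codeg G u w : ℝ)) = 2 * M2 G := by
      rw [triSum_swap23 G (fun u v w => (codeg G u w : ℝ)), e0]
    rw [triSum_add, triSum_add, triSum_mul, triSum_mul, triSum_mul, triSum_add, a1, a2, e0, e1]
    ring
  rw [h5] at h4
  rw [h3] at h2
  linarith only [h2, h4]

lemma card_triangles_remove_real (G : SimpleGraph (Fin n)) (t : Finset (Fin n))
    (ht : t ∈ triangles G) :
    ((triangles (removeTriangle G t)).card : ℝ) =
      ((triangles G).card : ℝ) - 1 - ((nb G t).card : ℝ) := by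
  have h := card_triangles_remove G t ht
  have h2 : (((triangles (removeTriangle G t)).card + 1 + (nb G t).card : ℕ) : ℝ) =
      ((triangles G).card : ℝ) := by rw [h]
  push_cast at h2
  linarith only [h2]

lemma sum_T_remove (G : SimpleGraph (Fin n)) :
    ∑ t ∈ triangles G, ((triangles (removeTriangle G t)).card : ℝ) =
      ((triangles G).card : ℝ) * ((triangles G).card : ℝ) - (M2 G - 2 * ((triangles G).card : ℝ)) := by
  rw [Finset.sum_congr rfl fun t ht => card_triangles_remove_real G t ht,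
    Finset.sum_sub_distrib, sum_card_nb, Finset.sum_sub_distrib, Finset.sum_const,
    Finset.sum_const, nsmul_eq_mul, nsmul_eq_mul]
  ring

/-- drift of `J` -/
lemma sum_J_remove (G : SimpleGraph (Fin n)) :
    ∑ t ∈ triangles G, J (removeTriangle G t) ≤
      ((triangles G).card : ℝ) * J G - M3 G + 4 * ((triangles G).card : ℝ) := by
  unfold J
  rw [Finset.sum_add_distrib, ← Finset.mul_sum, sum_T_remove]
  have := sum_M2_remove G
  linarith

/-- Cauchy-Schwarz for the second moment -/
lemma M2_ge (G : SimpleGraph (Fin n)) :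
    9 * ((triangles G).card : ℝ) ^ 2 ≤ (numEdges G : ℝ) * M2 G := by
  rcases Nat.eq_zero_or_pos (numEdges G) with h0 | hpos
  · have h1 := edgeSum_codeg G
    have h2 := edgeSum_one G
    have : edgeSum G (fun u v => (codeg G u v : ℝ)) ≤ edgeSum G (fun _ _ => (n : ℝ) * 1) := by
      apply edgeSum_mono
      intro u v _
      have := OS.codeg_le G u v
      rw [mul_one]
      exact_mod_cast this
    rw [edgeSum_mul, h2, h0, h1] at this
    have hT : ((triangles G).card : ℝ) ≤ 0 := by
      simp only [Nat.cast_zero, mul_zero] at this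
      linarith only [this]
    have hT0 : ((triangles G).card : ℝ) = 0 := le_antisymm hT (Nat.cast_nonneg _)
    rw [hT0, h0]
    simp
  · have hE : (0:ℝ) < numEdges G := by exact_mod_cast hpos
    -- sum of (Y - y)^2 ≥ 0 with y = 3T/E
    obtain ⟨y, hy⟩ : ∃ y : ℝ, y = 3 * ((triangles G).card : ℝ) / numEdges G := ⟨_, rfl⟩
    have h1 : 0 ≤ edgeSum G (fun u v => ((codeg G u v : ℝ) ^ 2 + (-(2 * y)) * (codeg G u v : ℝ)) +
        y ^ 2 * 1) := by
      apply edgeSum_nonneg
      intro u v _
      linarith only [sq_nonneg ((codeg G u v : ℝ) - y)]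
    rw [edgeSum_add, edgeSum_add, edgeSum_mul, edgeSum_mul, edgeSum_one, edgeSum_codeg] at h1
    have h2 : edgeSum G (fun u v => (codeg G u v : ℝ) ^ 2) = 2 * M2 G := by
      unfold M2; ring
    rw [h2] at h1
    have h3 : y * numEdges G = 3 * ((triangles G).card : ℝ) := by
      rw [hy]; field_simp
    have h4 := mul_nonneg hE.le h1
    have h5 : (numEdges G : ℝ) * (2 * M2 G + (-(2 * y)) * (6 * ((triangles G).card : ℝ)) +
        y ^ 2 * (2 * (numEdges G : ℝ))) = 2 * ((numEdges G : ℝ) * M2 G) -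
        12 * (y * numEdges G) * ((triangles G).card : ℝ) + 2 * (y * numEdges G) ^ 2 := by ring
    rw [h5, h3] at h4
    linarith only [h4]

end Vale.Agent.P046.LB
end
end

section

section

set_option autoImplicit false

open scoped Classical
open Finset

namespace Vale.Agent.P046.C.K

open Vale.Agent.P046
open Vale.Agent.P046.OS (triSum removeTriangle_adj card_triangles_edge card_triangles_edge_not
  triSum_swap12 triSum_swap23 triSum_add triSum_mul triSum_mono edgeSum_codeg_mul codeg_comm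
  codeg_remove kk kk_nonneg kk_le_two KK sum_kk card_triangles_not_edge edgeSum_mul_KK codeg_real
  codeg_le rr_nonneg)

variable {n : ℕ}

/-- `(e/(e-3))^2 - 1` -/
noncomputable def eps (G : SimpleGraph (Fin n)) : ℝ :=
  ((numEdges G : ℝ) / ((numEdges G : ℝ) - 3)) ^ 2 - 1

lemma rr_eq_div (G : SimpleGraph (Fin n)) (u v : Fin n) :
    rr G u v = (codeg G u v : ℝ) / cc G := by
  unfold rr cc
  rw [div_div_eq_mul_div]

lemma codeg_eq (G : SimpleGraph (Fin n)) (hc : cc G ≠ 0) (u v : Fin n) :
    (codeg G u v : ℝ) = cc G * rr G u v := by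
  rw [rr_eq_div]; field_simp

lemma numEdges_remove_real (G : SimpleGraph (Fin n)) (t : Finset (Fin n)) (ht : t ∈ triangles G) :
    (numEdges (removeTriangle G t) : ℝ) = (numEdges G : ℝ) - 3 := by
  have := numEdges_removeTriangle G t ht
  have h2 : (numEdges (removeTriangle G t) : ℝ) + 3 = (numEdges G : ℝ) := by exact_mod_cast this
  linarith only [h2]

lemma cc_remove (G : SimpleGraph (Fin n)) (t : Finset (Fin n)) (ht : t ∈ triangles G)
    (hE : 3 < numEdges G) :
    cc G = cc (removeTriangle G t) * (1 + eps G) := by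
  have h3 : (3:ℝ) < numEdges G := by exact_mod_cast hE
  have h4 : (numEdges G : ℝ) - 3 ≠ 0 := by linarith only [h3]
  unfold cc eps
  rw [numEdges_remove_real G t ht]
  field_simp
  ring

lemma inv_cc_remove (G : SimpleGraph (Fin n)) (t : Finset (Fin n)) (ht : t ∈ triangles G)
    (hE : 3 < numEdges G) (hc : 0 < cc G) :
    1 / cc (removeTriangle G t) = (1 + eps G) / cc G := by
  have h := cc_remove G t ht hE
  have h1 : cc (removeTriangle G t) ≠ 0 := by
    intro h0
    rw [h0, zero_mul] at h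
    linarith only [hc, h]
  have h2 : (1 + eps G) ≠ 0 := by
    intro h0
    rw [h0, mul_zero] at h
    linarith only [hc, h]
  rw [h]
  field_simp

lemma rr_remove (G : SimpleGraph (Fin n)) (t : Finset (Fin n)) (ht : t ∈ triangles G)
    (hE : 3 < numEdges G) (hc : 0 < cc G) (u v : Fin n) (huv : ¬ (u ∈ t ∧ v ∈ t)) :
    rr (removeTriangle G t) u v = (1 + eps G) * (rr G u v - kk G t u v / cc G) := by
  rw [rr_eq_div, div_eq_mul_one_div, inv_cc_remove G t ht hE hc, codeg_remove G t u v huv,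
    rr_eq_div]
  ring

/-- number of times the pair-triangle `u v x` is killed -/
noncomputable def kil (t : Finset (Fin n)) (u v x : Fin n) : ℝ :=
  (if u ∈ t ∧ x ∈ t then (1:ℝ) else 0) + (if v ∈ t ∧ x ∈ t then (1:ℝ) else 0)


/-- weighted number of kills -/
noncomputable def Kw (G : SimpleGraph (Fin n)) (t : Finset (Fin n)) (f : Fin n → ℝ)
    (u v : Fin n) : ℝ :=
  ∑ x, if G.Adj u x ∧ G.Adj v x then kil t u v x * f x else 0

lemma kk_eq_Kw (G : SimpleGraph (Fin n)) (t : Finset (Fin n)) (u v : Fin n) :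
    kk G t u v = Kw G t (fun _ => 1) u v := by
  unfold kk Kw kil
  refine Finset.sum_congr rfl fun x _ => ?_
  split_ifs <;> ring

/-- the total of weighted kills -/
lemma sum_Kw (G : SimpleGraph (Fin n)) (f : Fin n → ℝ) (u v : Fin n) (h : G.Adj u v) :
    ∑ t ∈ (triangles G).filter (fun t => ¬ (u ∈ t ∧ v ∈ t)), Kw G t f u v =
      ∑ x, if G.Adj u x ∧ G.Adj v x then
        ((codeg G u x : ℝ) + codeg G v x - 2) * f x else 0 := by
  unfold Kw
  rw [Finset.sum_comm]
  refine Finset.sum_congr rfl fun w _ => ?_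
  by_cases h1 : G.Adj u w ∧ G.Adj v w
  · simp only [if_pos h1]
    rw [← Finset.sum_mul]
    congr 1
    unfold kil
    rw [Finset.sum_add_distrib]
    have e1 : ∑ t ∈ (triangles G).filter (fun t => ¬ (u ∈ t ∧ v ∈ t)),
        (if u ∈ t ∧ w ∈ t then (1:ℝ) else 0) = (codeg G u w : ℝ) - 1 := by
      rw [← card_triangles_edge_not G u v w h h1.1 h1.2, Finset.sum_filter, Finset.card_filter]
      push_cast
      refine Finset.sum_congr rfl fun t _ => ?_
      by_cases a : u ∈ t <;> by_cases b : w ∈ t <;> by_cases c : v ∈ t <;> simp [a, b, c]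
    have e2 : ∑ t ∈ (triangles G).filter (fun t => ¬ (u ∈ t ∧ v ∈ t)),
        (if v ∈ t ∧ w ∈ t then (1:ℝ) else 0) = (codeg G v w : ℝ) - 1 := by
      rw [← card_triangles_edge_not G v u w h.symm h1.2 h1.1, Finset.sum_filter,
        Finset.card_filter]
      push_cast
      refine Finset.sum_congr rfl fun t _ => ?_
      by_cases a : u ∈ t <;> by_cases b : w ∈ t <;> by_cases c : v ∈ t <;> simp [a, b, c]
    rw [e1, e2]
    ring
  · simp only [if_neg h1, Finset.sum_const_zero]

lemma KK_eq_SS (G : SimpleGraph (Fin n)) (u v : Fin n) :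
    KK G u v = SS G u v - 2 * (codeg G u v : ℝ) := by
  unfold KK SS
  rw [codeg_real, Finset.mul_sum, ← Finset.sum_sub_distrib]
  refine Finset.sum_congr rfl fun x _ => ?_
  split_ifs <;> ring

lemma SS_eq (G : SimpleGraph (Fin n)) (hc : 0 < cc G) (u v : Fin n) :
    SS G u v = cc G ^ 2 * (ww G u v + 2 * rr G u v) := by
  have h1 : ∀ x, (if G.Adj u x ∧ G.Adj v x then (zz G u x + zz G v x) else 0) =
      (if G.Adj u x ∧ G.Adj v x then ((codeg G u x : ℝ) + codeg G v x) else 0) / cc G -
      2 * (if G.Adj u x ∧ G.Adj v x then (1:ℝ) else 0) := by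
    intro x
    unfold zz
    rw [rr_eq_div, rr_eq_div]
    split_ifs
    · ring
    · ring
  unfold ww SS
  rw [Finset.sum_congr rfl fun x _ => h1 x, Finset.sum_sub_distrib, ← Finset.sum_div,
    ← Finset.mul_sum, ← codeg_real, rr_eq_div]
  field_simp
  ring

lemma ww_eq (G : SimpleGraph (Fin n)) (hc : 0 < cc G) (u v : Fin n) :
    ww G u v = SS G u v / cc G ^ 2 - 2 * rr G u v := by
  rw [SS_eq G hc]; field_simp; ring

lemma SS_remove (G : SimpleGraph (Fin n)) (t : Finset (Fin n)) (u v : Fin n)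
    (huv : ¬ (u ∈ t ∧ v ∈ t)) :
    SS (removeTriangle G t) u v = SS G u v -
      Kw G t (fun x => (codeg G u x : ℝ) + codeg G v x) u v - BB G t u v := by
  unfold SS Kw BB kil
  rw [← Finset.sum_sub_distrib, ← Finset.sum_sub_distrib]
  refine Finset.sum_congr rfl fun x _ => ?_
  simp only [removeTriangle_adj]
  by_cases h1 : G.Adj u x ∧ G.Adj v x
  · rw [if_pos h1, if_pos h1]
    by_cases h2 : u ∈ t ∧ x ∈ t
    · have h3 : ¬ (v ∈ t ∧ x ∈ t) := fun h => huv ⟨h2.1, h.1⟩
      rw [if_neg (fun h => h.1.2 h2), if_pos h2, if_neg h3, if_neg (fun h => h.2.2.1 h2)]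
      ring
    · by_cases h3 : v ∈ t ∧ x ∈ t
      · rw [if_neg (fun h => h.2.2 h3), if_neg h2, if_pos h3, if_neg (fun h => h.2.2.2 h3)]
        ring
      · rw [if_pos ⟨⟨h1.1, h2⟩, ⟨h1.2, h3⟩⟩, if_neg h2, if_neg h3, if_pos ⟨h1.1, h1.2, h2, h3⟩,
          codeg_remove G t u x h2, codeg_remove G t v x h3]
        ring
  · rw [if_neg (fun h => h1 ⟨h.1.1, h.2.1⟩), if_neg h1, if_neg h1,
      if_neg (fun h => h1 ⟨h.1, h.2.1⟩)]
    ring

/-- the weighted kill sum of deviations -/
noncomputable def Sz (G : SimpleGraph (Fin n)) (t : Finset (Fin n)) (u v : Fin n) : ℝ :=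
  Kw G t (fun x => zz G u x + zz G v x) u v

lemma Kw_codeg (G : SimpleGraph (Fin n)) (hc : 0 < cc G) (t : Finset (Fin n)) (u v : Fin n) :
    Kw G t (fun x => (codeg G u x : ℝ) + codeg G v x) u v =
      cc G * (Sz G t u v + 2 * kk G t u v) := by
  rw [kk_eq_Kw]
  unfold Sz Kw
  rw [Finset.mul_sum (a := 2), ← Finset.sum_add_distrib, Finset.mul_sum]
  refine Finset.sum_congr rfl fun x _ => ?_
  split_ifs
  · unfold zz
    beta_reduce
    rw [codeg_eq G hc.ne' u x, codeg_eq G hc.ne' v x]
    ring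
  · ring

/-- exact formula for `ww` after removing a triangle -/
lemma ww_remove (G : SimpleGraph (Fin n)) (t : Finset (Fin n)) (ht : t ∈ triangles G)
    (hE : 3 < numEdges G) (hc : 0 < cc G) (u v : Fin n) (huv : ¬ (u ∈ t ∧ v ∈ t)) :
    ww (removeTriangle G t) u v =
      (1 + eps G) ^ 2 * (ww G u v - Sz G t u v / cc G - BB G t u v / cc G ^ 2) +
        2 * eps G * (1 + eps G) * (rr G u v - kk G t u v / cc G) := by
  have h := cc_remove G t ht hE
  have hprod : 0 < cc (removeTriangle G t) * (1 + eps G) := by rw [← h]; exact hc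
  have hc0 : 0 ≤ cc (removeTriangle G t) := by unfold cc; positivity
  have hc' : 0 < cc (removeTriangle G t) := by
    rcases hc0.lt_or_eq with h1 | h1
    · exact h1
    · rw [← h1, zero_mul] at hprod
      exact absurd hprod (lt_irrefl 0)
  have hinv := inv_cc_remove G t ht hE hc
  have e1 : SS (removeTriangle G t) u v / cc (removeTriangle G t) ^ 2 =
      SS (removeTriangle G t) u v * (1 / cc (removeTriangle G t)) ^ 2 := by
    field_simp
  rw [ww_eq _ hc', rr_remove G t ht hE hc u v huv, e1, hinv, SS_remove G t u v huv,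
    Kw_codeg G hc, SS_eq G hc]
  field_simp
  ring

end Vale.Agent.P046.C.K
end
end

section

section

set_option autoImplicit false

open scoped Classical
open Finset

namespace Vale.Agent.P046.C.K

open Vale.Agent.P046
open Vale.Agent.P046.OS (triSum removeTriangle_adj card_triangles_edge card_triangles_edge_not
  triSum_swap12 triSum_swap23 triSum_add triSum_mul triSum_mono edgeSum_codeg_mul codeg_comm
  codeg_remove kk kk_nonneg kk_le_two KK sum_kk card_triangles_not_edge edgeSum_mul_KK codeg_real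
  codeg_le rr_nonneg)

variable {n : ℕ}

lemma sub_kill (G : SimpleGraph (Fin n)) (a b u v x y : Fin n) (hab : G.Adj a b)
    (huv : G.Adj u v) (hxy : G.Adj x y) :
    KK G a b - 2 * ((codeg G u v : ℝ) + codeg G x y) ≤
      ∑ t ∈ (triangles G).filter (fun t => ¬ (a ∈ t ∧ b ∈ t) ∧ ¬ (u ∈ t ∧ v ∈ t) ∧
        ¬ (x ∈ t ∧ y ∈ t)), kk G t a b := by
  rw [← sum_kk G a b hab]
  have h1 : ∑ t ∈ (triangles G).filter (fun t => ¬ (a ∈ t ∧ b ∈ t)), kk G t a b ≤
      ∑ t ∈ (triangles G).filter (fun t => ¬ (a ∈ t ∧ b ∈ t) ∧ ¬ (u ∈ t ∧ v ∈ t) ∧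
        ¬ (x ∈ t ∧ y ∈ t)), kk G t a b +
      (∑ t ∈ (triangles G).filter (fun t => u ∈ t ∧ v ∈ t), (2:ℝ) +
        ∑ t ∈ (triangles G).filter (fun t => x ∈ t ∧ y ∈ t), (2:ℝ)) := by
    rw [Finset.sum_filter, Finset.sum_filter, Finset.sum_filter, Finset.sum_filter,
      ← Finset.sum_add_distrib, ← Finset.sum_add_distrib]
    refine Finset.sum_le_sum fun t ht => ?_
    by_cases h1 : a ∈ t ∧ b ∈ t
    · rw [if_neg (fun h => h h1), if_neg (fun h => h.1 h1)]
      split_ifs <;> norm_num
    · have h2 := kk_le_two G t ht a b h1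
      have h0 := kk_nonneg G t a b
      rw [if_pos h1]
      by_cases h3 : u ∈ t ∧ v ∈ t
      · rw [if_pos h3, if_neg (fun h => h.2.1 h3)]
        split_ifs <;> linarith
      · by_cases h4 : x ∈ t ∧ y ∈ t
        · rw [if_neg h3, if_pos h4, if_neg (fun h => h.2.2 h4)]
          linarith
        · rw [if_neg h3, if_neg h4, if_pos ⟨h1, h3, h4⟩]
          linarith
  rw [Finset.sum_const, Finset.sum_const, nsmul_eq_mul, nsmul_eq_mul,
    card_triangles_edge G u v huv, card_triangles_edge G x y hxy] at h1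
  linarith

lemma sub_kill_le (G : SimpleGraph (Fin n)) (a b u v x y : Fin n) (hab : G.Adj a b) :
    ∑ t ∈ (triangles G).filter (fun t => ¬ (a ∈ t ∧ b ∈ t) ∧ ¬ (u ∈ t ∧ v ∈ t) ∧
        ¬ (x ∈ t ∧ y ∈ t)), kk G t a b ≤ KK G a b := by
  rw [← sum_kk G a b hab]
  apply Finset.sum_le_sum_of_subset_of_nonneg
  · intro t ht
    rw [Finset.mem_filter] at ht ⊢
    exact ⟨ht.1, ht.2.1⟩
  · intro t _ _
    exact kk_nonneg G t a b

/-- total of `BB` over the removed triangles -/
noncomputable def SBB (G : SimpleGraph (Fin n)) (u v : Fin n) : ℝ :=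
  ∑ t ∈ (triangles G).filter (fun t => ¬ (u ∈ t ∧ v ∈ t)), BB G t u v

lemma SBB_eq (G : SimpleGraph (Fin n)) (u v : Fin n) :
    SBB G u v = ∑ x, if G.Adj u x ∧ G.Adj v x then
      (∑ t ∈ (triangles G).filter (fun t => ¬ (u ∈ t ∧ x ∈ t) ∧ ¬ (u ∈ t ∧ v ∈ t) ∧
        ¬ (v ∈ t ∧ x ∈ t)), kk G t u x) +
      (∑ t ∈ (triangles G).filter (fun t => ¬ (v ∈ t ∧ x ∈ t) ∧ ¬ (u ∈ t ∧ v ∈ t) ∧
        ¬ (u ∈ t ∧ x ∈ t)), kk G t v x) else 0 := by
  unfold SBB BB
  rw [Finset.sum_comm]
  refine Finset.sum_congr rfl fun x _ => ?_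
  by_cases h : G.Adj u x ∧ G.Adj v x
  · rw [if_pos h, Finset.sum_filter, Finset.sum_filter, Finset.sum_filter,
      ← Finset.sum_add_distrib]
    refine Finset.sum_congr rfl fun t _ => ?_
    by_cases h1 : u ∈ t ∧ v ∈ t
    · rw [if_neg (fun h2 => h2 h1), if_neg (fun h2 => h2.2.1 h1), if_neg (fun h2 => h2.2.1 h1)]
      ring
    · by_cases h2 : u ∈ t ∧ x ∈ t
      · rw [if_pos h1, if_neg (fun h3 => h3.2.2.1 h2), if_neg (fun h3 => h3.1 h2),
          if_neg (fun h3 => h3.2.2 h2)]
        ring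
      · by_cases h3 : v ∈ t ∧ x ∈ t
        · rw [if_pos h1, if_neg (fun h4 => h4.2.2.2 h3), if_neg (fun h4 => h4.2.2 h3),
            if_neg (fun h4 => h4.1 h3)]
          ring
        · rw [if_pos h1, if_pos ⟨h.1, h.2, h2, h3⟩, if_pos ⟨h2, h1, h3⟩, if_pos ⟨h3, h1, h2⟩]
  · rw [if_neg h]
    apply Finset.sum_eq_zero
    intro t _
    rw [if_neg (fun h2 => h ⟨h2.1, h2.2.1⟩)]

lemma SBB_le (G : SimpleGraph (Fin n)) (u v : Fin n) :
    SBB G u v ≤ ∑ x, if G.Adj u x ∧ G.Adj v x then (KK G u x + KK G v x) else 0 := by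
  rw [SBB_eq]
  refine Finset.sum_le_sum fun x _ => ?_
  by_cases h : G.Adj u x ∧ G.Adj v x
  · rw [if_pos h, if_pos h]
    exact add_le_add (sub_kill_le G u x u v v x h.1) (sub_kill_le G v x u v u x h.2)
  · rw [if_neg h, if_neg h]

lemma SBB_ge (G : SimpleGraph (Fin n)) (u v : Fin n) (huv : G.Adj u v) :
    (∑ x, if G.Adj u x ∧ G.Adj v x then (KK G u x + KK G v x) else 0) -
      (4 * (codeg G u v : ℝ) ^ 2 + 2 * SS G u v) ≤ SBB G u v := by
  have h0 : 4 * (codeg G u v : ℝ) ^ 2 + 2 * SS G u v =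
      ∑ x, if G.Adj u x ∧ G.Adj v x then (4 * (codeg G u v : ℝ) + 2 * codeg G u x +
        2 * codeg G v x) else 0 := by
    have e1 : 4 * (codeg G u v : ℝ) ^ 2 = 4 * (codeg G u v : ℝ) * (codeg G u v : ℝ) := by ring
    rw [e1]
    nth_rewrite 2 [codeg_real G u v]
    unfold SS
    rw [Finset.mul_sum, Finset.mul_sum, ← Finset.sum_add_distrib]
    refine Finset.sum_congr rfl fun x _ => ?_
    split_ifs <;> ring
  rw [h0, SBB_eq, ← Finset.sum_sub_distrib]
  refine Finset.sum_le_sum fun x _ => ?_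
  by_cases h : G.Adj u x ∧ G.Adj v x
  · rw [if_pos h, if_pos h, if_pos h]
    have h1 := sub_kill G u x u v v x h.1 huv h.2
    have h2 := sub_kill G v x u v u x h.2 huv h.1
    linarith only [h1, h2]
  · rw [if_neg h, if_neg h, if_neg h]
    norm_num

/-- second order average of `w` -/
noncomputable def Aw (G : SimpleGraph (Fin n)) (u v : Fin n) : ℝ :=
  (∑ x, if G.Adj u x ∧ G.Adj v x then (ww G u x + ww G v x) else 0) / cc G

lemma sum_KK_pair (G : SimpleGraph (Fin n)) (hc : 0 < cc G) (u v : Fin n) :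
    (∑ x, if G.Adj u x ∧ G.Adj v x then (KK G u x + KK G v x) else 0) =
      cc G ^ 2 * (cc G * Aw G u v + 2 * cc G * (ww G u v + 2 * rr G u v) -
        2 * (ww G u v + 2 * rr G u v)) := by
  have h1 : (∑ x, if G.Adj u x ∧ G.Adj v x then (KK G u x + KK G v x) else 0) =
      cc G ^ 2 * (∑ x, if G.Adj u x ∧ G.Adj v x then (ww G u x + ww G v x) else 0) +
      (2 * cc G - 2) * SS G u v := by
    unfold SS
    rw [Finset.mul_sum, Finset.mul_sum, ← Finset.sum_add_distrib]
    refine Finset.sum_congr rfl fun x _ => ?_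
    split_ifs
    · rw [KK_eq_SS, KK_eq_SS, SS_eq G hc, SS_eq G hc, codeg_eq G hc.ne' u x,
        codeg_eq G hc.ne' v x]
      ring
    · ring
  rw [h1, SS_eq G hc]
  unfold Aw
  field_simp
  ring

/-- `SBB / c^2` in terms of the main quantities -/
lemma SBB_bounds (G : SimpleGraph (Fin n)) (hc : 0 < cc G) (u v : Fin n) (huv : G.Adj u v) :
    ∃ f : ℝ, 0 ≤ f ∧ f ≤ 4 * (rr G u v) ^ 2 + 2 * (ww G u v + 2 * rr G u v) ∧
      SBB G u v / cc G ^ 2 = cc G * Aw G u v + 2 * cc G * (ww G u v + 2 * rr G u v) -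
        2 * (ww G u v + 2 * rr G u v) - f := by
  have h1 := SBB_le G u v
  have h2 := SBB_ge G u v huv
  rw [sum_KK_pair G hc] at h1 h2
  rw [SS_eq G hc, codeg_eq G hc.ne'] at h2
  have hc2 : 0 < cc G ^ 2 := by positivity
  refine ⟨cc G * Aw G u v + 2 * cc G * (ww G u v + 2 * rr G u v) -
        2 * (ww G u v + 2 * rr G u v) - SBB G u v / cc G ^ 2, ?_, ?_, by ring⟩
  · rw [sub_nonneg, div_le_iff₀ hc2]
    linarith only [h1]
  · have : (cc G * Aw G u v + 2 * cc G * (ww G u v + 2 * rr G u v) -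
        2 * (ww G u v + 2 * rr G u v)) - (4 * (rr G u v) ^ 2 +
        2 * (ww G u v + 2 * rr G u v)) ≤ SBB G u v / cc G ^ 2 := by
      rw [le_div_iff₀ hc2]
      linarith only [h2]
    linarith

lemma sum_Sz (G : SimpleGraph (Fin n)) (hc : 0 < cc G) (u v : Fin n) (huv : G.Adj u v) :
    (∑ t ∈ (triangles G).filter (fun t => ¬ (u ∈ t ∧ v ∈ t)), Sz G t u v) / cc G =
      2 * cc G * ww G u v + cc G * qq G u v - 2 * ww G u v := by
  unfold Sz
  rw [sum_Kw G _ u v huv]
  have h1 : ∀ x, (if G.Adj u x ∧ G.Adj v x then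
        ((codeg G u x : ℝ) + codeg G v x - 2) * (zz G u x + zz G v x) else 0) =
      (2 * cc G - 2) * (if G.Adj u x ∧ G.Adj v x then (zz G u x + zz G v x) else 0) +
      cc G * (if G.Adj u x ∧ G.Adj v x then (zz G u x + zz G v x) ^ 2 else 0) := by
    intro x
    split_ifs
    · rw [codeg_eq G hc.ne' u x, codeg_eq G hc.ne' v x]
      unfold zz
      ring
    · ring
  rw [Finset.sum_congr rfl fun x _ => h1 x, Finset.sum_add_distrib, ← Finset.mul_sum,
    ← Finset.mul_sum]
  unfold ww qq
  field_simp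
  ring

lemma KK_div (G : SimpleGraph (Fin n)) (hc : 0 < cc G) (u v : Fin n) :
    KK G u v / cc G = cc G * (ww G u v + 2 * rr G u v) - 2 * rr G u v := by
  rw [KK_eq_SS, SS_eq G hc, codeg_eq G hc.ne']
  field_simp

/-- exact sum of the increments of `ww` -/
lemma sum_ww_diff (G : SimpleGraph (Fin n)) (hE : 3 < numEdges G) (hc : 0 < cc G) (u v : Fin n)
    (huv : G.Adj u v) :
    ∑ t ∈ (triangles G).filter (fun t => ¬ (u ∈ t ∧ v ∈ t)),
      (ww (removeTriangle G t) u v - ww G u v) =
    (((triangles G).card : ℝ) - codeg G u v) *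
      (((1 + eps G) ^ 2 - 1) * ww G u v + 2 * eps G * (1 + eps G) * rr G u v) -
    (1 + eps G) ^ 2 * (2 * cc G * ww G u v + cc G * qq G u v - 2 * ww G u v) -
    (1 + eps G) ^ 2 * (SBB G u v / cc G ^ 2) -
    2 * eps G * (1 + eps G) * (cc G * (ww G u v + 2 * rr G u v) - 2 * rr G u v) := by
  have h1 : ∀ t ∈ (triangles G).filter (fun t => ¬ (u ∈ t ∧ v ∈ t)),
      (ww (removeTriangle G t) u v - ww G u v) =
      (((1 + eps G) ^ 2 - 1) * ww G u v + 2 * eps G * (1 + eps G) * rr G u v) -
      ((1 + eps G) ^ 2 / cc G) * Sz G t u v - ((1 + eps G) ^ 2 / cc G ^ 2) * BB G t u v -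
      (2 * eps G * (1 + eps G) / cc G) * kk G t u v := by
    intro t ht
    rw [Finset.mem_filter] at ht
    rw [ww_remove G t ht.1 hE hc u v ht.2]
    ring
  rw [Finset.sum_congr rfl h1, Finset.sum_sub_distrib, Finset.sum_sub_distrib,
    Finset.sum_sub_distrib, Finset.sum_const, nsmul_eq_mul, ← Finset.mul_sum, ← Finset.mul_sum,
    ← Finset.mul_sum, card_triangles_not_edge G u v huv, sum_kk G u v huv, ← sum_Sz G hc u v huv,
    ← KK_div G hc]
  unfold SBB
  ring

end Vale.Agent.P046.C.K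
end
end

section

section

set_option autoImplicit false

open scoped Classical
open Finset

namespace Vale.Agent.P046.C

open Vale.Agent.P046 Vale.Agent.P046.OS

variable {n : ℕ}

/-- adjacency as a real number -/
noncomputable def adj (G : SimpleGraph (Fin n)) (u v : Fin n) : ℝ := if G.Adj u v then 1 else 0

lemma adj_comm' (G : SimpleGraph (Fin n)) (u v : Fin n) : adj G u v = adj G v u := by
  unfold adj
  by_cases h : G.Adj u v
  · rw [if_pos h, if_pos h.symm]
  · rw [if_neg h, if_neg (fun h' => h h'.symm)]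

lemma sum_adj_adj (G : SimpleGraph (Fin n)) (u v : Fin n) :
    ∑ x, adj G x u * adj G x v = (codeg G u v : ℝ) := by
  rw [codeg_real]
  refine Finset.sum_congr rfl fun x _ => ?_
  rw [adj_comm' G x u, adj_comm' G x v]
  unfold adj
  by_cases h1 : G.Adj u x <;> by_cases h2 : G.Adj v x <;> simp [h1, h2]

/-- action of the adjacency matrix -/
noncomputable def adjMul (G : SimpleGraph (Fin n)) (b : Fin n → ℝ) (x : Fin n) : ℝ :=
  ∑ u, adj G x u * b u

lemma adjMul_sq (G : SimpleGraph (Fin n)) (b : Fin n → ℝ) :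
    ∑ x, (adjMul G b x) ^ 2 = ∑ u, ∑ v, b u * b v * (codeg G u v : ℝ) := by
  have h1 : ∀ x, (adjMul G b x) ^ 2 = ∑ u, ∑ v, (b u * b v) * (adj G x u * adj G x v) := by
    intro x
    unfold adjMul
    rw [sq, Finset.sum_mul_sum]
    refine Finset.sum_congr rfl fun u _ => Finset.sum_congr rfl fun v _ => by ring
  simp only [h1]
  rw [Finset.sum_comm]
  refine Finset.sum_congr rfl fun u _ => ?_
  rw [Finset.sum_comm]
  refine Finset.sum_congr rfl fun v _ => ?_
  rw [← Finset.mul_sum, sum_adj_adj]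

lemma adjMul_sq_le (G : SimpleGraph (Fin n)) (c D : ℝ) (hD : 0 ≤ D)
    (hR : ∑ u, ∑ v, ((codeg G u v : ℝ) - c) ^ 2 ≤ D ^ 2) (b : Fin n → ℝ) (hb : ∑ u, b u = 0) :
    ∑ x, (adjMul G b x) ^ 2 ≤ D * ∑ u, b u ^ 2 := by
  rw [adjMul_sq]
  have h1 : ∑ u, ∑ v, b u * b v * (codeg G u v : ℝ) =
      ∑ u, ∑ v, (b u * b v) * ((codeg G u v : ℝ) - c) := by
    have h2 : ∑ u, ∑ v, b u * b v * c = 0 := by
      have : ∑ u, ∑ v, b u * b v * c = (∑ u, b u) * (∑ v, b v) * c := by
        rw [Finset.sum_mul_sum, Finset.sum_mul]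
        refine Finset.sum_congr rfl fun u _ => ?_
        rw [Finset.sum_mul]
      rw [this, hb]; ring
    have h3 : ∑ u, ∑ v, (b u * b v) * ((codeg G u v : ℝ) - c) =
        ∑ u, ∑ v, b u * b v * (codeg G u v : ℝ) - ∑ u, ∑ v, b u * b v * c := by
      rw [← Finset.sum_sub_distrib]
      refine Finset.sum_congr rfl fun u _ => ?_
      rw [← Finset.sum_sub_distrib]
      refine Finset.sum_congr rfl fun v _ => by ring
    rw [h3, h2, sub_zero]
  rw [h1]
  -- Cauchy-Schwarz on the product index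
  have hcs := Finset.sum_mul_sq_le_sq_mul_sq (univ ×ˢ univ : Finset (Fin n × Fin n))
    (fun p => b p.1 * b p.2) (fun p => (codeg G p.1 p.2 : ℝ) - c)
  rw [Finset.sum_product, Finset.sum_product, Finset.sum_product] at hcs
  have h4 : ∑ u, ∑ v, (b u * b v) ^ 2 = (∑ u, b u ^ 2) ^ 2 := by
    rw [sq (∑ u, b u ^ 2), Finset.sum_mul_sum]
    refine Finset.sum_congr rfl fun u _ => Finset.sum_congr rfl fun v _ => by ring
  simp only at hcs
  rw [h4] at hcs
  have hB : 0 ≤ ∑ u, b u ^ 2 := Finset.sum_nonneg fun u _ => sq_nonneg _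
  have h5 : (∑ u, ∑ v, (b u * b v) * ((codeg G u v : ℝ) - c)) ^ 2 ≤ (D * ∑ u, b u ^ 2) ^ 2 := by
    calc _ ≤ (∑ u, b u ^ 2) ^ 2 * ∑ u, ∑ v, ((codeg G u v : ℝ) - c) ^ 2 := hcs
      _ ≤ (∑ u, b u ^ 2) ^ 2 * D ^ 2 := mul_le_mul_of_nonneg_left hR (sq_nonneg _)
      _ = _ := by ring
  exact le_of_sq_le_sq h5 (by positivity)

lemma quad_form_ge (G : SimpleGraph (Fin n)) (c D : ℝ) (hD : 0 ≤ D) (hE : 0 < numEdges G)
    (hR : ∑ u, ∑ v, ((codeg G u v : ℝ) - c) ^ 2 ≤ D ^ 2) (a : Fin n → ℝ) :
    -((√D + n * D / (2 * numEdges G)) * ∑ u, a u ^ 2) ≤ ∑ u, a u * adjMul G a u := by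
  have hn : 0 < n := by
    rcases Nat.eq_zero_or_pos n with h0 | h0
    · subst h0
      unfold numEdges at hE
      rw [Finset.card_pos] at hE
      obtain ⟨e, he⟩ := hE
      induction e with
      | _ x y => exact x.elim0
    · exact h0
  have hn0 : (0:ℝ) < n := by exact_mod_cast hn
  have hE0 : (0:ℝ) < numEdges G := by exact_mod_cast hE
  obtain ⟨m, hm⟩ : ∃ m : ℝ, m = (∑ u, a u) / n := ⟨_, rfl⟩
  obtain ⟨b, hbdef⟩ : ∃ b : Fin n → ℝ, b = fun u => a u - m := ⟨_, rfl⟩
  have hbu : ∀ u, b u = a u - m := fun u => by rw [hbdef]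
  have hb0 : ∑ u, b u = 0 := by
    simp only [hbu, Finset.sum_sub_distrib, Finset.sum_const, Finset.card_univ, Fintype.card_fin,
      nsmul_eq_mul]
    rw [hm]; field_simp; ring
  have hsq : ∑ u, a u ^ 2 = ∑ u, b u ^ 2 + n * m ^ 2 := by
    have : ∀ u, a u ^ 2 = b u ^ 2 + 2 * m * b u + m ^ 2 := by
      intro u; rw [hbu]; ring
    simp only [this, Finset.sum_add_distrib, ← Finset.mul_sum, hb0, Finset.sum_const,
      Finset.card_univ, Fintype.card_fin, nsmul_eq_mul]
    ring
  have hAb := adjMul_sq_le G c D hD hR b hb0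
  obtain ⟨B, hB⟩ : ∃ B : ℝ, B = ∑ u, b u ^ 2 := ⟨_, rfl⟩
  obtain ⟨P, hP⟩ : ∃ P : ℝ, P = ∑ x, (adjMul G b x) ^ 2 := ⟨_, rfl⟩
  rw [← hB, ← hP] at hAb
  have hB0 : 0 ≤ B := by rw [hB]; exact Finset.sum_nonneg fun u _ => sq_nonneg _
  have hP0 : 0 ≤ P := by rw [hP]; exact Finset.sum_nonneg fun u _ => sq_nonneg _
  -- decomposition
  have hone : ∀ x, adjMul G (fun _ => (1:ℝ)) x = ∑ u, adj G x u := by
    intro x; unfold adjMul; simp only [mul_one]
  have hlin : ∀ x, adjMul G a x = adjMul G b x + m * ∑ u, adj G x u := by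
    intro x
    unfold adjMul
    rw [Finset.mul_sum, ← Finset.sum_add_distrib]
    refine Finset.sum_congr rfl fun u _ => ?_
    rw [hbu]; ring
  have htot : ∑ x, ∑ u, adj G x u = 2 * (numEdges G : ℝ) := by
    rw [← edgeSum_one]; rfl
  have hswap : ∑ x, b x * (∑ u, adj G x u) = ∑ x, adjMul G b x := by
    unfold adjMul
    simp only [Finset.mul_sum]
    rw [Finset.sum_comm]
    refine Finset.sum_congr rfl fun u _ => Finset.sum_congr rfl fun x _ => ?_
    rw [adj_comm' G x u]; ring
  have hdecomp : ∑ u, a u * adjMul G a u =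
      ∑ u, b u * adjMul G b u + 2 * m * ∑ x, adjMul G b x + m ^ 2 * (2 * (numEdges G : ℝ)) := by
    have h1 : ∀ u, a u * adjMul G a u = b u * adjMul G b u + m * adjMul G b u
        + m * (b u * ∑ v, adj G u v) + m ^ 2 * ∑ v, adj G u v := by
      intro u
      rw [hlin]
      have : a u = b u + m := by rw [hbu]; ring
      rw [this]; ring
    simp only [h1, Finset.sum_add_distrib, ← Finset.mul_sum, hswap, htot]
    ring
  -- bounds
  have hcs1 : (∑ u, b u * adjMul G b u) ^ 2 ≤ B * P := by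
    rw [hB, hP]; exact Finset.sum_mul_sq_le_sq_mul_sq _ _ _
  have hcs2 : (∑ x, adjMul G b x) ^ 2 ≤ n * P := by
    rw [hP]
    have := sq_sum_le_card_mul_sum_sq (s := (univ : Finset (Fin n))) (f := fun x => adjMul G b x)
    simpa only [ge_iff_le, card_univ, Fintype.card_fin] using this
  have hx1 : -(√D * B) ≤ ∑ u, b u * adjMul G b u := by
    have h2 : (∑ u, b u * adjMul G b u) ^ 2 ≤ (√D * B) ^ 2 := by
      calc _ ≤ B * P := hcs1
        _ ≤ B * (D * B) := mul_le_mul_of_nonneg_left hAb hB0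
        _ = _ := by rw [mul_pow, Real.sq_sqrt hD]; ring
    have := abs_le_of_sq_le_sq h2 (by positivity)
    exact (abs_le.mp this).1
  have hx2 : -(m ^ 2 * (2 * (numEdges G : ℝ)) + n * D / (2 * numEdges G) * B) ≤
      2 * m * ∑ x, adjMul G b x := by
    obtain ⟨s, hs⟩ : ∃ s : ℝ, s = ∑ x, adjMul G b x := ⟨_, rfl⟩
    rw [← hs] at hcs2 ⊢
    have h3 : s ^ 2 ≤ n * (D * B) := hcs2.trans (mul_le_mul_of_nonneg_left hAb hn0.le)
    obtain ⟨e, he⟩ : ∃ e : ℝ, e = (numEdges G : ℝ) := ⟨_, rfl⟩
    rw [← he] at hE0 ⊢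
    have h4 : n * D / (2 * e) * B = n * (D * B) / (2 * e) := by ring
    rw [h4]
    have h5 : s ^ 2 / (2 * e) ≤ n * (D * B) / (2 * e) := by gcongr
    have h6 : 0 ≤ (m * (2 * e) + s) ^ 2 / (2 * e) := by positivity
    have h7 : (m * (2 * e) + s) ^ 2 / (2 * e) = m ^ 2 * (2 * e) + 2 * m * s + s ^ 2 / (2 * e) := by
      field_simp
      ring
    linarith only [h5, h6, h7]
  rw [hdecomp]
  have hκ : 0 ≤ √D + n * D / (2 * numEdges G) := by positivity
  have hfin : (√D + n * D / (2 * numEdges G)) * B ≤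
      (√D + n * D / (2 * numEdges G)) * ∑ u, a u ^ 2 := by
    refine mul_le_mul_of_nonneg_left ?_ hκ
    rw [hsq, ← hB]
    nlinarith only []
  linarith only [hx1, hx2, hfin]

/-- spectral lower bound for the triangle form -/
theorem triSum_ge (G : SimpleGraph (Fin n)) (c D : ℝ) (hD : 0 ≤ D) (hE : 0 < numEdges G)
    (hR : ∑ u, ∑ v, ((codeg G u v : ℝ) - c) ^ 2 ≤ D ^ 2) (w : Fin n → Fin n → ℝ) :
    -((√D + n * D / (2 * numEdges G)) * edgeSum G (fun u v => w u v ^ 2)) ≤
      triSum G (fun u v x => w u v * w u x) := by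
  have h1 : triSum G (fun u v x => w u v * w u x) =
      ∑ u, ∑ v, (adj G u v * w u v) * adjMul G (fun x => adj G u x * w u x) v := by
    unfold triSum adjMul
    refine Finset.sum_congr rfl fun u _ => Finset.sum_congr rfl fun v _ => ?_
    rw [Finset.mul_sum]
    refine Finset.sum_congr rfl fun x _ => ?_
    unfold adj
    by_cases a1 : G.Adj u v
    · by_cases a2 : G.Adj u x
      · by_cases a3 : G.Adj v x
        · simp [a1, a2, a3]
        · simp [a1, a2, a3]
      · simp [a1, a2]
    · simp [a1]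
  have h2 : edgeSum G (fun u v => w u v ^ 2) = ∑ u, ∑ v, (adj G u v * w u v) ^ 2 := by
    unfold edgeSum adj
    refine Finset.sum_congr rfl fun u _ => Finset.sum_congr rfl fun v _ => ?_
    split_ifs <;> ring
  rw [h1, h2, Finset.mul_sum, ← Finset.sum_neg_distrib]
  refine Finset.sum_le_sum fun u _ => ?_
  exact quad_form_ge G c D hD hE hR (fun v => adj G u v * w u v)

end Vale.Agent.P046.C
end
end

section

section

set_option autoImplicit false

open scoped Classical
open Finset

namespace Vale.Agent.P046.LB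

open Vale.Agent.P046.OS (triSum removeTriangle_adj card_triangles_edge card_triangles_edge_not
  triSum_swap12 triSum_swap23 triSum_add triSum_mul triSum_mono edgeSum_codeg_mul codeg_comm
  codeg_remove kk kk_nonneg kk_le_two KK sum_kk card_triangles_not_edge edgeSum_mul_KK)

variable {n : ℕ}

/-- the isolated triangles -/
noncomputable def isoSet (G : SimpleGraph (Fin n)) : Finset (Finset (Fin n)) :=
  (triangles G).filter (fun t => nb G t = ∅)

/-- triangles that make `t'` isolated when removed -/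
noncomputable def creators (G : SimpleGraph (Fin n)) (t' : Finset (Fin n)) :
    Finset (Finset (Fin n)) :=
  (triangles G).filter (fun t => t ≠ t' ∧ t ∉ nb G t' ∧ nb G t' ⊆ nb G t)

/-- non-isolated triangles with a pendant edge and all codegrees at most three -/
noncomputable def Pset (G : SimpleGraph (Fin n)) : Finset (Finset (Fin n)) :=
  (triangles G).filter (fun t => (nb G t).Nonempty ∧
    (∃ a b, a ∈ t ∧ b ∈ t ∧ a ≠ b ∧ codeg G a b = 1) ∧
    (∀ a b, a ∈ t → b ∈ t → a ≠ b → codeg G a b ≤ 3))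

/-- structure of triangles that can become isolated -/
lemma mem_Pset_of_creator (G : SimpleGraph (Fin n)) (t' : Finset (Fin n))
    (ht' : t' ∈ triangles G) (hne : (nb G t').Nonempty) (t : Finset (Fin n))
    (ht : t ∈ creators G t') : t' ∈ Pset G := by
  unfold creators at ht
  rw [Finset.mem_filter] at ht
  obtain ⟨htG, hne2, hnot, hsub⟩ := ht
  have hc := tri_card G t htG
  have hc' := tri_card G t' ht'
  -- intersection has at most one element
  have hle : (t ∩ t').card ≤ 1 := by
    by_contra h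
    apply hnot
    rw [mem_nb]
    exact ⟨htG, hne2, by omega⟩
  -- every neighbour of t' contains the common point
  have hcommon : ∀ s ∈ nb G t', ∃ x, x ∈ s ∧ x ∈ t ∧ x ∈ t' := by
    intro s hs
    have h1 := (mem_nb G t' s).mp hs
    have h2 := (mem_nb G t s).mp (hsub hs)
    have hs3 := tri_card G s h1.1
    by_contra hcon
    push Not at hcon
    have hdis : Disjoint (s ∩ t') (s ∩ t) := by
      rw [Finset.disjoint_left]
      intro x hx hx2
      rw [Finset.mem_inter] at hx hx2
      exact hcon x hx.1 hx2.2 hx.2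
    have hun : (s ∩ t') ∪ (s ∩ t) ⊆ s := by
      intro x hx
      rw [Finset.mem_union, Finset.mem_inter, Finset.mem_inter] at hx
      rcases hx with hx | hx <;> exact hx.1
    have := Finset.card_le_card hun
    rw [Finset.card_union_of_disjoint hdis, hs3] at this
    omega
  obtain ⟨s0, hs0⟩ := hne
  obtain ⟨x, hxs0, hxt, hxt'⟩ := hcommon s0 hs0
  have huniq : ∀ y, y ∈ t → y ∈ t' → y = x := by
    intro y hy hy'
    have := Finset.card_le_one.mp hle y (Finset.mem_inter.mpr ⟨hy, hy'⟩) x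
      (Finset.mem_inter.mpr ⟨hxt, hxt'⟩)
    exact this
  have hxall : ∀ s ∈ nb G t', x ∈ s := by
    intro s hs
    obtain ⟨y, hys, hyt, hyt'⟩ := hcommon s hs
    rw [← huniq y hyt hyt']
    exact hys
  -- the two other vertices
  have hcer : (t'.erase x).card = 2 := by
    rw [Finset.card_erase_of_mem hxt', hc']
  obtain ⟨y, z, hyz, hyzeq⟩ := Finset.card_eq_two.mp hcer
  have hy : y ∈ t' ∧ y ≠ x := by
    have : y ∈ t'.erase x := by rw [hyzeq]; simp
    rw [Finset.mem_erase] at this
    exact ⟨this.2, this.1⟩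
  have hz : z ∈ t' ∧ z ≠ x := by
    have : z ∈ t'.erase x := by rw [hyzeq]; simp
    rw [Finset.mem_erase] at this
    exact ⟨this.2, this.1⟩
  -- triangles over a pair of vertices of t'
  have hnbr : ∀ a b w, a ∈ t' → b ∈ t' → a ≠ b → G.Adj a w → G.Adj b w → w ∉ t' →
      ({a, b, w} : Finset (Fin n)) ∈ nb G t' := by
    intro a b w ha hb hab haw hbw hw
    rw [mem_nb]
    refine ⟨mem_tri G a b w (tri_adj G t' ht' a b ha hb hab) haw hbw, ?_, ?_⟩
    · intro h
      apply hw
      rw [← h]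
      simp
    · have : ({a, b} : Finset (Fin n)) ⊆ ({a, b, w} : Finset (Fin n)) ∩ t' := by
        intro q hq
        simp only [Finset.mem_insert, Finset.mem_singleton] at hq
        rcases hq with rfl | rfl
        · simp only [ha, insert_inter_of_mem, mem_insert, mem_inter, mem_singleton, and_true, true_or]
        · simp [hb]
      have h2 := Finset.card_le_card this
      rw [Finset.card_pair hab] at h2
      exact h2
  unfold Pset
  rw [Finset.mem_filter]
  refine ⟨ht', ⟨s0, hs0⟩, ⟨y, z, hy.1, hz.1, hyz, ?_⟩, ?_⟩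
  · -- pendant edge
    unfold codeg
    rw [Finset.card_eq_one]
    refine ⟨x, ?_⟩
    ext w
    simp only [Finset.mem_filter, Finset.mem_univ, true_and, Finset.mem_singleton]
    constructor
    · rintro ⟨h1, h2⟩
      by_cases hw : w ∈ t'
      · have hw2 : w ∈ insert x (t'.erase x) := by
          rw [Finset.insert_erase hxt']; exact hw
        rw [hyzeq] at hw2
        simp only [Finset.mem_insert, Finset.mem_singleton] at hw2
        rcases hw2 with h | h | h
        · exact h
        · exact absurd h.symm (G.ne_of_adj h1)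
        · exact absurd h.symm (G.ne_of_adj h2)
      · have := hxall _ (hnbr y z w hy.1 hz.1 hyz h1 h2 hw)
        simp only [Finset.mem_insert, Finset.mem_singleton] at this
        rcases this with h | h | h
        · exact absurd h.symm hy.2
        · exact absurd h.symm hz.2
        · exact h.symm
    · rintro rfl
      exact ⟨tri_adj G t' ht' _ _ hy.1 hxt' hy.2, tri_adj G t' ht' _ _ hz.1 hxt' hz.2⟩
  · -- all codegrees at most three
    intro a b ha hb hab
    unfold codeg
    have hsubset : (univ.filter fun w => G.Adj a w ∧ G.Adj b w) ⊆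
        (t' \ {a, b}) ∪ (t \ {x}) := by
      intro w hw
      simp only [Finset.mem_filter, Finset.mem_univ, true_and] at hw
      rw [Finset.mem_union]
      by_cases hwt : w ∈ t'
      · left
        simp only [Finset.mem_sdiff, Finset.mem_insert, Finset.mem_singleton, not_or]
        exact ⟨hwt, (G.ne_of_adj hw.1).symm, (G.ne_of_adj hw.2).symm⟩
      · right
        simp only [Finset.mem_sdiff, Finset.mem_singleton]
        have h1 := hsub (hnbr a b w ha hb hab hw.1 hw.2 hwt)
        rw [mem_nb] at h1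
        refine ⟨?_, fun h => hwt (h ▸ hxt')⟩
        by_contra hwt2
        have h2 : (({a, b, w} : Finset (Fin n)) ∩ t) ⊆ t ∩ t' := by
          intro q hq
          simp only [Finset.mem_inter, Finset.mem_insert, Finset.mem_singleton] at hq
          obtain ⟨hq1, hq2⟩ := hq
          rw [Finset.mem_inter]
          refine ⟨hq2, ?_⟩
          rcases hq1 with rfl | rfl | rfl
          · exact ha
          · exact hb
          · exact absurd hq2 hwt2
        have := Finset.card_le_card h2
        omega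
    have h1 := Finset.card_le_card hsubset
    have h2 := Finset.card_union_le (t' \ {a, b}) (t \ {x})
    have h3 : (t' \ {a, b}).card = 1 := by
      rw [Finset.card_sdiff_of_subset (by
        intro q hq
        simp only [Finset.mem_insert, Finset.mem_singleton] at hq
        rcases hq with rfl | rfl <;> assumption), hc', Finset.card_pair hab]
    have h4 : (t \ {x}).card = 2 := by
      rw [Finset.card_sdiff_of_subset (by
        intro q hq
        rw [Finset.mem_singleton] at hq
        rw [hq]; exact hxt), hc, Finset.card_singleton]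
    omega

/-- creators of `t'` are neighbours of each neighbour of `t'` -/
lemma card_creators_le (G : SimpleGraph (Fin n)) (t' s : Finset (Fin n)) (hs : s ∈ nb G t') :
    (creators G t').card ≤ (nb G s).card := by
  apply Finset.card_le_card
  intro t ht
  unfold creators at ht
  rw [Finset.mem_filter] at ht
  exact nb_symm G t s ht.1 (ht.2.2.2 hs)

/-- pointwise bound for the isolated triangles after one removal -/
lemma iso_remove_subset (G : SimpleGraph (Fin n)) (t : Finset (Fin n)) (ht : t ∈ triangles G) :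
    isoSet (removeTriangle G t) ⊆ (isoSet G).erase t ∪
      (Pset G).filter (fun t' => t ∈ creators G t') := by
  intro t' h
  unfold isoSet at h
  rw [Finset.mem_filter, nb_remove G t t' ht, triangles_remove_eq G t ht, Finset.mem_sdiff,
    Finset.mem_insert, not_or] at h
  obtain ⟨⟨h1, h2, h3⟩, h4⟩ := h
  rw [Finset.sdiff_eq_empty_iff_subset] at h4
  rw [Finset.mem_union]
  by_cases hne : (nb G t').Nonempty
  · right
    rw [Finset.mem_filter]
    have hnot : t ∉ nb G t' := fun hh => h3 (nb_symm G t' t h1 hh)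
    have hcr : t ∈ creators G t' := by
      unfold creators
      rw [Finset.mem_filter]
      refine ⟨ht, fun hh => h2 hh.symm, hnot, ?_⟩
      intro s hs
      have := h4 hs
      rw [Finset.mem_insert] at this
      rcases this with rfl | this
      · exact absurd hs hnot
      · exact this
    exact ⟨mem_Pset_of_creator G t' h1 hne t hcr, hcr⟩
  · left
    rw [Finset.not_nonempty_iff_eq_empty] at hne
    rw [Finset.mem_erase]
    unfold isoSet
    rw [Finset.mem_filter]
    exact ⟨h2, h1, hne⟩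

lemma sum_iso_remove (G : SimpleGraph (Fin n)) :
    ∑ t ∈ triangles G, ((isoSet (removeTriangle G t)).card : ℝ) ≤
      ((triangles G).card : ℝ) * ((isoSet G).card : ℝ) - ((isoSet G).card : ℝ) +
        ∑ t' ∈ Pset G, ((creators G t').card : ℝ) := by
  have h1 : ∀ t ∈ triangles G, ((isoSet (removeTriangle G t)).card : ℝ) ≤
      (((isoSet G).card : ℝ) - (if t ∈ isoSet G then 1 else 0)) +
        (((Pset G).filter (fun t' => t ∈ creators G t')).card : ℝ) := by
    intro t ht
    have h2 := Finset.card_le_card (iso_remove_subset G t ht)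
    have h3 := Finset.card_union_le ((isoSet G).erase t)
      ((Pset G).filter (fun t' => t ∈ creators G t'))
    have h4 : ((isoSet (removeTriangle G t)).card : ℝ) ≤ (((isoSet G).erase t).card : ℝ) +
        (((Pset G).filter (fun t' => t ∈ creators G t')).card : ℝ) := by
      exact_mod_cast h2.trans h3
    have h5 : (((isoSet G).erase t).card : ℝ) =
        ((isoSet G).card : ℝ) - (if t ∈ isoSet G then 1 else 0) := by
      by_cases h : t ∈ isoSet G
      · rw [if_pos h, Finset.card_erase_of_mem h]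
        have : 1 ≤ (isoSet G).card := Finset.card_pos.mpr ⟨t, h⟩
        push_cast [Nat.cast_sub this]
        ring
      · rw [if_neg h, Finset.erase_eq_of_notMem h, sub_zero]
    rw [h5] at h4
    exact h4
  refine (Finset.sum_le_sum h1).trans ?_
  rw [Finset.sum_add_distrib, Finset.sum_sub_distrib, Finset.sum_const, nsmul_eq_mul]
  have h6 : ∑ t ∈ triangles G, (if t ∈ isoSet G then (1:ℝ) else 0) = ((isoSet G).card : ℝ) := by
    rw [← Finset.sum_filter, Finset.sum_const, nsmul_eq_mul, mul_one]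
    congr 2
    ext t
    rw [Finset.mem_filter]
    constructor
    · exact fun h => h.2
    · intro h
      refine ⟨?_, h⟩
      unfold isoSet at h
      exact (Finset.mem_filter.mp h).1
  have h7 : ∑ t ∈ triangles G, (((Pset G).filter (fun t' => t ∈ creators G t')).card : ℝ) =
      ∑ t' ∈ Pset G, ((creators G t').card : ℝ) := by
    have e1 : ∀ t, (((Pset G).filter (fun t' => t ∈ creators G t')).card : ℝ) =
        ∑ t' ∈ Pset G, if t ∈ creators G t' then (1:ℝ) else 0 := by
      intro t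
      rw [Finset.card_filter]
      push_cast
      rfl
    simp only [e1]
    rw [Finset.sum_comm]
    refine Finset.sum_congr rfl fun t' _ => ?_
    rw [← Finset.sum_filter, Finset.sum_const, nsmul_eq_mul, mul_one]
    congr 2
    ext t
    rw [Finset.mem_filter]
    constructor
    · exact fun h => h.2
    · intro h
      refine ⟨?_, h⟩
      unfold creators at h
      exact (Finset.mem_filter.mp h).1
  rw [h6, h7]

/-- at most nine members of `Pset` share an edge with a given triangle -/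
lemma card_Pset_nb_le (G : SimpleGraph (Fin n)) (s : Finset (Fin n)) (hs : s ∈ triangles G) :
    ((Pset G).filter (fun t' => s ∈ nb G t')).card ≤ 9 := by
  obtain ⟨u, v, w, huv, huw, hvw, rfl⟩ := tri_exists G s hs
  have hpair : ∀ a b, G.Adj a b → ((Pset G).filter (fun t' => a ∈ t' ∧ b ∈ t')).card ≤ 3 := by
    intro a b hab
    by_cases hne : ((Pset G).filter (fun t' => a ∈ t' ∧ b ∈ t')).Nonempty
    · obtain ⟨t', ht'⟩ := hne
      rw [Finset.mem_filter] at ht'
      obtain ⟨h1, h2, h3⟩ := ht'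
      unfold Pset at h1
      rw [Finset.mem_filter] at h1
      have h4 := h1.2.2.2 a b h2 h3 (G.ne_of_adj hab)
      rw [← card_triangles_edge G a b hab] at h4
      refine le_trans (Finset.card_le_card ?_) h4
      intro q hq
      rw [Finset.mem_filter] at hq ⊢
      refine ⟨?_, hq.2⟩
      have := hq.1
      unfold Pset at this
      exact (Finset.mem_filter.mp this).1
    · rw [Finset.not_nonempty_iff_eq_empty] at hne
      rw [hne]
      simp
  have hsub : ((Pset G).filter (fun t' => ({u, v, w} : Finset (Fin n)) ∈ nb G t')) ⊆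
      ((Pset G).filter (fun t' => u ∈ t' ∧ v ∈ t')) ∪
      (((Pset G).filter (fun t' => u ∈ t' ∧ w ∈ t')) ∪
      ((Pset G).filter (fun t' => v ∈ t' ∧ w ∈ t'))) := by
    intro t' ht'
    rw [Finset.mem_filter] at ht'
    obtain ⟨h1, h2⟩ := ht'
    rw [mem_nb] at h2
    obtain ⟨a, ha, b, hb, hab⟩ := Finset.one_lt_card.mp (show 1 < _ from h2.2.2)
    simp only [Finset.mem_inter, Finset.mem_insert, Finset.mem_singleton] at ha hb
    simp only [Finset.mem_union, Finset.mem_filter]
    obtain ⟨ha1, ha2⟩ := ha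
    obtain ⟨hb1, hb2⟩ := hb
    rcases ha1 with rfl | rfl | rfl <;> rcases hb1 with rfl | rfl | rfl <;> tauto
  have h1 := Finset.card_le_card hsub
  have h2 := Finset.card_union_le ((Pset G).filter (fun t' => u ∈ t' ∧ v ∈ t'))
    (((Pset G).filter (fun t' => u ∈ t' ∧ w ∈ t')) ∪
      ((Pset G).filter (fun t' => v ∈ t' ∧ w ∈ t')))
  have h3 := Finset.card_union_le ((Pset G).filter (fun t' => u ∈ t' ∧ w ∈ t'))
      ((Pset G).filter (fun t' => v ∈ t' ∧ w ∈ t'))
  have := hpair u v huv
  have := hpair u w huw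
  have := hpair v w hvw
  omega

lemma sum_nb_sq_le (G : SimpleGraph (Fin n)) :
    ∑ t ∈ triangles G, ((nb G t).card : ℝ) ^ 2 ≤ 3 * M3 G := by
  have h1 := triSum_tri G (fun t => ((nb G t).card : ℝ) ^ 2)
  have h2 : triSum G (fun u v w => ((nb G {u, v, w}).card : ℝ) ^ 2) ≤
      triSum G (fun u v w => 3 * ((codeg G u v : ℝ) ^ 2 + (codeg G u w : ℝ) ^ 2 +
        (codeg G v w : ℝ) ^ 2)) := by
    apply triSum_mono
    intro u v w huv huw hvw
    have h0 : (0:ℝ) ≤ ((nb G {u, v, w}).card : ℝ) := Nat.cast_nonneg _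
    have h3 := card_nb G u v w huv huw hvw
    have h4 : ((nb G {u, v, w}).card : ℝ) ≤ (codeg G u v : ℝ) + codeg G u w + codeg G v w := by
      linarith
    have h5 := pow_le_pow_left₀ h0 h4 2
    refine h5.trans ?_
    linarith only [sq_nonneg ((codeg G u v : ℝ) - codeg G u w), sq_nonneg ((codeg G u v : ℝ) - codeg G v w), sq_nonneg ((codeg G u w : ℝ) - codeg G v w)]
  have h3 := triSum_sym G (fun u v => (codeg G u v : ℝ) ^ 2) (fun u v => by rw [codeg_comm])
  have h4 : triSum G (fun u v _ => (codeg G u v : ℝ) ^ 2) = 2 * M3 G := by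
    rw [← edgeSum_codeg_mul]
    unfold M3
    have : (fun u v => (codeg G u v : ℝ) * (codeg G u v : ℝ) ^ 2) =
        (fun u v => (codeg G u v : ℝ) ^ 3) := by
      funext u v; ring
    rw [this]
    ring
  rw [triSum_mul, h3, h4, h1] at h2
  linarith

/-- creation of isolated triangles -/
lemma sum_creators_le (G : SimpleGraph (Fin n)) (L : ℝ) (hL : 0 < L) :
    ∑ t' ∈ Pset G, ((creators G t').card : ℝ) ≤ L * ((Pset G).card : ℝ) + 27 / L * M3 G := by
  have h1 : ∀ t' ∈ Pset G, ((creators G t').card : ℝ) ≤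
      L + ∑ s ∈ triangles G, if s ∈ nb G t' then ((nb G s).card : ℝ) ^ 2 / L else 0 := by
    intro t' ht'
    have ht2 := ht'
    unfold Pset at ht2
    rw [Finset.mem_filter] at ht2
    obtain ⟨s, hs⟩ := ht2.2.1
    have h2 : ((creators G t').card : ℝ) ≤ ((nb G s).card : ℝ) := by
      exact_mod_cast card_creators_le G t' s hs
    have h3 : ((nb G s).card : ℝ) ≤ L + ((nb G s).card : ℝ) ^ 2 / L := by
      have h0 : (0:ℝ) ≤ ((nb G s).card : ℝ) := Nat.cast_nonneg _
      rw [← sub_nonneg]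
      have e : L + ((nb G s).card : ℝ) ^ 2 / L - ((nb G s).card : ℝ) =
          (L ^ 2 + ((nb G s).card : ℝ) ^ 2 - ((nb G s).card : ℝ) * L) / L := by
        field_simp
      rw [e]
      apply div_nonneg _ hL.le
      nlinarith only []
    have h4 : ((nb G s).card : ℝ) ^ 2 / L ≤
        ∑ s ∈ triangles G, if s ∈ nb G t' then ((nb G s).card : ℝ) ^ 2 / L else 0 := by
      have hsG : s ∈ triangles G := nb_subset G t' hs
      have := Finset.single_le_sum (f := fun s => if s ∈ nb G t' then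
        ((nb G s).card : ℝ) ^ 2 / L else 0) (s := triangles G) (fun q _ => by
          split_ifs
          · positivity
          · exact le_refl _) hsG
      simpa only [sum_ite_mem, ge_iff_le, hs, ↓reduceIte] using this
    linarith only [h2, h3, h4]
  refine (Finset.sum_le_sum h1).trans ?_
  rw [Finset.sum_add_distrib, Finset.sum_const, nsmul_eq_mul, Finset.sum_comm]
  have h5 : ∑ s ∈ triangles G, ∑ t' ∈ Pset G,
      (if s ∈ nb G t' then ((nb G s).card : ℝ) ^ 2 / L else 0) ≤
      ∑ s ∈ triangles G, 9 / L * ((nb G s).card : ℝ) ^ 2 := by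
    refine Finset.sum_le_sum fun s hs => ?_
    rw [← Finset.sum_filter, Finset.sum_const, nsmul_eq_mul]
    have h6 : (((Pset G).filter (fun t' => s ∈ nb G t')).card : ℝ) ≤ 9 := by
      exact_mod_cast card_Pset_nb_le G s hs
    have h7 : (0:ℝ) ≤ ((nb G s).card : ℝ) ^ 2 / L := by positivity
    calc (((Pset G).filter (fun t' => s ∈ nb G t')).card : ℝ) * (((nb G s).card : ℝ) ^ 2 / L)
        ≤ 9 * (((nb G s).card : ℝ) ^ 2 / L) := mul_le_mul_of_nonneg_right h6 h7
      _ = _ := by ring
  rw [← Finset.mul_sum] at h5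
  have h8 := sum_nb_sq_le G
  have h9 : 9 / L * ∑ s ∈ triangles G, ((nb G s).card : ℝ) ^ 2 ≤ 9 / L * (3 * M3 G) :=
    mul_le_mul_of_nonneg_left h8 (by positivity)
  have e9 : 9 / L * (3 * M3 G) = 27 / L * M3 G := by ring
  linarith

end Vale.Agent.P046.LB
end
end

section

section

set_option autoImplicit false

open scoped Classical
open Finset

namespace Vale.Agent.P046.LB

open Vale.Agent.P046.OS (triSum removeTriangle_adj card_triangles_edge card_triangles_edge_not
  triSum_swap12 triSum_swap23 triSum_add triSum_mul triSum_mono edgeSum_codeg_mul codeg_comm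
  codeg_remove kk kk_nonneg kk_le_two KK sum_kk card_triangles_not_edge edgeSum_mul_KK)

variable {n : ℕ}

/-- number of edges in no triangle -/
noncomputable def Zr (G : SimpleGraph (Fin n)) : ℝ :=
  edgeSum G (fun u v => if codeg G u v = 0 then 1 else 0) / 2

lemma triSum_sym3 (G : SimpleGraph (Fin n)) (g : Fin n → Fin n → Finset (Fin n) → ℝ) :
    triSum G (fun u v w => g u v {u, v, w} + g u w {u, v, w} + g v w {u, v, w}) =
      3 * triSum G (fun u v w => g u v {u, v, w}) := by
  rw [triSum_add, triSum_add]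
  have s1 : ∀ u v w : Fin n, ({u, w, v} : Finset (Fin n)) = {u, v, w} := by
    intro u v w
    ext x
    simp only [Finset.mem_insert, Finset.mem_singleton]
    tauto
  have s2 : ∀ u v w : Fin n, ({v, u, w} : Finset (Fin n)) = {u, v, w} := by
    intro u v w
    ext x
    simp only [Finset.mem_insert, Finset.mem_singleton]
    tauto
  have a2 : triSum G (fun u v w => g u w {u, v, w}) = triSum G (fun u v w => g u v {u, v, w}) := by
    rw [triSum_swap23 G (fun u v w => g u w {u, v, w})]
    congr 1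
    funext u v w
    rw [s1]
  have a1 : triSum G (fun u v w => g v w {u, v, w}) = triSum G (fun u v w => g u v {u, v, w}) := by
    rw [triSum_swap12 G (fun u v w => g v w {u, v, w}), triSum_swap23]
    congr 1
    funext u v w
    rw [s2, s1]
  rw [a1, a2]
  ring

/-- pointwise lower bound for the number of ways to make the edge `u v` lie in no triangle -/
lemma Z_pointwise (G : SimpleGraph (Fin n)) (u v : Fin n) (huv : G.Adj u v) :
    ((triangles G).card : ℝ) * (if codeg G u v = 0 then 1 else 0) +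
      (∑ w, if G.Adj u w ∧ G.Adj v w then
        (if codeg G u v = 1 then ((nb G {u, v, w}).card : ℝ) else 0) else 0) ≤
      ∑ t ∈ (triangles G).filter (fun t => ¬ (u ∈ t ∧ v ∈ t)),
        if codeg (removeTriangle G t) u v = 0 then (1:ℝ) else 0 := by
  by_cases h0 : codeg G u v = 0
  · have h1 : ∀ t ∈ (triangles G).filter (fun t => ¬ (u ∈ t ∧ v ∈ t)),
        (if codeg (removeTriangle G t) u v = 0 then (1:ℝ) else 0) = 1 := by
      intro t ht
      rw [Finset.mem_filter] at ht
      have h2 := codeg_remove G t u v ht.2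
      have h3 := kk_nonneg G t u v
      rw [h0] at h2
      have h4 : (codeg (removeTriangle G t) u v : ℝ) ≤ 0 := by
        rw [h2]; push_cast; linarith only [h3]
      have h5 : codeg (removeTriangle G t) u v = 0 := by
        have : (codeg (removeTriangle G t) u v : ℝ) = 0 := le_antisymm h4 (Nat.cast_nonneg _)
        exact_mod_cast this
      rw [if_pos h5]
    rw [Finset.sum_congr rfl h1, Finset.sum_const, nsmul_eq_mul,
      card_triangles_not_edge G u v huv, h0]
    have h6 : (∑ w, if G.Adj u w ∧ G.Adj v w then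
        (if (0:ℕ) = 1 then ((nb G {u, v, w}).card : ℝ) else 0) else 0) = 0 := by
      apply Finset.sum_eq_zero
      intro w _
      simp
    rw [h6]
    simp
  · by_cases h1 : codeg G u v = 1
    · -- unique common neighbour
      have h1' := h1
      unfold codeg at h1'
      obtain ⟨w, hw⟩ := Finset.card_eq_one.mp h1'
      have hw1 : G.Adj u w ∧ G.Adj v w := by
        have : w ∈ (univ.filter fun w => G.Adj u w ∧ G.Adj v w) := by rw [hw]; simp
        simpa only [mem_filter, mem_univ, true_and] using this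
      have hwu : ∀ q, G.Adj u q ∧ G.Adj v q → q = w := by
        intro q hq
        have : q ∈ (univ.filter fun w => G.Adj u w ∧ G.Adj v w) := by simp only [mem_filter, mem_univ, hq, and_self]
        rw [hw] at this
        simpa using this
      have h2 : (∑ q, if G.Adj u q ∧ G.Adj v q then
        (if codeg G u v = 1 then ((nb G {u, v, q}).card : ℝ) else 0) else 0) =
          ((nb G {u, v, w}).card : ℝ) := by
        rw [Finset.sum_eq_single w]
        · rw [if_pos hw1, if_pos h1]
        · intro q _ hq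
          rw [if_neg (fun h => hq (hwu q h))]
        · simp only [mem_univ, not_true_eq_false, ite_eq_right_iff, Nat.cast_eq_zero, card_eq_zero, and_imp, IsEmpty.forall_iff]
      rw [h2, if_neg h0, mul_zero, zero_add]
      have htri := mem_tri G u v w huv hw1.1 hw1.2
      have hsub : nb G {u, v, w} ⊆ (triangles G).filter (fun t => ¬ (u ∈ t ∧ v ∈ t)) := by
        intro t ht
        have ht1 := (mem_nb G _ t).mp ht
        rw [Finset.mem_filter]
        refine ⟨ht1.1, fun h => ht1.2.1 ?_⟩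
        have h3 := OS.triangles_filter_eq G u v huv
        have h4 : t ∈ (triangles G).filter (fun t => u ∈ t ∧ v ∈ t) := by
          rw [Finset.mem_filter]; exact ⟨ht1.1, h⟩
        rw [h3, hw, Finset.image_singleton, Finset.mem_singleton] at h4
        exact h4
      calc ((nb G {u, v, w}).card : ℝ)
          = ∑ t ∈ nb G {u, v, w}, if codeg (removeTriangle G t) u v = 0 then (1:ℝ) else 0 := by
            have : ∀ t ∈ nb G {u, v, w},
                (if codeg (removeTriangle G t) u v = 0 then (1:ℝ) else 0) = 1 := by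
              intro t ht
              rw [if_pos]
              unfold codeg
              rw [Finset.card_eq_zero, Finset.filter_eq_empty_iff]
              rintro q - ⟨hq1, hq2⟩
              rw [removeTriangle_adj] at hq1 hq2
              have hqw := hwu q ⟨hq1.1, hq2.1⟩
              subst hqw
              have ht1 := (mem_nb G _ t).mp ht
              have huvt := (Finset.mem_filter.mp (hsub ht)).2
              obtain ⟨a, ha, b, hb, hab⟩ := Finset.one_lt_card.mp (show 1 < _ from ht1.2.2)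
              simp only [Finset.mem_inter, Finset.mem_insert, Finset.mem_singleton] at ha hb
              obtain ⟨ha1, ha2⟩ := ha
              obtain ⟨hb1, hb2⟩ := hb
              rcases ha2 with rfl | rfl | rfl <;> rcases hb2 with rfl | rfl | rfl <;> tauto
            rw [Finset.sum_congr rfl this]
            simp only [sum_const, nsmul_eq_mul, mul_one]
        _ ≤ _ := by
            apply Finset.sum_le_sum_of_subset_of_nonneg hsub
            intro t _ _
            split_ifs <;> norm_num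
    · have h2 : (∑ w, if G.Adj u w ∧ G.Adj v w then
        (if codeg G u v = 1 then ((nb G {u, v, w}).card : ℝ) else 0) else 0) = 0 := by
        apply Finset.sum_eq_zero
        intro w _
        rw [if_neg h1]
        simp
      rw [h2, if_neg h0]
      have : 0 ≤ ∑ t ∈ (triangles G).filter (fun t => ¬ (u ∈ t ∧ v ∈ t)),
        (if codeg (removeTriangle G t) u v = 0 then (1:ℝ) else 0) := by
        apply Finset.sum_nonneg
        intro t _
        split_ifs <;> norm_num
      rw [mul_zero, zero_add]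
      exact this

/-- drift of the number of edges in no triangle -/
lemma sum_Z_remove (G : SimpleGraph (Fin n)) :
    ((triangles G).card : ℝ) * Zr G + ((Pset G).card : ℝ) ≤
      ∑ t ∈ triangles G, Zr (removeTriangle G t) := by
  have h1 : ∑ t ∈ triangles G, Zr (removeTriangle G t) =
      edgeSum G (fun u v => ∑ t ∈ (triangles G).filter (fun t => ¬ (u ∈ t ∧ v ∈ t)),
        if codeg (removeTriangle G t) u v = 0 then (1:ℝ) else 0) / 2 := by
    unfold Zr
    rw [← Finset.sum_div, sum_edgeSum_remove G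
      (fun t u v => if codeg (removeTriangle G t) u v = 0 then (1:ℝ) else 0)]
  have h2 : edgeSum G (fun u v => ((triangles G).card : ℝ) * (if codeg G u v = 0 then 1 else 0) +
      (∑ w, if G.Adj u w ∧ G.Adj v w then
        (if codeg G u v = 1 then ((nb G {u, v, w}).card : ℝ) else 0) else 0)) ≤
      edgeSum G (fun u v => ∑ t ∈ (triangles G).filter (fun t => ¬ (u ∈ t ∧ v ∈ t)),
        if codeg (removeTriangle G t) u v = 0 then (1:ℝ) else 0) := by
    apply edgeSum_mono
    intro u v huv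
    exact Z_pointwise G u v huv
  rw [edgeSum_add, edgeSum_mul] at h2
  have h3 : edgeSum G (fun u v => (∑ w, if G.Adj u w ∧ G.Adj v w then
        (if codeg G u v = 1 then ((nb G {u, v, w}).card : ℝ) else 0) else 0)) =
      triSum G (fun u v w => if codeg G u v = 1 then ((nb G {u, v, w}).card : ℝ) else 0) := by
    unfold edgeSum triSum
    refine Finset.sum_congr rfl fun u _ => Finset.sum_congr rfl fun v _ => ?_
    by_cases h : G.Adj u v
    · rw [if_pos h]
      refine Finset.sum_congr rfl fun w _ => ?_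
      beta_reduce
      by_cases h2 : G.Adj u w ∧ G.Adj v w
      · rw [if_pos h2, if_pos (show G.Adj u v ∧ G.Adj u w ∧ G.Adj v w from ⟨h, h2⟩)]
      · rw [if_neg h2, if_neg (show ¬ (G.Adj u v ∧ G.Adj u w ∧ G.Adj v w) from fun h3 => h2 h3.2)]
    · rw [if_neg h]
      symm
      apply Finset.sum_eq_zero
      intro w _
      rw [if_neg (fun h3 => h h3.1)]
  have h4 := triSum_sym3 G (fun u v t => if codeg G u v = 1 then ((nb G t).card : ℝ) else 0)
  have h5 := triSum_tri G (fun t => if t ∈ Pset G then (1:ℝ) else 0)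
  have h6 : triSum G (fun u v w => if ({u, v, w} : Finset (Fin n)) ∈ Pset G then (1:ℝ) else 0) ≤
      triSum G (fun u v w => (if codeg G u v = 1 then ((nb G {u, v, w}).card : ℝ) else 0) +
        (if codeg G u w = 1 then ((nb G {u, v, w}).card : ℝ) else 0) +
        (if codeg G v w = 1 then ((nb G {u, v, w}).card : ℝ) else 0)) := by
    apply triSum_mono
    intro u v w huv huw hvw
    have hnn : ∀ c : ℕ, (0:ℝ) ≤ if c = 1 then ((nb G {u, v, w}).card : ℝ) else 0 := by
      intro c
      split_ifs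
      · exact Nat.cast_nonneg _
      · exact le_refl _
    by_cases hP : ({u, v, w} : Finset (Fin n)) ∈ Pset G
    · rw [if_pos hP]
      unfold Pset at hP
      rw [Finset.mem_filter] at hP
      obtain ⟨-, hne, ⟨a, b, ha, hb, hab, hcod⟩, -⟩ := hP
      have hcard : (1:ℝ) ≤ ((nb G {u, v, w}).card : ℝ) := by
        exact_mod_cast hne.card_pos
      simp only [Finset.mem_insert, Finset.mem_singleton] at ha hb
      have c1 := hnn (codeg G u v)
      have c2 := hnn (codeg G u w)
      have c3 := hnn (codeg G v w)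
      have hone : codeg G u v = 1 ∨ codeg G u w = 1 ∨ codeg G v w = 1 := by
        rcases ha with rfl | rfl | rfl <;> rcases hb with rfl | rfl | rfl
        · exact absurd rfl hab
        · exact Or.inl hcod
        · exact Or.inr (Or.inl hcod)
        · rw [codeg_comm] at hcod; exact Or.inl hcod
        · exact absurd rfl hab
        · exact Or.inr (Or.inr hcod)
        · rw [codeg_comm] at hcod; exact Or.inr (Or.inl hcod)
        · rw [codeg_comm] at hcod; exact Or.inr (Or.inr hcod)
        · exact absurd rfl hab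
      rcases hone with h | h | h
      · rw [if_pos h]; linarith only [hcard, c2, c3]
      · rw [if_pos h] at c2 ⊢; linarith only [hcard, c1, c3]
      · rw [if_pos h] at c3 ⊢; linarith only [hcard, c1, c2]
    · rw [if_neg hP]
      have c1 := hnn (codeg G u v)
      have c2 := hnn (codeg G u w)
      have c3 := hnn (codeg G v w)
      linarith only [c1, c2, c3]
  rw [h4, h5] at h6
  have h7 : ∑ t ∈ triangles G, (if t ∈ Pset G then (1:ℝ) else 0) = ((Pset G).card : ℝ) := by
    rw [← Finset.sum_filter, Finset.sum_const, nsmul_eq_mul, mul_one]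
    congr 2
    ext t
    rw [Finset.mem_filter]
    constructor
    · exact fun h => h.2
    · intro h
      refine ⟨?_, h⟩
      unfold Pset at h
      exact (Finset.mem_filter.mp h).1
  rw [h7] at h6
  rw [h3] at h2
  rw [h1]
  have e1 : edgeSum G (fun u v => if codeg G u v = 0 then (1:ℝ) else 0) = 2 * Zr G := by
    unfold Zr; ring
  rw [e1] at h2
  linarith only [h2, h6]

/-- the functional `X = L Z - B - (27/L) J` -/
noncomputable def Xf (L : ℝ) (G : SimpleGraph (Fin n)) : ℝ :=
  L * Zr G - ((isoSet G).card : ℝ) - 27 / L * J G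

lemma sum_X_remove (G : SimpleGraph (Fin n)) (L : ℝ) (hL : 0 < L) :
    ((triangles G).card : ℝ) * Xf L G + ((isoSet G).card : ℝ) -
        108 / L * ((triangles G).card : ℝ) ≤
      ∑ t ∈ triangles G, Xf L (removeTriangle G t) := by
  unfold Xf
  rw [Finset.sum_sub_distrib, Finset.sum_sub_distrib, ← Finset.mul_sum, ← Finset.mul_sum]
  have h1 := mul_le_mul_of_nonneg_left (sum_Z_remove G) hL.le
  have h2 := sum_iso_remove G
  have h3 := sum_creators_le G L hL
  have h4 := mul_le_mul_of_nonneg_left (sum_J_remove G) (show (0:ℝ) ≤ 27 / L by positivity)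
  have e4 : 27 / L * (((triangles G).card : ℝ) * J G - M3 G + 4 * ((triangles G).card : ℝ)) =
      ((triangles G).card : ℝ) * (27 / L * J G) - 27 / L * M3 G +
        108 / L * ((triangles G).card : ℝ) := by ring
  rw [e4] at h4
  have e1 : L * (((triangles G).card : ℝ) * Zr G + ((Pset G).card : ℝ)) =
      ((triangles G).card : ℝ) * (L * Zr G) + L * ((Pset G).card : ℝ) := by ring
  rw [e1] at h1
  have e5 : ((triangles G).card : ℝ) * (L * Zr G - ((isoSet G).card : ℝ) - 27 / L * J G) =
      ((triangles G).card : ℝ) * (L * Zr G) - ((triangles G).card : ℝ) * ((isoSet G).card : ℝ) -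
        ((triangles G).card : ℝ) * (27 / L * J G) := by ring
  rw [e5]
  linarith only [h1, h2, h3, h4]

/-- each non-isolated choice destroys at least two triangles -/
lemma sum_T_remove_le (G : SimpleGraph (Fin n)) :
    ∑ t ∈ triangles G, ((triangles (removeTriangle G t)).card : ℝ) ≤
      ((triangles G).card : ℝ) * ((triangles G).card : ℝ) - 2 * ((triangles G).card : ℝ) +
        ((isoSet G).card : ℝ) := by
  have h1 : ∀ t ∈ triangles G, ((triangles (removeTriangle G t)).card : ℝ) ≤
      (((triangles G).card : ℝ) - 2) + (if t ∈ isoSet G then 1 else 0) := by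
    intro t ht
    rw [card_triangles_remove_real G t ht]
    by_cases h : t ∈ isoSet G
    · rw [if_pos h]
      have : (0:ℝ) ≤ ((nb G t).card : ℝ) := Nat.cast_nonneg _
      linarith
    · rw [if_neg h]
      have hne : (nb G t).Nonempty := by
        rw [Finset.nonempty_iff_ne_empty]
        intro he
        apply h
        unfold isoSet
        rw [Finset.mem_filter]
        exact ⟨ht, he⟩
      have : (1:ℝ) ≤ ((nb G t).card : ℝ) := by exact_mod_cast hne.card_pos
      linarith only [this]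
  refine (Finset.sum_le_sum h1).trans ?_
  rw [Finset.sum_add_distrib, Finset.sum_const, nsmul_eq_mul]
  have h6 : ∑ t ∈ triangles G, (if t ∈ isoSet G then (1:ℝ) else 0) = ((isoSet G).card : ℝ) := by
    rw [← Finset.sum_filter, Finset.sum_const, nsmul_eq_mul, mul_one]
    congr 2
    ext t
    rw [Finset.mem_filter]
    constructor
    · exact fun h => h.2
    · intro h
      refine ⟨?_, h⟩
      unfold isoSet at h
      exact (Finset.mem_filter.mp h).1
  rw [h6]
  linarith only []

/-- the functional `W = X - T + (2/3 - 36/L) E` -/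
noncomputable def Wf (L : ℝ) (G : SimpleGraph (Fin n)) : ℝ :=
  Xf L G - ((triangles G).card : ℝ) + (2 / 3 - 36 / L) * (numEdges G : ℝ)

lemma numEdges_remove_real (G : SimpleGraph (Fin n)) (t : Finset (Fin n))
    (ht : t ∈ triangles G) :
    (numEdges (removeTriangle G t) : ℝ) = (numEdges G : ℝ) - 3 := by
  have := numEdges_removeTriangle G t ht
  have h2 : (numEdges (removeTriangle G t) : ℝ) + 3 = (numEdges G : ℝ) := by exact_mod_cast this
  linarith only [h2]

lemma sum_W_remove (G : SimpleGraph (Fin n)) (L : ℝ) (hL : 0 < L) :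
    ((triangles G).card : ℝ) * Wf L G ≤ ∑ t ∈ triangles G, Wf L (removeTriangle G t) := by
  have h1 := sum_X_remove G L hL
  have h2 := sum_T_remove_le G
  have h3 : ∑ t ∈ triangles G, Wf L (removeTriangle G t) =
      ∑ t ∈ triangles G, Xf L (removeTriangle G t) -
        ∑ t ∈ triangles G, ((triangles (removeTriangle G t)).card : ℝ) +
        ((triangles G).card : ℝ) * ((2 / 3 - 36 / L) * ((numEdges G : ℝ) - 3)) := by
    have : ∀ t ∈ triangles G, Wf L (removeTriangle G t) =
        (Xf L (removeTriangle G t) - ((triangles (removeTriangle G t)).card : ℝ)) +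
          (2 / 3 - 36 / L) * ((numEdges G : ℝ) - 3) := by
      intro t ht
      unfold Wf
      rw [numEdges_remove_real G t ht]
    rw [Finset.sum_congr rfl this, Finset.sum_add_distrib, Finset.sum_sub_distrib,
      Finset.sum_const, nsmul_eq_mul]
  rw [h3]
  have e : ((triangles G).card : ℝ) * Wf L G = ((triangles G).card : ℝ) * Xf L G -
      ((triangles G).card : ℝ) * ((triangles G).card : ℝ) +
      ((triangles G).card : ℝ) * ((2 / 3 - 36 / L) * (numEdges G : ℝ)) := by
    unfold Wf; ring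
  rw [e]
  have e2 : ((triangles G).card : ℝ) * ((2 / 3 - 36 / L) * ((numEdges G : ℝ) - 3)) =
      ((triangles G).card : ℝ) * ((2 / 3 - 36 / L) * (numEdges G : ℝ)) -
      2 * ((triangles G).card : ℝ) + 108 / L * ((triangles G).card : ℝ) := by ring
  rw [e2]
  linarith only [h1, h2]

/-- drift of `T - E/3` -/
lemma sum_x_remove (G : SimpleGraph (Fin n)) (hE : 0 < numEdges G) :
    ∑ t ∈ triangles G, (((triangles (removeTriangle G t)).card : ℝ) -
        (numEdges (removeTriangle G t) : ℝ) / 3) ≤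
      ((triangles G).card : ℝ) * ((((triangles G).card : ℝ) - (numEdges G : ℝ) / 3) *
        (1 - 9 / (numEdges G : ℝ))) ∧
    ∑ t ∈ triangles G, (((triangles (removeTriangle G t)).card : ℝ) -
        (numEdges (removeTriangle G t) : ℝ) / 3) ≤
      ((triangles G).card : ℝ) * (((triangles G).card : ℝ) - (numEdges G : ℝ) / 3) := by
  have hE' : (0:ℝ) < numEdges G := by exact_mod_cast hE
  have h1 : ∑ t ∈ triangles G, (((triangles (removeTriangle G t)).card : ℝ) -
        (numEdges (removeTriangle G t) : ℝ) / 3) =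
      ((triangles G).card : ℝ) * (((triangles G).card : ℝ) - (numEdges G : ℝ) / 3) -
        (M2 G - 3 * ((triangles G).card : ℝ)) := by
    rw [Finset.sum_sub_distrib, sum_T_remove]
    have : ∑ t ∈ triangles G, (numEdges (removeTriangle G t) : ℝ) / 3 =
        ((triangles G).card : ℝ) * (((numEdges G : ℝ) - 3) / 3) := by
      rw [Finset.sum_congr rfl fun t ht => by rw [numEdges_remove_real G t ht],
        Finset.sum_const, nsmul_eq_mul]
    rw [this]
    ring
  rw [h1]
  constructor
  · have h2 := M2_ge G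
    have h3 : 9 * ((triangles G).card : ℝ) ^ 2 / (numEdges G : ℝ) ≤ M2 G := by
      rw [div_le_iff₀ hE']
      linarith only [h2]
    have e : ((triangles G).card : ℝ) * ((((triangles G).card : ℝ) - (numEdges G : ℝ) / 3) *
        (1 - 9 / (numEdges G : ℝ))) =
        ((triangles G).card : ℝ) * (((triangles G).card : ℝ) - (numEdges G : ℝ) / 3) -
          (9 * ((triangles G).card : ℝ) ^ 2 / (numEdges G : ℝ) - 3 * ((triangles G).card : ℝ)) := by
      field_simp
      ring
    rw [e]
    linarith only [h3]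
  · have h4 : 0 ≤ M2 G - 3 * ((triangles G).card : ℝ) := by
      rw [← sum_card_nb]
      exact Finset.sum_nonneg fun t _ => Nat.cast_nonneg _
    linarith only [h4]

end Vale.Agent.P046.LB
end
end

section

section

set_option autoImplicit false

open scoped Classical
open Finset

namespace Vale.Agent.P046.LB

variable {n : ℕ}

lemma expect_add {α : Type*} [Fintype α] (μ : PMF α) (f g : α → ℝ) :
    expect μ (fun a => f a + g a) = expect μ f + expect μ g := by
  unfold expect
  rw [← Finset.sum_add_distrib]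
  exact Finset.sum_congr rfl fun a _ => by ring

lemma expect_mul {α : Type*} [Fintype α] (μ : PMF α) (c : ℝ) (f : α → ℝ) :
    expect μ (fun a => c * f a) = c * expect μ f := by
  unfold expect
  rw [Finset.mul_sum]
  exact Finset.sum_congr rfl fun a _ => by ring

lemma V_add_fun (f g : SimpleGraph (Fin n) → ℝ) (k : ℕ) (G : SimpleGraph (Fin n)) :
    V (fun H => f H + g H) k G = V f k G + V g k G := expect_add _ _ _

lemma V_mul_fun (c : ℝ) (f : SimpleGraph (Fin n) → ℝ) (k : ℕ) (G : SimpleGraph (Fin n)) :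
    V (fun H => c * f H) k G = c * V f k G := expect_mul _ _ _

lemma V_const (c : ℝ) (k : ℕ) (G : SimpleGraph (Fin n)) : V (fun _ => c) k G = c :=
  expect_const _ _

lemma V_mono (f g : SimpleGraph (Fin n) → ℝ) (h : ∀ H, f H ≤ g H) (k : ℕ)
    (G : SimpleGraph (Fin n)) : V f k G ≤ V g k G := expect_mono _ _ _ h

/-- Markov property -/
lemma V_add_steps (f : SimpleGraph (Fin n) → ℝ) (k l : ℕ) (G : SimpleGraph (Fin n)) :
    V f (k + l) G = V (V f l) k G := by
  induction k generalizing G with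
  | zero => rw [Nat.zero_add, V_zero]
  | succ k ih =>
    rw [show k + 1 + l = (k + l) + 1 by ring, V_succ, V_succ]
    congr 1
    funext H
    exact ih H

/-- if two functions agree on triangle-free graphs, their final expectations agree -/
lemma V_congr_final (f g : SimpleGraph (Fin n) → ℝ)
    (h : ∀ H, ¬ (triangles H).Nonempty → f H = g H) (k : ℕ) (G : SimpleGraph (Fin n))
    (hk : numEdges G ≤ k) : V f k G = V g k G := by
  induction k generalizing G with
  | zero =>
    rw [V_zero, V_zero]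
    apply h
    rintro ⟨t, ht⟩
    have := numEdges_removeTriangle G t ht
    omega
  | succ k ih =>
    by_cases hT : (triangles G).Nonempty
    · rw [V_succ_of_nonempty _ _ _ hT, V_succ_of_nonempty _ _ _ hT]
      congr 1
      refine Finset.sum_congr rfl fun t ht => ih _ ?_
      have := numEdges_removeTriangle G t ht
      omega
    · rw [V_of_empty _ _ _ hT, V_of_empty _ _ _ hT, h G hT]

lemma V_W_ge (L : ℝ) (hL : 0 < L) (k : ℕ) (G : SimpleGraph (Fin n)) :
    Wf L G ≤ V (Wf L) k G := by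
  induction k generalizing G with
  | zero => rw [V_zero]
  | succ k ih =>
    by_cases hT : (triangles G).Nonempty
    · rw [V_succ_of_nonempty _ _ _ hT]
      have hc : (0 : ℝ) < (triangles G).card := by exact_mod_cast hT.card_pos
      rw [le_div_iff₀ hc]
      have h1 := sum_W_remove G L hL
      have h2 : ∑ t ∈ triangles G, Wf L (removeTriangle G t) ≤
          ∑ t ∈ triangles G, V (Wf L) k (removeTriangle G t) :=
        Finset.sum_le_sum fun t _ => ih _
      linarith
    · rw [V_of_empty _ _ _ hT]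

lemma V_X_ge (L : ℝ) (hL : 0 < L) (k : ℕ) (G : SimpleGraph (Fin n)) :
    Xf L G - 108 / L * k ≤ V (Xf L) k G := by
  induction k generalizing G with
  | zero => rw [V_zero]; simp
  | succ k ih =>
    have hnn : 0 ≤ 108 / L * ((k : ℝ) + 1) := by positivity
    by_cases hT : (triangles G).Nonempty
    · rw [V_succ_of_nonempty _ _ _ hT]
      have hc : (0 : ℝ) < (triangles G).card := by exact_mod_cast hT.card_pos
      rw [le_div_iff₀ hc]
      have h1 := sum_X_remove G L hL
      have h2 : ∑ t ∈ triangles G, (Xf L (removeTriangle G t) - 108 / L * k) ≤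
          ∑ t ∈ triangles G, V (Xf L) k (removeTriangle G t) :=
        Finset.sum_le_sum fun t _ => ih _
      rw [Finset.sum_sub_distrib, Finset.sum_const, nsmul_eq_mul] at h2
      have h3 : (0:ℝ) ≤ ((isoSet G).card : ℝ) := Nat.cast_nonneg _
      push_cast
      have e : (Xf L G - 108 / L * ((k : ℝ) + 1)) * ((triangles G).card : ℝ) =
          ((triangles G).card : ℝ) * Xf L G - 108 / L * ((triangles G).card : ℝ) -
            ((triangles G).card : ℝ) * (108 / L * k) := by ring
      rw [e]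
      linarith only [h1, h2]
    · rw [V_of_empty _ _ _ hT]
      push_cast
      linarith only [hnn]

/-- number of triangles minus a third of the number of edges -/
noncomputable def xf (G : SimpleGraph (Fin n)) : ℝ :=
  ((triangles G).card : ℝ) - (numEdges G : ℝ) / 3

lemma V_x_le (k : ℕ) (G : SimpleGraph (Fin n)) (hk : 3 * k ≤ numEdges G) :
    (numEdges G : ℝ) ^ 3 * V xf k G ≤ ((numEdges G : ℝ) - 3 * k) ^ 3 * xf G := by
  induction k generalizing G with
  | zero => rw [V_zero]; simp
  | succ k ih =>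
    have hE : 0 < numEdges G := by omega
    have hE' : (0:ℝ) < numEdges G := by exact_mod_cast hE
    have hk' : 3 * ((k : ℝ) + 1) ≤ numEdges G := by exact_mod_cast hk
    by_cases hT : (triangles G).Nonempty
    · rw [V_succ_of_nonempty _ _ _ hT]
      have hc : (0 : ℝ) < (triangles G).card := by exact_mod_cast hT.card_pos
      obtain ⟨hs1, hs2⟩ := sum_x_remove G hE
      have hsum : ∑ t ∈ triangles G, (((triangles (removeTriangle G t)).card : ℝ) -
        (numEdges (removeTriangle G t) : ℝ) / 3) =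
        ∑ t ∈ triangles G, xf (removeTriangle G t) := rfl
      rw [hsum] at hs1 hs2
      have hxd : ((triangles G).card : ℝ) - (numEdges G : ℝ) / 3 = xf G := rfl
      rw [hxd] at hs1 hs2
      -- average of xf
      obtain ⟨A, hA⟩ : ∃ A : ℝ, A = (∑ t ∈ triangles G, xf (removeTriangle G t)) /
        ((triangles G).card : ℝ) := ⟨_, rfl⟩
      have hA1 : A ≤ xf G * (1 - 9 / (numEdges G : ℝ)) := by
        rw [hA, div_le_iff₀ hc]; linarith only [hs1]
      have hA2 : A ≤ xf G := by
        rw [hA, div_le_iff₀ hc]; linarith only [hs2]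
      -- first bound for A
      have hA3 : (numEdges G : ℝ) ^ 3 * A ≤ ((numEdges G : ℝ) - 3) ^ 3 * xf G := by
        have hE3 : (3:ℝ) ≤ numEdges G := by
          have : (0:ℝ) ≤ k := Nat.cast_nonneg _
          linarith only [hk']
        rcases le_or_gt 0 (xf G) with hx | hx
        · have h1 : (numEdges G : ℝ) ^ 3 * A ≤
              (numEdges G : ℝ) ^ 3 * (xf G * (1 - 9 / (numEdges G : ℝ))) :=
            mul_le_mul_of_nonneg_left hA1 (by positivity)
          have e1 : (numEdges G : ℝ) ^ 3 * (xf G * (1 - 9 / (numEdges G : ℝ))) =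
              ((numEdges G : ℝ) ^ 3 - 9 * (numEdges G : ℝ) ^ 2) * xf G := by
            field_simp
          rw [e1] at h1
          have h2 : ((numEdges G : ℝ) ^ 3 - 9 * (numEdges G : ℝ) ^ 2) * xf G ≤
              ((numEdges G : ℝ) - 3) ^ 3 * xf G := by
            apply mul_le_mul_of_nonneg_right _ hx
            linarith only [hk']
          linarith only [h1, h2]
        · have h1 : (numEdges G : ℝ) ^ 3 * A ≤ (numEdges G : ℝ) ^ 3 * xf G :=
            mul_le_mul_of_nonneg_left hA2 (by positivity)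
          have h2 : ((numEdges G : ℝ) - 3) ^ 3 ≤ (numEdges G : ℝ) ^ 3 :=
            pow_le_pow_left₀ (by linarith only [hk']) (by linarith only []) 3
          have h3 := mul_le_mul_of_nonpos_right h2 hx.le
          linarith only [h1, h3]
      rcases Nat.eq_zero_or_pos k with hk0 | hkpos
      · subst hk0
        have e1 : (∑ t ∈ triangles G, V xf 0 (removeTriangle G t)) /
            ((triangles G).card : ℝ) = A := by
          rw [hA]
          congr 1
          exact Finset.sum_congr rfl fun t _ => V_zero _ _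
        rw [e1]
        simpa only [zero_add, Nat.cast_one, mul_one, ge_iff_le] using hA3
      · have hE3 : (0:ℝ) < (numEdges G : ℝ) - 3 := by
          have : (1:ℝ) ≤ k := by exact_mod_cast hkpos
          linarith only [hk', this]
        obtain ⟨a, ha⟩ : ∃ a : ℝ, a = ((numEdges G : ℝ) - 3 - 3 * k) ^ 3 /
          ((numEdges G : ℝ) - 3) ^ 3 := ⟨_, rfl⟩
        have ha0 : 0 ≤ a := by
          rw [ha]
          apply div_nonneg
          · apply pow_nonneg; linarith only [hk']
          · positivity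
        have h1 : ∀ t ∈ triangles G, V xf k (removeTriangle G t) ≤
            a * xf (removeTriangle G t) := by
          intro t ht
          have h2 := ih (removeTriangle G t) (by
            have := numEdges_removeTriangle G t ht
            omega)
          rw [numEdges_remove_real G t ht] at h2
          rw [ha, div_mul_eq_mul_div, le_div_iff₀ (by positivity)]
          linarith only [h2]
        have h2 : (∑ t ∈ triangles G, V xf k (removeTriangle G t)) / ((triangles G).card : ℝ) ≤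
            a * A := by
          rw [hA, ← mul_div_assoc, div_le_div_iff_of_pos_right hc, Finset.mul_sum]
          exact Finset.sum_le_sum h1
        have h3 : (numEdges G : ℝ) ^ 3 * ((∑ t ∈ triangles G, V xf k (removeTriangle G t)) /
            ((triangles G).card : ℝ)) ≤ (numEdges G : ℝ) ^ 3 * (a * A) :=
          mul_le_mul_of_nonneg_left h2 (by positivity)
        have h4 := mul_le_mul_of_nonneg_left hA3 ha0
        have h5 : a * (((numEdges G : ℝ) - 3) ^ 3 * xf G) =
            ((numEdges G : ℝ) - 3 - 3 * k) ^ 3 * xf G := by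
          rw [ha]; field_simp
        rw [h5] at h4
        push_cast
        have e6 : (numEdges G : ℝ) - 3 * ((k : ℝ) + 1) = (numEdges G : ℝ) - 3 - 3 * k := by ring
        rw [e6]
        have e7 : (numEdges G : ℝ) ^ 3 * (a * A) = a * ((numEdges G : ℝ) ^ 3 * A) := by ring
        rw [e7] at h3
        linarith only [h3, h4]
    · rw [V_of_empty _ _ _ hT]
      have hx : xf G ≤ 0 := by
        unfold xf
        rw [Finset.not_nonempty_iff_eq_empty] at hT
        rw [hT]
        simp only [Finset.card_empty, Nat.cast_zero, zero_sub]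
        linarith only [hk']
      apply mul_le_mul_of_nonpos_right _ hx
      apply pow_le_pow_left₀
      · push_cast; linarith only [hk']
      · push_cast
        have : (0:ℝ) ≤ k := Nat.cast_nonneg _
        linarith only []

lemma V_numEdges_ge (k : ℕ) (G : SimpleGraph (Fin n)) :
    (numEdges G : ℝ) - 3 * k ≤ V (fun H => (numEdges H : ℝ)) k G := by
  induction k generalizing G with
  | zero => rw [V_zero]; simp
  | succ k ih =>
    by_cases hT : (triangles G).Nonempty
    · rw [V_succ_of_nonempty _ _ _ hT]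
      have hc : (0 : ℝ) < (triangles G).card := by exact_mod_cast hT.card_pos
      rw [le_div_iff₀ hc]
      have h2 : ∑ t ∈ triangles G, (((numEdges G : ℝ) - 3) - 3 * k) ≤
          ∑ t ∈ triangles G, V (fun H => (numEdges H : ℝ)) k (removeTriangle G t) := by
        refine Finset.sum_le_sum fun t ht => ?_
        rw [← numEdges_remove_real G t ht]
        exact ih _
      rw [Finset.sum_const, nsmul_eq_mul] at h2
      push_cast
      linarith
    · rw [V_of_empty _ _ _ hT]
      push_cast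
      have : (0:ℝ) ≤ k := Nat.cast_nonneg _
      linarith only []

/-- on triangle-free graphs the functional `W` is a multiple of the number of edges -/
lemma Wf_of_empty (L : ℝ) (G : SimpleGraph (Fin n)) (h : ¬ (triangles G).Nonempty) :
    Wf L G = (L + (2 / 3 - 36 / L)) * (numEdges G : ℝ) := by
  have h0 := Finset.not_nonempty_iff_eq_empty.mp h
  have h1 : ∀ u v, G.Adj u v → codeg G u v = 0 := by
    intro u v huv
    unfold codeg
    rw [Finset.card_eq_zero, Finset.filter_eq_empty_iff]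
    rintro w - ⟨h1, h2⟩
    exact h ⟨{u, v, w}, mem_tri G u v w huv h1 h2⟩
  have h2 : edgeSum G (fun u v => (codeg G u v : ℝ) ^ 2) = 0 := by
    rw [edgeSum_congr G _ (fun _ _ => (0:ℝ)) fun u v huv => by rw [h1 u v huv]; simp,
      edgeSum_const]
    simp
  have h3 : edgeSum G (fun u v => if codeg G u v = 0 then (1:ℝ) else 0) =
      2 * (numEdges G : ℝ) := by
    rw [edgeSum_congr G _ (fun _ _ => (1:ℝ)) fun u v huv => by rw [if_pos (h1 u v huv)],
      edgeSum_const]
    ring
  unfold Wf Xf Zr J M2 isoSet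
  rw [h2, h3, h0]
  simp only [Finset.filter_empty, Finset.card_empty, Nat.cast_zero]
  ring

lemma Zr_nonneg (G : SimpleGraph (Fin n)) : 0 ≤ Zr G := by
  unfold Zr
  have := edgeSum_nonneg G (fun u v => if codeg G u v = 0 then (1:ℝ) else 0) (fun u v _ => by
    split_ifs <;> norm_num)
  linarith

/-- the deterministic lower bound for the expected final number of edges -/
theorem lower_det (L : ℝ) (hL : 108 ≤ L) (G : SimpleGraph (Fin n)) (m k : ℕ)
    (hm : numEdges G ≤ m) (hk : 3 * k ≤ numEdges G) :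
    -((isoSet G).card : ℝ) - 27 / L * J G - 36 / L * (numEdges G : ℝ) +
      ((numEdges G : ℝ) - 3 * k) / 3 - V xf k G ≤
      (L + 1) * V (fun H => (numEdges H : ℝ)) m G := by
  have hL0 : 0 < L := by linarith only [hL]
  have hkm : k ≤ m := by omega
  have hVF : 0 ≤ V (fun H => (numEdges H : ℝ)) m G := by
    have := V_mono (n := n) (fun _ => (0:ℝ)) (fun H => (numEdges H : ℝ))
      (fun H => Nat.cast_nonneg _) m G
    rw [V_const] at this
    exact this
  have h1 : V (Wf L) m G = (L + (2 / 3 - 36 / L)) * V (fun H => (numEdges H : ℝ)) m G := by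
    rw [← V_mul_fun]
    exact V_congr_final _ _ (fun H hH => Wf_of_empty L H hH) m G hm
  have h2 : V (Wf L) k G ≤ V (Wf L) m G := by
    have e : m = k + (m - k) := by omega
    rw [e, V_add_steps]
    exact V_mono _ _ (fun H => V_W_ge L hL0 (m - k) H) k G
  have h3 : V (Wf L) k G = V (Xf L) k G + (-1) * V xf k G +
      (1 / 3 - 36 / L) * V (fun H => (numEdges H : ℝ)) k G := by
    rw [← V_mul_fun, ← V_mul_fun, ← V_add_fun, ← V_add_fun]
    congr 1
    funext H
    unfold Wf xf
    ring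
  have h4 := V_X_ge L hL0 k G
  have h5 := V_numEdges_ge k G
  have h6 : 0 ≤ 1 / 3 - 36 / L := by
    have : 36 / L ≤ 1 / 3 := by
      rw [div_le_div_iff₀ hL0 (by norm_num)]
      linarith only [hL]
    linarith only [this]
  have h7 := mul_le_mul_of_nonneg_left h5 h6
  have h8 : (L + (2 / 3 - 36 / L)) * V (fun H => (numEdges H : ℝ)) m G ≤
      (L + 1) * V (fun H => (numEdges H : ℝ)) m G := by
    apply mul_le_mul_of_nonneg_right _ hVF
    have : 0 < 36 / L := by positivity
    linarith only [this]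
  have h9 : Xf L G = L * Zr G - ((isoSet G).card : ℝ) - 27 / L * J G := rfl
  have h10 := mul_nonneg hL0.le (Zr_nonneg G)
  have e7 : (1 / 3 - 36 / L) * ((numEdges G : ℝ) - 3 * k) =
      ((numEdges G : ℝ) - 3 * k) / 3 - 36 / L * (numEdges G : ℝ) + 108 / L * k := by ring
  rw [e7] at h7
  linarith only [h1, h2, h3, h4, h7, h8, h9, h10]

end Vale.Agent.P046.LB
end
end

section

section

set_option autoImplicit false

open scoped Classical
open Finset

namespace Vale.Agent.P046.LB

variable {n : ℕ}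

/-- good graphs at level `e1` -/
def Good (e1 : ℕ) (η Q : ℝ) (G : SimpleGraph (Fin n)) : Prop :=
  numEdges G = e1 ∧ |rho G - 1| ≤ η ∧ Psi G ≤ Q

/-- indicator of bad graphs -/
noncomputable def bad (e1 : ℕ) (η Q : ℝ) (G : SimpleGraph (Fin n)) : ℝ :=
  if Good e1 η Q G then 0 else 1

lemma bad_le_one (e1 : ℕ) (η Q : ℝ) (G : SimpleGraph (Fin n)) : bad e1 η Q G ≤ 1 := by
  unfold bad
  split_ifs <;> norm_num


/-- lower bound for the total expectation from a lower bound on good graphs -/
lemma lower_of_good (c p : ℝ) (hc : 0 ≤ c) (e1 k1 m : ℕ) (η Q : ℝ) (G : SimpleGraph (Fin n))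
    (hgood : ∀ H : SimpleGraph (Fin n), Good e1 η Q H →
      c ≤ V (fun H => (numEdges H : ℝ)) m H)
    (hbad : V (bad e1 η Q) k1 G ≤ p) :
    c * (1 - p) ≤ V (fun H => (numEdges H : ℝ)) (k1 + m) G := by
  rw [V_add_steps]
  have h1 : ∀ H : SimpleGraph (Fin n), c + (-c) * bad e1 η Q H ≤
      V (fun H => (numEdges H : ℝ)) m H := by
    intro H
    by_cases hg : Good e1 η Q H
    · unfold bad
      rw [if_pos hg]
      have := hgood H hg
      linarith
    · unfold bad
      rw [if_neg hg]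
      have := V_mono (n := n) (fun _ => (0:ℝ)) (fun H => (numEdges H : ℝ))
        (fun H => Nat.cast_nonneg _) m H
      rw [V_const] at this
      linarith
  have h2 := V_mono _ _ h1 k1 G
  rw [V_add_fun, V_mul_fun, V_const] at h2
  have h3 := mul_le_mul_of_nonneg_left hbad hc
  linarith

end Vale.Agent.P046.LB
end
end

section

section

set_option autoImplicit false

open scoped Classical
open Finset

namespace Vale.Agent.P046

variable {n : ℕ}

/-- number of edges after `k` steps either drops by `3k` or the process has stopped -/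
lemma run_support (k : ℕ) (G H : SimpleGraph (Fin n)) (hH : H ∈ (run k G).support) :
    triangles H = ∅ ∨ numEdges H + 3 * k ≤ numEdges G := by
  induction k generalizing G with
  | zero =>
    right
    rw [run, PMF.support_pure, Set.mem_singleton_iff] at hH
    subst hH
    omega
  | succ k ih =>
    rw [run, PMF.mem_support_bind_iff] at hH
    obtain ⟨G', hG', hH'⟩ := hH
    by_cases h : (triangles G).Nonempty
    · rw [step, dif_pos h, PMF.mem_support_map_iff] at hG'
      obtain ⟨t, ht, rfl⟩ := hG'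
      rw [PMF.mem_support_uniformOfFinset_iff] at ht
      have h3 := numEdges_removeTriangle G t ht
      rcases ih _ hH' with h1 | h1
      · exact Or.inl h1
      · right
        omega
    · rw [step, dif_neg h, PMF.support_pure, Set.mem_singleton_iff] at hG'
      subst hG'
      rcases ih _ hH' with h1 | h1
      · exact Or.inl h1
      · -- no triangle: the run stays put
        left
        have hrun : ∀ j : ℕ, run j G' = PMF.pure G' := by
          intro j
          induction j with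
          | zero => rfl
          | succ j ihj => rw [run, step, dif_neg h, PMF.pure_bind, ihj]
        rw [hrun, PMF.support_pure, Set.mem_singleton_iff] at hH'
        subst hH'
        exact Finset.not_nonempty_iff_eq_empty.mp h

lemma finalGraph_stopped (H : SimpleGraph (Fin n)) (hH : H ∈ (finalGraph n).support) :
    triangles H = ∅ := by
  rcases run_support _ _ _ hH with h | h
  · exact h
  · rw [numEdges_top] at h
    have h0 : numEdges H = 0 := by omega
    have hc : n.choose 2 = 0 := by omega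
    rw [Finset.eq_empty_iff_forall_notMem]
    intro t ht
    have h3 := numEdges_removeTriangle H t ht
    omega

lemma finalGraph_cliqueFree (H : SimpleGraph (Fin n)) (hH : H ∈ (finalGraph n).support) :
    H.CliqueFree 3 := by
  have h := finalGraph_stopped H hH
  unfold triangles at h
  rwa [SimpleGraph.cliqueFinset_eq_empty_iff] at h

end Vale.Agent.P046
end
end

section

/-!
Sparse sets, part 1: a fixed set of edges survives a block of the process with small
probability.
-/

set_option autoImplicit false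

open scoped Classical
open Finset

namespace Vale.Agent.P046.M2

open Vale.Agent.P046 Vale.Agent.P046.OS

variable {n : ℕ}

/-- number of triangles through an edge -/
noncomputable def cdeg (G : SimpleGraph (Fin n)) (e : Sym2 (Fin n)) : ℕ :=
  ((triangles G).filter (fun t => e ∈ t.sym2)).card

lemma cdeg_mk (G : SimpleGraph (Fin n)) (u v : Fin n) (h : G.Adj u v) :
    cdeg G s(u, v) = codeg G u v := by
  rw [← card_triangles_edge G u v h]
  unfold cdeg
  congr 1
  ext t
  simp only [Finset.mem_filter, Finset.mk_mem_sym2_iff]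

lemma triangles_remove_subset (G : SimpleGraph (Fin n)) (t : Finset (Fin n)) :
    triangles (removeTriangle G t) ⊆ triangles G := by
  intro s hs
  unfold triangles at hs ⊢
  rw [SimpleGraph.mem_cliqueFinset_iff] at hs ⊢
  refine ⟨fun x hx y hy hxy => ?_, hs.card_eq⟩
  exact ((removeTriangle_adj G t x y).mp (hs.isClique hx hy hxy)).1

lemma mem_edgeFinset_remove (G : SimpleGraph (Fin n)) (t : Finset (Fin n)) (e : Sym2 (Fin n)) :
    e ∈ (removeTriangle G t).edgeFinset ↔ e ∈ G.edgeFinset ∧ e ∉ t.sym2 := by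
  rw [SimpleGraph.mem_edgeFinset, SimpleGraph.mem_edgeFinset]
  unfold removeTriangle
  rw [SimpleGraph.edgeSet_deleteEdges, Set.mem_sdiff, Finset.mem_coe]

lemma edgeFinset_remove_subset (G : SimpleGraph (Fin n)) (t : Finset (Fin n)) :
    (removeTriangle G t).edgeFinset ⊆ G.edgeFinset := fun e he =>
  ((mem_edgeFinset_remove G t e).mp he).1

lemma cdeg_remove_le (G : SimpleGraph (Fin n)) (t : Finset (Fin n)) (e : Sym2 (Fin n)) :
    cdeg (removeTriangle G t) e ≤ cdeg G e :=
  Finset.card_le_card (Finset.filter_subset_filter _ (triangles_remove_subset G t))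

/-- two different edges lie in at most one common triangle -/
lemma tri_eq_of_two (G : SimpleGraph (Fin n)) (t t' : Finset (Fin n)) (ht : t ∈ triangles G)
    (ht' : t' ∈ triangles G) (e e' : Sym2 (Fin n)) (he : e ∈ G.edgeFinset)
    (he' : e' ∈ G.edgeFinset) (hne : e ≠ e') (h1 : e ∈ t.sym2) (h2 : e' ∈ t.sym2)
    (h3 : e ∈ t'.sym2) (h4 : e' ∈ t'.sym2) : t = t' := by
  induction e with
  | _ a b =>
  induction e' with
  | _ c d =>
  rw [SimpleGraph.mem_edgeFinset, SimpleGraph.mem_edgeSet] at he he'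
  have hab := G.ne_of_adj he
  have hcd := G.ne_of_adj he'
  rw [Finset.mk_mem_sym2_iff] at h1 h2 h3 h4
  by_contra hne'
  have c1 : t.card = 3 := by
    unfold triangles at ht
    rw [SimpleGraph.mem_cliqueFinset_iff] at ht
    exact ht.card_eq
  have c2 : t'.card = 3 := by
    unfold triangles at ht'
    rw [SimpleGraph.mem_cliqueFinset_iff] at ht'
    exact ht'.card_eq
  have hc : (t ∩ t').card ≤ 2 := by
    by_contra hcc
    push Not at hcc
    have e1 : t ∩ t' = t := Finset.eq_of_subset_of_card_le Finset.inter_subset_left (by omega)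
    have e2 : t ∩ t' = t' := Finset.eq_of_subset_of_card_le Finset.inter_subset_right (by omega)
    exact hne' (e1.symm.trans e2)
  have s1 : ({a, b} : Finset (Fin n)) = t ∩ t' := by
    apply Finset.eq_of_subset_of_card_le
    · intro x hx
      simp only [Finset.mem_insert, Finset.mem_singleton] at hx
      rw [Finset.mem_inter]
      rcases hx with rfl | rfl
      · exact ⟨h1.1, h3.1⟩
      · exact ⟨h1.2, h3.2⟩
    · rw [Finset.card_pair hab]; exact hc
  have s2 : ({c, d} : Finset (Fin n)) = t ∩ t' := by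
    apply Finset.eq_of_subset_of_card_le
    · intro x hx
      simp only [Finset.mem_insert, Finset.mem_singleton] at hx
      rw [Finset.mem_inter]
      rcases hx with rfl | rfl
      · exact ⟨h2.1, h4.1⟩
      · exact ⟨h2.2, h4.2⟩
    · rw [Finset.card_pair hcd]; exact hc
  have s3 := s1.trans s2.symm
  apply hne
  rw [Sym2.eq_iff]
  have ha : a ∈ ({c, d} : Finset (Fin n)) := by rw [← s3]; simp
  have hb : b ∈ ({c, d} : Finset (Fin n)) := by rw [← s3]; simp
  simp only [Finset.mem_insert, Finset.mem_singleton] at ha hb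
  rcases ha with rfl | rfl
  · rcases hb with rfl | rfl
    · exact absurd rfl hab
    · exact Or.inl ⟨rfl, rfl⟩
  · rcases hb with rfl | rfl
    · exact Or.inr ⟨rfl, rfl⟩
    · exact absurd rfl hab

/-- the triangles that meet `M` -/
noncomputable def hit (G : SimpleGraph (Fin n)) (M : Finset (Sym2 (Fin n))) :
    Finset (Finset (Fin n)) :=
  (triangles G).filter (fun t => ∃ e ∈ M, e ∈ t.sym2)

lemma sum_cdeg_le (G : SimpleGraph (Fin n)) (M : Finset (Sym2 (Fin n)))
    (hM : M ⊆ G.edgeFinset) : ∑ e ∈ M, cdeg G e ≤ (hit G M).card + M.card ^ 2 := by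
  induction M using Finset.induction_on with
  | empty => simp
  | insert e M he ih =>
    have hM' : M ⊆ G.edgeFinset := fun x hx => hM (Finset.mem_insert_of_mem hx)
    have heG : e ∈ G.edgeFinset := hM (Finset.mem_insert_self _ _)
    have ih' := ih hM'
    rw [Finset.sum_insert he, Finset.card_insert_of_notMem he]
    have h1 : hit G (insert e M) = (triangles G).filter (fun t => e ∈ t.sym2) ∪ hit G M := by
      ext t
      unfold hit
      simp only [Finset.mem_filter, Finset.mem_union, Finset.mem_insert]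
      constructor
      · rintro ⟨h1, x, rfl | hx, h2⟩
        · exact Or.inl ⟨h1, h2⟩
        · exact Or.inr ⟨h1, x, hx, h2⟩
      · rintro (⟨h1, h2⟩ | ⟨h1, x, hx, h2⟩)
        · exact ⟨h1, e, Or.inl rfl, h2⟩
        · exact ⟨h1, x, Or.inr hx, h2⟩
    have h2 := Finset.card_union_add_card_inter ((triangles G).filter (fun t => e ∈ t.sym2))
      (hit G M)
    rw [← h1] at h2
    have h3 : ((triangles G).filter (fun t => e ∈ t.sym2) ∩ hit G M).card ≤ M.card := by
      have h4 : (triangles G).filter (fun t => e ∈ t.sym2) ∩ hit G M ⊆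
          M.biUnion (fun x => (triangles G).filter (fun t => e ∈ t.sym2 ∧ x ∈ t.sym2)) := by
        intro t ht
        unfold hit at ht
        simp only [Finset.mem_inter, Finset.mem_filter, Finset.mem_biUnion] at ht ⊢
        obtain ⟨⟨h5, h6⟩, _, x, hx, h7⟩ := ht
        exact ⟨x, hx, h5, h6, h7⟩
      refine (Finset.card_le_card h4).trans ?_
      refine (Finset.card_biUnion_le_card_mul _ _ 1 ?_).trans (by omega)
      intro x hx
      rw [Finset.card_le_one]
      intro t ht t' ht'
      simp only [Finset.mem_filter] at ht ht'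
      exact tri_eq_of_two G t t' ht.1 ht'.1 e x heG (hM' hx) (fun h => he (h ▸ hx)) ht.2.1 ht.2.2
        ht'.2.1 ht'.2.2
    have h5 : cdeg G e = ((triangles G).filter (fun t => e ∈ t.sym2)).card := rfl
    have h6 : (M.card + 1) ^ 2 = M.card ^ 2 + 2 * M.card + 1 := by ring
    omega

/-- monotone properties kill expectations -/
lemma V_eq_zero (P : SimpleGraph (Fin n) → Prop)
    (hP : ∀ G t, P G → P (removeTriangle G t)) (f : SimpleGraph (Fin n) → ℝ)
    (hf : ∀ G, P G → f G = 0) (k : ℕ) (G : SimpleGraph (Fin n)) (hG : P G) : V f k G = 0 := by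
  induction k generalizing G with
  | zero => rw [V_zero]; exact hf G hG
  | succ k ih =>
    by_cases hT : (triangles G).Nonempty
    · rw [V_succ_of_nonempty _ _ _ hT, Finset.sum_eq_zero, zero_div]
      intro t _
      exact ih _ (hP G t hG)
    · rw [V_succ_of_empty _ _ _ hT]
      exact ih G hG

/-- survival indicator -/
noncomputable def surv (M : Finset (Sym2 (Fin n))) (y : ℝ) (G : SimpleGraph (Fin n)) : ℝ :=
  if M ⊆ G.edgeFinset ∧ ∀ e ∈ M, y ≤ (cdeg G e : ℝ) then 1 else 0

/-- one block -/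
lemma block (M : Finset (Sym2 (Fin n))) (hM : M.Nonempty) (y T a : ℝ) (e' : ℕ) (he' : 3 ≤ e')
    (ha : 1 ≤ a) (hT : 0 < T)
    (hx : 3 * a * T ≤ (M.card * y - (M.card : ℝ) ^ 2) * e')
    (k : ℕ) (G : SimpleGraph (Fin n)) (hk : numEdges G = e' + 3 * k)
    (hTG : ((triangles G).card : ℝ) ≤ T) :
    V (surv M y) k G ≤ ((e' : ℝ) / (numEdges G : ℝ)) ^ a := by
  have he0 : (0 : ℝ) < e' := by
    have : (3:ℝ) ≤ e' := by exact_mod_cast he'
    linarith only [this]
  induction k generalizing G with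
  | zero =>
    have h1 : (numEdges G : ℝ) = e' := by rw [hk]; simp
    rw [V_zero, h1, div_self he0.ne', Real.one_rpow]
    unfold surv
    split_ifs <;> norm_num
  | succ k ih =>
    have hEG : (numEdges G : ℝ) = e' + 3 * (k + 1) := by rw [hk]; push_cast; ring
    have hEpos : (0:ℝ) < numEdges G := by
      rw [hEG]; positivity
    by_cases hdead : ¬ (M ⊆ G.edgeFinset) ∨ ∃ e ∈ M, (cdeg G e : ℝ) < y
    · rw [V_eq_zero (fun G => ¬ (M ⊆ G.edgeFinset) ∨ ∃ e ∈ M, (cdeg G e : ℝ) < y) ?_ _ ?_ _ _ hdead]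
      · exact Real.rpow_nonneg (by positivity) _
      · rintro G t (h | ⟨e, he, h⟩)
        · exact Or.inl fun h2 => h (h2.trans (edgeFinset_remove_subset G t))
        · refine Or.inr ⟨e, he, lt_of_le_of_lt ?_ h⟩
          exact_mod_cast cdeg_remove_le G t e
      · intro G hG
        unfold surv
        rw [if_neg]
        rintro ⟨h1, h2⟩
        rcases hG with h | ⟨e, he, h⟩
        · exact h h1
        · exact absurd (h2 e he) (not_le.mpr h)
    · push Not at hdead
      obtain ⟨hMG, hy⟩ := hdead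
      have hMpos : (0:ℝ) < M.card := by exact_mod_cast hM.card_pos
      have hpos : 0 < (M.card : ℝ) * y - (M.card : ℝ) ^ 2 := by
        by_contra hneg
        push Not at hneg
        have h1 : (M.card * y - (M.card : ℝ) ^ 2) * e' ≤ 0 :=
          mul_nonpos_of_nonpos_of_nonneg hneg he0.le
        have h2 : 0 < 3 * a * T := by positivity
        linarith only [hx, h1, h2]
      have hhit : (M.card : ℝ) * y - (M.card : ℝ) ^ 2 ≤ ((hit G M).card : ℝ) := by
        have h1 := sum_cdeg_le G M hMG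
        have h2 : (∑ e ∈ M, (cdeg G e : ℝ)) ≤ ((hit G M).card : ℝ) + (M.card : ℝ) ^ 2 := by
          exact_mod_cast h1
        have h3 : (M.card : ℝ) * y ≤ ∑ e ∈ M, (cdeg G e : ℝ) := by
          rw [← nsmul_eq_mul]
          exact Finset.card_nsmul_le_sum _ _ _ hy
        linarith only [h2, h3]
      have hsub : hit G M ⊆ triangles G := Finset.filter_subset _ _
      have hTne : (triangles G).Nonempty := by
        have : (0:ℝ) < ((hit G M).card : ℝ) := by linarith only [hpos, hhit]
        have h2 : 0 < (hit G M).card := by exact_mod_cast this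
        exact (Finset.card_pos.mp h2).mono hsub
      have hTpos : (0:ℝ) < (triangles G).card := by exact_mod_cast hTne.card_pos
      rw [V_succ_of_nonempty _ _ _ hTne, div_le_iff₀ hTpos]
      have hE3 : (0:ℝ) < (numEdges G : ℝ) - 3 := by
        rw [hEG]
        have : (0:ℝ) ≤ k := Nat.cast_nonneg k
        linarith only [he0]
      have key : ∀ t ∈ triangles G, V (surv M y) k (removeTriangle G t) ≤
          if t ∈ hit G M then 0 else ((e' : ℝ) / ((numEdges G : ℝ) - 3)) ^ a := by
        intro t ht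
        split_ifs with hth
        · rw [V_eq_zero (fun G => ¬ (M ⊆ G.edgeFinset)) ?_ _ ?_ _ _ ?_]
          · intro G t h h2
            exact h (h2.trans (edgeFinset_remove_subset G t))
          · intro G hG
            unfold surv
            rw [if_neg]
            rintro ⟨h1, _⟩
            exact hG h1
          · intro hs
            unfold hit at hth
            rw [Finset.mem_filter] at hth
            obtain ⟨_, e, he, het⟩ := hth
            exact ((mem_edgeFinset_remove G t e).mp (hs he)).2 het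
        · have h3 := numEdges_removeTriangle G t ht
          have h4 : (numEdges (removeTriangle G t) : ℝ) = (numEdges G : ℝ) - 3 := by
            have : (numEdges (removeTriangle G t) : ℝ) + 3 = numEdges G := by exact_mod_cast h3
            linarith only [this]
          rw [← h4]
          apply ih
          · omega
          · refine le_trans ?_ hTG
            exact_mod_cast Finset.card_le_card (triangles_remove_subset G t)
      refine (Finset.sum_le_sum key).trans ?_
      rw [Finset.sum_ite, Finset.sum_const_zero, zero_add, Finset.sum_const, nsmul_eq_mul]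
      have hc1 : ((Finset.filter (fun t => ¬ t ∈ hit G M) (triangles G)).card : ℝ) =
          ((triangles G).card : ℝ) - (hit G M).card := by
        have h1 : Finset.filter (fun t => ¬ t ∈ hit G M) (triangles G) = triangles G \ hit G M := by
          ext t; simp [Finset.mem_sdiff]
        rw [h1, Finset.card_sdiff_of_subset hsub, Nat.cast_sub (Finset.card_le_card hsub)]
      rw [hc1]
      obtain ⟨Tc, hTc⟩ : ∃ x : ℝ, x = ((triangles G).card : ℝ) := ⟨_, rfl⟩
      obtain ⟨E, hE⟩ : ∃ x : ℝ, x = (numEdges G : ℝ) := ⟨_, rfl⟩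
      rw [← hTc] at hTpos hTG ⊢
      rw [← hE] at hEpos hE3 ⊢
      have hEe : (e':ℝ) ≤ E := by
        rw [hE, hEG]
        have : (0:ℝ) ≤ k := Nat.cast_nonneg k
        linarith only []
      have hbern : 1 - 3 * a / E ≤ ((E - 3) / E) ^ a := by
        have h1 := one_add_mul_self_le_rpow_one_add (s := -3 / E) (by
          rw [le_div_iff₀ hEpos]; linarith only [hE3]) ha
        have e1 : 1 + -3 / E = (E - 3) / E := by field_simp; ring
        rw [e1] at h1
        have e2 : 1 + a * (-3 / E) = 1 - 3 * a / E := by ring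
        linarith only [h1, e2]
      have hfrac : 3 * a / E * Tc ≤ ((hit G M).card : ℝ) := by
        have h1 : 3 * a / E * Tc ≤ 3 * a / E * T := mul_le_mul_of_nonneg_left hTG (by positivity)
        have h2 : 3 * a / E * T ≤ (M.card : ℝ) * y - (M.card : ℝ) ^ 2 := by
          rw [div_mul_eq_mul_div, div_le_iff₀ hEpos]
          refine hx.trans ?_
          exact mul_le_mul_of_nonneg_left hEe hpos.le
        linarith only [hhit, h1, h2]
      have hsplit : ((e':ℝ) / E) ^ a = ((E - 3) / E) ^ a * ((e':ℝ) / (E - 3)) ^ a := by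
        rw [← Real.mul_rpow (by positivity) (by positivity)]
        congr 1
        field_simp
      rw [hsplit]
      have hnn : 0 ≤ ((e':ℝ) / (E - 3)) ^ a := Real.rpow_nonneg (by positivity) _
      calc (Tc - ((hit G M).card : ℝ)) * ((e':ℝ) / (E - 3)) ^ a
          ≤ (Tc * (1 - 3 * a / E)) * ((e':ℝ) / (E - 3)) ^ a := by
            apply mul_le_mul_of_nonneg_right _ hnn
            have : Tc * (1 - 3 * a / E) = Tc - 3 * a / E * Tc := by ring
            linarith only [hfrac]
        _ ≤ (Tc * ((E - 3) / E) ^ a) * ((e':ℝ) / (E - 3)) ^ a := by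
            apply mul_le_mul_of_nonneg_right _ hnn
            exact mul_le_mul_of_nonneg_left hbern hTpos.le
        _ = _ := by ring

end Vale.Agent.P046.M2
end
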