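import Mathlib
import Vale.Agent.P046.Defs

set_option linter.all false

section

/-!
Random greedy matching in an abstract 3-uniform hypergraph `H` (a finset of 3-element finsets):
definitions for the determination of the constant `1 / (2 √2)`.
-/

set_option autoImplicit false

open scoped Classical
open Finset

namespace Vale.Agent.P046.K

variable {α : Type*}

/-- hyperedges of `H` containing `v` -/
noncomputable def star (H : Finset (Finset α)) (v : α) : Finset (Finset α) :=
  H.filter fun h => v ∈ h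

/-- degree of a vertex -/
noncomputable def deg (H : Finset (Finset α)) (v : α) : ℕ := (star H v).card

/-- all hyperedges are 3-element subsets of `V`, any two share at most one vertex -/
structure Hyp (V : Finset α) (H : Finset (Finset α)) : Prop where
  sub : ∀ h ∈ H, h ⊆ V
  card : ∀ h ∈ H, h.card = 3
  lin : ∀ h ∈ H, ∀ h' ∈ H, h ≠ h' → (h ∩ h').card ≤ 1

/-- live hyperedges of the state `S` -/
noncomputable def live (H : Finset (Finset α)) (S : Finset α) : Finset (Finset α) :=
  H.filter fun h => h ⊆ S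

/-- `φ` is harmonic for the random greedy process -/
def Harm (H : Finset (Finset α)) (φ : Finset α → ℝ) : Prop :=
  ∀ S, (live H S).Nonempty → ((live H S).card : ℝ) * φ S = ∑ h ∈ live H S, φ (S \ h)

/-- The approximate cavity system satisfied by the marginals of the continuous-time process
(hazard time `t`): `q v t` = probability that the vertex `v` is alive, `p h t` = probability that
all vertices of `h` are alive. -/
structure Sys (V : Finset α) (H : Finset (Finset α)) (T ξ : ℝ) (q : α → ℝ → ℝ)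
    (p : Finset α → ℝ → ℝ) : Prop where
  q0 : ∀ v ∈ V, q v 0 = 1
  p0 : ∀ h ∈ H, p h 0 = 1
  qpos : ∀ v ∈ V, ∀ t ∈ Set.Icc (0:ℝ) T, 0 < q v t
  ppos : ∀ h ∈ H, ∀ t ∈ Set.Icc (0:ℝ) T, 0 < p h t
  dq : ∀ v ∈ V, ∀ t ∈ Set.Icc (0:ℝ) T, HasDerivAt (q v) (-(∑ h ∈ star H v, p h t)) t
  dp : ∀ h ∈ H, ∀ t ∈ Set.Icc (0:ℝ) T, ∃ e : ℝ, |e| ≤ ξ ∧
    HasDerivAt (p h)
      (-(p h t) * (1 + (∑ i ∈ h, ((∑ h' ∈ star H i, p h' t) - p h t) / q i t) + e)) t

/-- degree deviation `deg / D - 1` -/
noncomputable def zd (H : Finset (Finset α)) (D : ℝ) (v : α) : ℝ := (deg H v : ℝ) / D - 1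

/-- neighbourhood average of the degree deviation -/
noncomputable def wd (H : Finset (Finset α)) (D : ℝ) (v : α) : ℝ :=
  (∑ h ∈ star H v, ∑ u ∈ h.erase v, zd H D u) / D

end Vale.Agent.P046.K
end

section

/-!
Cleaning of a hypergraph: effect of the deletion of a few hyperedges on the degree energies.
-/

set_option autoImplicit false

open scoped Classical
open Finset

namespace Vale.Agent.P046.Lv

open Vale.Agent.P046.K

variable {α : Type*}

/-- energy density of the degree deviation -/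
noncomputable def ff (z : ℝ) : ℝ := min (z ^ 4) (z ^ 2)

/-- energy density of the neighbourhood average -/
noncomputable def gw (w : ℝ) : ℝ := min (w ^ 2) |w|

lemma ff_nonneg (z : ℝ) : 0 ≤ ff z := le_min (by positivity) (by positivity)

lemma gw_nonneg (z : ℝ) : 0 ≤ gw z := le_min (by positivity) (by positivity)

lemma ff_pert (z l : ℝ) (hl : 0 ≤ l) (h : -1 ≤ z - l) : ff (z - l) ≤ ff z + 4 * l := by
  rcases le_or_gt 0 (z - l) with h0 | h0
  · have h1 : ff (z - l) ≤ ff z := by
      unfold ff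
      exact min_le_min (pow_le_pow_left₀ h0 (by linarith) 4) (pow_le_pow_left₀ h0 (by linarith) 2)
    linarith
  · have h1 : ff (z - l) ≤ (z - l) ^ 4 := min_le_left _ _
    have h2 : (z - l) ^ 2 ≤ 1 := by nlinarith only [h, h0]
    rcases le_or_gt 0 z with h3 | h3
    · have h4 : (z - l) ^ 4 ≤ (z - l) ^ 2 := by nlinarith only [h2, sq_nonneg (z - l)]
      have h5 : (z - l) ^ 2 ≤ - (z - l) := by nlinarith only [h, h0]
      have := ff_nonneg z
      linarith only [h0, h1, h3, h4, h5, this]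
    · have h4 : z ^ 2 ≤ 1 := by nlinarith only [h2, hl, h3]
      have h5 : ff z = z ^ 4 := by
        unfold ff
        apply min_eq_left
        nlinarith only [h4, sq_nonneg z]
      have h6 : (z - l) ^ 2 - z ^ 2 ≤ 2 * l := by nlinarith only [hl, h]
      have h7 : 0 ≤ (z - l) ^ 2 - z ^ 2 := by nlinarith only [hl, h3]
      have h8 : (z - l) ^ 4 - z ^ 4 = ((z - l) ^ 2 - z ^ 2) * ((z - l) ^ 2 + z ^ 2) := by ring
      have h9 : ((z - l) ^ 2 - z ^ 2) * ((z - l) ^ 2 + z ^ 2) ≤ 2 * l * 2 :=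
        mul_le_mul h6 (by linarith) (by (clear * -; positivity)) (by positivity)
      rw [h5]
      linarith only [h1, h9]

lemma gw_pert (w w' : ℝ) : gw w' ≤ gw w + 2 * |w' - w| := by
  have hab : |w'| ≤ |w| + |w' - w| := by
    have := abs_add_le w (w' - w)
    rwa [add_sub_cancel] at this
  have e1 : ∀ x : ℝ, gw x = min (|x| ^ 2) |x| := fun x => by unfold gw; rw [sq_abs]
  rw [e1, e1]
  have ha := abs_nonneg w
  have hb := abs_nonneg w'
  obtain ⟨a, ha'⟩ : ∃ a : ℝ, a = |w| := ⟨_, rfl⟩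
  obtain ⟨b, hb'⟩ : ∃ b : ℝ, b = |w'| := ⟨_, rfl⟩
  obtain ⟨s, hs'⟩ : ∃ s : ℝ, s = |w' - w| := ⟨_, rfl⟩
  have hs : 0 ≤ |w' - w| := abs_nonneg _
  rw [← ha', ← hb', ← hs']
  rw [← ha', ← hb', ← hs'] at hab
  rw [← ha'] at ha
  rw [← hb'] at hb
  rw [← hs'] at hs
  clear ha' hb' hs' e1
  rcases le_or_gt a 1 with h1 | h1
  · have h2 : min (a ^ 2) a = a ^ 2 := min_eq_left (by nlinarith only [ha, h1])
    rw [h2]
    rcases le_or_gt b 1 with h3 | h3
    · refine (min_le_left _ _).trans ?_
      rcases le_or_gt b a with h4 | h4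
      · have : b ^ 2 ≤ a ^ 2 := pow_le_pow_left₀ hb h4 2
        linarith
      · have h5 : (b - a) * (b + a) ≤ (b - a) * 2 :=
          mul_le_mul_of_nonneg_left (by linarith) (by linarith)
        have h6 : (b - a) * (b + a) = b ^ 2 - a ^ 2 := by ring
        linarith
    · refine (min_le_right _ _).trans ?_
      linarith only [hab, h3, sq_nonneg (1 - a)]
  · have h2 : min (a ^ 2) a = a := min_eq_right (by nlinarith)
    rw [h2]
    refine (min_le_right _ _).trans ?_
    linarith

/-! ### double counting -/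

lemma sum_star (V : Finset α) (K : Finset (Finset α)) (hK : ∀ h ∈ K, h ⊆ V)
    (F : α → Finset α → ℝ) :
    ∑ v ∈ V, ∑ h ∈ star K v, F v h = ∑ h ∈ K, ∑ v ∈ h, F v h := by
  have h1 : ∀ v ∈ V, ∑ h ∈ star K v, F v h = ∑ h ∈ K, if v ∈ h then F v h else 0 := by
    intro v _
    unfold Vale.Agent.P046.K.star
    rw [Finset.sum_filter]
  rw [Finset.sum_congr rfl h1, Finset.sum_comm]
  refine Finset.sum_congr rfl fun h hh => ?_
  rw [← Finset.sum_filter]
  refine Finset.sum_congr ?_ fun _ _ => rfl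
  ext v
  rw [Finset.mem_filter]
  exact ⟨fun h => h.2, fun h3 => ⟨hK h hh h3, h3⟩⟩

lemma sum_deg_mul (V : Finset α) (K : Finset (Finset α)) (hK : ∀ h ∈ K, h ⊆ V) (φ : α → ℝ) :
    ∑ v ∈ V, (deg K v : ℝ) * φ v = ∑ h ∈ K, ∑ v ∈ h, φ v := by
  rw [← sum_star V K hK (fun v _ => φ v)]
  refine Finset.sum_congr rfl fun v _ => ?_
  rw [Finset.sum_const, nsmul_eq_mul]
  rfl

lemma sum_deg (V : Finset α) (K : Finset (Finset α)) (hK : ∀ h ∈ K, h ⊆ V)
    (hc : ∀ h ∈ K, h.card = 3) : ∑ v ∈ V, (deg K v : ℝ) = 3 * K.card := by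
  have h1 := sum_deg_mul V K hK (fun _ => 1)
  simp only [mul_one] at h1
  rw [h1, Finset.sum_congr rfl (g := fun _ => (3:ℝ))]
  · rw [Finset.sum_const, nsmul_eq_mul, mul_comm]
  · intro h hh
    rw [Finset.sum_const, nsmul_eq_mul, mul_one, hc h hh]
    norm_num

lemma sum_erase_card3 (h : Finset α) (hc : h.card = 3) (φ : α → ℝ) :
    ∑ v ∈ h, ∑ u ∈ h.erase v, φ u = 2 * ∑ u ∈ h, φ u := by
  have h1 : ∀ v ∈ h, ∑ u ∈ h.erase v, φ u = ∑ u ∈ h, φ u - φ v := by
    intro v hv
    rw [← Finset.add_sum_erase h φ hv]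
    ring
  rw [Finset.sum_congr rfl h1, Finset.sum_sub_distrib, Finset.sum_const, nsmul_eq_mul, hc]
  push_cast
  ring

lemma sum_star_erase (V : Finset α) (K : Finset (Finset α)) (hK : ∀ h ∈ K, h ⊆ V)
    (hc : ∀ h ∈ K, h.card = 3) (φ : α → ℝ) :
    ∑ v ∈ V, ∑ h ∈ star K v, ∑ u ∈ h.erase v, φ u = 2 * ∑ v ∈ V, (deg K v : ℝ) * φ v := by
  rw [sum_star V K hK (fun v h => ∑ u ∈ h.erase v, φ u), sum_deg_mul V K hK, Finset.mul_sum]
  exact Finset.sum_congr rfl fun h hh => sum_erase_card3 h (hc h hh) φ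

lemma star_split (H H' : Finset (Finset α)) (hs : H' ⊆ H) (v : α) (F : Finset α → ℝ) :
    ∑ h ∈ star H v, F h = ∑ h ∈ star H' v, F h + ∑ h ∈ star (H \ H') v, F h := by
  unfold Vale.Agent.P046.K.star
  rw [Finset.sum_filter, Finset.sum_filter, Finset.sum_filter, add_comm,
    Finset.sum_sdiff hs]

lemma deg_split (H H' : Finset (Finset α)) (hs : H' ⊆ H) (v : α) :
    (deg H v : ℝ) = deg H' v + deg (H \ H') v := by
  have := star_split H H' hs v (fun _ => 1)
  simp only [Finset.sum_const, nsmul_eq_mul, mul_one] at this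
  exact this

lemma zd_split (H H' : Finset (Finset α)) (hs : H' ⊆ H) (D : ℝ) (v : α) :
    zd H' D v = zd H D v - (deg (H \ H') v : ℝ) / D := by
  unfold zd
  rw [deg_split H H' hs v]
  ring

lemma wd_split (H H' : Finset (Finset α)) (hs : H' ⊆ H) (D : ℝ) (v : α) :
    wd H D v - wd H' D v = (∑ h ∈ star (H \ H') v, ∑ u ∈ h.erase v, zd H D u +
      ∑ h ∈ star H' v, ∑ u ∈ h.erase v, (deg (H \ H') u : ℝ) / D) / D := by
  unfold wd
  rw [star_split H H' hs v, ← sub_div]
  congr 1
  have h1 : ∑ h ∈ star H' v, ∑ u ∈ h.erase v, zd H' D u =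
      ∑ h ∈ star H' v, ∑ u ∈ h.erase v, zd H D u -
      ∑ h ∈ star H' v, ∑ u ∈ h.erase v, (deg (H \ H') u : ℝ) / D := by
    rw [← Finset.sum_sub_distrib]
    refine Finset.sum_congr rfl fun h _ => ?_
    rw [← Finset.sum_sub_distrib]
    exact Finset.sum_congr rfl fun u _ => zd_split H H' hs D u
  rw [h1]
  ring

lemma abs_zd_le (H : Finset (Finset α)) (D : ℝ) (hD : 0 < D) (v : α) :
    |zd H D v| ≤ 1 + (deg H v : ℝ) / D := by
  unfold zd
  have h1 : 0 ≤ (deg H v : ℝ) / D := by positivity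
  rw [abs_le]
  constructor <;> linarith

/-- total change of the neighbourhood averages -/
lemma sum_wd_diff (V : Finset α) (H H' : Finset (Finset α)) (hH : Hyp V H) (hs : H' ⊆ H)
    (D : ℝ) (hD : 0 < D) :
    ∑ v ∈ V, |wd H' D v - wd H D v| ≤
      (6 * ((H \ H').card : ℝ) + 4 / D * ∑ v ∈ V, (deg H v : ℝ) * deg (H \ H') v) / D := by
  have hV : ∀ h ∈ H \ H', h ⊆ V := fun h hh => hH.sub h (Finset.mem_sdiff.mp hh).1
  have hc : ∀ h ∈ H \ H', h.card = 3 := fun h hh => hH.card h (Finset.mem_sdiff.mp hh).1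
  have hV' : ∀ h ∈ H', h ⊆ V := fun h hh => hH.sub h (hs hh)
  have hc' : ∀ h ∈ H', h.card = 3 := fun h hh => hH.card h (hs hh)
  have h1 : ∀ v ∈ V, |wd H' D v - wd H D v| ≤
      (∑ h ∈ star (H \ H') v, ∑ u ∈ h.erase v, (1 + (deg H u : ℝ) / D) +
      ∑ h ∈ star H' v, ∑ u ∈ h.erase v, (deg (H \ H') u : ℝ) / D) / D := by
    intro v _
    rw [abs_sub_comm, wd_split H H' hs D v, abs_div, abs_of_pos hD]
    apply div_le_div_of_nonneg_right _ hD.le
    refine (abs_add_le _ _).trans (add_le_add ?_ ?_)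
    · refine (Finset.abs_sum_le_sum_abs _ _).trans (Finset.sum_le_sum fun h _ => ?_)
      refine (Finset.abs_sum_le_sum_abs _ _).trans (Finset.sum_le_sum fun u _ => ?_)
      exact abs_zd_le H D hD u
    · rw [abs_of_nonneg]
      exact Finset.sum_nonneg fun h _ => Finset.sum_nonneg fun u _ => by positivity
  refine (Finset.sum_le_sum h1).trans ?_
  rw [← Finset.sum_div]
  apply div_le_div_of_nonneg_right _ hD.le
  rw [Finset.sum_add_distrib, sum_star_erase V _ hV hc, sum_star_erase V _ hV' hc']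
  have h2 : ∑ v ∈ V, (deg (H \ H') v : ℝ) * (1 + (deg H v : ℝ) / D) =
      3 * ((H \ H').card : ℝ) + 1 / D * ∑ v ∈ V, (deg H v : ℝ) * deg (H \ H') v := by
    rw [← sum_deg V (H \ H') hV hc, Finset.mul_sum, ← Finset.sum_add_distrib]
    exact Finset.sum_congr rfl fun v _ => by ring
  have h3 : ∑ v ∈ V, (deg H' v : ℝ) * ((deg (H \ H') v : ℝ) / D) ≤
      1 / D * ∑ v ∈ V, (deg H v : ℝ) * deg (H \ H') v := by
    rw [Finset.mul_sum]
    refine Finset.sum_le_sum fun v _ => ?_
    have h4 := deg_split H H' hs v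
    have h5 : (0:ℝ) ≤ deg (H \ H') v := Nat.cast_nonneg _
    have h6 : (deg H' v : ℝ) ≤ deg H v := by linarith only [h4]
    calc (deg H' v : ℝ) * ((deg (H \ H') v : ℝ) / D)
        ≤ (deg H v : ℝ) * ((deg (H \ H') v : ℝ) / D) :=
          mul_le_mul_of_nonneg_right h6 (by positivity)
      _ = _ := by ring
  rw [h2]
  have e : (4:ℝ) / D = 4 * (1 / D) := by ring
  rw [e]
  linarith

/-- the energies after the deletion of hyperedges -/
theorem pert (V : Finset α) (H H' : Finset (Finset α)) (hH : Hyp V H) (hs : H' ⊆ H)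
    (D : ℝ) (hD : 0 < D) :
    ∑ v ∈ V, (ff (zd H' D v) + gw (wd H' D v)) ≤
      ∑ v ∈ V, (ff (zd H D v) + gw (wd H D v)) + 24 / D * ((H \ H').card : ℝ) +
        8 / D ^ 2 * ∑ v ∈ V, (deg H v : ℝ) * deg (H \ H') v := by
  have hV : ∀ h ∈ H \ H', h ⊆ V := fun h hh => hH.sub h (Finset.mem_sdiff.mp hh).1
  have hc : ∀ h ∈ H \ H', h.card = 3 := fun h hh => hH.card h (Finset.mem_sdiff.mp hh).1
  have h1 : ∀ v ∈ V, ff (zd H' D v) + gw (wd H' D v) ≤ (ff (zd H D v) + gw (wd H D v)) +
      (4 / D * (deg (H \ H') v : ℝ) + 2 * |wd H' D v - wd H D v|) := by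
    intro v _
    have h2 := zd_split H H' hs D v
    have h3 := ff_pert (zd H D v) ((deg (H \ H') v : ℝ) / D) (by positivity) (by
      rw [← h2]
      unfold zd
      have : 0 ≤ (deg H' v : ℝ) / D := by positivity
      linarith only [this])
    rw [← h2] at h3
    have h4 := gw_pert (wd H D v) (wd H' D v)
    have e : 4 * ((deg (H \ H') v : ℝ) / D) = 4 / D * (deg (H \ H') v : ℝ) := by ring
    rw [e] at h3
    linarith
  refine (Finset.sum_le_sum h1).trans ?_
  rw [Finset.sum_add_distrib (f := fun v => ff (zd H D v) + gw (wd H D v)),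
    Finset.sum_add_distrib (f := fun v => 4 / D * (deg (H \ H') v : ℝ)), ← Finset.mul_sum,
    ← Finset.mul_sum, sum_deg V _ hV hc]
  have h5 := sum_wd_diff V H H' hH hs D hD
  have e : 2 * ((6 * ((H \ H').card : ℝ) + 4 / D * ∑ v ∈ V, (deg H v : ℝ) * deg (H \ H') v) / D) =
      12 / D * ((H \ H').card : ℝ) + 8 / D ^ 2 * ∑ v ∈ V, (deg H v : ℝ) * deg (H \ H') v := by
    field_simp
    ring
  have e2 : 4 / D * (3 * ((H \ H').card : ℝ)) = 12 / D * ((H \ H').card : ℝ) := by ring
  rw [e2]
  have e3 : 24 / D * ((H \ H').card : ℝ) = 12 / D * ((H \ H').card : ℝ) +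
    12 / D * ((H \ H').card : ℝ) := by ring
  rw [e3]
  linarith only [h5, e]

/-! ### deletion of the vertices of large degree -/

/-- the vertices to be deleted: a given set and the vertices of large degree -/
noncomputable def delSet (V : Finset α) (H : Finset (Finset α)) (B : Finset α) (A : ℝ) :
    Finset α := V.filter fun v => v ∈ B ∨ A < deg H v

/-- the hyperedges which avoid the deleted vertices -/
noncomputable def cleaned (V : Finset α) (H : Finset (Finset α)) (B : Finset α) (A : ℝ) :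
    Finset (Finset α) := H.filter fun h => Disjoint h (delSet V H B A)

lemma cleaned_sub (V : Finset α) (H : Finset (Finset α)) (B : Finset α) (A : ℝ) :
    cleaned V H B A ⊆ H := Finset.filter_subset _ _

/-- sum of the squared degrees over the vertices of large degree -/
lemma heavy_sq (V : Finset α) (H : Finset (Finset α)) (D A : ℝ) (hD : 0 < D) (hA : 3 * D ≤ A) :
    ∑ v ∈ V.filter (fun v => A < (deg H v : ℝ)), (deg H v : ℝ) ^ 2 ≤
      3 * D ^ 2 * ∑ v ∈ V, (ff (zd H D v) + gw (wd H D v)) := by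
  rw [Finset.sum_filter, Finset.mul_sum]
  refine Finset.sum_le_sum fun v _ => ?_
  have hg := gw_nonneg (wd H D v)
  have hf := ff_nonneg (zd H D v)
  split_ifs with h
  · have h1 : 3 ≤ (deg H v : ℝ) / D := by
      rw [le_div_iff₀ hD]; linarith
    obtain ⟨r, hr⟩ : ∃ r : ℝ, r = (deg H v : ℝ) / D := ⟨_, rfl⟩
    have h2 : (deg H v : ℝ) = r * D := by rw [hr, div_mul_cancel₀ _ hD.ne']
    have h3 : zd H D v = r - 1 := by unfold zd; rw [hr]
    rw [← hr] at h1
    have h4 : ff (zd H D v) = (r - 1) ^ 2 := by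
      unfold ff
      rw [h3]
      apply min_eq_right
      have h6 : 1 ≤ (r - 1) ^ 2 := by nlinarith only [h1]
      nlinarith only [h6]
    rw [h2, h4]
    have h5 : r ^ 2 ≤ 3 * (r - 1) ^ 2 := by nlinarith only [hA, h, h2]
    have h6 : 0 ≤ 3 * D ^ 2 * gw (wd H D v) := by positivity
    nlinarith only [h6, h5]
  · positivity

/-- number of the vertices of large degree -/
lemma heavy_card (V : Finset α) (H : Finset (Finset α)) (A : ℝ) (hA : 0 < A) :
    A ^ 2 * ((V.filter (fun v => A < (deg H v : ℝ))).card : ℝ) ≤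
      ∑ v ∈ V.filter (fun v => A < (deg H v : ℝ)), (deg H v : ℝ) ^ 2 := by
  rw [mul_comm, ← nsmul_eq_mul, ← Finset.sum_const]
  refine Finset.sum_le_sum fun v hv => ?_
  have := (Finset.mem_filter.mp hv).2
  exact pow_le_pow_left₀ hA.le this.le 2

/-- number of the deleted hyperedges -/
lemma lost_card (V : Finset α) (H : Finset (Finset α)) (B : Finset α) (A : ℝ)
    (hA : 0 < A) :
    ((H \ cleaned V H B A).card : ℝ) ≤ A * B.card + 1 / A *
      ∑ v ∈ V.filter (fun v => A < (deg H v : ℝ)), (deg H v : ℝ) ^ 2 := by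
  have h1 : ((H \ cleaned V H B A).card : ℝ) ≤ ∑ v ∈ delSet V H B A, (deg H v : ℝ) := by
    have h2 : (H \ cleaned V H B A) ⊆ (delSet V H B A).biUnion (fun v => star H v) := by
      intro h hh
      rw [Finset.mem_sdiff] at hh
      obtain ⟨h3, h4⟩ := hh
      have h5 : ¬ Disjoint h (delSet V H B A) := by
        intro h6
        exact h4 (Finset.mem_filter.mpr ⟨h3, h6⟩)
      rw [Finset.not_disjoint_iff] at h5
      obtain ⟨v, hv1, hv2⟩ := h5
      rw [Finset.mem_biUnion]
      exact ⟨v, hv2, Finset.mem_filter.mpr ⟨h3, hv1⟩⟩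
    have h3 : (H \ cleaned V H B A).card ≤ ∑ v ∈ delSet V H B A, (star H v).card :=
      (Finset.card_le_card h2).trans Finset.card_biUnion_le
    have h4 : ((H \ cleaned V H B A).card : ℝ) ≤ ((∑ v ∈ delSet V H B A, (star H v).card : ℕ) : ℝ) := by
      exact_mod_cast h3
    rw [Nat.cast_sum] at h4
    exact h4
  refine h1.trans ?_
  have h2 : ∀ v ∈ delSet V H B A, (deg H v : ℝ) ≤
      (if v ∈ B then A else 0) + (if A < (deg H v : ℝ) then 1 / A * (deg H v : ℝ) ^ 2 else 0) := by
    intro v hv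
    have hd : (0:ℝ) ≤ deg H v := Nat.cast_nonneg _
    have h3 := (Finset.mem_filter.mp hv).2
    by_cases h4 : A < (deg H v : ℝ)
    · rw [if_pos h4]
      have h5 : (deg H v : ℝ) ≤ 1 / A * (deg H v : ℝ) ^ 2 := by
        rw [one_div, inv_mul_eq_div, le_div_iff₀ hA]
        nlinarith only [h4]
      split_ifs
      · linarith only [hA, h5]
      · linarith
    · rw [if_neg h4]
      rcases h3 with h3 | h3
      · rw [if_pos h3]
        push Not at h4
        linarith
      · exact absurd h3 h4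
  refine (Finset.sum_le_sum h2).trans ?_
  rw [Finset.sum_add_distrib]
  refine add_le_add ?_ ?_
  · rw [← Finset.sum_filter, Finset.sum_const, nsmul_eq_mul, mul_comm]
    apply mul_le_mul_of_nonneg_left _ hA.le
    have : ((delSet V H B A).filter fun v => v ∈ B).card ≤ B.card :=
      Finset.card_le_card fun v hv => (Finset.mem_filter.mp hv).2
    exact_mod_cast this
  · rw [Finset.mul_sum, ← Finset.sum_filter]
    refine Finset.sum_le_sum_of_subset_of_nonneg ?_ fun v _ _ => by positivity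
    intro v hv
    have h3 := Finset.mem_filter.mp hv
    exact Finset.mem_filter.mpr ⟨(Finset.mem_filter.mp h3.1).1, h3.2⟩

/-- degree-weighted number of the deleted hyperedges -/
lemma lost_deg (V : Finset α) (H H' : Finset (Finset α)) (hH : Hyp V H) (hs : H' ⊆ H) (A : ℝ)
    (hA : 0 < A) :
    ∑ v ∈ V, (deg H v : ℝ) * deg (H \ H') v ≤ 3 * A * ((H \ H').card : ℝ) +
      ∑ v ∈ V.filter (fun v => A < (deg H v : ℝ)), (deg H v : ℝ) ^ 2 := by
  have hV : ∀ h ∈ H \ H', h ⊆ V := fun h hh => hH.sub h (Finset.mem_sdiff.mp hh).1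
  have hc : ∀ h ∈ H \ H', h.card = 3 := fun h hh => hH.card h (Finset.mem_sdiff.mp hh).1
  have e : 3 * A * ((H \ H').card : ℝ) = A * (3 * ((H \ H').card : ℝ)) := by ring
  rw [e, ← sum_deg V _ hV hc, Finset.mul_sum, Finset.sum_filter, ← Finset.sum_add_distrib]
  refine Finset.sum_le_sum fun v _ => ?_
  have h1 := deg_split H H' hs v
  have h2 : (0:ℝ) ≤ deg (H \ H') v := Nat.cast_nonneg _
  have h3 : (0:ℝ) ≤ deg H' v := Nat.cast_nonneg _
  split_ifs with h
  · have : (deg H v : ℝ) * deg (H \ H') v ≤ (deg H v : ℝ) * (deg H v : ℝ) :=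
      mul_le_mul_of_nonneg_left (by linarith) (Nat.cast_nonneg _)
    nlinarith only [this, hA]
  · push Not at h
    have := mul_le_mul_of_nonneg_right h h2
    linarith

/-- the abstract cleaning lemma -/
theorem clean (V : Finset α) (H : Finset (Finset α)) (hH : Hyp V H) (B : Finset α)
    (D A Λ : ℝ) (hD : 1 ≤ D) (hA : 3 * D ≤ A) (hΛ : 0 ≤ Λ)
    (hsum : ∑ v ∈ V, (ff (zd H D v) + gw (wd H D v)) ≤ Λ * V.card / D ^ 2)
    (hB : A ^ 2 * B.card ≤ V.card) :
    ∑ v ∈ V, (ff (zd (cleaned V H B A) D v) + gw (wd (cleaned V H B A) D v)) ≤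
      (200 * Λ + 48) * V.card / D ^ 2 ∧
    ((H \ cleaned V H B A).card : ℝ) ≤ A * B.card + 3 * Λ * V.card / A ∧
    A ^ 2 * ((V.filter (fun v => A < (deg H v : ℝ))).card : ℝ) ≤ 3 * Λ * V.card := by
  have hD0 : 0 < D := by linarith
  have hA0 : 0 < A := by linarith
  obtain ⟨N, hN⟩ : ∃ N : ℝ, N = (V.card : ℝ) := ⟨_, rfl⟩
  have hN0 : 0 ≤ N := by rw [hN]; positivity
  obtain ⟨Q, hQ⟩ : ∃ Q : ℝ, Q = ∑ v ∈ V.filter (fun v => A < (deg H v : ℝ)), (deg H v : ℝ) ^ 2 :=
    ⟨_, rfl⟩
  have h1 : Q ≤ 3 * Λ * N := by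
    have h2 := heavy_sq V H D A hD0 hA
    rw [← hQ] at h2
    refine h2.trans ?_
    rw [← hN] at hsum
    have h3 := mul_le_mul_of_nonneg_left hsum (by positivity : 0 ≤ 3 * D ^ 2)
    have e : 3 * D ^ 2 * (Λ * N / D ^ 2) = 3 * Λ * N := by field_simp
    linarith
  obtain ⟨S, hS⟩ : ∃ S : ℝ, S = ((H \ cleaned V H B A).card : ℝ) := ⟨_, rfl⟩
  have hS0 : 0 ≤ S := by rw [hS]; (clear * -; positivity)
  obtain ⟨b, hb⟩ : ∃ b : ℝ, b = (B.card : ℝ) := ⟨_, rfl⟩
  have hb0 : 0 ≤ b := by rw [hb]; (clear * -; positivity)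
  have h2 : S ≤ A * b + 3 * Λ * N / A := by
    have h3 := lost_card V H B A hA0
    rw [← hS, ← hQ, ← hb] at h3
    have h4 : 1 / A * Q ≤ 3 * Λ * N / A := by
      rw [one_div, inv_mul_eq_div]
      exact div_le_div_of_nonneg_right h1 hA0.le
    linarith
  have h5 : A * S ≤ N + 3 * Λ * N := by
    have h6 := mul_le_mul_of_nonneg_left h2 hA0.le
    have e : A * (A * b + 3 * Λ * N / A) = A ^ 2 * b + 3 * Λ * N := by field_simp
    rw [e] at h6
    rw [← hb, ← hN] at hB
    linarith only [hB, h6]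
  refine ⟨?_, by rw [← hS, ← hb, ← hN]; exact h2, ?_⟩
  · have h7 := pert V H (cleaned V H B A) hH (cleaned_sub V H B A) D hD0
    have h8 := lost_deg V H (cleaned V H B A) hH (cleaned_sub V H B A) A hA0
    rw [← hS, ← hQ] at h8
    rw [← hS] at h7
    refine h7.trans ?_
    rw [← hN]
    rw [← hN] at hsum
    have h9 : 24 / D * S ≤ 8 * (N + 3 * Λ * N) / D ^ 2 := by
      have h10 : D * S ≤ (N + 3 * Λ * N) / 3 := by nlinarith only [h5, hA, hS]
      rw [div_mul_eq_mul_div, div_le_div_iff₀ hD0 (by positivity)]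
      have : 24 * S * D ^ 2 = 24 * (D * S) * D := by ring
      rw [this]
      have h11 := mul_le_mul_of_nonneg_right h10 hD0.le
      linarith only [h11]
    have h10 : 8 / D ^ 2 * ∑ v ∈ V, (deg H v : ℝ) * deg (H \ cleaned V H B A) v ≤
        8 / D ^ 2 * (3 * (N + 3 * Λ * N) + 3 * Λ * N) := by
      apply mul_le_mul_of_nonneg_left _ (by positivity)
      linarith only [h1, h5, h8]
    have e : (200 * Λ + 48) * N / D ^ 2 = Λ * N / D ^ 2 + 8 * (N + 3 * Λ * N) / D ^ 2 +
        8 / D ^ 2 * (3 * (N + 3 * Λ * N) + 3 * Λ * N) + (16 * N + 79 * Λ * N) / D ^ 2 := by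
      ring
    rw [e]
    have h11 : 0 ≤ (16 * N + 79 * Λ * N) / D ^ 2 := by (clear * - hN0 hΛ hD; positivity)
    linarith only [hsum, h9, h10, h11]
  · rw [← hN]
    exact (heavy_card V H A hA0).trans (by rw [← hQ]; exact h1)

/-- maximal degree after the cleaning -/
lemma cleaned_deg (V : Finset α) (H : Finset (Finset α)) (hH : Hyp V H) (B : Finset α) (A : ℝ)
    (hA : 0 ≤ A) (v : α) : (deg (cleaned V H B A) v : ℝ) ≤ A := by
  by_cases h : v ∈ delSet V H B A
  · have h1 : deg (cleaned V H B A) v = 0 := by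
      unfold deg Vale.Agent.P046.K.star
      rw [Finset.card_eq_zero, Finset.filter_eq_empty_iff]
      intro k hk hv
      have := (Finset.mem_filter.mp hk).2
      exact (Finset.disjoint_left.mp this hv) h
    rw [h1]
    simpa using hA
  · by_cases h2 : v ∈ V
    · have h3 : (deg H v : ℝ) ≤ A := by
        by_contra h4
        push Not at h4
        exact h (Finset.mem_filter.mpr ⟨h2, Or.inr h4⟩)
      refine le_trans ?_ h3
      have : deg (cleaned V H B A) v ≤ deg H v :=
        Finset.card_le_card (Finset.filter_subset_filter _ (cleaned_sub V H B A))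
      exact_mod_cast this
    · have h1 : deg (cleaned V H B A) v = 0 := by
        unfold deg Vale.Agent.P046.K.star
        rw [Finset.card_eq_zero, Finset.filter_eq_empty_iff]
        intro k hk hv
        exact h2 (hH.sub k (cleaned_sub V H B A hk) hv)
      rw [h1]
      simpa using hA

lemma cleaned_hyp (V : Finset α) (H : Finset (Finset α)) (hH : Hyp V H) (B : Finset α) (A : ℝ) :
    Hyp V (cleaned V H B A) where
  sub := fun h hh => hH.sub h (cleaned_sub V H B A hh)
  card := fun h hh => hH.card h (cleaned_sub V H B A hh)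
  lin := fun h hh h' hh' hne => hH.lin h (cleaned_sub V H B A hh) h' (cleaned_sub V H B A hh') hne

end Vale.Agent.P046.Lv
end

section

/-!
Statement of the energy module for the constant `1 / (2 √2)`.
-/

set_option autoImplicit false

open scoped Classical
open Finset

namespace Vale.Agent.P046.K

/-- M7: energy estimate for the cavity system -/
def Energy : Prop :=
  ∀ T η : ℝ, 0 < T → 0 < η → ∃ D₀ : ℝ, 1 ≤ D₀ ∧ ∀ D₁ : ℝ, D₀ ≤ D₁ → ∃ ξ : ℝ, 0 < ξ ∧
    ∀ D ∈ Set.Icc D₀ D₁,
    ∀ (α : Type) (V : Finset α) (H : Finset (Finset α)), Hyp V H →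
    ∀ (q : α → ℝ → ℝ) (p : Finset α → ℝ → ℝ), Sys V H T ξ q p →
    ∑ v ∈ V, (min (zd H D v ^ 4) (zd H D v ^ 2) + min (wd H D v ^ 2) |wd H D v|) ≤
      V.card * D ^ (-(19 / 10 : ℝ)) →
    ∀ t ∈ Set.Icc (0:ℝ) T,
    |∑ v ∈ V, q v t - V.card / √(1 + 2 * D * (1 - Real.exp (-t)))| ≤
      η * (V.card / √(1 + 2 * D * (1 - Real.exp (-t))))

/-! ### graphs -/

open Vale.Agent.P046

variable {n : ℕ}

/-- the three edges spanned by a 3-element vertex set -/
noncomputable def hedge (t : Finset (Fin n)) : Finset (Sym2 (Fin n)) :=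
  t.sym2.filter fun e => ¬ e.IsDiag

/-- the triangle hypergraph of `G` -/
noncomputable def TH (G : SimpleGraph (Fin n)) : Finset (Finset (Sym2 (Fin n))) :=
  (triangles G).image hedge

/-- `S` is a `(2,3)`-sparse edge set on all vertex sets of size at most `K` -/
def Sparse (K : ℕ) (S : Finset (Sym2 (Fin n))) : Prop :=
  ∀ X : Finset (Fin n), 2 ≤ X.card → X.card ≤ K → (S.filter fun e => e ∈ X.sym2).card + 3 ≤ 2 * X.card

end Vale.Agent.P046.K
end

section

/-!
The cleaned hypergraph: summary of its properties.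
-/

set_option autoImplicit false

open scoped Classical
open Finset

namespace Vale.Agent.P046.Lv

open Vale.Agent.P046.K (Hyp deg zd wd)

variable {α : Type*}

/-- the remaining vertices -/
noncomputable def keep (V : Finset α) (H : Finset (Finset α)) (B : Finset α) (A : ℝ) :
    Finset α := V \ delSet V H B A

lemma keep_sub (V : Finset α) (H : Finset (Finset α)) (B : Finset α) (A : ℝ) :
    keep V H B A ⊆ V := Finset.sdiff_subset

lemma keep_notMem (V : Finset α) (H : Finset (Finset α)) (B : Finset α) (A : ℝ) (v : α)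
    (hv : v ∈ keep V H B A) : v ∉ B := by
  unfold keep delSet at hv
  rw [Finset.mem_sdiff, Finset.mem_filter] at hv
  intro h
  exact hv.2 ⟨hv.1, Or.inl h⟩

/-- the cleaned hypergraph consists of the live hyperedges of the remaining vertex set -/
lemma cleaned_eq (V : Finset α) (H : Finset (Finset α)) (hH : Hyp V H)
    (B : Finset α) (A : ℝ) :
    cleaned V H B A = K.live H (keep V H B A) := by
  unfold cleaned K.live keep
  refine Finset.filter_congr fun h hh => ?_
  constructor
  · intro h1 x hx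
    exact Finset.mem_sdiff.mpr ⟨hH.sub h hh hx, Finset.disjoint_left.mp h1 hx⟩
  · intro h1
    rw [Finset.disjoint_left]
    intro x hx
    exact (Finset.mem_sdiff.mp (h1 hx)).2

/-- weight of the deleted vertices -/
lemma del_weight (V : Finset α) (H : Finset (Finset α))
    (B : Finset α) (D A : ℝ) (hD : 1 ≤ D) (hA : 1 ≤ A) :
    ∑ v ∈ delSet V H B A, (1 + (deg H v : ℝ) / D) ≤ 2 * A * B.card + 2 / A *
      ∑ v ∈ V.filter (fun v => A < (deg H v : ℝ)), (deg H v : ℝ) ^ 2 := by
  have hA0 : 0 < A := by linarith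
  have hD0 : 0 < D := by linarith
  have h2 : ∀ v ∈ delSet V H B A, (1 + (deg H v : ℝ) / D) ≤
      (if v ∈ B then 2 * A else 0) +
        (if A < (deg H v : ℝ) then 2 / A * (deg H v : ℝ) ^ 2 else 0) := by
    intro v hv
    have hd : (0:ℝ) ≤ deg H v := Nat.cast_nonneg _
    have h3 := (Finset.mem_filter.mp hv).2
    have h5 : (deg H v : ℝ) / D ≤ deg H v := div_le_self hd hD
    by_cases h4 : A < (deg H v : ℝ)
    · rw [if_pos h4]
      have h6 : 1 + (deg H v : ℝ) / D ≤ 2 / A * (deg H v : ℝ) ^ 2 := by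
        rw [div_mul_eq_mul_div, le_div_iff₀ hA0]
        nlinarith only [h5, h4, hA]
      split_ifs
      · linarith
      · linarith only [h6]
    · rw [if_neg h4]
      rcases h3 with h3 | h3
      · rw [if_pos h3]
        push Not at h4
        linarith
      · exact absurd h3 h4
  refine (Finset.sum_le_sum h2).trans ?_
  rw [Finset.sum_add_distrib]
  refine add_le_add ?_ ?_
  · rw [← Finset.sum_filter, Finset.sum_const, nsmul_eq_mul, mul_comm]
    apply mul_le_mul_of_nonneg_left _ (by linarith)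
    have : ((delSet V H B A).filter fun v => v ∈ B).card ≤ B.card :=
      Finset.card_le_card fun v hv => (Finset.mem_filter.mp hv).2
    exact_mod_cast this
  · rw [Finset.mul_sum, ← Finset.sum_filter]
    refine Finset.sum_le_sum_of_subset_of_nonneg ?_ fun v _ _ => by (clear * - hA; positivity)
    intro v hv
    have h3 := Finset.mem_filter.mp hv
    exact Finset.mem_filter.mpr ⟨(Finset.mem_filter.mp h3.1).1, h3.2⟩

/-- summary for an abstract hypergraph -/
theorem data (Λ D A : ℝ) (hΛ0 : 0 ≤ Λ) (hD : 4 + 2 * Λ + (2 * (200 * Λ + 48)) ^ 10 ≤ D)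
    (hA : 3 * D ≤ A) (V : Finset α) (H : Finset (Finset α)) (hH : Hyp V H)
    (hsum : ∑ v ∈ V, (ff (zd H D v) + gw (wd H D v)) ≤ Λ * V.card / D ^ 2)
    (B : Finset α) (hB : A ^ 2 * B.card ≤ V.card) :
      Hyp (keep V H B A) (cleaned V H B A) ∧
      cleaned V H B A = K.live H (keep V H B A) ∧
      (∀ v, (deg (cleaned V H B A) v : ℝ) ≤ A) ∧
      ∑ v ∈ keep V H B A, (ff (zd (cleaned V H B A) D v) + gw (wd (cleaned V H B A) D v)) ≤
        (keep V H B A).card * D ^ (-(19 / 10 : ℝ)) ∧
      ∑ v ∈ delSet V H B A, (1 + (deg H v : ℝ) / D) ≤ 2 * A * B.card + 6 * Λ * V.card / A ∧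
      (V.card : ℝ) / 2 ≤ (keep V H B A).card := by
  have hp0 : 0 ≤ (2 * (200 * Λ + 48)) ^ 10 := by positivity
  have hD4 : 4 ≤ D := by linarith only [hΛ0, hD, hp0]
  have hDΛ : 2 * Λ ≤ D := by linarith only [hD, hp0]
  have hDp : (2 * (200 * Λ + 48)) ^ 10 ≤ D := by linarith
  have hD0 : 0 < D := by linarith only [hΛ0, hD, hp0]
  have hA0 : 0 < A := by linarith
  obtain ⟨h1, h2, h3⟩ := clean V H hH B D A Λ (by linarith only [hΛ0, hD, hp0]) hA hΛ0 hsum hB
  have h4 := heavy_sq V H D A hD0 hA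
  have h5 : 3 * D ^ 2 * ∑ v ∈ V, (ff (zd H D v) + gw (wd H D v)) ≤ 3 * Λ * V.card := by
    have h6 := mul_le_mul_of_nonneg_left hsum (by positivity : 0 ≤ 3 * D ^ 2)
    have e : 3 * D ^ 2 * (Λ * V.card / D ^ 2) = 3 * Λ * V.card := by field_simp
    linarith only [h6, e]
  have h6 := h4.trans h5
  have hcardV : (0:ℝ) ≤ V.card := Nat.cast_nonneg _
  have hcd : ((keep V H B A).card : ℝ) = V.card - (delSet V H B A).card := by
    have hsub : delSet V H B A ⊆ V := Finset.filter_subset _ _
    unfold keep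
    rw [Finset.card_sdiff_of_subset hsub, Nat.cast_sub (Finset.card_le_card hsub)]
  have hdel : ((delSet V H B A).card : ℝ) ≤ B.card +
      ((V.filter (fun v => A < (deg H v : ℝ))).card : ℝ) := by
    have : (delSet V H B A).card ≤ (B ∪ V.filter (fun v => A < (deg H v : ℝ))).card := by
      apply Finset.card_le_card
      intro v hv
      have h3 := Finset.mem_filter.mp hv
      rw [Finset.mem_union]
      rcases h3.2 with h4 | h4
      · exact Or.inl h4
      · exact Or.inr (Finset.mem_filter.mpr ⟨h3.1, h4⟩)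
    have h7 := this.trans (Finset.card_union_le _ _)
    exact_mod_cast h7
  have hA12 : 12 ≤ A := by linarith only [hΛ0, hD, hA, hp0]
  have hhalf : (V.card : ℝ) / 2 ≤ ((keep V H B A).card : ℝ) := by
    rw [hcd]
    have h8 : (B.card : ℝ) ≤ V.card / 144 := by
      have h0 : (0:ℝ) ≤ B.card := Nat.cast_nonneg _
      have h10 : (144:ℝ) ≤ A ^ 2 := by nlinarith only [hΛ0, hD, hA, hp0]
      have h11 := mul_le_mul_of_nonneg_right h10 h0
      linarith only [hB, h11]
    have h9 : ((V.filter (fun v => A < (deg H v : ℝ))).card : ℝ) ≤ V.card / 8 := by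
      have h10 : (0:ℝ) ≤ ((V.filter (fun v => A < (deg H v : ℝ))).card : ℝ) := Nat.cast_nonneg _
      have h11 : 3 * Λ * V.card ≤ A / 2 * V.card := by
        apply mul_le_mul_of_nonneg_right _ hcardV
        linarith only [hD, hA, hp0]
      have h12 : A * (A * ((V.filter (fun v => A < (deg H v : ℝ))).card : ℝ)) ≤
          A * (V.card / 2) := by linarith only [h3, h11]
      have h13 := le_of_mul_le_mul_left h12 hA0
      nlinarith only [h13, hΛ0, hD, hA, hp0]
    linarith only [hdel, h8, h9]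
  refine ⟨?_, cleaned_eq V H hH B A, cleaned_deg V H hH B A hA0.le, ?_, ?_, hhalf⟩
  · refine ⟨?_, (cleaned_hyp V H hH B A).card, (cleaned_hyp V H hH B A).lin⟩
    intro h hh
    rw [cleaned_eq V H hH B A] at hh
    exact (Finset.mem_filter.mp hh).2
  · refine (Finset.sum_le_sum_of_subset_of_nonneg (keep_sub V H B A) fun v _ _ =>
      add_nonneg (ff_nonneg _) (gw_nonneg _)).trans (h1.trans ?_)
    have h7 : 2 * (200 * Λ + 48) ≤ D ^ (1 / 10 : ℝ) := by
      have h8 : 0 ≤ 2 * (200 * Λ + 48) := by positivity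
      calc 2 * (200 * Λ + 48) = ((2 * (200 * Λ + 48)) ^ 10) ^ (1 / 10 : ℝ) := by
            rw [← Real.rpow_natCast, ← Real.rpow_mul h8]
            norm_num
        _ ≤ D ^ (1 / 10 : ℝ) := Real.rpow_le_rpow (by positivity) hDp (by norm_num)
    have h8 : D ^ (-(19 / 10 : ℝ)) = D ^ (1 / 10 : ℝ) / D ^ 2 := by
      rw [← Real.rpow_natCast, ← Real.rpow_sub hD0]
      norm_num
    rw [h8]
    have h9 : 0 < D ^ 2 := by positivity
    rw [← mul_div_assoc, div_le_div_iff_of_pos_right h9]
    calc (200 * Λ + 48) * V.card = (2 * (200 * Λ + 48)) * (V.card / 2) := by ring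
      _ ≤ D ^ (1 / 10 : ℝ) * ((keep V H B A).card : ℝ) :=
          mul_le_mul h7 hhalf (by (clear * -; positivity)) (by positivity)
      _ = _ := by ring
  · have h7 := del_weight V H B D A (by linarith only [hΛ0, hD, hp0]) (by linarith only [hΛ0, hD, hA, hp0])
    refine h7.trans ?_
    have h8 : 2 / A * ∑ v ∈ V.filter (fun v => A < (deg H v : ℝ)), (deg H v : ℝ) ^ 2 ≤
        2 / A * (3 * Λ * V.card) := mul_le_mul_of_nonneg_left h6 (by positivity)
    have e : 2 / A * (3 * Λ * V.card) = 6 * Λ * V.card / A := by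
      ring
    linarith only [h8, e]

end Vale.Agent.P046.Lv
end

section

/-!
Semigroups `exp (t L)` on functions on a finite set.
-/

set_option autoImplicit false

open scoped Classical
open Finset NormedSpace

namespace Vale.Agent.P046.S

variable {X : Type} [Fintype X]

/-- generator with moves `m i`, rates `c i x ≥ 0` and diagonal `d` -/
noncomputable def gen {ι : Type} [Fintype ι] (c : ι → X → ℝ) (m : ι → X → X) (d : X → ℝ) :
    (X → ℝ) →L[ℝ] (X → ℝ) :=
  LinearMap.toContinuousLinearMap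
    { toFun := fun f x => (∑ i, c i x * f (m i x)) - d x * f x
      map_add' := by
        intro f g
        ext x
        simp only [Pi.add_apply]
        rw [show (∑ i, c i x * (f (m i x) + g (m i x))) =
          (∑ i, c i x * f (m i x)) + ∑ i, c i x * g (m i x) by
            rw [← Finset.sum_add_distrib]
            exact Finset.sum_congr rfl fun i _ => by ring]
        ring
      map_smul' := by
        intro a f
        ext x
        simp only [Pi.smul_apply, smul_eq_mul, RingHom.id_apply]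
        rw [show (∑ i, c i x * (a * f (m i x))) = a * ∑ i, c i x * f (m i x) by
            rw [Finset.mul_sum]
            exact Finset.sum_congr rfl fun i _ => by ring]
        ring }

lemma gen_apply {ι : Type} [Fintype ι] (c : ι → X → ℝ) (m : ι → X → X) (d : X → ℝ)
    (f : X → ℝ) (x : X) :
    gen c m d f x = (∑ i, c i x * f (m i x)) - d x * f x := by
  unfold gen
  rfl

/-- quasi-positivity of a generator -/
def QPos (L : (X → ℝ) →L[ℝ] (X → ℝ)) : Prop :=
  ∃ Λ : ℝ, ∀ f : X → ℝ, (∀ x, 0 ≤ f x) → ∀ x, 0 ≤ L f x + Λ * f x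

lemma gen_qpos {ι : Type} [Fintype ι] (c : ι → X → ℝ) (m : ι → X → X) (d : X → ℝ)
    (hc : ∀ i x, 0 ≤ c i x) : QPos (gen c m d) := by
  refine ⟨∑ x, |d x|, fun f hf x => ?_⟩
  rw [gen_apply]
  have h1 : 0 ≤ ∑ i, c i x * f (m i x) :=
    Finset.sum_nonneg fun i _ => mul_nonneg (hc i x) (hf _)
  have h2 : d x ≤ ∑ x, |d x| :=
    (le_abs_self _).trans (Finset.single_le_sum (f := fun x => |d x|)
      (fun _ _ => abs_nonneg _) (Finset.mem_univ x))
  have h3 := mul_le_mul_of_nonneg_right h2 (hf x)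
  linarith

/-- the semigroup -/
noncomputable def P (L : (X → ℝ) →L[ℝ] (X → ℝ)) (t : ℝ) : (X → ℝ) →L[ℝ] (X → ℝ) :=
  exp (t • L)

lemma P_zero (L : (X → ℝ) →L[ℝ] (X → ℝ)) : P L 0 = 1 := by
  unfold P
  rw [zero_smul, exp_zero]

lemma P_zero_apply (L : (X → ℝ) →L[ℝ] (X → ℝ)) (f : X → ℝ) : P L 0 f = f := by
  rw [P_zero]
  rfl

lemma hasDerivAt_P (L : (X → ℝ) →L[ℝ] (X → ℝ)) (t : ℝ) :
    HasDerivAt (fun s => P L s) (P L t * L) t := by
  unfold P
  exact hasDerivAt_exp_smul_const (𝕂 := ℝ) L t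

lemma hasDerivAt_P' (L : (X → ℝ) →L[ℝ] (X → ℝ)) (t : ℝ) :
    HasDerivAt (fun s => P L s) (L * P L t) t := by
  unfold P
  exact hasDerivAt_exp_smul_const' (𝕂 := ℝ) L t

lemma P_comm (L : (X → ℝ) →L[ℝ] (X → ℝ)) (t : ℝ) (f : X → ℝ) :
    P L t (L f) = L (P L t f) := by
  have h := (hasDerivAt_P L t).unique (hasDerivAt_P' L t)
  have := congrArg (fun T : (X → ℝ) →L[ℝ] (X → ℝ) => T f) h
  simpa using this

lemma hasDerivAt_P_apply (L : (X → ℝ) →L[ℝ] (X → ℝ)) (t : ℝ) (f : X → ℝ) :
    HasDerivAt (fun s => P L s f) (P L t (L f)) t := by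
  have h := (hasDerivAt_P L t).clm_apply (hasDerivAt_const t f)
  simpa using h

lemma hasDerivAt_P_apply_pt (L : (X → ℝ) →L[ℝ] (X → ℝ)) (t : ℝ) (f : X → ℝ) (x : X) :
    HasDerivAt (fun s => P L s f x) (P L t (L f) x) t := by
  have h := hasDerivAt_P_apply L t f
  rw [hasDerivAt_pi] at h
  exact h x

lemma hasDerivAt_P_comp (L : (X → ℝ) →L[ℝ] (X → ℝ)) (t : ℝ) (F : ℝ → X → ℝ) (F' : X → ℝ)
    (hF : HasDerivAt F F' t) :
    HasDerivAt (fun s => P L s (F s)) (P L t (L (F t) + F')) t := by
  have h := (hasDerivAt_P L t).clm_apply hF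
  have e : P L t (L (F t) + F') = (P L t * L) (F t) + (P L t) F' := by
    rw [map_add]
    rfl
  rw [e]
  exact h

/-- uniqueness of the solution of the backward equation -/
lemma P_unique (L : (X → ℝ) →L[ℝ] (X → ℝ)) (v : ℝ → X → ℝ)
    (hv : ∀ s, HasDerivAt v (L (v s)) s) (t : ℝ) : P L t (v 0) = v t := by
  have hd : ∀ s, HasDerivAt (fun s => P L (t - s) (v s)) 0 s := by
    intro s
    have h1 : HasDerivAt (fun s => P L (t - s)) (-(P L (t - s) * L)) s :=
      HasDerivAt.comp_const_sub t s (hasDerivAt_P L (t - s))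
    have h2 := h1.clm_apply (hv s)
    have e : (-(P L (t - s) * L)) (v s) + (P L (t - s)) (L (v s)) = 0 := by
      simp
    rw [e] at h2
    exact h2
  have h2 : P L (t - 0) (v 0) = P L (t - t) (v t) :=
    is_const_of_deriv_eq_zero (fun s => (hd s).differentiableAt)
    (fun s => (hd s).deriv) 0 t
  rw [sub_zero, sub_self, P_zero_apply] at h2
  exact h2

/-- positivity -/
lemma P_nonneg (L : (X → ℝ) →L[ℝ] (X → ℝ)) (hL : QPos L) (t : ℝ) (ht : 0 ≤ t) (f : X → ℝ)
    (hf : ∀ x, 0 ≤ f x) (x : X) : 0 ≤ P L t f x := by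
  obtain ⟨Λ, hΛ⟩ := hL
  set B : (X → ℝ) →L[ℝ] (X → ℝ) := L + Λ • (1 : (X → ℝ) →L[ℝ] (X → ℝ)) with hB
  have hBpos : ∀ g : X → ℝ, (∀ y, 0 ≤ g y) → ∀ y, 0 ≤ B g y := by
    intro g hg y
    have := hΛ g hg y
    simpa [hB] using this
  have e4 : P L t f x = Real.exp (-(t * Λ)) * (exp (t • B) f x) := by
    have h1 := P_unique L (fun s => Real.exp (-(s * Λ)) • P B s f) (by
      intro s
      have h2 : HasDerivAt (fun s : ℝ => Real.exp (-(s * Λ))) (Real.exp (-(s * Λ)) * (-Λ)) s := by
        have h3 : HasDerivAt (fun s : ℝ => -(s * Λ)) (-Λ) s := by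
          have h9 : HasDerivAt (fun s : ℝ => s * Λ) (1 * Λ) s := (hasDerivAt_id s).mul_const Λ
          rw [one_mul] at h9
          exact h9.fun_neg
        exact h3.exp
      have h4 := h2.smul (hasDerivAt_P_apply B s f)
      have e5 : L (Real.exp (-(s * Λ)) • P B s f) = Real.exp (-(s * Λ)) • P B s (B f) +
          (Real.exp (-(s * Λ)) * (-Λ)) • P B s f := by
        rw [P_comm, map_smul]
        have e6 : B (P B s f) = L (P B s f) + Λ • P B s f := by
          rw [hB]
          rfl
        rw [e6, smul_add, smul_smul, add_assoc, ← add_smul]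
        have e7 : Real.exp (-(s * Λ)) * Λ + Real.exp (-(s * Λ)) * -Λ = 0 := by ring
        rw [e7, zero_smul, add_zero]
      rw [e5]
      exact h4) t
    simp only [zero_mul, neg_zero, Real.exp_zero, one_smul, P_zero_apply] at h1
    rw [h1]
    rfl
  rw [e4]
  refine mul_nonneg (Real.exp_pos _).le ?_
  have hs := exp_series_hasSum_exp' (𝕂 := ℝ) (t • B)
  have hs2 : HasSum (fun n : ℕ => ((n.factorial⁻¹ : ℝ) • (t • B) ^ n) f x) (exp (t • B) f x) := by
    have h1 := hs.mapL (ContinuousLinearMap.apply ℝ (X → ℝ) f)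
    have h2 := h1.mapL (ContinuousLinearMap.proj (R := ℝ) (φ := fun _ : X => ℝ) x)
    exact h2
  refine hs2.nonneg fun n => ?_
  have h4 : ∀ k : ℕ, ∀ y, 0 ≤ ((t • B) ^ k) f y := by
    intro k
    induction k with
    | zero => intro y; simpa using hf y
    | succ k ih =>
      intro y
      rw [pow_succ']
      have := hBpos _ ih y
      have h5 : ((t • B) * (t • B) ^ k) f y = t * B (((t • B) ^ k) f) y := by
        simp
      rw [h5]
      exact mul_nonneg ht this
  have h5 : ((n.factorial⁻¹ : ℝ) • (t • B) ^ n) f x = (n.factorial⁻¹ : ℝ) * ((t • B) ^ n) f x := by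
    simp
  rw [h5]
  exact mul_nonneg (by positivity) (h4 n x)

lemma P_mono (L : (X → ℝ) →L[ℝ] (X → ℝ)) (hL : QPos L) (t : ℝ) (ht : 0 ≤ t) (f g : X → ℝ)
    (hf : ∀ x, f x ≤ g x) (x : X) : P L t f x ≤ P L t g x := by
  have h := P_nonneg L hL t ht (g - f) (fun y => by simpa using sub_nonneg.mpr (hf y)) x
  rw [map_sub] at h
  simpa using h

/-- if `L f = 0` then `f` is invariant -/
lemma P_of_harm (L : (X → ℝ) →L[ℝ] (X → ℝ)) (f : X → ℝ) (hf : L f = 0) (t : ℝ) :
    P L t f = f := by
  have h : ∀ s, HasDerivAt (fun s => P L s f) 0 s := by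
    intro s
    have := hasDerivAt_P_apply L s f
    rw [hf, map_zero] at this
    exact this
  have h2 : P L t f = P L 0 f := is_const_of_deriv_eq_zero (fun s => (h s).differentiableAt)
    (fun s => (h s).deriv) t 0
  rw [h2, P_zero_apply]

/-- supermartingale inequality -/
lemma P_super (L : (X → ℝ) →L[ℝ] (X → ℝ)) (hL : QPos L) (t : ℝ) (ht : 0 ≤ t)
    (F F' : ℝ → X → ℝ) (hF : ∀ s, 0 ≤ s → HasDerivAt F (F' s) s)
    (hle : ∀ s, 0 ≤ s → ∀ x, L (F s) x + F' s x ≤ 0) (x : X) :
    P L t (F t) x ≤ F 0 x := by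
  have hd : ∀ s, 0 ≤ s → HasDerivAt (fun s => P L s (F s) x) (P L s (L (F s) + F' s) x) s := by
    intro s hs
    have h := hasDerivAt_P_comp L s F (F' s) (hF s hs)
    rw [hasDerivAt_pi] at h
    exact h x
  have hanti : AntitoneOn (fun s => P L s (F s) x) (Set.Ici 0) := by
    apply antitoneOn_of_deriv_nonpos (convex_Ici 0)
    · exact fun s hs => (hd s hs).continuousAt.continuousWithinAt
    · intro s hs
      rw [interior_Ici] at hs
      exact (hd s (le_of_lt hs)).differentiableAt.differentiableWithinAt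
    · intro s hs
      rw [interior_Ici] at hs
      rw [(hd s (le_of_lt hs)).deriv]
      have h := P_nonneg L hL s (le_of_lt hs) (-(L (F s) + F' s)) (fun y => by
        have := hle s (le_of_lt hs) y
        simp only [Pi.neg_apply, Pi.add_apply]
        linarith) x
      rw [map_neg] at h
      simp only [Pi.neg_apply] at h
      linarith
  have h : P L t (F t) x ≤ P L 0 (F 0) x :=
    hanti (Set.mem_Ici.mpr le_rfl) (Set.mem_Ici.mpr ht) ht
  rwa [P_zero_apply] at h

/-- intertwining -/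
lemma P_intertwine {Y : Type} [Fintype Y] (L : (X → ℝ) →L[ℝ] (X → ℝ))
    (L' : (Y → ℝ) →L[ℝ] (Y → ℝ)) (Φ : (X → ℝ) →L[ℝ] (Y → ℝ))
    (h : ∀ f, Φ (L f) = L' (Φ f)) (t : ℝ) (f : X → ℝ) : P L' t (Φ f) = Φ (P L t f) := by
  have h1 := P_unique L' (fun s => Φ (P L s f)) (by
    intro s
    have h2 := Φ.hasFDerivAt.comp_hasDerivAt s (hasDerivAt_P_apply L s f)
    rw [P_comm, h] at h2
    exact h2) t
  simp only [P_zero_apply] at h1
  exact h1

end Vale.Agent.P046.S
end

section

/-!
Random greedy matching in a 3-uniform linear hypergraph: generators of the single process and of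
the coupled pair process.
-/

set_option autoImplicit false

open scoped Classical
open Finset

namespace Vale.Agent.P046.S

variable {V : Type} [Fintype V]

/-- 3-uniform, linear -/
structure Lin (H : Finset (Finset V)) : Prop where
  card3 : ∀ h ∈ H, h.card = 3
  inter : ∀ h ∈ H, ∀ k ∈ H, h ≠ k → (h ∩ k).card ≤ 1

/-- ring of the hyperedge `h` in the state `A` -/
noncomputable def fire (h A : Finset V) : Finset V := if h ⊆ A then A \ h else A

lemma fire_subset (h A : Finset V) : fire h A ⊆ A := by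
  unfold fire
  split_ifs
  · exact Finset.sdiff_subset
  · exact subset_rfl

/-- live hyperedges -/
noncomputable def live (H : Finset (Finset V)) (A : Finset V) : Finset (Finset V) :=
  H.filter (fun h => h ⊆ A)

/-- live degree -/
noncomputable def ldeg (H : Finset (Finset V)) (A : Finset V) (v : V) : ℝ :=
  ∑ h ∈ H, if h ⊆ A ∧ v ∈ h then (1 : ℝ) else 0

lemma ldeg_nonneg (H : Finset (Finset V)) (A : Finset V) (v : V) : 0 ≤ ldeg H A v := by
  unfold ldeg
  exact Finset.sum_nonneg fun h _ => by split_ifs <;> norm_num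

lemma ldeg_of_notMem (H : Finset (Finset V)) (A : Finset V) (v : V) (hv : v ∉ A) :
    ldeg H A v = 0 := by
  unfold ldeg
  refine Finset.sum_eq_zero fun h _ => ?_
  rw [if_neg]
  rintro ⟨h1, h2⟩
  exact hv (h1 h2)

/-- generator of the single process -/
noncomputable def LH (H : Finset (Finset V)) : (Finset V → ℝ) →L[ℝ] (Finset V → ℝ) :=
  gen (fun h _ => if h ∈ H then (1 : ℝ) else 0) (fun h A => fire h A) (fun _ => (H.card : ℝ))

lemma LH_apply (H : Finset (Finset V)) (f : Finset V → ℝ) (A : Finset V) :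
    LH H f A = ∑ h ∈ H, (f (fire h A) - f A) := by
  unfold LH
  rw [gen_apply, Finset.sum_sub_distrib, Finset.sum_const, nsmul_eq_mul]
  congr 1
  rw [← Finset.sum_filter_add_sum_filter_not Finset.univ (fun h => h ∈ H)]
  rw [Finset.sum_eq_zero (s := Finset.univ.filter (fun h => ¬ h ∈ H)), add_zero]
  · rw [Finset.filter_mem_eq_inter, Finset.univ_inter]
    refine Finset.sum_congr rfl fun h hh => ?_
    rw [if_pos hh, one_mul]
  · intro h hh
    rw [Finset.mem_filter] at hh
    rw [if_neg hh.2, zero_mul]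

lemma LH_qpos (H : Finset (Finset V)) : QPos (LH H) :=
  gen_qpos _ _ _ fun h _ => by split_ifs <;> norm_num

/-- generator of the coupled pair -/
noncomputable def LP (H : Finset (Finset V)) :
    (Finset V × Finset V → ℝ) →L[ℝ] (Finset V × Finset V → ℝ) :=
  gen (ι := Finset V) (fun h _ => if h ∈ H then (1 : ℝ) else 0)
    (fun h A => (fire h A.1, fire h A.2)) (fun _ => (H.card : ℝ))

lemma LP_apply (H : Finset (Finset V)) (f : Finset V × Finset V → ℝ) (A : Finset V × Finset V) :
    LP H f A = ∑ h ∈ H, (f (fire h A.1, fire h A.2) - f A) := by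
  unfold LP
  rw [gen_apply, Finset.sum_sub_distrib, Finset.sum_const, nsmul_eq_mul]
  congr 1
  rw [← Finset.sum_filter_add_sum_filter_not Finset.univ (fun h => h ∈ H)]
  rw [Finset.sum_eq_zero (s := Finset.univ.filter (fun h => ¬ h ∈ H)), add_zero]
  · rw [Finset.filter_mem_eq_inter, Finset.univ_inter]
    refine Finset.sum_congr rfl fun h hh => ?_
    rw [if_pos hh, one_mul]
  · intro h hh
    rw [Finset.mem_filter] at hh
    rw [if_neg hh.2, zero_mul]

lemma LP_qpos (H : Finset (Finset V)) : QPos (LP H) :=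
  gen_qpos _ _ _ fun h _ => by split_ifs <;> norm_num

/-- composition with a map of state spaces as a continuous linear map -/
noncomputable def pull {X Y : Type} [Fintype X] [Fintype Y] (p : Y → X) :
    (X → ℝ) →L[ℝ] (Y → ℝ) :=
  LinearMap.toContinuousLinearMap (LinearMap.funLeft ℝ ℝ p)

lemma pull_apply {X Y : Type} [Fintype X] [Fintype Y] (p : Y → X) (f : X → ℝ) (y : Y) :
    pull p f y = f (p y) := rfl

lemma P_fst (H : Finset (Finset V)) (t : ℝ) (f : Finset V → ℝ) (A : Finset V × Finset V) :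
    P (LP H) t (fun B => f B.1) A = P (LH H) t f A.1 := by
  have h := P_intertwine (LH H) (LP H) (pull (Prod.fst : Finset V × Finset V → Finset V)) (by
    intro g
    ext B
    rw [pull_apply, LH_apply, LP_apply]
    rfl) t f
  have h2 := congrFun h A
  rw [pull_apply] at h2
  exact h2

lemma P_snd (H : Finset (Finset V)) (t : ℝ) (f : Finset V → ℝ) (A : Finset V × Finset V) :
    P (LP H) t (fun B => f B.2) A = P (LH H) t f A.2 := by
  have h := P_intertwine (LH H) (LP H) (pull (Prod.snd : Finset V × Finset V → Finset V)) (by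
    intro g
    ext B
    rw [pull_apply, LH_apply, LP_apply]
    rfl) t f
  have h2 := congrFun h A
  rw [pull_apply] at h2
  exact h2

/-- constants are invariant -/
lemma P_one (H : Finset (Finset V)) (t : ℝ) (c : ℝ) (A : Finset V) :
    P (LH H) t (fun _ => c) A = c := by
  have h : LH H (fun _ => c) = 0 := by
    ext A
    rw [LH_apply]
    simp
  rw [P_of_harm _ _ h]

lemma PP_one (H : Finset (Finset V)) (t : ℝ) (c : ℝ) (A : Finset V × Finset V) :
    P (LP H) t (fun _ => c) A = c := by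
  have h : LP H (fun _ => c) = 0 := by
    ext A
    rw [LP_apply]
    simp
  rw [P_of_harm _ _ h]

/-- comparison of expectations from two initial states -/
lemma P_diff_le (H : Finset (Finset V)) (t : ℝ) (ht : 0 ≤ t) (f : Finset V → ℝ)
    (g : Finset V × Finset V → ℝ) (hg : ∀ A, |f A.1 - f A.2| ≤ g A) (A B : Finset V) :
    |P (LH H) t f A - P (LH H) t f B| ≤ P (LP H) t g (A, B) := by
  have h1 := P_fst H t f (A, B)
  have h2 := P_snd H t f (A, B)
  simp only at h1 h2
  rw [← h1, ← h2]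
  have h3 : P (LP H) t (fun C => f C.1) (A, B) - P (LP H) t (fun C => f C.2) (A, B) =
      P (LP H) t (fun C => f C.1 - f C.2) (A, B) := by
    have := congrFun (map_sub (P (LP H) t) (fun C => f C.1) (fun C => f C.2)) (A, B)
    simp only [Pi.sub_apply] at this
    rw [← this]
    rfl
  rw [h3, abs_le]
  constructor
  · have h4 := P_mono (LP H) (LP_qpos H) t ht (-g) (fun C => f C.1 - f C.2) (fun C => by
      have := (abs_le.mp (hg C)).1
      simpa using this) (A, B)
    rw [map_neg] at h4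
    simpa using h4
  · exact P_mono (LP H) (LP_qpos H) t ht _ _ (fun C => (abs_le.mp (hg C)).2) (A, B)

end Vale.Agent.P046.S
end

section

/-!
The stability inequality for two coupled greedy processes.
-/

set_option autoImplicit false

open scoped Classical
open Finset

namespace Vale.Agent.P046.S

variable {V : Type} [Fintype V]

/-- `J(A,B) = ∑_{k live in A} |k \ B|` -/
noncomputable def JJ (H : Finset (Finset V)) (A B : Finset V) : ℝ :=
  ∑ k ∈ H, if k ⊆ A then ((k \ B).card : ℝ) else 0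

omit [Fintype V] in
lemma JJ_nonneg (H : Finset (Finset V)) (A B : Finset V) : 0 ≤ JJ H A B := by
  unfold JJ
  exact Finset.sum_nonneg fun k _ => by split_ifs <;> positivity

omit [Fintype V] in
lemma card_eq_sum_ite (s t : Finset V) (h : s ⊆ t) :
    (s.card : ℝ) = ∑ v ∈ t, if v ∈ s then (1 : ℝ) else 0 := by
  rw [Finset.sum_ite_mem, Finset.inter_eq_right.mpr h]
  simp

lemma JJ_eq (H : Finset (Finset V)) (A B : Finset V) :
    JJ H A B = ∑ v ∈ A \ B, ldeg H A v := by
  unfold JJ ldeg
  rw [Finset.sum_comm]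
  refine Finset.sum_congr rfl fun k _ => ?_
  by_cases hk : k ⊆ A
  · rw [if_pos hk]
    rw [card_eq_sum_ite (k \ B) (A \ B) (Finset.sdiff_subset_sdiff hk subset_rfl)]
    refine Finset.sum_congr rfl fun v hv => ?_
    rw [Finset.mem_sdiff] at hv
    by_cases hvk : v ∈ k
    · rw [if_pos (Finset.mem_sdiff.mpr ⟨hvk, hv.2⟩), if_pos ⟨hk, hvk⟩]
    · rw [if_neg (fun h => hvk (Finset.mem_sdiff.mp h).1), if_neg (fun h => hvk h.2)]
  · rw [if_neg hk]
    symm
    refine Finset.sum_eq_zero fun v _ => ?_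
    rw [if_neg (fun h => hk h.1)]

/-- number of live hyperedges meeting a live hyperedge `k` -/
lemma sum_meet (H : Finset (Finset V)) (hH : Lin H) (A k : Finset V) (hk : k ∈ H) (hkA : k ⊆ A) :
    ∑ h ∈ H, (if h ⊆ A ∧ ¬ Disjoint h k then (1 : ℝ) else 0) = (∑ e ∈ k, ldeg H A e) - 2 := by
  have h1 : ∑ e ∈ k, ldeg H A e = ∑ h ∈ H, if h ⊆ A then ((h ∩ k).card : ℝ) else 0 := by
    unfold ldeg
    rw [Finset.sum_comm]
    refine Finset.sum_congr rfl fun h _ => ?_
    by_cases hh : h ⊆ A
    · rw [if_pos hh, card_eq_sum_ite (h ∩ k) k Finset.inter_subset_right]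
      refine Finset.sum_congr rfl fun v hv => ?_
      by_cases hvh : v ∈ h
      · rw [if_pos ⟨hh, hvh⟩, if_pos (Finset.mem_inter.mpr ⟨hvh, hv⟩)]
      · rw [if_neg (fun h' => hvh h'.2), if_neg (fun h' => hvh (Finset.mem_inter.mp h').1)]
    · rw [if_neg hh]
      refine Finset.sum_eq_zero fun v _ => ?_
      rw [if_neg (fun h => hh h.1)]
  rw [h1]
  have h2 : ∀ h ∈ H, (if h ⊆ A ∧ ¬ Disjoint h k then (1 : ℝ) else 0) =
      (if h ⊆ A then ((h ∩ k).card : ℝ) else 0) - if h = k then 2 else 0 := by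
    intro h hh
    by_cases hhk : h = k
    · subst hhk
      have hc := hH.card3 h hh
      have hd : ¬ Disjoint h h := by
        rw [disjoint_self]
        intro h0
        rw [h0] at hc
        simp at hc
      rw [if_pos ⟨hkA, hd⟩, if_pos hkA, if_pos rfl, Finset.inter_self, hc]
      norm_num
    · rw [if_neg hhk, sub_zero]
      by_cases hhA : h ⊆ A
      · rw [if_pos hhA]
        have hi := hH.inter h hh k hk hhk
        by_cases hd : Disjoint h k
        · rw [if_neg (fun h' => h'.2 hd)]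
          rw [Finset.disjoint_iff_inter_eq_empty] at hd
          rw [hd]
          simp
        · rw [if_pos ⟨hhA, hd⟩]
          rw [Finset.disjoint_iff_inter_eq_empty] at hd
          have h3 : 0 < (h ∩ k).card := Finset.card_pos.mpr (Finset.nonempty_iff_ne_empty.mpr hd)
          have h4 : (h ∩ k).card = 1 := by omega
          rw [h4]
          norm_num
      · rw [if_neg hhA, if_neg (fun h' => hhA h'.1)]
  rw [Finset.sum_congr rfl h2, Finset.sum_sub_distrib]
  congr 1
  rw [Finset.sum_ite_eq' H k]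
  rw [if_pos hk]

/-- change of `JJ` under one ring -/
lemma JJ_fire (H : Finset (Finset V)) (A B h : Finset V) :
    JJ H (fire h A) (fire h B) - JJ H A B =
      (if h ⊆ B ∧ ¬ h ⊆ A then ∑ k ∈ H, (if k ⊆ A then ((k ∩ h).card : ℝ) else 0) else 0) -
      (if h ⊆ A then ∑ k ∈ H, (if k ⊆ A ∧ ¬ Disjoint h k then ((k \ B).card : ℝ) else 0)
        else 0) := by
  unfold JJ
  rw [← Finset.sum_sub_distrib]
  by_cases hA : h ⊆ A
  · rw [if_neg (fun h' => h'.2 hA), if_pos hA, zero_sub, ← Finset.sum_neg_distrib]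
    refine Finset.sum_congr rfl fun k _ => ?_
    have e1 : fire h A = A \ h := by unfold fire; rw [if_pos hA]
    rw [e1]
    by_cases hk : k ⊆ A
    · by_cases hd : Disjoint h k
      · have h1 : k ⊆ A \ h := by
          intro x hx
          exact Finset.mem_sdiff.mpr ⟨hk hx, fun hxh => (Finset.disjoint_left.mp hd hxh) hx⟩
        rw [if_pos h1, if_pos hk, if_neg (fun h' => h'.2 hd)]
        have e2 : k \ fire h B = k \ B := by
          unfold fire
          split_ifs with hB
          · ext x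
            simp only [Finset.mem_sdiff, not_and, not_not]
            constructor
            · rintro ⟨h3, h4⟩
              exact ⟨h3, fun h5 => (Finset.disjoint_left.mp hd (h4 h5)) h3⟩
            · rintro ⟨h3, h4⟩
              exact ⟨h3, fun h5 => absurd h5 h4⟩
          · rfl
        rw [e2]
        ring
      · have h1 : ¬ k ⊆ A \ h := by
          intro h2
          apply hd
          rw [Finset.disjoint_left]
          intro x hx hxk
          exact (Finset.mem_sdiff.mp (h2 hxk)).2 hx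
        rw [if_neg h1, if_pos hk, if_pos ⟨hk, hd⟩]
        ring
    · have h1 : ¬ k ⊆ A \ h := fun h2 => hk (h2.trans Finset.sdiff_subset)
      rw [if_neg h1, if_neg hk, if_neg (fun h' => hk h'.1)]
      ring
  · rw [if_neg hA, sub_zero]
    have e1 : fire h A = A := by unfold fire; rw [if_neg hA]
    rw [e1]
    by_cases hB : h ⊆ B
    · rw [if_pos ⟨hB, hA⟩]
      have e2 : fire h B = B \ h := by unfold fire; rw [if_pos hB]
      rw [e2]
      refine Finset.sum_congr rfl fun k _ => ?_
      by_cases hk : k ⊆ A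
      · rw [if_pos hk, if_pos hk, if_pos hk]
        have e3 : k \ (B \ h) = (k \ B) ∪ (k ∩ h) := by
          ext x
          simp only [Finset.mem_sdiff, Finset.mem_union, Finset.mem_inter, not_and, not_not]
          constructor
          · rintro ⟨h3, h4⟩
            by_cases h5 : x ∈ B
            · exact Or.inr ⟨h3, h4 h5⟩
            · exact Or.inl ⟨h3, h5⟩
          · rintro (⟨h3, h4⟩ | ⟨h3, h4⟩)
            · exact ⟨h3, fun h5 => absurd h5 h4⟩
            · exact ⟨h3, fun _ => h4⟩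
        have hdis : Disjoint (k \ B) (k ∩ h) := by
          rw [Finset.disjoint_left]
          intro x hx hx'
          exact (Finset.mem_sdiff.mp hx).2 (hB (Finset.mem_inter.mp hx').2)
        rw [e3, Finset.card_union_of_disjoint hdis]
        push_cast
        ring
      · rw [if_neg hk, if_neg hk, if_neg hk]
        ring
    · rw [if_neg (fun h' => hB h'.1)]
      have e2 : fire h B = B := by unfold fire; rw [if_neg hB]
      rw [e2]
      refine Finset.sum_eq_zero fun k _ => ?_
      ring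

/-- number of hyperedges at `f` live in `A` and not in `B` -/
noncomputable def aon (H : Finset (Finset V)) (A B : Finset V) (f : V) : ℝ :=
  ∑ h ∈ H, if (h ⊆ A ∧ ¬ h ⊆ B) ∧ f ∈ h then (1 : ℝ) else 0

omit [Fintype V] in
lemma ldeg_sub (H : Finset (Finset V)) (A B : Finset V) (f : V) :
    ldeg H A f - ldeg H B f = aon H A B f - aon H B A f := by
  unfold ldeg aon
  rw [← Finset.sum_sub_distrib, ← Finset.sum_sub_distrib]
  refine Finset.sum_congr rfl fun h _ => ?_
  by_cases h1 : h ⊆ A <;> by_cases h2 : h ⊆ B <;> by_cases h3 : f ∈ h <;> simp [h1, h2, h3]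

lemma sum_ring (H : Finset (Finset V)) (hH : Lin H) (A B : Finset V) :
    ∑ h ∈ H, (JJ H (fire h A) (fire h B) - JJ H A B) ≤
      2 * JJ H A B + ∑ f, (aon H B A f * ldeg H A f - aon H A B f * ldeg H A f) := by
  have h1 : ∑ h ∈ H, (JJ H (fire h A) (fire h B) - JJ H A B) =
      (∑ h ∈ H, if h ⊆ B ∧ ¬ h ⊆ A then ∑ k ∈ H, (if k ⊆ A then ((k ∩ h).card : ℝ) else 0)
        else 0) -
      ∑ h ∈ H, (if h ⊆ A then ∑ k ∈ H, (if k ⊆ A ∧ ¬ Disjoint h k then ((k \ B).card : ℝ) else 0)
        else 0) := by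
    rw [← Finset.sum_sub_distrib]
    exact Finset.sum_congr rfl fun h _ => JJ_fire H A B h
  rw [h1]
  -- births
  have h2 : (∑ h ∈ H, if h ⊆ B ∧ ¬ h ⊆ A then ∑ k ∈ H, (if k ⊆ A then ((k ∩ h).card : ℝ) else 0)
        else 0) = ∑ f, aon H B A f * ldeg H A f := by
    unfold aon
    rw [show (∑ f, (∑ h ∈ H, if (h ⊆ B ∧ ¬ h ⊆ A) ∧ f ∈ h then (1 : ℝ) else 0) * ldeg H A f) =
      ∑ h ∈ H, ∑ f, (if (h ⊆ B ∧ ¬ h ⊆ A) ∧ f ∈ h then (1 : ℝ) else 0) * ldeg H A f by
        rw [Finset.sum_comm]
        exact Finset.sum_congr rfl fun f _ => Finset.sum_mul _ _ _]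
    refine Finset.sum_congr rfl fun h _ => ?_
    by_cases hh : h ⊆ B ∧ ¬ h ⊆ A
    · rw [if_pos hh]
      unfold ldeg
      rw [show (∑ f, (if (h ⊆ B ∧ ¬ h ⊆ A) ∧ f ∈ h then (1 : ℝ) else 0) *
          ∑ k ∈ H, (if k ⊆ A ∧ f ∈ k then (1 : ℝ) else 0)) =
          ∑ k ∈ H, ∑ f, (if f ∈ h then (1 : ℝ) else 0) * (if k ⊆ A ∧ f ∈ k then (1 : ℝ) else 0) by
        rw [Finset.sum_comm]
        refine Finset.sum_congr rfl fun f _ => ?_
        rw [Finset.mul_sum]
        refine Finset.sum_congr rfl fun k _ => ?_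
        by_cases hf : f ∈ h
        · rw [if_pos ⟨hh, hf⟩, if_pos hf]
        · rw [if_neg (fun h' => hf h'.2), if_neg hf]]
      refine Finset.sum_congr rfl fun k _ => ?_
      by_cases hk : k ⊆ A
      · rw [if_pos hk, card_eq_sum_ite (k ∩ h) Finset.univ (Finset.subset_univ _)]
        refine Finset.sum_congr rfl fun f _ => ?_
        by_cases h3 : f ∈ h <;> by_cases h4 : f ∈ k <;> simp [hk, h3, h4]
      · rw [if_neg hk]
        symm
        refine Finset.sum_eq_zero fun f _ => ?_
        rw [if_neg (fun h' : k ⊆ A ∧ f ∈ k => hk h'.1), mul_zero]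
    · rw [if_neg hh]
      symm
      refine Finset.sum_eq_zero fun f _ => ?_
      rw [if_neg (fun h' => hh h'.1), zero_mul]
  -- deaths
  have h3 : ∑ h ∈ H, (if h ⊆ A then ∑ k ∈ H, (if k ⊆ A ∧ ¬ Disjoint h k then ((k \ B).card : ℝ)
      else 0) else 0) = ∑ k ∈ H, (if k ⊆ A then ((k \ B).card : ℝ) *
        ((∑ e ∈ k, ldeg H A e) - 2) else 0) := by
    rw [show (∑ h ∈ H, (if h ⊆ A then ∑ k ∈ H, (if k ⊆ A ∧ ¬ Disjoint h k then
        ((k \ B).card : ℝ) else 0) else 0)) = ∑ h ∈ H, ∑ k ∈ H, (if k ⊆ A then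
          ((k \ B).card : ℝ) * (if h ⊆ A ∧ ¬ Disjoint h k then 1 else 0) else 0) by
      refine Finset.sum_congr rfl fun h _ => ?_
      by_cases hh : h ⊆ A
      · rw [if_pos hh]
        refine Finset.sum_congr rfl fun k _ => ?_
        by_cases hk : k ⊆ A <;> by_cases hd : Disjoint h k <;> simp [hh, hk, hd]
      · rw [if_neg hh]
        symm
        refine Finset.sum_eq_zero fun k _ => ?_
        simp [hh]]
    rw [Finset.sum_comm]
    refine Finset.sum_congr rfl fun k hk => ?_
    by_cases hkA : k ⊆ A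
    · simp only [if_pos hkA]
      rw [← Finset.mul_sum, sum_meet H hH A k hk hkA]
    · simp only [if_neg hkA]
      simp
  rw [h2, h3]
  -- lower bound of deaths
  have h4 : ∑ f, aon H A B f * ldeg H A f - 2 * JJ H A B ≤
      ∑ k ∈ H, (if k ⊆ A then ((k \ B).card : ℝ) * ((∑ e ∈ k, ldeg H A e) - 2) else 0) := by
    have h5 : ∑ f, aon H A B f * ldeg H A f =
        ∑ k ∈ H, if k ⊆ A ∧ ¬ k ⊆ B then ∑ e ∈ k, ldeg H A e else 0 := by
      unfold aon
      rw [show (∑ f, (∑ h ∈ H, if (h ⊆ A ∧ ¬ h ⊆ B) ∧ f ∈ h then (1 : ℝ) else 0) * ldeg H A f) =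
        ∑ h ∈ H, ∑ f, (if (h ⊆ A ∧ ¬ h ⊆ B) ∧ f ∈ h then (1 : ℝ) else 0) * ldeg H A f by
          rw [Finset.sum_comm]
          exact Finset.sum_congr rfl fun f _ => Finset.sum_mul _ _ _]
      refine Finset.sum_congr rfl fun k _ => ?_
      by_cases hk : k ⊆ A ∧ ¬ k ⊆ B
      · rw [if_pos hk]
        rw [← Finset.sum_filter_add_sum_filter_not Finset.univ (fun f => f ∈ k)]
        rw [Finset.sum_eq_zero (s := Finset.univ.filter (fun f => ¬ f ∈ k)), add_zero]
        · rw [Finset.filter_mem_eq_inter, Finset.univ_inter]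
          refine Finset.sum_congr rfl fun f hf => ?_
          rw [if_pos ⟨hk, hf⟩, one_mul]
        · intro f hf
          rw [Finset.mem_filter] at hf
          rw [if_neg (fun h' => hf.2 h'.2), zero_mul]
      · rw [if_neg hk]
        refine Finset.sum_eq_zero fun f _ => ?_
        rw [if_neg (fun h' => hk h'.1), zero_mul]
    rw [h5]
    unfold JJ
    rw [Finset.mul_sum, ← Finset.sum_sub_distrib]
    refine Finset.sum_le_sum fun k _ => ?_
    by_cases hk : k ⊆ A
    · rw [if_pos hk, if_pos hk]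
      have hs : 0 ≤ ∑ e ∈ k, ldeg H A e := Finset.sum_nonneg fun e _ => ldeg_nonneg H A e
      by_cases hB : k ⊆ B
      · rw [if_neg (fun h' => h'.2 hB), Finset.sdiff_eq_empty_iff_subset.mpr hB]
        simp
      · rw [if_pos ⟨hk, hB⟩]
        have h6 : 0 < (k \ B).card := Finset.card_pos.mpr (Finset.sdiff_nonempty.mpr hB)
        have h7 : (1:ℝ) ≤ ((k \ B).card : ℝ) := by exact_mod_cast h6
        nlinarith only [hs, h7]
    · rw [if_neg hk, if_neg hk, if_neg (fun h' => hk h'.1)]
      simp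
  rw [Finset.sum_sub_distrib]
  linarith

/-- number of disagreements -/
noncomputable def dN (A : Finset V × Finset V) : ℝ := ((A.1 \ A.2).card : ℝ) + ((A.2 \ A.1).card : ℝ)

/-- disagreements weighted by degrees -/
noncomputable def dY (H : Finset (Finset V)) (A : Finset V × Finset V) : ℝ :=
  JJ H A.1 A.2 + JJ H A.2 A.1

omit [Fintype V] in
lemma dN_nonneg (A : Finset V × Finset V) : 0 ≤ dN A := by unfold dN; positivity

omit [Fintype V] in
lemma dY_nonneg (H : Finset (Finset V)) (A : Finset V × Finset V) : 0 ≤ dY H A :=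
  add_nonneg (JJ_nonneg _ _ _) (JJ_nonneg _ _ _)

/-- drift of `dY` -/
lemma LP_dY (H : Finset (Finset V)) (hH : Lin H) (A : Finset V × Finset V) :
    LP H (dY H) A ≤ 2 * dY H A - ∑ f, (ldeg H A.1 f - ldeg H A.2 f) ^ 2 := by
  rw [LP_apply]
  have h1 := sum_ring H hH A.1 A.2
  have h2 := sum_ring H hH A.2 A.1
  have h3 : ∑ h ∈ H, (dY H (fire h A.1, fire h A.2) - dY H A) =
      ∑ h ∈ H, (JJ H (fire h A.1) (fire h A.2) - JJ H A.1 A.2) +
      ∑ h ∈ H, (JJ H (fire h A.2) (fire h A.1) - JJ H A.2 A.1) := by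
    rw [← Finset.sum_add_distrib]
    refine Finset.sum_congr rfl fun h _ => ?_
    unfold dY
    ring
  rw [h3]
  have h4 : ∑ f, (ldeg H A.1 f - ldeg H A.2 f) ^ 2 =
      -(∑ f, (aon H A.2 A.1 f * ldeg H A.1 f - aon H A.1 A.2 f * ldeg H A.1 f) +
        ∑ f, (aon H A.1 A.2 f * ldeg H A.2 f - aon H A.2 A.1 f * ldeg H A.2 f)) := by
    rw [← Finset.sum_add_distrib, ← Finset.sum_neg_distrib]
    refine Finset.sum_congr rfl fun f _ => ?_
    have h5 := ldeg_sub H A.1 A.2 f
    have h6 : (ldeg H A.1 f - ldeg H A.2 f) ^ 2 =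
      (aon H A.1 A.2 f - aon H A.2 A.1 f) * (ldeg H A.1 f - ldeg H A.2 f) := by
      rw [← h5]; ring
    rw [h6]
    ring
  rw [h4]
  unfold dY
  linarith only [h1, h2]

/-- drift of `dN` -/
lemma LP_dN (H : Finset (Finset V)) (hH : Lin H) (A : Finset V × Finset V) :
    LP H dN A ≤ dY H A := by
  rw [LP_apply]
  unfold dY JJ
  rw [← Finset.sum_add_distrib]
  refine Finset.sum_le_sum fun h hh => ?_
  have hc := hH.card3 h hh
  obtain ⟨A1, A2⟩ := A
  simp only
  unfold dN
  simp only
  by_cases h1 : h ⊆ A1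
  · by_cases h2 : h ⊆ A2
    · have e1 : fire h A1 = A1 \ h := by unfold fire; rw [if_pos h1]
      have e2 : fire h A2 = A2 \ h := by unfold fire; rw [if_pos h2]
      rw [e1, e2, if_pos h1, if_pos h2]
      have e3 : (A1 \ h) \ (A2 \ h) = A1 \ A2 := by
        ext x
        simp only [Finset.mem_sdiff, not_and, not_not]
        constructor
        · rintro ⟨⟨h3, h4⟩, h5⟩
          exact ⟨h3, fun h6 => h4 (h5 h6)⟩
        · rintro ⟨h3, h4⟩
          exact ⟨⟨h3, fun h5 => h4 (h2 h5)⟩, fun h5 => absurd h5 h4⟩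
      have e4 : (A2 \ h) \ (A1 \ h) = A2 \ A1 := by
        ext x
        simp only [Finset.mem_sdiff, not_and, not_not]
        constructor
        · rintro ⟨⟨h3, h4⟩, h5⟩
          exact ⟨h3, fun h6 => h4 (h5 h6)⟩
        · rintro ⟨h3, h4⟩
          exact ⟨⟨h3, fun h5 => h4 (h1 h5)⟩, fun h5 => absurd h5 h4⟩
      rw [e3, e4]
      have : (0:ℝ) ≤ ((h \ A2).card : ℝ) + ((h \ A1).card : ℝ) := by (clear * -; positivity)
      linarith only []
    · have e1 : fire h A1 = A1 \ h := by unfold fire; rw [if_pos h1]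
      have e2 : fire h A2 = A2 := by unfold fire; rw [if_neg h2]
      rw [e1, e2, if_pos h1, if_neg h2]
      have e3 : ((A1 \ h) \ A2).card = (A1 \ A2).card - (h \ A2).card := by
        rw [← Finset.card_sdiff_of_subset (Finset.sdiff_subset_sdiff h1 subset_rfl)]
        congr 1
        ext x
        simp only [Finset.mem_sdiff, not_and, not_not]
        tauto
      have e4 : (A2 \ (A1 \ h)).card = (A2 \ A1).card + (h ∩ A2).card := by
        rw [← Finset.card_union_of_disjoint]
        · congr 1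
          ext x
          simp only [Finset.mem_sdiff, Finset.mem_union, Finset.mem_inter, not_and, not_not]
          constructor
          · rintro ⟨h3, h4⟩
            by_cases h5 : x ∈ A1
            · exact Or.inr ⟨h4 h5, h3⟩
            · exact Or.inl ⟨h3, h5⟩
          · rintro (⟨h3, h4⟩ | ⟨h3, h4⟩)
            · exact ⟨h3, fun h5 => absurd h5 h4⟩
            · exact ⟨h4, fun _ => h3⟩
        · rw [Finset.disjoint_left]
          intro x hx hx'
          exact (Finset.mem_sdiff.mp hx).2 (h1 (Finset.mem_inter.mp hx').1)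
      have e5 : (h \ A2).card ≤ (A1 \ A2).card :=
        Finset.card_le_card (Finset.sdiff_subset_sdiff h1 subset_rfl)
      have e6 : (h \ A2).card + (h ∩ A2).card = 3 := by
        rw [← hc]; exact Finset.card_sdiff_add_card_inter h A2
      have e7 : 1 ≤ (h \ A2).card := Finset.card_pos.mpr (Finset.sdiff_nonempty.mpr h2)
      rw [e3, e4, Nat.cast_sub e5]
      push_cast
      have e8 : ((h \ A2).card : ℝ) + ((h ∩ A2).card : ℝ) = 3 := by exact_mod_cast e6
      have e9 : (1:ℝ) ≤ ((h \ A2).card : ℝ) := by exact_mod_cast e7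
      linarith only [e8, e9]
  · by_cases h2 : h ⊆ A2
    · have e1 : fire h A1 = A1 := by unfold fire; rw [if_neg h1]
      have e2 : fire h A2 = A2 \ h := by unfold fire; rw [if_pos h2]
      rw [e1, e2, if_neg h1, if_pos h2]
      have e3 : ((A2 \ h) \ A1).card = (A2 \ A1).card - (h \ A1).card := by
        rw [← Finset.card_sdiff_of_subset (Finset.sdiff_subset_sdiff h2 subset_rfl)]
        congr 1
        ext x
        simp only [Finset.mem_sdiff, not_and, not_not]
        tauto
      have e4 : (A1 \ (A2 \ h)).card = (A1 \ A2).card + (h ∩ A1).card := by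
        rw [← Finset.card_union_of_disjoint]
        · congr 1
          ext x
          simp only [Finset.mem_sdiff, Finset.mem_union, Finset.mem_inter, not_and, not_not]
          constructor
          · rintro ⟨h3, h4⟩
            by_cases h5 : x ∈ A2
            · exact Or.inr ⟨h4 h5, h3⟩
            · exact Or.inl ⟨h3, h5⟩
          · rintro (⟨h3, h4⟩ | ⟨h3, h4⟩)
            · exact ⟨h3, fun h5 => absurd h5 h4⟩
            · exact ⟨h4, fun _ => h3⟩
        · rw [Finset.disjoint_left]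
          intro x hx hx'
          exact (Finset.mem_sdiff.mp hx).2 (h2 (Finset.mem_inter.mp hx').1)
      have e5 : (h \ A1).card ≤ (A2 \ A1).card :=
        Finset.card_le_card (Finset.sdiff_subset_sdiff h2 subset_rfl)
      have e6 : (h \ A1).card + (h ∩ A1).card = 3 := by
        rw [← hc]; exact Finset.card_sdiff_add_card_inter h A1
      have e7 : 1 ≤ (h \ A1).card := Finset.card_pos.mpr (Finset.sdiff_nonempty.mpr h1)
      rw [e3, e4, Nat.cast_sub e5]
      push_cast
      have e8 : ((h \ A1).card : ℝ) + ((h ∩ A1).card : ℝ) = 3 := by exact_mod_cast e6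
      have e9 : (1:ℝ) ≤ ((h \ A1).card : ℝ) := by exact_mod_cast e7
      linarith only [e8, e9]
    · have e1 : fire h A1 = A1 := by unfold fire; rw [if_neg h1]
      have e2 : fire h A2 = A2 := by unfold fire; rw [if_neg h2]
      rw [e1, e2, if_neg h1, if_neg h2]
      simp

/-- pointwise: `dN` and `dY` as sums over the disagreement set -/
lemma pot_ineq (H : Finset (Finset V)) (A : Finset V × Finset V) (α' γ b : ℝ) (hb : 0 ≤ b)
    (hq : ∀ Y : ℝ, α' + γ * Y - b * Y ^ 2 ≤ 0) :
    α' * dN A + γ * dY H A - b * ∑ f, (ldeg H A.1 f - ldeg H A.2 f) ^ 2 ≤ 0 := by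
  obtain ⟨A1, A2⟩ := A
  simp only
  have h1 : ∑ f ∈ A1 \ A2, (ldeg H A1 f) ^ 2 + ∑ f ∈ A2 \ A1, (ldeg H A2 f) ^ 2 ≤
      ∑ f, (ldeg H A1 f - ldeg H A2 f) ^ 2 := by
    have e1 : ∑ f ∈ A1 \ A2, (ldeg H A1 f) ^ 2 =
        ∑ f ∈ A1 \ A2, (ldeg H A1 f - ldeg H A2 f) ^ 2 := by
      refine Finset.sum_congr rfl fun f hf => ?_
      rw [ldeg_of_notMem H A2 f (Finset.mem_sdiff.mp hf).2, sub_zero]
    have e2 : ∑ f ∈ A2 \ A1, (ldeg H A2 f) ^ 2 =
        ∑ f ∈ A2 \ A1, (ldeg H A1 f - ldeg H A2 f) ^ 2 := by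
      refine Finset.sum_congr rfl fun f hf => ?_
      rw [ldeg_of_notMem H A1 f (Finset.mem_sdiff.mp hf).2]
      ring
    have hd : Disjoint (A1 \ A2) (A2 \ A1) := by
      rw [Finset.disjoint_left]
      intro x hx hx'
      exact (Finset.mem_sdiff.mp hx).2 (Finset.mem_sdiff.mp hx').1
    rw [e1, e2, ← Finset.sum_union hd]
    exact Finset.sum_le_sum_of_subset_of_nonneg (Finset.subset_univ _) fun f _ _ => sq_nonneg _
  have h2 : α' * dN (A1, A2) + γ * dY H (A1, A2) -
      b * (∑ f ∈ A1 \ A2, (ldeg H A1 f) ^ 2 + ∑ f ∈ A2 \ A1, (ldeg H A2 f) ^ 2) =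
      ∑ f ∈ A1 \ A2, (α' + γ * ldeg H A1 f - b * (ldeg H A1 f) ^ 2) +
      ∑ f ∈ A2 \ A1, (α' + γ * ldeg H A2 f - b * (ldeg H A2 f) ^ 2) := by
    unfold dN dY
    simp only
    rw [JJ_eq, JJ_eq]
    rw [Finset.sum_sub_distrib, Finset.sum_sub_distrib, Finset.sum_add_distrib,
      Finset.sum_add_distrib, Finset.sum_const, Finset.sum_const, ← Finset.mul_sum,
      ← Finset.mul_sum, ← Finset.mul_sum, ← Finset.mul_sum, nsmul_eq_mul, nsmul_eq_mul]
    ring
  have h3 : ∑ f ∈ A1 \ A2, (α' + γ * ldeg H A1 f - b * (ldeg H A1 f) ^ 2) ≤ 0 :=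
    Finset.sum_nonpos fun f _ => hq _
  have h4 : ∑ f ∈ A2 \ A1, (α' + γ * ldeg H A2 f - b * (ldeg H A2 f) ^ 2) ≤ 0 :=
    Finset.sum_nonpos fun f _ => hq _
  have h5 := mul_le_mul_of_nonneg_left h1 hb
  linarith

end Vale.Agent.P046.S
end

section

/-!
The stability estimate.
-/

set_option autoImplicit false

open scoped Classical
open Finset

namespace Vale.Agent.P046.S

variable {V : Type} [Fintype V]

lemma LP_lin (H : Finset (Finset V)) (a b : ℝ) (f g : Finset V × Finset V → ℝ)
    (A : Finset V × Finset V) :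
    LP H (fun B => a * f B + b * g B) A = a * LP H f A + b * LP H g A := by
  have e : (fun B => a * f B + b * g B) = a • f + b • g := by
    ext B
    simp
  rw [e, map_add, map_smul, map_smul]
  simp

lemma PLP_lin (H : Finset (Finset V)) (t a b : ℝ) (f g : Finset V × Finset V → ℝ)
    (A : Finset V × Finset V) :
    P (LP H) t (fun B => a * f B + b * g B) A = a * P (LP H) t f A + b * P (LP H) t g A := by
  have e : (fun B => a * f B + b * g B) = a • f + b • g := by
    ext B
    simp
  rw [e, map_add, map_smul, map_smul]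
  simp

/-- the weight function -/
noncomputable def gw (D t : ℝ) : ℝ := 1 + D * (Real.exp (2 * t) - 1)

lemma gw_pos (D t : ℝ) (hD : 0 < D) (ht : 0 ≤ t) : 0 < gw D t := by
  unfold gw
  have : 1 ≤ Real.exp (2 * t) := Real.one_le_exp (by linarith)
  nlinarith

lemma gw_zero (D : ℝ) : gw D 0 = 1 := by unfold gw; simp

lemma hasDerivAt_gw (D t : ℝ) : HasDerivAt (gw D) (2 * D * Real.exp (2 * t)) t := by
  unfold gw
  have h1 : HasDerivAt (fun s : ℝ => 2 * s) 2 t := by
    have := (hasDerivAt_id t).const_mul (2:ℝ)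
    rwa [mul_one] at this
  have h2 : HasDerivAt (fun s : ℝ => Real.exp (2 * s)) (Real.exp (2 * t) * 2) t := h1.exp
  have h3 := ((h2.sub_const 1).const_mul D).const_add 1
  have e : D * (Real.exp (2 * t) * 2) = 2 * D * Real.exp (2 * t) := by ring
  rw [e] at h3
  exact h3

/-- the supermartingale -/
theorem stab_super (H : Finset (Finset V)) (hH : Lin H) (D t : ℝ) (hD : 0 < D) (ht : 0 ≤ t)
    (A : Finset V × Finset V) :
    (Real.sqrt (gw D t))⁻¹ * P (LP H) t dN A +
      (Real.sqrt (gw D t) * Real.exp (-2 * t) / D) * P (LP H) t (dY H) A ≤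
      dN A + dY H A / D := by
  have key := P_super (LP H) (LP_qpos H) t ht
    (fun s B => (Real.sqrt (gw D s))⁻¹ * dN B + (Real.sqrt (gw D s) * Real.exp (-2 * s) / D) * dY H B)
    (fun s B => (-(D * Real.exp (2 * s)) / (Real.sqrt (gw D s)) ^ 3) * dN B +
      ((Real.sqrt (gw D s))⁻¹ - 2 * (Real.sqrt (gw D s) * Real.exp (-2 * s) / D)) * dY H B)
    (by
      intro s hs
      have hg := gw_pos D s hD hs
      have hsq : 0 < Real.sqrt (gw D s) := Real.sqrt_pos.mpr hg
      have hsq2 : Real.sqrt (gw D s) ^ 2 = gw D s := Real.sq_sqrt hg.le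
      have h1 : HasDerivAt (fun s => Real.sqrt (gw D s))
          (2 * D * Real.exp (2 * s) / (2 * Real.sqrt (gw D s))) s :=
        (hasDerivAt_gw D s).sqrt hg.ne'
      have h2 : HasDerivAt (fun s => (Real.sqrt (gw D s))⁻¹)
          (-(D * Real.exp (2 * s)) / (Real.sqrt (gw D s)) ^ 3) s := by
        have h3 := h1.inv hsq.ne'
        have e : -(2 * D * Real.exp (2 * s) / (2 * Real.sqrt (gw D s))) / Real.sqrt (gw D s) ^ 2 =
            (-(D * Real.exp (2 * s)) / (Real.sqrt (gw D s)) ^ 3) := by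
          field_simp
        rw [e] at h3
        exact h3
      have h4 : HasDerivAt (fun s : ℝ => Real.exp (-2 * s)) (Real.exp (-2 * s) * (-2)) s := by
        have h5 : HasDerivAt (fun s : ℝ => (-2) * s) (-2) s := by
          have := (hasDerivAt_id s).const_mul (-2:ℝ)
          rwa [mul_one] at this
        exact h5.exp
      have h6 : HasDerivAt (fun s => Real.sqrt (gw D s) * Real.exp (-2 * s) / D)
          ((Real.sqrt (gw D s))⁻¹ - 2 * (Real.sqrt (gw D s) * Real.exp (-2 * s) / D)) s := by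
        have h7 := (h1.mul h4).div_const D
        have e : (2 * D * Real.exp (2 * s) / (2 * Real.sqrt (gw D s)) * Real.exp (-2 * s) +
            Real.sqrt (gw D s) * (Real.exp (-2 * s) * -2)) / D =
            ((Real.sqrt (gw D s))⁻¹ - 2 * (Real.sqrt (gw D s) * Real.exp (-2 * s) / D)) := by
          have e2 : Real.exp (2 * s) * Real.exp (-2 * s) = 1 := by
            rw [← Real.exp_add]
            have : 2 * s + -2 * s = 0 := by ring
            rw [this, Real.exp_zero]
          have e3 : 2 * D * Real.exp (2 * s) / (2 * Real.sqrt (gw D s)) * Real.exp (-2 * s) =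
              D * (Real.exp (2 * s) * Real.exp (-2 * s)) / Real.sqrt (gw D s) := by
            field_simp
          rw [e3, e2]
          field_simp
          ring
        rw [e] at h7
        exact h7
      rw [hasDerivAt_pi]
      intro B
      exact (h2.mul_const (dN B)).add (h6.mul_const (dY H B)))
    (by
      intro s hs B
      have hg := gw_pos D s hD hs
      have hsq : 0 < Real.sqrt (gw D s) := Real.sqrt_pos.mpr hg
      have hsq2 : Real.sqrt (gw D s) ^ 2 = gw D s := Real.sq_sqrt hg.le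
      rw [LP_lin]
      obtain ⟨a, ha⟩ : ∃ a, a = (Real.sqrt (gw D s))⁻¹ := ⟨_, rfl⟩
      obtain ⟨b, hb⟩ : ∃ b, b = Real.sqrt (gw D s) * Real.exp (-2 * s) / D := ⟨_, rfl⟩
      have ha0 : 0 < a := by rw [ha]; positivity
      have hb0 : 0 < b := by rw [hb]; positivity
      obtain ⟨al, hal⟩ : ∃ al, al = -(D * Real.exp (2 * s)) / (Real.sqrt (gw D s)) ^ 3 := ⟨_, rfl⟩
      have hrel : al * b = -(a ^ 2) := by
        rw [hal, hb, ha]
        have e2 : Real.exp (2 * s) * Real.exp (-2 * s) = 1 := by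
          rw [← Real.exp_add]
          have : 2 * s + -2 * s = 0 := by ring
          rw [this, Real.exp_zero]
        have e3 : -(D * Real.exp (2 * s)) / Real.sqrt (gw D s) ^ 3 *
            (Real.sqrt (gw D s) * Real.exp (-2 * s) / D) =
            -(Real.exp (2 * s) * Real.exp (-2 * s)) / Real.sqrt (gw D s) ^ 2 := by
          field_simp
        rw [e3, e2]
        field_simp
      rw [← ha, ← hb, ← hal]
      have h1 := LP_dN H hH B
      have h2 := LP_dY H hH B
      have h3 := pot_ineq H B al (2 * a) b hb0.le (by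
        intro Y
        have h4 : b * (al + 2 * a * Y - b * Y ^ 2) = -(a - b * Y) ^ 2 := by
          have : b * al = -(a ^ 2) := by rw [← hrel]; ring
          linear_combination this
        have h5 : b * (al + 2 * a * Y - b * Y ^ 2) ≤ 0 := by
          rw [h4]
          have := sq_nonneg (a - b * Y)
          linarith
        by_contra hneg
        push Not at hneg
        have := mul_pos hb0 hneg
        linarith)
      have h6 := mul_le_mul_of_nonneg_left h1 ha0.le
      have h7 := mul_le_mul_of_nonneg_left h2 hb0.le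
      linarith)
    A
  rw [PLP_lin, gw_zero] at key
  simpa [div_eq_mul_inv, mul_comm] using key

/-- stability of the set of survivors -/
theorem stab_N (H : Finset (Finset V)) (hH : Lin H) (D t : ℝ) (hD : 0 < D) (ht : 0 ≤ t)
    (A : Finset V × Finset V) :
    P (LP H) t dN A ≤ Real.sqrt (gw D t) * (dN A + dY H A / D) := by
  have h := stab_super H hH D t hD ht A
  have hg := gw_pos D t hD ht
  have hsq : 0 < Real.sqrt (gw D t) := Real.sqrt_pos.mpr hg
  have h1 : 0 ≤ P (LP H) t (dY H) A := P_nonneg _ (LP_qpos H) t ht _ (fun B => dY_nonneg H B) A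
  have h2 : 0 ≤ (Real.sqrt (gw D t) * Real.exp (-2 * t) / D) * P (LP H) t (dY H) A := by
    positivity
  have h3 : (Real.sqrt (gw D t))⁻¹ * P (LP H) t dN A ≤ dN A + dY H A / D := by linarith
  calc P (LP H) t dN A = Real.sqrt (gw D t) * ((Real.sqrt (gw D t))⁻¹ * P (LP H) t dN A) := by
        field_simp
    _ ≤ _ := mul_le_mul_of_nonneg_left h3 hsq.le

/-- stability of the live hyperedges -/
theorem stab_Y (H : Finset (Finset V)) (hH : Lin H) (D t : ℝ) (hD : 0 < D) (ht : 0 ≤ t)
    (A : Finset V × Finset V) :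
    P (LP H) t (dY H) A ≤ (D * Real.exp (2 * t) / Real.sqrt (gw D t)) * (dN A + dY H A / D) := by
  have h := stab_super H hH D t hD ht A
  have hg := gw_pos D t hD ht
  have hsq : 0 < Real.sqrt (gw D t) := Real.sqrt_pos.mpr hg
  have h1 : 0 ≤ P (LP H) t dN A := P_nonneg _ (LP_qpos H) t ht _ (fun B => dN_nonneg B) A
  have h2 : 0 ≤ (Real.sqrt (gw D t))⁻¹ * P (LP H) t dN A := by positivity
  have h3 : (Real.sqrt (gw D t) * Real.exp (-2 * t) / D) * P (LP H) t (dY H) A ≤
      dN A + dY H A / D := by linarith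
  have e2 : Real.exp (2 * t) * Real.exp (-2 * t) = 1 := by
    rw [← Real.exp_add]
    have : 2 * t + -2 * t = 0 := by ring
    rw [this, Real.exp_zero]
  calc P (LP H) t (dY H) A = (Real.exp (2 * t) * Real.exp (-2 * t)) * P (LP H) t (dY H) A := by
        rw [e2, one_mul]
    _ = (D * Real.exp (2 * t) / Real.sqrt (gw D t)) *
        ((Real.sqrt (gw D t) * Real.exp (-2 * t) / D) * P (LP H) t (dY H) A) := by
        field_simp
    _ ≤ _ := mul_le_mul_of_nonneg_left h3 (by positivity)

end Vale.Agent.P046.S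
end

section

/-!
Product structure of the greedy process when the hypergraph splits.
-/

set_option autoImplicit false

open scoped Classical
open Finset

namespace Vale.Agent.P046.S

variable {V : Type} [Fintype V]

/-- `f` depends only on `A ∩ W` -/
def Dep (W : Finset V) (f : Finset V → ℝ) : Prop := ∀ A, f A = f (A ∩ W)

/-- killed generator of one block -/
noncomputable def KB (H : Finset (Finset V)) (Z : Finset V) : (Finset V → ℝ) →L[ℝ] (Finset V → ℝ) :=
  gen (fun h _ => if h ∈ H ∧ Disjoint h Z then (1 : ℝ) else 0) (fun h A => fire h A)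
    (fun A => ∑ h ∈ H, if Disjoint h Z then (1:ℝ) else if h \ Z ⊆ A then 1 else 0)

lemma KB_apply (H : Finset (Finset V)) (Z : Finset V) (f : Finset V → ℝ) (A : Finset V) :
    KB H Z f A = ∑ h ∈ H, (if Disjoint h Z then f (fire h A) - f A else
      if h \ Z ⊆ A then - f A else 0) := by
  unfold KB
  rw [gen_apply]
  have h1 : ∑ h : Finset V, (if h ∈ H ∧ Disjoint h Z then (1:ℝ) else 0) * f (fire h A) =
      ∑ h ∈ H, if Disjoint h Z then f (fire h A) else 0 := by
    rw [← Finset.sum_filter_add_sum_filter_not Finset.univ (fun h => h ∈ H)]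
    rw [Finset.sum_eq_zero (s := Finset.univ.filter (fun h => ¬ h ∈ H)), add_zero]
    · rw [Finset.filter_mem_eq_inter, Finset.univ_inter]
      refine Finset.sum_congr rfl fun h hh => ?_
      by_cases hd : Disjoint h Z
      · rw [if_pos ⟨hh, hd⟩, if_pos hd, one_mul]
      · rw [if_neg (fun h' => hd h'.2), if_neg hd, zero_mul]
    · intro h hh
      rw [Finset.mem_filter] at hh
      rw [if_neg (fun h' => hh.2 h'.1), zero_mul]
  rw [h1, Finset.sum_mul, ← Finset.sum_sub_distrib]
  refine Finset.sum_congr rfl fun h _ => ?_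
  split_ifs <;> ring

lemma KB_qpos (H : Finset (Finset V)) (Z : Finset V) : QPos (KB H Z) :=
  gen_qpos _ _ _ fun h _ => by split_ifs <;> norm_num

lemma fire_inter (h A W : Finset V) (hW : h ⊆ W) : fire h (A ∩ W) = fire h A ∩ W := by
  unfold fire
  by_cases hA : h ⊆ A
  · rw [if_pos hA, if_pos (Finset.subset_inter hA hW)]
    ext x
    simp only [Finset.mem_sdiff, Finset.mem_inter]
    tauto
  · rw [if_neg hA, if_neg (fun h' => hA (h'.trans Finset.inter_subset_left))]

/-- functions of one block stay functions of this block -/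
lemma KB_dep (H : Finset (Finset V)) (Z W : Finset V) (hH : ∀ h ∈ H, h \ Z ⊆ W) (t : ℝ)
    (f : Finset V → ℝ) (hf : Dep W f) : Dep W (P (KB H Z) t f) := by
  have h := P_intertwine (KB H Z) (KB H Z) (pull (fun A : Finset V => A ∩ W)) (by
    intro g
    ext A
    rw [pull_apply, KB_apply, KB_apply]
    refine Finset.sum_congr rfl fun h hh => ?_
    by_cases hd : Disjoint h Z
    · rw [if_pos hd, if_pos hd, pull_apply, pull_apply]
      have h1 : h ⊆ W := by
        have := hH h hh
        rwa [Finset.sdiff_eq_self_of_disjoint hd] at this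
      rw [fire_inter h A W h1]
    · rw [if_neg hd, if_neg hd, pull_apply]
      by_cases hA : h \ Z ⊆ A
      · rw [if_pos hA, if_pos (Finset.subset_inter hA (hH h hh))]
      · rw [if_neg hA, if_neg (fun h' => hA (h'.trans Finset.inter_subset_left))]) t f
  have e : pull (fun A : Finset V => A ∩ W) f = f := by
    ext A
    rw [pull_apply]
    exact (hf A).symm
  rw [e] at h
  intro A
  have h2 := congrFun h A
  rw [pull_apply] at h2
  exact h2

/-- generator on products -/
lemma LH_prod (H : Finset (Finset V)) (Z W0 W1 : Finset V) (hWW : Disjoint W0 W1)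
    (hH : ∀ h ∈ H, h \ Z ⊆ W0 ∨ h \ Z ⊆ W1) (f0 f1 : Finset V → ℝ) (hf0 : Dep W0 f0)
    (hf1 : Dep W1 f1) (A : Finset V) :
    LH H (fun A => if Z ⊆ A then f0 A * f1 A else 0) A =
      if Z ⊆ A then KB (H.filter (fun h => h \ Z ⊆ W0)) Z f0 A * f1 A +
        f0 A * KB (H.filter (fun h => ¬ h \ Z ⊆ W0)) Z f1 A else 0 := by
  rw [LH_apply]
  by_cases hZA : Z ⊆ A
  · simp only [if_pos hZA]
    have esplit := Finset.sum_filter_add_sum_filter_not H (fun h => h \ Z ⊆ W0)
      (fun h => (if Z ⊆ fire h A then f0 (fire h A) * f1 (fire h A) else 0) - f0 A * f1 A)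
    rw [← esplit]
    rw [KB_apply, KB_apply, Finset.sum_mul, Finset.mul_sum]
    -- general fact: rings of one block do not change the other function
    have hun : ∀ (h W : Finset V) (f : Finset V → ℝ), Dep W f → Disjoint h W → f (A \ h) = f A := by
      intro h W f hf hd
      rw [hf, hf A]
      congr 1
      ext x
      simp only [Finset.mem_inter, Finset.mem_sdiff]
      constructor
      · rintro ⟨⟨h1, _⟩, h3⟩; exact ⟨h1, h3⟩
      · rintro ⟨h1, h2⟩
        exact ⟨⟨h1, fun h3 => (Finset.disjoint_left.mp hd h3) h2⟩, h2⟩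
    refine congrArg₂ (· + ·) ?_ ?_
    · refine Finset.sum_congr rfl fun h hh => ?_
      rw [Finset.mem_filter] at hh
      by_cases hd : Disjoint h Z
      · rw [if_pos hd]
        have hW : h ⊆ W0 := by
          have := hh.2
          rwa [Finset.sdiff_eq_self_of_disjoint hd] at this
        by_cases hA : h ⊆ A
        · have e1 : fire h A = A \ h := by unfold fire; rw [if_pos hA]
          have e2 : Z ⊆ A \ h := fun x hx => Finset.mem_sdiff.mpr
            ⟨hZA hx, fun hxh => (Finset.disjoint_left.mp hd hxh) hx⟩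
          rw [e1, if_pos e2, hun h W1 f1 hf1 (Finset.disjoint_of_subset_left hW hWW)]
          ring
        · have e1 : fire h A = A := by unfold fire; rw [if_neg hA]
          rw [e1, if_pos hZA]
          ring_nf
      · rw [if_neg hd]
        by_cases hA : h ⊆ A
        · have e1 : fire h A = A \ h := by unfold fire; rw [if_pos hA]
          have e2 : ¬ Z ⊆ A \ h := by
            intro h3
            rw [Finset.not_disjoint_iff] at hd
            obtain ⟨x, hx1, hx2⟩ := hd
            exact (Finset.mem_sdiff.mp (h3 hx2)).2 hx1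
          rw [e1, if_neg e2, if_pos (Finset.sdiff_subset.trans hA)]
          ring
        · have e1 : fire h A = A := by unfold fire; rw [if_neg hA]
          have e2 : ¬ h \ Z ⊆ A := by
            intro h3
            apply hA
            intro x hx
            by_cases hxZ : x ∈ Z
            · exact hZA hxZ
            · exact h3 (Finset.mem_sdiff.mpr ⟨hx, hxZ⟩)
          rw [e1, if_pos hZA, if_neg e2]
          ring_nf
    · refine Finset.sum_congr rfl fun h hh => ?_
      rw [Finset.mem_filter] at hh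
      have hW1 : h \ Z ⊆ W1 := (hH h hh.1).resolve_left hh.2
      by_cases hd : Disjoint h Z
      · rw [if_pos hd]
        have hW : h ⊆ W1 := by
          rwa [Finset.sdiff_eq_self_of_disjoint hd] at hW1
        by_cases hA : h ⊆ A
        · have e1 : fire h A = A \ h := by unfold fire; rw [if_pos hA]
          have e2 : Z ⊆ A \ h := fun x hx => Finset.mem_sdiff.mpr
            ⟨hZA hx, fun hxh => (Finset.disjoint_left.mp hd hxh) hx⟩
          rw [e1, if_pos e2, hun h W0 f0 hf0 (Finset.disjoint_of_subset_left hW hWW.symm)]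
          ring
        · have e1 : fire h A = A := by unfold fire; rw [if_neg hA]
          rw [e1, if_pos hZA]
          ring_nf
      · rw [if_neg hd]
        by_cases hA : h ⊆ A
        · have e1 : fire h A = A \ h := by unfold fire; rw [if_pos hA]
          have e2 : ¬ Z ⊆ A \ h := by
            intro h3
            rw [Finset.not_disjoint_iff] at hd
            obtain ⟨x, hx1, hx2⟩ := hd
            exact (Finset.mem_sdiff.mp (h3 hx2)).2 hx1
          rw [e1, if_neg e2, if_pos (Finset.sdiff_subset.trans hA)]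
          ring
        · have e1 : fire h A = A := by unfold fire; rw [if_neg hA]
          have e2 : ¬ h \ Z ⊆ A := by
            intro h3
            apply hA
            intro x hx
            by_cases hxZ : x ∈ Z
            · exact hZA hxZ
            · exact h3 (Finset.mem_sdiff.mpr ⟨hx, hxZ⟩)
          rw [e1, if_pos hZA, if_neg e2]
          ring_nf
  · simp only [if_neg hZA]
    refine Finset.sum_eq_zero fun h _ => ?_
    have e2 : ¬ Z ⊆ fire h A := fun h3 => hZA (h3.trans (fire_subset h A))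
    rw [if_neg e2, sub_zero]

/-- the product formula -/
theorem P_prod (H : Finset (Finset V)) (Z W0 W1 : Finset V) (hWW : Disjoint W0 W1)
    (hH : ∀ h ∈ H, h \ Z ⊆ W0 ∨ h \ Z ⊆ W1) (f0 f1 : Finset V → ℝ) (hf0 : Dep W0 f0)
    (hf1 : Dep W1 f1) (t : ℝ) (A : Finset V) :
    P (LH H) t (fun A => if Z ⊆ A then f0 A * f1 A else 0) A =
      if Z ⊆ A then P (KB (H.filter (fun h => h \ Z ⊆ W0)) Z) t f0 A *
        P (KB (H.filter (fun h => ¬ h \ Z ⊆ W0)) Z) t f1 A else 0 := by
  obtain ⟨K0, hK0⟩ : ∃ K0, K0 = KB (H.filter (fun h => h \ Z ⊆ W0)) Z := ⟨_, rfl⟩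
  obtain ⟨K1, hK1⟩ : ∃ K1, K1 = KB (H.filter (fun h => ¬ h \ Z ⊆ W0)) Z := ⟨_, rfl⟩
  have hd0 : ∀ s, Dep W0 (P K0 s f0) := by
    intro s
    rw [hK0]
    exact KB_dep _ Z W0 (fun h hh => (Finset.mem_filter.mp hh).2) s f0 hf0
  have hd1 : ∀ s, Dep W1 (P K1 s f1) := by
    intro s
    rw [hK1]
    exact KB_dep _ Z W1 (fun h hh => (hH h (Finset.mem_filter.mp hh).1).resolve_left
      (Finset.mem_filter.mp hh).2) s f1 hf1
  have h1 := P_unique (LH H) (fun s A => if Z ⊆ A then P K0 s f0 A * P K1 s f1 A else 0) (by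
    intro s
    rw [hasDerivAt_pi]
    intro B
    rw [LH_prod H Z W0 W1 hWW hH _ _ (hd0 s) (hd1 s), ← hK0, ← hK1]
    by_cases hB : Z ⊆ B
    · simp only [if_pos hB]
      have e0 := hasDerivAt_P_apply_pt K0 s f0 B
      have e1 := hasDerivAt_P_apply_pt K1 s f1 B
      rw [P_comm] at e0 e1
      exact e0.mul e1
    · simp only [if_neg hB]
      exact hasDerivAt_const s 0) t
  simp only [P_zero_apply] at h1
  rw [← hK0, ← hK1]
  exact congrFun h1 A

/-- restriction to a set of vertices -/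
lemma P_restrict (H : Finset (Finset V)) (W : Finset V) (t : ℝ) (f : Finset V → ℝ)
    (A : Finset V) :
    P (LH (H.filter (fun h => h ⊆ W))) t (fun B => f (B ∩ W)) A = P (LH H) t f (A ∩ W) := by
  have h := P_intertwine (LH H) (LH (H.filter (fun h => h ⊆ W)))
    (pull (fun A : Finset V => A ∩ W)) (by
    intro g
    ext B
    rw [pull_apply, LH_apply, LH_apply, Finset.sum_filter]
    refine Finset.sum_congr rfl fun h _ => ?_
    by_cases hW : h ⊆ W
    · rw [if_pos hW, pull_apply, pull_apply, fire_inter h B W hW]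
    · rw [if_neg hW]
      have : fire h (B ∩ W) = B ∩ W := by
        unfold fire
        rw [if_neg (fun h' => hW (h'.trans Finset.inter_subset_right))]
      rw [this, sub_self]) t f
  have h2 := congrFun h A
  rw [pull_apply] at h2
  exact h2

end Vale.Agent.P046.S
end

section

/-!
Energy method, part 3: consequences of the cavity system (bounds for `q`, `p`, `κ`).
-/

set_option autoImplicit false

open scoped Classical
open Finset

namespace Vale.Agent.P046.K

/-- monotonicity from a nonnegative derivative in the interior -/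
lemma le_of_deriv (f : ℝ → ℝ) (T : ℝ) (hc : ContinuousOn f (Set.Icc 0 T))
    (hd : ∀ t ∈ Set.Ioo 0 T, ∃ d, 0 ≤ d ∧ HasDerivAt f d t) (t : ℝ) (ht : t ∈ Set.Icc 0 T) :
    f 0 ≤ f t := by
  have hm : MonotoneOn f (Set.Icc 0 T) := by
    apply monotoneOn_of_deriv_nonneg (convex_Icc 0 T) hc
    · intro s hs
      rw [interior_Icc] at hs
      obtain ⟨d, _, h2⟩ := hd s hs
      exact h2.differentiableAt.differentiableWithinAt
    · intro s hs
      rw [interior_Icc] at hs
      obtain ⟨d, h1, h2⟩ := hd s hs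
      rw [h2.deriv]
      exact h1
  exact hm ⟨le_refl 0, ht.1.trans ht.2⟩ ht ht.1

/-- `S = 1 + 2 D (1 - exp (-t))` -/
noncomputable def Sf (D t : ℝ) : ℝ := 1 + 2 * D * (1 - Real.exp (-t))

/-- `σ = log S / 2` -/
noncomputable def sg (D t : ℝ) : ℝ := Real.log (Sf D t) / 2

/-- derivative of `σ` -/
noncomputable def sp (D t : ℝ) : ℝ := D * Real.exp (-t) / Sf D t

lemma Sf_ge (D t : ℝ) (hD : 0 < D) (ht : 0 ≤ t) : 1 ≤ Sf D t := by
  unfold Sf
  have h1 : Real.exp (-t) ≤ 1 := Real.exp_le_one_iff.mpr (by linarith)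
  have : 0 ≤ 2 * D * (1 - Real.exp (-t)) := by
    apply mul_nonneg (by linarith) (by linarith)
  linarith

lemma Sf_le (D t : ℝ) (hD : 0 < D) : Sf D t ≤ 1 + 2 * D := by
  unfold Sf
  have h1 := Real.exp_pos (-t)
  nlinarith only [hD, h1]

lemma sg_zero (D : ℝ) : sg D 0 = 0 := by
  unfold sg Sf; simp

lemma sg_nonneg (D t : ℝ) (hD : 0 < D) (ht : 0 ≤ t) : 0 ≤ sg D t := by
  unfold sg
  have := Real.log_nonneg (Sf_ge D t hD ht)
  linarith

lemma exp_two_sg (D t : ℝ) (hD : 0 < D) (ht : 0 ≤ t) : Real.exp (2 * sg D t) = Sf D t := by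
  unfold sg
  have h := Sf_ge D t hD ht
  rw [mul_div_cancel₀ _ (by norm_num : (2:ℝ) ≠ 0), Real.exp_log (by linarith)]

lemma sg_le (D t : ℝ) (hD : 0 < D) (ht : 0 ≤ t) : sg D t ≤ Real.log (1 + 2 * D) / 2 := by
  unfold sg
  have h := Sf_ge D t hD ht
  have := Real.log_le_log (by linarith) (Sf_le D t hD)
  linarith only [this]

lemma sp_pos (D t : ℝ) (hD : 0 < D) (ht : 0 ≤ t) : 0 < sp D t := by
  unfold sp
  have h := Sf_ge D t hD ht
  positivity

lemma hasDerivAt_Sf (D t : ℝ) : HasDerivAt (Sf D) (2 * D * Real.exp (-t)) t := by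
  unfold Sf
  have h1 : HasDerivAt (fun t : ℝ => Real.exp (-t)) (Real.exp (-t) * (-1)) t :=
    (Real.hasDerivAt_exp (-t)).comp t (hasDerivAt_neg t)
  have h2 := ((h1.const_sub 1).const_mul (2 * D)).const_add 1
  have e : 2 * D * Real.exp (-t) = 2 * D * -(Real.exp (-t) * -1) := by ring
  rw [e]
  exact h2

lemma hasDerivAt_sg (D t : ℝ) (hD : 0 < D) (ht : 0 ≤ t) : HasDerivAt (sg D) (sp D t) t := by
  have h := Sf_ge D t hD ht
  have h1 := ((hasDerivAt_Sf D t).log (by linarith)).div_const 2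
  have e : sp D t = 2 * D * Real.exp (-t) / Sf D t / 2 := by
    unfold sp; ring
  rw [e]
  exact h1

/-- `exp (-t) = sp * exp(2σ) / D` -/
lemma exp_neg_eq (D t : ℝ) (hD : 0 < D) (ht : 0 ≤ t) :
    Real.exp (-t) = sp D t / D * Real.exp (2 * sg D t) := by
  rw [exp_two_sg D t hD ht]
  have h := Sf_ge D t hD ht
  unfold sp
  have : Sf D t ≠ 0 := by linarith
  field_simp

variable {α : Type*}

section sys

variable {V : Finset α} {H : Finset (Finset α)} {T ξ : ℝ} {q : α → ℝ → ℝ} {p : Finset α → ℝ → ℝ}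

/-- hyperedges at `i` have total probability at least that of one of them -/
lemma p_le_sum (hS : Sys V H T ξ q p) (h : Finset α) (hh : h ∈ H) (i : α) (hi : i ∈ h)
    (t : ℝ) (ht : t ∈ Set.Icc 0 T) : p h t ≤ ∑ h' ∈ star H i, p h' t := by
  have hmem : h ∈ star H i := by
    unfold star; exact Finset.mem_filter.mpr ⟨hh, hi⟩
  refine Finset.single_le_sum (f := fun h' => p h' t) (fun h' hh' => ?_) hmem
  unfold star at hh'
  exact (hS.ppos h' (Finset.mem_filter.mp hh').1 t ht).le

lemma q_cont (hS : Sys V H T ξ q p) (v : α) (hv : v ∈ V) : ContinuousOn (q v) (Set.Icc 0 T) :=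
  fun t ht => (hS.dq v hv t ht).continuousAt.continuousWithinAt

lemma p_cont (hS : Sys V H T ξ q p) (h : Finset α) (hh : h ∈ H) :
    ContinuousOn (p h) (Set.Icc 0 T) := by
  intro t ht
  obtain ⟨e, _, he⟩ := hS.dp h hh t ht
  exact he.continuousAt.continuousWithinAt

lemma q_le_one (hS : Sys V H T ξ q p) (v : α) (hv : v ∈ V) (t : ℝ) (ht : t ∈ Set.Icc 0 T) :
    q v t ≤ 1 := by
  have h1 := le_of_deriv (fun s => - q v s) T (q_cont hS v hv).neg (fun s hs => by
    refine ⟨_, ?_, (hS.dq v hv s ⟨hs.1.le, hs.2.le⟩).neg⟩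
    rw [neg_neg]
    refine Finset.sum_nonneg fun h' hh' => ?_
    unfold star at hh'
    exact (hS.ppos h' (Finset.mem_filter.mp hh').1 s ⟨hs.1.le, hs.2.le⟩).le) t ht
  simp only [hS.q0 v hv] at h1
  linarith

/-- `p_h ≤ 2 q_i` -/
lemma p_le_two_q (hH : Hyp V H) (hS : Sys V H T ξ q p) (hξ0 : 0 ≤ ξ) (hξ : ξ * Real.exp T ≤ 1 / 2)
    (h : Finset α) (hh : h ∈ H) (i : α) (hi : i ∈ h) (t : ℝ) (ht : t ∈ Set.Icc 0 T) :
    p h t ≤ 2 * q i t := by
  have hiV : i ∈ V := hH.sub h hh hi
  have hT0 : 0 ≤ T := ht.1.trans ht.2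
  have hξ1 : ξ ≤ 1 / 2 := by
    have : 1 ≤ Real.exp T := Real.one_le_exp hT0
    nlinarith only [hξ, this]
  obtain ⟨a, ha⟩ : ∃ a, a = 1 - ξ := ⟨_, rfl⟩
  have ha0 : 0 < a := by linarith only [hξ1, ha]
  -- the monotone function
  have key := le_of_deriv (fun s => Real.exp (-(a * s)) * (q i s / p h s - 1 / a)) T
    (by
      apply ContinuousOn.mul
      · exact (Continuous.continuousOn (by fun_prop))
      · apply ContinuousOn.sub _ continuousOn_const
        exact (q_cont hS i hiV).div (p_cont hS h hh) fun s hs => (hS.ppos h hh s hs).ne')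
    (fun s hs => by
      have hs' : s ∈ Set.Icc 0 T := ⟨hs.1.le, hs.2.le⟩
      obtain ⟨e, he1, he2⟩ := hS.dp h hh s hs'
      have hp := hS.ppos h hh s hs'
      have hq := hS.qpos i hiV s hs'
      have hdq := hS.dq i hiV s hs'
      have hE : HasDerivAt (fun s : ℝ => Real.exp (-(a * s))) (Real.exp (-(a * s)) * (-a)) s := by
        have h0 : HasDerivAt (fun s : ℝ => -(a * s)) (-(a * 1)) s :=
          ((hasDerivAt_id s).const_mul a).neg
        rw [mul_one] at h0
        exact (Real.hasDerivAt_exp (-(a * s))).comp s h0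
      have hD := hE.mul ((hdq.div he2 hp.ne').sub_const (1 / a))
      refine ⟨_, ?_, hD⟩
      obtain ⟨Λ, hΛ⟩ : ∃ Λ : α → ℝ, Λ = fun j => ∑ h' ∈ star H j, p h' s := ⟨_, rfl⟩
      have hΛj : ∀ j ∈ h, 0 ≤ (Λ j - p h s) / q j s := by
        intro j hj
        apply div_nonneg _ (hS.qpos j (hH.sub h hh hj) s hs').le
        have := p_le_sum hS h hh j hj s hs'
        rw [hΛ]; simp only; linarith only [this]
      have hsum : (Λ i - p h s) / q i s ≤ ∑ j ∈ h, (Λ j - p h s) / q j s :=
        Finset.single_le_sum (f := fun j => (Λ j - p h s) / q j s) hΛj hi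
      obtain ⟨X, hX⟩ : ∃ X, X = ∑ j ∈ h, (Λ j - p h s) / q j s := ⟨_, rfl⟩
      have e1 : (∑ h' ∈ star H i, p h' s) = Λ i := by rw [hΛ]
      have e2 : (∑ i ∈ h, ((∑ h' ∈ star H i, p h' s) - p h s) / q i s) = X := by rw [hX, hΛ]
      rw [e1, e2]
      rw [← hX] at hsum
      rw [show (q i / p h) s = q i s / p h s from rfl]
      have h3 : (-Λ i * p h s - q i s * (-(p h s) * (1 + X + e))) / p h s ^ 2 =
          -(Λ i) / p h s + q i s / p h s * (1 + X + e) := by
        field_simp
        ring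
      rw [h3]
      have h4 : Λ i / p h s - 1 ≤ q i s / p h s * X := by
        have h5 : q i s / p h s * ((Λ i - p h s) / q i s) ≤ q i s / p h s * X :=
          mul_le_mul_of_nonneg_left hsum (by positivity)
        have e3 : q i s / p h s * ((Λ i - p h s) / q i s) = Λ i / p h s - 1 := by
          field_simp
        linarith only [h5, e3]
      have hx : 0 < q i s / p h s := by positivity
      have h6 : -ξ ≤ e := (abs_le.mp he1).1
      have h7 : q i s / p h s * (-ξ) ≤ q i s / p h s * e := mul_le_mul_of_nonneg_left h6 hx.le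
      have hEp := Real.exp_pos (-(a * s))
      have e4 : Real.exp (-(a * s)) * -a * (q i s / p h s - 1 / a) +
          Real.exp (-(a * s)) * (-(Λ i) / p h s + q i s / p h s * (1 + X + e)) =
          Real.exp (-(a * s)) * (-(a * (q i s / p h s)) + 1 - Λ i / p h s + q i s / p h s * (1 + X + e)) := by
        field_simp
        ring
      rw [e4]
      apply mul_nonneg hEp.le
      have e5 : q i s / p h s * (1 + X + e) = q i s / p h s + q i s / p h s * X + q i s / p h s * e := by
        ring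
      rw [e5, ha]
      linarith only [h4, h7]) t ht
  simp only [mul_zero, neg_zero, Real.exp_zero, one_mul, hS.q0 i hiV, hS.p0 h hh, div_one] at key
  have hp := hS.ppos h hh t ht
  have hq := hS.qpos i hiV t ht
  have hE := Real.exp_pos (-(a * t))
  have h8 : Real.exp (a * t) * (1 - 1 / a) ≤ q i t / p h t - 1 / a := by
    have := mul_le_mul_of_nonneg_left key (Real.exp_pos (a * t)).le
    rw [← mul_assoc, ← Real.exp_add] at this
    simpa using this
  have h9 : Real.exp (a * t) ≤ Real.exp T := by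
    apply Real.exp_le_exp.mpr
    nlinarith only [ht, hξ0, ha, ht.1, ht.2]
  have h10 : 1 / 2 ≤ q i t / p h t := by
    have e6 : 1 / a + Real.exp (a * t) * (1 - 1 / a) = (1 - ξ * Real.exp (a * t)) / a := by
      field_simp
      rw [ha]; ring
    have h11 : 1 / 2 ≤ (1 - ξ * Real.exp (a * t)) / a := by
      rw [le_div_iff₀ ha0]
      have : ξ * Real.exp (a * t) ≤ ξ * Real.exp T := mul_le_mul_of_nonneg_left h9 hξ0
      linarith only [hξ0, hξ, ha, this]
    linarith only [h8, e6, h11]
  rw [le_div_iff₀ hp] at h10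
  linarith only [h10]

end sys

end Vale.Agent.P046.K
end
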