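import Mathlib
import Vale.Agent.P046.Bdl.B1
attribute [-instance] ProperSMul.toContinuousSMul IsTopologicalTorsor.toContinuousSMul IdemSemiring.toCanonicallyOrderedAdd IdemSemiring.toMulLeftMono IdemSemiring.toMulRightMono AddQuantale.instAddLeftMono AddQuantale.instAddRightMono Quantale.instMulLeftMono Quantale.instMulRightMono FiniteDimensional.rclike_to_real IsScalarTower.complexToReal FiniteDimensional.complexToReal

set_option linter.all false

section

section

set_option autoImplicit false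

namespace Vale.Agent.P046.C

open Vale.Agent.P046

/-- quadratic near zero, linear beyond `D` -/
noncomputable def Lam (D s : ℝ) : ℝ := if s ≤ D then s ^ 2 / (2 * D) else s - D / 2

/-- derivative of `Lam` (on nonnegative numbers) -/
noncomputable def ell (D s : ℝ) : ℝ := min (s / D) 1

lemma Lam_nonneg (D s : ℝ) (hD : 0 < D) : 0 ≤ Lam D s := by
  unfold Lam
  split_ifs with h
  · positivity
  · push Not at h; linarith

lemma Lam_ge (D s : ℝ) (hD : 0 < D) : s - D / 2 ≤ Lam D s := by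
  unfold Lam
  split_ifs with h
  · rw [le_div_iff₀ (by positivity)]
    linarith only [sq_nonneg (s - D)]
  · exact le_refl _

lemma Lam_le (D s : ℝ) (hD : 0 < D) (hs : 0 ≤ s) : Lam D s ≤ s := by
  unfold Lam
  split_ifs with h
  · rw [div_le_iff₀ (by positivity)]
    nlinarith
  · linarith only [hD]

lemma Lam_ge_half (D s : ℝ) (hD : 0 < D) (h : D ≤ s) : s / 2 ≤ Lam D s := by
  have := Lam_ge D s hD
  linarith

lemma ell_nonneg (D s : ℝ) (hD : 0 < D) (hs : 0 ≤ s) : 0 ≤ ell D s :=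
  le_min (by positivity) (by norm_num)

lemma ell_le_one (D s : ℝ) : ell D s ≤ 1 := min_le_right _ _

lemma ell_le (D s : ℝ) : ell D s ≤ s / D := min_le_left _ _

lemma ell_big (D s : ℝ) (hD : 0 < D) (h : D ≤ s) : ell D s = 1 := by
  unfold ell
  rw [min_eq_right]
  rw [le_div_iff₀ hD]; linarith

lemma Lam_mono (D s s' : ℝ) (hD : 0 < D) (hs : 0 ≤ s) (h : s ≤ s') : Lam D s ≤ Lam D s' := by
  unfold Lam
  split_ifs with h1 h2 h2
  · apply div_le_div_of_nonneg_right _ (by positivity)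
    exact pow_le_pow_left₀ hs h 2
  · push Not at h2
    rw [div_le_iff₀ (by positivity)]
    nlinarith
  · linarith
  · linarith

lemma Lam_taylor (D s s' : ℝ) (hD : 0 < D) (hs : 0 ≤ s) :
    Lam D s' ≤ Lam D s + ell D s * (s' - s) + (s' - s) ^ 2 / (2 * D) := by
  rcases le_or_gt s D with h1 | h1
  · have e : ell D s = s / D := by
      unfold ell; rw [min_eq_left]; rw [div_le_one hD]; exact h1
    have e2 : Lam D s = s ^ 2 / (2 * D) := by
      unfold Lam; rw [if_pos h1]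
    have e3 : Lam D s + ell D s * (s' - s) + (s' - s) ^ 2 / (2 * D) = s' ^ 2 / (2 * D) := by
      rw [e, e2]; field_simp; ring
    rw [e3]
    unfold Lam
    split_ifs with h2
    · exact le_refl _
    · rw [le_div_iff₀ (by positivity)]
      linarith only [sq_nonneg (s' - D)]
  · have e : ell D s = 1 := ell_big D s hD h1.le
    have e2 : Lam D s = s - D / 2 := by
      unfold Lam; rw [if_neg (by linarith)]
    rw [e, e2]
    have h0 : 0 ≤ (s' - s) ^ 2 / (2 * D) := by positivity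
    unfold Lam
    split_ifs with h2
    · have e4 : s - D / 2 + 1 * (s' - s) + (s' - s) ^ 2 / (2 * D) =
          ((s' - s) ^ 2 + 2 * D * s' - D ^ 2) / (2 * D) := by
        field_simp; ring
      rw [e4]
      apply div_le_div_of_nonneg_right _ (by positivity)
      linarith only [mul_nonneg (by linarith : 0 ≤ s - D) (by linarith : 0 ≤ (s - s') + (D - s'))]
    · linarith only [h0]

/-- the one-variable part of the late potential -/
noncomputable def theta (D x : ℝ) : ℝ := Lam D (hh x)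

/-- its derivative -/
noncomputable def thetad (D x : ℝ) : ℝ := ell D (hh x) * gg x

lemma theta_nonneg (D x : ℝ) (hD : 0 < D) : 0 ≤ theta D x := Lam_nonneg D _ hD

lemma hh_big (δ D x : ℝ) (hx : 0 ≤ x) (hδ : 0 < δ) (hD' : D ≤ 1e-6 * δ ^ 2)
    (h : δ / 2 ≤ |x - 1|) : D ≤ hh x := by
  refine le_trans ?_ (hh_lower x hx)
  have h2 : (δ / 2)^2 ≤ (x - 1)^2 := by
    rw [← sq_abs (x - 1)]
    exact pow_le_pow_left₀ (by positivity) h 2
  nlinarith only [hD', h2]

lemma theta_big (δ D x : ℝ) (hx : 0 ≤ x) (hδ : 0 < δ) (hD : 0 < D) (hD' : D ≤ 1e-6 * δ ^ 2)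
    (h : δ / 2 ≤ |x - 1|) : theta D x = hh x - D / 2 := by
  have := hh_big δ D x hx hδ hD' h
  unfold theta Lam
  split_ifs with h2
  · have e : hh x = D := le_antisymm h2 this
    rw [e]; field_simp; ring
  · rfl

lemma thetad_big (δ D x : ℝ) (hx : 0 ≤ x) (hδ : 0 < δ) (hD : 0 < D) (hD' : D ≤ 1e-6 * δ ^ 2)
    (h : δ / 2 ≤ |x - 1|) : thetad D x = gg x := by
  have := hh_big δ D x hx hδ hD' h
  unfold thetad
  rw [ell_big D _ hD this, one_mul]

lemma sq_le_theta (δ D x : ℝ) (hx : 0 ≤ x) (hδ : 0 < δ) (hD : 0 < D) (hD' : D ≤ 1e-6 * δ ^ 2)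
    (h : δ ≤ |x - 1|) : (x - 1) ^ 2 ≤ 3600 * theta D x := by
  have h1 := hh_big δ D x hx hδ hD' (by linarith only [hδ, h])
  have h2 := Lam_ge_half D _ hD h1
  have h3 := hh_lower x hx
  unfold theta
  linarith only [h2, h3]

lemma quart_le_theta (δ D x : ℝ) (hx : 0 ≤ x) (hδ : 0 < δ) (hδ1 : δ ≤ 1/2) (hD : 0 < D)
    (hD' : D ≤ 1e-6 * δ ^ 2) (h : |x - 1| < δ) : (x - 1) ^ 4 ≤ 4 * δ ^ 2 * theta D x := by
  have h1 := hh_near x hx
  have h2 : (x - 1)^2 / 2 ≤ hh x := by
    refine le_trans ?_ h1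
    nlinarith only [hδ1, h]
  have h0 : 0 ≤ (x - 1)^2 / 2 := by positivity
  have h3 : Lam D ((x - 1)^2 / 2) ≤ theta D x := Lam_mono D _ _ hD h0 h2
  have h4 : (x - 1)^2 ≤ δ^2 := by
    rw [← sq_abs (x - 1)]
    exact pow_le_pow_left₀ (abs_nonneg _) h.le 2
  have h5 : (x - 1)^4 ≤ 4 * δ^2 * Lam D ((x - 1)^2 / 2) := by
    unfold Lam
    split_ifs with h6
    · rw [mul_div_assoc', le_div_iff₀ (by positivity)]
      have e : 4 * δ ^ 2 * ((x - 1) ^ 2 / 2) ^ 2 = δ^2 * (x - 1)^4 := by ring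
      rw [e]
      have : 0 ≤ (x - 1)^4 := by positivity
      nlinarith
    · push Not at h6
      have : (x - 1)^4 = (x - 1)^2 * (x - 1)^2 := by ring
      rw [this]
      have h7 : (x - 1)^2 * (x - 1)^2 ≤ δ^2 * (x - 1)^2 := mul_le_mul_of_nonneg_right h4 (sq_nonneg _)
      have h8 : (x - 1)^2 ≤ 4 * ((x - 1) ^ 2 / 2 - D / 2) := by linarith only [h6]
      have h9 := mul_le_mul_of_nonneg_left h8 (sq_nonneg δ)
      linarith only [h7, h9]
  have h10 : 4 * δ^2 * Lam D ((x - 1)^2 / 2) ≤ 4 * δ^2 * theta D x :=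
    mul_le_mul_of_nonneg_left h3 (by positivity)
  linarith only [h5, h10]

lemma thetad_sq (D x : ℝ) (hx : 0 ≤ x) (hD : 0 < D) (h : |x - 1| ≤ 1/2) :
    (thetad D x) ^ 2 ≤ 36 * theta D x := by
  have h1 := hh_near x hx
  have h2 : (x - 1)^2 ≤ 2 * hh x := by
    nlinarith only [h1, h]
  have h3 := gg_lin x hx
  have h4 : (gg x)^2 ≤ 9 * (x - 1)^2 := by
    rw [← sq_abs (gg x), ← sq_abs (x - 1)]
    calc |gg x|^2 ≤ (3 * |x - 1|)^2 := pow_le_pow_left₀ (abs_nonneg _) h3 2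
      _ = _ := by ring
  have hh0 := hh_nonneg x hx
  unfold thetad theta
  rcases le_or_gt (hh x) D with h5 | h5
  · have e : ell D (hh x) = hh x / D := by
      unfold ell; rw [min_eq_left]; rw [div_le_one hD]; exact h5
    have e2 : Lam D (hh x) = (hh x) ^ 2 / (2 * D) := by
      unfold Lam; rw [if_pos h5]
    rw [e, e2]
    have e3 : (hh x / D * gg x)^2 = (hh x)^2 / D^2 * (gg x)^2 := by ring
    rw [e3]
    have e4 : 36 * ((hh x)^2 / (2 * D)) = (hh x)^2 / D^2 * (18 * D) := by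
      field_simp; ring
    rw [e4]
    apply mul_le_mul_of_nonneg_left _ (by positivity)
    linarith only [h2, h4, h5]
  · have e : ell D (hh x) = 1 := ell_big D _ hD h5.le
    have e2 := Lam_ge_half D _ hD h5.le
    rw [e, one_mul]
    linarith only [h2, h4, e2]

lemma thetad_abs (D x : ℝ) (hx : 0 ≤ x) (hD : 0 < D) : |thetad D x| ≤ 3 * |x - 1| := by
  unfold thetad
  rw [abs_mul, abs_of_nonneg (ell_nonneg D _ hD (hh_nonneg x hx))]
  have h1 := gg_lin x hx
  have h2 := ell_le_one D (hh x)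
  have h3 := ell_nonneg D _ hD (hh_nonneg x hx)
  calc ell D (hh x) * |gg x| ≤ 1 * |gg x| := mul_le_mul_of_nonneg_right h2 (abs_nonneg _)
    _ ≤ _ := by linarith

/-- Taylor expansion near `1` -/
lemma theta_taylor_small (D x y : ℝ) (hx : 0 ≤ x) (hy : 0 ≤ y) (hD : 0 < D)
    (h : |x - 1| ≤ 1/2) :
    theta D y ≤ theta D x + thetad D x * (y - x) +
      30 / D * ((x - 1)^2 + (y - x)^2) * (y - x)^2 := by
  have ht := hh_taylor x y hx hy
  have hx0 := hh_nonneg x hx
  have hy0 := hh_nonneg y hy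
  have h1 := Lam_mono D (hh y) (hh x + gg x * (y - x) + 2 * (y - x)^2) hD hy0 ht
  have h2 := Lam_taylor D (hh x) (hh x + gg x * (y - x) + 2 * (y - x)^2) hD hx0
  have h3 := gg_lin x hx
  have h4 : (gg x)^2 ≤ 9 * (x - 1)^2 := by
    rw [← sq_abs (gg x), ← sq_abs (x - 1)]
    calc |gg x|^2 ≤ (3 * |x - 1|)^2 := pow_le_pow_left₀ (abs_nonneg _) h3 2
      _ = _ := by ring
  have h5 : hh x ≤ 2 * (x - 1)^2 := by
    have h' := abs_le.mp h
    unfold hh
    split_ifs with hx1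
    · nlinarith only [h']
    · push Not at hx1
      rw [max_eq_right (by linarith only [h'])]
      have : (x - 1)^2 / x ≤ (x - 1)^2 := by
        rw [div_le_iff₀ (by linarith only [hx1])]; nlinarith only [hx1]
      linarith only [this, sq_nonneg (x - 1)]
  have h6 : ell D (hh x) ≤ 2 * (x - 1)^2 / D := by
    refine le_trans (ell_le D _) ?_
    exact div_le_div_of_nonneg_right h5 hD.le
  unfold theta thetad
  obtain ⟨Δ, hΔ⟩ : ∃ Δ, Δ = y - x := ⟨_, rfl⟩
  rw [← hΔ] at h1 h2 ⊢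
  have e1 : hh x + gg x * Δ + 2 * Δ^2 - hh x = gg x * Δ + 2 * Δ^2 := by ring
  rw [e1] at h2
  have h7 : ell D (hh x) * (2 * Δ^2) ≤ 2 * (x - 1)^2 / D * (2 * Δ^2) :=
    mul_le_mul_of_nonneg_right h6 (by positivity)
  have h8 : (gg x * Δ + 2 * Δ^2)^2 / (2 * D) ≤ (18 * (x - 1)^2 * Δ^2 + 8 * Δ^4) / (2 * D) := by
    apply div_le_div_of_nonneg_right _ (by positivity)
    have : (gg x * Δ + 2 * Δ^2)^2 ≤ 2 * ((gg x)^2 * Δ^2) + 8 * Δ^4 := by
      linarith only [sq_nonneg (gg x * Δ - 2 * Δ^2)]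
    have : (gg x)^2 * Δ^2 ≤ 9 * (x - 1)^2 * Δ^2 := mul_le_mul_of_nonneg_right h4 (sq_nonneg _)
    linarith
  have h9 : 2 * (x - 1)^2 / D * (2 * Δ^2) + (18 * (x - 1)^2 * Δ^2 + 8 * Δ^4) / (2 * D) =
      (13 * (x - 1)^2 * Δ^2 + 4 * Δ^4) / D := by
    field_simp; ring
  have h10 : 30 / D * ((x - 1)^2 + Δ^2) * Δ^2 = (30 * (x - 1)^2 * Δ^2 + 30 * Δ^4) / D := by
    field_simp
  have h11 : (13 * (x - 1)^2 * Δ^2 + 4 * Δ^4) / D ≤ (30 * (x - 1)^2 * Δ^2 + 30 * Δ^4) / D := by
    apply div_le_div_of_nonneg_right _ hD.le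
    have a : 0 ≤ (x - 1)^2 * Δ^2 := by positivity
    have b : 0 ≤ Δ^4 := by positivity
    linarith only [a, b]
  rw [h10]
  have e2 : ell D (hh x) * (gg x * Δ + 2 * Δ^2) = ell D (hh x) * gg x * Δ + ell D (hh x) * (2 * Δ^2) := by
    ring
  linarith only [h2, h1, h7, h8, h9, h11]

/-- Taylor expansion away from `1` -/
lemma theta_taylor_big (δ D x y : ℝ) (hx : 0 ≤ x) (hy : 0 ≤ y) (hδ : 0 < δ) (hD : 0 < D)
    (hD' : D ≤ 1e-6 * δ ^ 2) (h : δ ≤ |x - 1|) (hΔ : |y - x| ≤ δ / 2) :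
    theta D y ≤ theta D x + thetad D x * (y - x) + 2 * (y - x)^2 := by
  have h1 : δ / 2 ≤ |y - 1| := by
    have : |x - 1| ≤ |y - 1| + |y - x| := by
      have e : x - 1 = (y - 1) - (y - x) := by ring
      rw [e]
      exact abs_sub _ _
    linarith only [h, hΔ, this]
  rw [theta_big δ D x hx hδ hD hD' (by linarith only [hδ, h]), theta_big δ D y hy hδ hD hD' h1,
    thetad_big δ D x hx hδ hD hD' (by linarith only [hδ, h])]
  have := hh_taylor x y hx hy
  linarith only [this]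

end Vale.Agent.P046.C
end
end

section

section

set_option autoImplicit false

open scoped Classical

namespace Vale.Agent.P046.C

open Vale.Agent.P046

/-- indicator of a big deviation -/
noncomputable def bg (δ x : ℝ) : ℝ := if δ ≤ |x - 1| then 1 else 0

lemma bg_cases (δ x : ℝ) : (δ ≤ |x - 1| ∧ bg δ x = 1) ∨ (|x - 1| < δ ∧ bg δ x = 0) := by
  unfold bg
  rcases le_or_gt δ |x - 1| with h | h
  · left; exact ⟨h, if_pos h⟩
  · right; exact ⟨h, if_neg (by linarith)⟩

lemma bg_nonneg (δ x : ℝ) : 0 ≤ bg δ x := by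
  unfold bg; split_ifs <;> norm_num

lemma bg_le_one (δ x : ℝ) : bg δ x ≤ 1 := by
  unfold bg; split_ifs <;> norm_num

/-- quadratic form for subsets -/
lemma quad_subset (a b c p q r : ℝ) (hp : p = 0 ∨ p = 1) (hq : q = 0 ∨ q = 1)
    (hr : r = 0 ∨ r = 1) :
    -(p * (2 * a) * (b + c) + q * (2 * b) * (a + c) + r * (2 * c) * (a + b)) ≤
      2 * (a^2 + b^2 + c^2) := by
  rcases hp with rfl | rfl <;> rcases hq with rfl | rfl <;> rcases hr with rfl | rfl <;>
  linarith only [sq_nonneg a, sq_nonneg b, sq_nonneg c, sq_nonneg (a + c), sq_nonneg (b + c), sq_nonneg (a + b), sq_nonneg (a + b + c)]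

lemma gg_repl (p x s : ℝ) (hp : p = 0 ∨ p = 1) (hx : |x - 1| ≤ 1e-4) (hs : |s| ≤ 2e-4) :
    -(p * gg x * s) ≤ -(p * (2 * (x - 1)) * s) + 8e-4 * (x - 1)^2 := by
  have h := gg_near x (by linarith)
  have h1 : |(gg x - 2 * (x - 1)) * s| ≤ 4 * (x - 1)^2 * 2e-4 := by
    rw [abs_mul]
    exact mul_le_mul h hs (abs_nonneg _) (by positivity)
  have h2 := (abs_le.mp h1).1
  rcases hp with rfl | rfl
  · have : 0 ≤ (x - 1)^2 := sq_nonneg _
    linarith only [this]
  · linarith only [h2]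

/-- the triangle inequality for `theta`, near case -/
lemma tri_theta_near (δ D x1 x2 x3 : ℝ) (h1 : 0 < x1) (h2 : 0 < x2) (h3 : 0 < x3)
    (hδ : 0 < δ) (hD : 0 < D) (hD' : D ≤ 1e-6 * δ ^ 2)
    (hx1 : |x1 - 1| ≤ 1e-4) (hx2 : |x2 - 1| ≤ 1e-4) (hx3 : |x3 - 1| ≤ 1e-4) :
    -(theta D x1 + theta D x2 + theta D x3) - (bg δ x1 * gg x1 * (x2 + x3 - 2) +
      bg δ x2 * gg x2 * (x1 + x3 - 2) + bg δ x3 * gg x3 * (x1 + x2 - 2)) ≤
      (1 + 1/400) * (theta D x1 / x1 + theta D x2 / x2 + theta D x3 / x3) -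
        (hv x1 + hv x2 + hv x3) / 800 := by
  have a1 := abs_le.mp hx1
  have a2 := abs_le.mp hx2
  have a3 := abs_le.mp hx3
  have v0 : ∀ x : ℝ, x ≤ 12 → hv x = 0 := by
    intro x hx; unfold hv; rw [if_neg (by linarith only [hx])]
  rw [v0 x1 (by linarith only [a1]), v0 x2 (by linarith only [a2]), v0 x3 (by linarith only [a3])]
  have t1 := theta_nonneg D x1 hD
  have t2 := theta_nonneg D x2 hD
  have t3 := theta_nonneg D x3 hD
  have hdiv : ∀ x : ℝ, 0 < x → |x - 1| ≤ 1e-4 → 99989/100000 * theta D x ≤ theta D x / x := by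
    intro x hx hx'
    have h := abs_le.mp hx'
    rw [le_div_iff₀ hx]
    have := theta_nonneg D x hD
    nlinarith only [this, h]
  have d1 := hdiv x1 h1 hx1
  have d2 := hdiv x2 h2 hx2
  have d3 := hdiv x3 h3 hx3
  by_cases hB : bg δ x1 = 0 ∧ bg δ x2 = 0 ∧ bg δ x3 = 0
  · rw [hB.1, hB.2.1, hB.2.2]
    have e1 : 0 ≤ theta D x1 / x1 := by positivity
    have e2 : 0 ≤ theta D x2 / x2 := by positivity
    have e3 : 0 ≤ theta D x3 / x3 := by positivity
    linarith only [t1, t2, t3, d1, d2, d3]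
  · have p1 : bg δ x1 = 0 ∨ bg δ x1 = 1 := by rcases bg_cases δ x1 with h | h <;> simp [h.2]
    have p2 : bg δ x2 = 0 ∨ bg δ x2 = 1 := by rcases bg_cases δ x2 with h | h <;> simp [h.2]
    have p3 : bg δ x3 = 0 ∨ bg δ x3 = 1 := by rcases bg_cases δ x3 with h | h <;> simp [h.2]
    have hsq : δ^2 ≤ (x1 - 1)^2 + (x2 - 1)^2 + (x3 - 1)^2 := by
      have s1 := sq_nonneg (x1 - 1)
      have s2 := sq_nonneg (x2 - 1)
      have s3 := sq_nonneg (x3 - 1)
      have g : ∀ x : ℝ, bg δ x ≠ 0 → δ^2 ≤ (x - 1)^2 := by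
        intro x hx
        rcases bg_cases δ x with h | h
        · rw [← sq_abs (x - 1)]
          exact pow_le_pow_left₀ hδ.le h.1 2
        · exact absurd h.2 hx
      by_cases c1 : bg δ x1 = 0
      · by_cases c2 : bg δ x2 = 0
        · have c3 : bg δ x3 ≠ 0 := fun h => hB ⟨c1, c2, h⟩
          have := g x3 c3; linarith only [s1, s2, this]
        · have := g x2 c2; linarith only [s1, s3, this]
      · have := g x1 c1; linarith only [s2, s3, this]
    have r1 := gg_repl (bg δ x1) x1 (x2 + x3 - 2) p1 hx1 (abs_le.mpr ⟨by linarith only [a2, a3], by linarith only [a2, a3]⟩)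
    have r2 := gg_repl (bg δ x2) x2 (x1 + x3 - 2) p2 hx2 (abs_le.mpr ⟨by linarith only [a1, a3], by linarith only [a1, a3]⟩)
    have r3 := gg_repl (bg δ x3) x3 (x1 + x2 - 2) p3 hx3 (abs_le.mpr ⟨by linarith only [a1, a2], by linarith only [a1, a2]⟩)
    have q := quad_subset (x1 - 1) (x2 - 1) (x3 - 1) (bg δ x1) (bg δ x2) (bg δ x3) p1 p2 p3
    have e : ∀ a b : ℝ, (a - 1) + (b - 1) = a + b - 2 := fun a b => by ring
    rw [e, e, e] at q
    have lo : ∀ x : ℝ, 0 < x → |x - 1| ≤ 1e-4 → 9999/10000 * (x - 1)^2 - D / 2 ≤ theta D x := by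
      intro x hx hx'
      have l1 := hh_near x hx.le
      have l2 := Lam_ge D (hh x) hD
      unfold theta
      nlinarith only [l1, l2, hx']
    have l1 := lo x1 h1 hx1
    have l2 := lo x2 h2 hx2
    have l3 := lo x3 h3 hx3
    obtain ⟨A, hA⟩ : ∃ A, A = (x1 - 1)^2 + (x2 - 1)^2 + (x3 - 1)^2 := ⟨_, rfl⟩
    obtain ⟨Θ, hΘ⟩ : ∃ Θ, Θ = theta D x1 + theta D x2 + theta D x3 := ⟨_, rfl⟩
    have m1 : 9999/10000 * A - 3/2 * D ≤ Θ := by rw [hA, hΘ]; linarith only [l1, l2, l3]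
    have m2 : D ≤ 1e-6 * A := by
      rw [← hA] at hsq
      linarith only [hD', hsq]
    have m3 : 99989/100000 * Θ ≤ theta D x1 / x1 + theta D x2 / x2 + theta D x3 / x3 := by
      rw [hΘ]; linarith only [d1, d2, d3]
    have m4 : -(bg δ x1 * gg x1 * (x2 + x3 - 2) +
      bg δ x2 * gg x2 * (x1 + x3 - 2) + bg δ x3 * gg x3 * (x1 + x2 - 2)) ≤ (2 + 8e-4) * A := by
      rw [hA]; linarith only [r1, r2, r3, q]
    have hA0 : 0 ≤ A := by rw [hA]; positivity
    rw [← hΘ]
    linarith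

lemma theta_div_far (δ D x : ℝ) (hx : 0 < x) (hδ : 0 < δ) (hδ1 : δ ≤ 1e-4) (hD : 0 < D)
    (hD' : D ≤ 1e-6 * δ ^ 2) (h : 1e-4 ≤ |x - 1|) :
    5e-13 * (1 + x + 1 / x) ≤ theta D x / x := by
  have h1 := hh_far x hx h
  have h2 := Lam_ge_half D (hh x) hD (hh_big δ D x hx.le hδ hD' (by linarith only [hδ1, h]))
  unfold theta
  have h3 : hh x / x / 2 ≤ Lam D (hh x) / x := by
    rw [div_div, mul_comm x 2, ← div_div]
    exact div_le_div_of_nonneg_right h2 hx.le
  linarith only [h1, h3]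

/-- cost of an index: replacing `hh` by `theta` and dropping non-big indices -/
lemma idx_cost (δ D x s : ℝ) (hx : 0 < x) (hδ : 0 < δ) (hδ1 : δ ≤ 1e-4) (hD : 0 < D) :
    hh x * (1 + 1 / x) + (1 - bg δ x) * gg x * s ≤ theta D x * (1 + 1 / x) +
      D / 2 * (1 + 1 / x) + 3 * δ * |s| := by
  have h1 : hh x ≤ theta D x + D / 2 := by
    have := Lam_ge D (hh x) hD
    unfold theta; linarith only [this]
  have h2 : hh x * (1 + 1 / x) ≤ (theta D x + D / 2) * (1 + 1 / x) :=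
    mul_le_mul_of_nonneg_right h1 (by positivity)
  have h3 : (1 - bg δ x) * gg x * s ≤ 3 * δ * |s| := by
    rcases bg_cases δ x with h | h
    · rw [h.2]; have := abs_nonneg s; simp only [sub_self, zero_mul, ge_iff_le]; positivity
    · rw [h.2]
      have h4 := gg_lin x hx.le
      have h5 : gg x * s ≤ |gg x| * |s| := by
        rw [← abs_mul]; exact le_abs_self _
      have h6 : |gg x| * |s| ≤ 3 * δ * |s| :=
        mul_le_mul_of_nonneg_right (by linarith only [h4, h.1]) (abs_nonneg _)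
      linarith only [h5, h6]
  linarith only [h2, h3]

/-- the triangle inequality for `theta` -/
theorem tri_theta (δ D x1 x2 x3 : ℝ) (h1 : 0 < x1) (h2 : 0 < x2) (h3 : 0 < x3)
    (hδ : 0 < δ) (hδ1 : δ ≤ 1e-18) (hD : 0 < D) (hD' : D ≤ 1e-6 * δ ^ 2) :
    -(theta D x1 + theta D x2 + theta D x3) - (bg δ x1 * gg x1 * (x2 + x3 - 2) +
      bg δ x2 * gg x2 * (x1 + x3 - 2) + bg δ x3 * gg x3 * (x1 + x2 - 2)) ≤
      (1 + 1/400) * (theta D x1 / x1 + theta D x2 / x2 + theta D x3 / x3) -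
        (hv x1 + hv x2 + hv x3) / 800 := by
  by_cases hn : |x1 - 1| ≤ 1e-4 ∧ |x2 - 1| ≤ 1e-4 ∧ |x3 - 1| ≤ 1e-4
  · exact tri_theta_near δ D x1 x2 x3 h1 h2 h3 hδ hD hD' hn.1 hn.2.1 hn.2.2
  · have hk := key_slack x1 x2 x3 h1 h2 h3
    have c1 := idx_cost δ D x1 (x2 + x3 - 2) h1 hδ (by linarith only [hδ1]) hD
    have c2 := idx_cost δ D x2 (x1 + x3 - 2) h2 hδ (by linarith only [hδ1]) hD
    have c3 := idx_cost δ D x3 (x1 + x2 - 2) h3 hδ (by linarith only [hδ1]) hD
    -- each index: either far or harmless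
    have dich : ∀ x : ℝ, 0 < x → (|x - 1| ≤ 1e-4 ∧ x + 1 / x ≤ 3 ∧ 0 ≤ theta D x / x) ∨
        5e-13 * (1 + x + 1 / x) ≤ theta D x / x := by
      intro x hx
      rcases le_or_gt |x - 1| 1e-4 with h | h
      · left
        have h' := abs_le.mp h
        have := theta_nonneg D x hD
        refine ⟨h, ?_, by positivity⟩
        have : 1 / x ≤ 1.5 := by
          rw [div_le_iff₀ hx]; linarith only [h']
        linarith only [h', this]
      · right
        exact theta_div_far δ D x hx hδ (by linarith only [hδ1]) hD hD' h.le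
    have s1 : |x2 + x3 - 2| ≤ x2 + x3 + 2 := abs_le.mpr ⟨by linarith only [h2, h3], by linarith only [hδ, hδ1]⟩
    have s2 : |x1 + x3 - 2| ≤ x1 + x3 + 2 := abs_le.mpr ⟨by linarith only [h1, h3], by linarith only [hδ, hδ1]⟩
    have s3 : |x1 + x2 - 2| ≤ x1 + x2 + 2 := abs_le.mpr ⟨by linarith only [h1, h2], by linarith only [hδ, hδ1]⟩
    -- total error
    have hinv1 : 0 < 1 / x1 := by positivity
    have hinv2 : 0 < 1 / x2 := by positivity
    have hinv3 : 0 < 1 / x3 := by positivity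
    have hδ2 : D ≤ δ := by nlinarith only [hδ, hD', hδ1]
    obtain ⟨P, hP⟩ : ∃ P, P = theta D x1 / x1 + theta D x2 / x2 + theta D x3 / x3 := ⟨_, rfl⟩
    obtain ⟨X, hX⟩ : ∃ X, X = 1 + (x1 + 1 / x1) + (x2 + 1 / x2) + (x3 + 1 / x3) := ⟨_, rfl⟩
    have hPX : 5e-14 * X ≤ P := by
      rw [hP, hX]
      rcases dich x1 h1 with ⟨d1, e1, f1⟩ | d1 <;> rcases dich x2 h2 with ⟨d2, e2, f2⟩ | d2 <;>
        rcases dich x3 h3 with ⟨d3, e3, f3⟩ | d3
      · exact absurd ⟨d1, d2, d3⟩ hn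
      all_goals linarith
    have herr : D / 2 * (1 + 1 / x1) + 3 * δ * |x2 + x3 - 2| + (D / 2 * (1 + 1 / x2) +
        3 * δ * |x1 + x3 - 2|) + (D / 2 * (1 + 1 / x3) + 3 * δ * |x1 + x2 - 2|) ≤ 30 * δ * X := by
      have g1 : D / 2 * (1 + 1 / x1) ≤ δ / 2 * (1 + 1 / x1) :=
        mul_le_mul_of_nonneg_right (by linarith only [hδ2]) (by positivity)
      have g2 : D / 2 * (1 + 1 / x2) ≤ δ / 2 * (1 + 1 / x2) :=
        mul_le_mul_of_nonneg_right (by linarith only [hδ2]) (by positivity)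
      have g3 : D / 2 * (1 + 1 / x3) ≤ δ / 2 * (1 + 1 / x3) :=
        mul_le_mul_of_nonneg_right (by linarith only [hδ2]) (by positivity)
      have g4 : 3 * δ * |x2 + x3 - 2| ≤ 3 * δ * (x2 + x3 + 2) :=
        mul_le_mul_of_nonneg_left s1 (by positivity)
      have g5 : 3 * δ * |x1 + x3 - 2| ≤ 3 * δ * (x1 + x3 + 2) :=
        mul_le_mul_of_nonneg_left s2 (by positivity)
      have g6 : 3 * δ * |x1 + x2 - 2| ≤ 3 * δ * (x1 + x2 + 2) :=
        mul_le_mul_of_nonneg_left s3 (by positivity)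
      have g7 : 0 ≤ δ * (29.5 * (1 / x1) + 29.5 * (1 / x2) + 29.5 * (1 / x3)) := by positivity
      have g8 : 0 ≤ δ * (24 * x1 + 24 * x2 + 24 * x3) := by positivity
      have g9 : δ / 2 * (1 + 1 / x1) + δ / 2 * (1 + 1 / x2) + δ / 2 * (1 + 1 / x3) +
          3 * δ * (x2 + x3 + 2) + 3 * δ * (x1 + x3 + 2) + 3 * δ * (x1 + x2 + 2) ≤ 30 * δ * X := by
        rw [hX]
        linarith only [hδ, g7, g8]
      linarith only [g1, g2, g3, g4, g5, g6, g9]
    have hX0 : 0 < X := by rw [hX]; positivity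
    have hfin : 30 * δ * X ≤ 1/400 * P := by
      have : 30 * δ * X ≤ 30 * 1e-18 * X := by
        apply mul_le_mul_of_nonneg_right _ hX0.le
        linarith only [hδ1]
      linarith only [h1, h2, h3, hinv1, hinv2, hinv3, hX, hPX, this]
    have e1 : ∀ x : ℝ, theta D x * (1 + 1 / x) = theta D x + theta D x / x := by
      intro x; ring
    rw [e1] at c1 c2 c3
    rw [← hP]
    linarith

end Vale.Agent.P046.C
end
end

section

section

set_option autoImplicit false

namespace Vale.Agent.P046.C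

/-- coefficient of the main functional in the early phase -/
noncomputable def a1E (A1 E0 e : ℝ) : ℝ := A1 * (e / E0) ^ (3 / 5 : ℝ)

/-- coefficient of the penalty functionals -/
noncomputable def bE (b0 E0 e : ℝ) : ℝ := b0 * (e / E0) ^ 40

lemma a1E_shift (A1 E0 e : ℝ) (hA : 0 ≤ A1) (hE0 : 0 < E0) (he : 3 < e) :
    a1E A1 E0 (e - 3) ≤ a1E A1 E0 e * (1 - (3 / 5) * (3 / e)) := by
  have h := rpow_shift (3 / 5) e E0 (by norm_num) (by norm_num) he hE0
  unfold a1E
  calc A1 * ((e - 3) / E0) ^ (3 / 5 : ℝ) ≤ A1 * ((e / E0) ^ (3 / 5 : ℝ) * (1 - (3 / 5) * (3 / e))) :=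
        mul_le_mul_of_nonneg_left h hA
    _ = _ := by ring

lemma bE_shift (b0 E0 e : ℝ) (hb : 0 ≤ b0) (hE0 : 0 < E0) (he : 3 < e) :
    bE b0 E0 (e - 3) * (1 + 40 * (3 / e)) ≤ bE b0 E0 e := by
  have he0 : 0 < e := by linarith only [he]
  obtain ⟨x, hx⟩ : ∃ x, x = 3 / e := ⟨_, rfl⟩
  have hx0 : 0 < x := by rw [hx]; positivity
  have hx1 : x < 1 := by rw [hx, div_lt_one he0]; exact he
  have h1 : (e - 3) / E0 = (e / E0) * (1 - x) := by rw [hx]; field_simp
  unfold bE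
  rw [← hx, h1, mul_pow]
  have h2 : (1 - x) ^ 40 * (1 + 40 * x) ≤ 1 := by
    have h3 : 1 + 40 * x ≤ (1 + x) ^ 40 := by
      have := one_add_mul_le_pow (a := x) (by linarith only [hx0, hx1]) 40
      push_cast at this
      linarith
    have h4 : (1 - x) ^ 40 * (1 + x) ^ 40 ≤ 1 := by
      rw [← mul_pow]
      apply pow_le_one₀
      · nlinarith only [hx1, hx0]
      · nlinarith only [hx0]
    have h5 : 0 ≤ (1 - x) ^ 40 := by positivity
    calc (1 - x) ^ 40 * (1 + 40 * x) ≤ (1 - x) ^ 40 * (1 + x) ^ 40 :=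
          mul_le_mul_of_nonneg_left h3 h5
      _ ≤ 1 := h4
  have h6 : 0 ≤ b0 * (e / E0) ^ 40 := by positivity
  calc b0 * ((e / E0) ^ 40 * (1 - x) ^ 40) * (1 + 40 * x)
      = b0 * (e / E0) ^ 40 * ((1 - x) ^ 40 * (1 + 40 * x)) := by ring
    _ ≤ b0 * (e / E0) ^ 40 * 1 := mul_le_mul_of_nonneg_left h2 h6
    _ = _ := by ring

lemma early_F (T c e κL B : ℝ) (he : 100000 ≤ e) (hc : 0 < c)
    (hT1 : (1 - 1 / 10000) * c * e / 3 ≤ T)
    (hκ : 65536 * B * κL ≤ (1 / 1000) * c) :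
    (1 - (3 / 5) * (3 / e)) * (T + (1 / 2) * c) + 65536 * B * κL ≤ T := by
  have he0 : 0 < e := by linarith only [he]
  obtain ⟨x, hx⟩ : ∃ x, x = 3 / e := ⟨_, rfl⟩
  rw [← hx]
  have hx0 : 0 < x := by rw [hx]; positivity
  have hTx1 : (1 - 1 / 10000) * c ≤ T * x := by
    rw [hx]
    have : (1 - 1 / 10000) * c = ((1 - 1 / 10000) * c * e / 3) * (3 / e) := by field_simp
    rw [this]
    exact mul_le_mul_of_nonneg_right hT1 (by positivity)
  have h5 : 0 ≤ c * x := by positivity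
  linarith only [hc, hκ, hTx1, h5]

lemma early_W (T c e C B m : ℝ) (he : 100000 ≤ e) (hc : 10000 ≤ c)
    (hT1 : (1 - 1 / 10000) * c * e / 3 ≤ T) (hT2 : T ≤ (1 + 1 / 10000) * c * e / 3)
    (hB : 0 < B) (hCB : 4 * C ≤ B) (hm0 : 1 ≤ m) (hm : m ≤ 1 + (75 / 10) * (3 / e)) :
    C * c / B + m * (T + 64 - 8 * (1 - 1 / 100) * c) ≤ T := by
  have he0 : 0 < e := by linarith only [he]
  have hc0 : 0 < c := by linarith only [hc]
  have h1 : C * c / B ≤ c / 4 := by
    rw [div_le_iff₀ hB]; nlinarith only [hCB, hc]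
  have hTx2 : T * (3 / e) ≤ (1 + 1 / 10000) * c := by
    have : (1 + 1 / 10000) * c = ((1 + 1 / 10000) * c * e / 3) * (3 / e) := by field_simp
    rw [this]
    exact mul_le_mul_of_nonneg_right hT2 (by positivity)
  have hx1 : 3 / e ≤ 3 / 100000 := div_le_div_of_nonneg_left (by norm_num) (by norm_num) he
  have hx0 : 0 < 3 / e := by positivity
  have hT0 : 0 ≤ T := by
    refine le_trans ?_ hT1
    have : (0:ℝ) ≤ 1 - 1 / 10000 := by norm_num
    positivity
  have h2 : m * T ≤ T + (75 / 10) * ((1 + 1 / 10000) * c) := by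
    calc m * T ≤ (1 + (75 / 10) * (3 / e)) * T := mul_le_mul_of_nonneg_right hm hT0
      _ = T + (75 / 10) * (T * (3 / e)) := by ring
      _ ≤ _ := by linarith only [hTx2]
  have h3 : m ≤ 2 := by linarith only [hm, hx1]
  have h4 : 8 * (1 - 1 / 100) * c ≤ m * (8 * (1 - 1 / 100) * c) := by
    have : 0 ≤ 8 * (1 - 1 / 100) * c := by positivity
    nlinarith only [hm0, hc]
  linarith only [hc, hm, h1, hx1, h2, h4]

lemma wheel_factor_early (e : ℝ) (he : 100000 ≤ e) :
    (1 - (3 / 5) * (3 / e)) * (e / (e - 3)) ^ 8 ≤ 1 + (75 / 10) * (3 / e) ∧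
      1 ≤ (1 - (3 / 5) * (3 / e)) * (e / (e - 3)) ^ 8 := by
  have he0 : 0 < e := by linarith
  obtain ⟨x, hx⟩ : ∃ x, x = 3 / e := ⟨_, rfl⟩
  have hx0 : 0 < x := by rw [hx]; positivity
  have hx1 : x ≤ 3 / 100000 := by
    rw [hx]; exact div_le_div_of_nonneg_left (by norm_num) (by norm_num) he
  have h1 : e / (e - 3) = 1 / (1 - x) := by
    rw [hx]; field_simp
  rw [← hx, h1]
  have h1x : 0 < 1 - x := by linarith only [hx0, hx1]
  have h2 : (1 - (3 / 5) * x) * (1 / (1 - x)) ^ 8 = (1 - (3 / 5) * x) / (1 - x) ^ 8 := by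
    field_simp
  rw [h2]
  constructor
  · rw [div_le_iff₀ (by positivity)]
    have h3 : 1 - 8 * x ≤ (1 - x) ^ 8 := by
      have := one_add_mul_le_pow (a := -x) (by linarith only [hx0, hx1]) 8
      push_cast at this
      have e2 : (1 + -x) = 1 - x := by ring
      rw [e2] at this
      linarith only [this]
    have h4 : 0 ≤ 1 + (75 / 10) * x := by positivity
    nlinarith only [hx0, hx1, mul_le_mul_of_nonneg_left h3 h4]
  · rw [le_div_iff₀ (by positivity), one_mul]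
    calc (1 - x) ^ 8 ≤ (1 - x) ^ 1 := pow_le_pow_of_le_one h1x.le (by linarith only [hx0]) (by norm_num)
      _ = 1 - x := pow_one _
      _ ≤ 1 - (3 / 5) * x := by linarith only [hx0]

/-- the penalty part of the early step -/
lemma early_penalty (b0 E0 q n e c T Φ Z SΦ SZ : ℝ) (hb : 0 < b0) (hE0 : 0 < E0) (hq : 1 ≤ q)
    (hn : 0 < n) (he : 100000 ≤ e) (hc : 10000 ≤ c) (hcq : 4 * n / q ^ 2 ≤ c)
    (hT1 : (1 - 1 / 10000) * c * e / 3 ≤ T) (hΦ : 0 ≤ Φ) (hZ : 0 ≤ Z)
    (hSΦ : SΦ ≤ (T + 37 * c) * Φ + 2 * 10 ^ 14 * e / c ^ 3)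
    (hSZ : SZ ≤ (T + 31 * c) * Z + 6 * n * Φ + 10 ^ 14 * n ^ 2 / c ^ 3) :
    4 * q ^ 2 * bE b0 E0 (e - 3) * SΦ + bE b0 E0 (e - 3) * SZ ≤
      T * (4 * q ^ 2 * bE b0 E0 e * Φ + bE b0 E0 e * Z) +
        (4 * q ^ 2 * bE b0 E0 e * (2 * 10 ^ 14 * e / c ^ 3) +
          bE b0 E0 e * (10 ^ 14 * n ^ 2 / c ^ 3)) := by
  have he0 : 0 < e := by linarith only [he]
  have hc0 : 0 < c := by linarith only [hc]
  have hq0 : 0 < q := by linarith only [hq]
  have he3 : 0 < e - 3 := by linarith only [he]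
  have hsh := bE_shift b0 E0 e hb.le hE0 (by linarith only [he])
  obtain ⟨b, hbd⟩ : ∃ b, b = bE b0 E0 e := ⟨_, rfl⟩
  obtain ⟨b', hb'd⟩ : ∃ b', b' = bE b0 E0 (e - 3) := ⟨_, rfl⟩
  have hb0' : 0 < b := by rw [hbd]; unfold bE; positivity
  have hb0 : 0 < b' := by rw [hb'd]; unfold bE; positivity
  rw [← hbd, ← hb'd] at hsh
  rw [← hbd, ← hb'd]
  obtain ⟨x, hx⟩ : ∃ x, x = 3 / e := ⟨_, rfl⟩
  rw [← hx] at hsh
  have hx0 : 0 < x := by rw [hx]; positivity
  have hTx1 : (1 - 1 / 10000) * c ≤ T * x := by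
    rw [hx]
    have : (1 - 1 / 10000) * c = ((1 - 1 / 10000) * c * e / 3) * (3 / e) := by field_simp
    rw [this]
    exact mul_le_mul_of_nonneg_right hT1 (by positivity)
  have hb'b : b' ≤ b := by linarith only [hsh, mul_pos hb0 hx0]
  have hT0 : 0 ≤ T := by
    refine le_trans ?_ hT1
    have : (0:ℝ) ≤ 1 - 1 / 10000 := by norm_num
    positivity
  -- n / q^2 small
  have hnq : 6 * n ≤ 4 * q ^ 2 * (c * (3 / 8)) := by
    have : 4 * n ≤ c * q ^ 2 := by
      rw [div_le_iff₀ (by positivity)] at hcq; exact hcq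
    linarith only [this]
  have s1 : b' * (T + 40 * (T * x)) ≤ T * b := by
    calc b' * (T + 40 * (T * x)) = T * (b' * (1 + 40 * x)) := by ring
      _ ≤ T * b := mul_le_mul_of_nonneg_left hsh hT0
  have t1 : 4 * q ^ 2 * b' * SΦ ≤ 4 * q ^ 2 * (b' * (T + 37 * c)) * Φ +
      4 * q ^ 2 * b * (2 * 10 ^ 14 * e / c ^ 3) := by
    have q1 : 4 * q ^ 2 * b' * SΦ ≤ 4 * q ^ 2 * b' * ((T + 37 * c) * Φ + 2 * 10 ^ 14 * e / c ^ 3) :=
      mul_le_mul_of_nonneg_left hSΦ (by positivity)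
    have q2 : 4 * q ^ 2 * b' * (2 * 10 ^ 14 * e / c ^ 3) ≤ 4 * q ^ 2 * b * (2 * 10 ^ 14 * e / c ^ 3) := by
      apply mul_le_mul_of_nonneg_right _ (by positivity)
      exact mul_le_mul_of_nonneg_left hb'b (by positivity)
    linarith only [q1, q2]
  have t2 : b' * SZ ≤ b' * (T + 31 * c) * Z + b' * (6 * n) * Φ + b * (10 ^ 14 * n ^ 2 / c ^ 3) := by
    have q1 : b' * SZ ≤ b' * ((T + 31 * c) * Z + 6 * n * Φ + 10 ^ 14 * n ^ 2 / c ^ 3) :=
      mul_le_mul_of_nonneg_left hSZ hb0.le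
    have q2 : b' * (10 ^ 14 * n ^ 2 / c ^ 3) ≤ b * (10 ^ 14 * n ^ 2 / c ^ 3) :=
      mul_le_mul_of_nonneg_right hb'b (by positivity)
    linarith only [q1, q2]
  have t3 : b' * (6 * n) * Φ ≤ 4 * q ^ 2 * (b' * (c * (3 / 8))) * Φ := by
    apply mul_le_mul_of_nonneg_right _ hΦ
    nlinarith only [hb0, hnq]
  have t4 : 4 * q ^ 2 * (b' * (T + 37 * c)) * Φ + 4 * q ^ 2 * (b' * (c * (3 / 8))) * Φ ≤
      4 * q ^ 2 * (T * b) * Φ := by
    have : b' * (T + 37 * c) + b' * (c * (3 / 8)) ≤ T * b := by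
      refine le_trans ?_ s1
      rw [← mul_add]
      apply mul_le_mul_of_nonneg_left _ hb0.le
      linarith only [hc, hTx1]
    have h2 : 0 ≤ 4 * q ^ 2 * Φ := by positivity
    have h3 := mul_le_mul_of_nonneg_left this h2
    linarith only [h3]
  have t5 : b' * (T + 31 * c) * Z ≤ (T * b) * Z := by
    apply mul_le_mul_of_nonneg_right _ hZ
    refine le_trans ?_ s1
    apply mul_le_mul_of_nonneg_left _ hb0.le
    linarith only [hc, hTx1]
  linarith only [t1, t2, t3, t4, t5]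

/-- one step of the early phase, real-number version -/
lemma early_step (A1 B C N E0 e c T κL F W L SF SW : ℝ)
    (hA : 0 < A1) (hB : 0 < B) (hC : 0 ≤ C) (hN : 0 < N) (hE0 : 0 < E0)
    (he : 100000 ≤ e) (hcd : c = 4 * e ^ 2 / N) (hc : 10000 ≤ c)
    (hT1 : (1 - 1 / 10000) * c * e / 3 ≤ T) (hT2 : T ≤ (1 + 1 / 10000) * c * e / 3)
    (hCB : 4 * C ≤ B) (hκ : 65536 * B * κL ≤ (1 / 1000) * c)
    (hF : 0 ≤ F) (hW : 0 ≤ W) (hL : L ≤ κL * F) (hκL : 0 ≤ κL)
    (hSF : SF ≤ (T + (1 / 2) * c) * F + C * (e / c + W / c ^ 3))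
    (hSW : SW ≤ (T + 64 - 8 * (1 - 1 / 100) * c) * W + 32768 * c ^ 4 * L) :
    a1E A1 E0 (e - 3) * SF + B * a1E A1 E0 (e - 3) / (4 * (e - 3) ^ 2 / N) ^ 4 * SW ≤
      T * (a1E A1 E0 e * F + B * a1E A1 E0 e / c ^ 4 * W) + a1E A1 E0 e * (C * (e / c)) := by
  have he0 : 0 < e := by linarith only [he]
  have he3 : 0 < e - 3 := by linarith only [he]
  have hc0 : 0 < c := by linarith only [hc]
  obtain ⟨a, ha⟩ : ∃ a, a = a1E A1 E0 e := ⟨_, rfl⟩
  obtain ⟨a', ha'⟩ : ∃ a', a' = a1E A1 E0 (e - 3) := ⟨_, rfl⟩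
  have ha0 : 0 < a := by rw [ha]; unfold a1E; positivity
  have ha'0 : 0 < a' := by rw [ha']; unfold a1E; positivity
  have hsh := a1E_shift A1 E0 e hA.le hE0 (by linarith only [he])
  rw [← ha, ← ha'] at hsh
  rw [← ha, ← ha']
  obtain ⟨y, hy⟩ : ∃ y, y = (1 - (3 / 5) * (3 / e)) := ⟨_, rfl⟩
  rw [← hy] at hsh
  have hx1 : 3 / e ≤ 3 / 100000 := div_le_div_of_nonneg_left (by norm_num) (by norm_num) he
  have hx0 : 0 < 3 / e := by positivity
  have ha'a : a' ≤ a := by
    have : a * y ≤ a * 1 := mul_le_mul_of_nonneg_left (by rw [hy]; linarith only [hx0]) ha0.le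
    linarith only [hsh, this]
  have hcr : (4 * (e - 3) ^ 2 / N) ^ 4 = c ^ 4 / (e / (e - 3)) ^ 8 := by
    rw [hcd]; field_simp
  obtain ⟨f, hf⟩ : ∃ f, f = (e / (e - 3)) ^ 8 := ⟨_, rfl⟩
  obtain ⟨hw1, hw2⟩ := wheel_factor_early e he
  rw [← hf] at hw1 hw2 hcr
  rw [← hy] at hw1 hw2
  have hf0 : 0 < f := by rw [hf]; positivity
  rw [hcr]
  have e1 : B * a' / (c ^ 4 / f) = B * (a' * f) / c ^ 4 := by field_simp
  rw [e1]
  obtain ⟨m, hm⟩ : ∃ m, m = y * f := ⟨_, rfl⟩
  rw [← hm] at hw1 hw2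
  have hyf : a' * f ≤ a * m := by
    calc a' * f ≤ (a * y) * f := mul_le_mul_of_nonneg_right hsh hf0.le
      _ = _ := by rw [hm]; ring
  have hFc := early_F T c e κL B he hc0 hT1 hκ
  rw [← hy] at hFc
  have hWc := early_W T c e C B m he hc hT1 hT2 hB hCB hw2 hw1
  have hT100 : 100 * c ≤ T := by
    refine le_trans ?_ hT1
    have : 0 ≤ c * (e - 100000) := mul_nonneg hc0.le (by linarith only [he])
    linarith only [hc, this]
  have hT0 : 0 ≤ T := by linarith only [hc, hT100]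
  have hXpos : 0 ≤ (T + 64 - 8 * (1 - 1 / 100) * c) := by linarith only [hc, hT100]
  have p1 := part_F a a' y T (1 / 2) c e C F W SF ha'0 hc0 he0 hC hF hW hT0 (by norm_num)
    hsh ha'a hSF
  have p2 := part_W a a' f m B c (T + 64 - 8 * (1 - 1 / 100) * c) κL F W L SW ha0 ha'0 hf0 hB hc0
    hXpos hκL hF hW hyf (by linarith only [hx1, hw1]) hL hSW
  have p3 := part_sum a B C c e T y (T + (1 / 2) * c) (65536 * B * κL) m
    (T + 64 - 8 * (1 - 1 / 100) * c) F W ha0 hB hc0 hF hW hFc hWc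
  linarith only [p1, p2, p3]

end Vale.Agent.P046.C
end
end

section

section

/-!
The potential of the log-free upper bound.  Planned numerals:
`d = 1e-23`, `β = 1e-9`, `D = 1e-46`, `μ = 1e7` (together with `δ = 1e-20`, `η = 1e-30`,
`K0 = 1e100`).
-/

set_option autoImplicit false

open scoped Classical
open Finset

namespace Vale.Agent.P046.C

open Vale.Agent.P046

variable {n : ℕ}

/-- Huber energy of `w` -/
noncomputable def MM (d : ℝ) (G : SimpleGraph (Fin n)) : ℝ :=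
  edgeSum G (fun u v => huber d (ww G u v))

/-- energy of the codegree deviations -/
noncomputable def TH (D : ℝ) (G : SimpleGraph (Fin n)) : ℝ :=
  edgeSum G (fun u v => theta D (rr G u v))

/-- energy of the triangle density deviation -/
noncomputable def RF (G : SimpleGraph (Fin n)) : ℝ :=
  (numEdges G : ℝ) * (rho G - 1) ^ 2

/-- the potential -/
noncomputable def FF (d β D μ : ℝ) (G : SimpleGraph (Fin n)) : ℝ :=
  MM d G + β * TH D G + μ * RF G

end Vale.Agent.P046.C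
end
end

section

section

set_option autoImplicit false

open scoped Classical
open Finset

namespace Vale.Agent.P046.C

open Vale.Agent.P046 Vale.Agent.P046.OS

/-- description of `huber` and `clip`: `w = k + h` with `k = clip`, `h` the excess -/
lemma hub_cases (d w : ℝ) (hd : 0 < d) :
    (|w| ≤ d ∧ clip d w = w ∧ huber d w = w ^ 2) ∨
    (d < w ∧ clip d w = d ∧ huber d w = 2 * d * w - d ^ 2) ∨
    (w < -d ∧ clip d w = -d ∧ huber d w = -2 * d * w - d ^ 2) := by
  rcases le_or_gt |w| d with h | h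
  · left
    have h' := abs_le.mp h
    refine ⟨h, ?_, ?_⟩
    · unfold clip
      rw [min_eq_left h'.2, max_eq_right h'.1]
    · unfold huber
      rw [if_pos h]
  · right
    rcases le_or_gt 0 w with h0 | h0
    · left
      rw [abs_of_nonneg h0] at h
      refine ⟨h, ?_, ?_⟩
      · unfold clip
        rw [min_eq_right h.le, max_eq_right (by linarith only [hd])]
      · unfold huber
        rw [abs_of_nonneg h0, if_neg (by linarith)]
    · right
      rw [abs_of_neg h0] at h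
      refine ⟨by linarith, ?_, ?_⟩
      · unfold clip
        rw [min_eq_left (by linarith), max_eq_left (by linarith)]
      · unfold huber
        rw [abs_of_neg h0, if_neg (by linarith)]
        ring

lemma huber_nonneg (d w : ℝ) (hd : 0 < d) : 0 ≤ huber d w := by
  rcases hub_cases d w hd with ⟨-, -, h⟩ | ⟨h1, -, h⟩ | ⟨h1, -, h⟩
  · rw [h]; positivity
  · rw [h]; nlinarith
  · rw [h]; nlinarith only [hd, h1]

lemma clip_abs (d w : ℝ) (hd : 0 < d) : |clip d w| ≤ d := by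
  rcases hub_cases d w hd with ⟨h1, h, -⟩ | ⟨h1, h, -⟩ | ⟨h1, h, -⟩
  · rw [h]; exact h1
  · rw [h, abs_of_pos hd]
  · rw [h, abs_neg, abs_of_pos hd]


lemma clip_sq_le (d w : ℝ) (hd : 0 < d) : (clip d w) ^ 2 ≤ huber d w := by
  rcases hub_cases d w hd with ⟨h1, h, h2⟩ | ⟨h1, h, h2⟩ | ⟨h1, h, h2⟩
  · rw [h, h2]
  · rw [h, h2]; nlinarith only [hd, h1]
  · rw [h, h2]; nlinarith only [hd, h1]

lemma huber_le_sq (d w : ℝ) (hd : 0 < d) : huber d w ≤ w ^ 2 := by
  rcases hub_cases d w hd with ⟨h1, h, h2⟩ | ⟨h1, h, h2⟩ | ⟨h1, h, h2⟩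
  · rw [h2]
  · rw [h2]; linarith only [sq_nonneg (w - d)]
  · rw [h2]; linarith only [sq_nonneg (w + d)]

lemma huber_le_lin (d w : ℝ) (hd : 0 < d) : huber d w ≤ 2 * d * |w| := by
  rcases hub_cases d w hd with ⟨h1, h, h2⟩ | ⟨h1, h, h2⟩ | ⟨h1, h, h2⟩
  · rw [h2, ← sq_abs]
    nlinarith only [hd, h1, abs_nonneg w]
  · rw [h2, abs_of_pos (by linarith)]; nlinarith only []
  · rw [h2, abs_of_neg (by linarith)]; nlinarith only []

/-- beyond the threshold, `huber` is at least `d |w|` -/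
lemma huber_ge_lin (d w : ℝ) (hd : 0 < d) (h : d ≤ |w|) : d * |w| ≤ huber d w := by
  rcases hub_cases d w hd with ⟨h1, -, h2⟩ | ⟨h1, -, h2⟩ | ⟨h1, -, h2⟩
  · rw [h2, ← sq_abs]
    nlinarith only [hd, h]
  · rw [h2]
    have e : |w| = w := abs_of_pos (by linarith only [hd, h1])
    rw [e]; nlinarith only [hd, h1]
  · rw [h2]
    have e : |w| = -w := abs_of_neg (by linarith)
    rw [e]; nlinarith only [hd, h1]

lemma clip_mul_le (d w : ℝ) (hd : 0 < d) : clip d w * w ≤ huber d w := by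
  rcases hub_cases d w hd with ⟨h1, h, h2⟩ | ⟨h1, h, h2⟩ | ⟨h1, h, h2⟩
  · rw [h, h2]; linarith only []
  · rw [h, h2]; nlinarith only [hd, h1]
  · rw [h, h2]; nlinarith only [hd, h1]

lemma clip_mul_nonneg (d w : ℝ) (hd : 0 < d) : 0 ≤ clip d w * w := by
  rcases hub_cases d w hd with ⟨h1, h, h2⟩ | ⟨h1, h, h2⟩ | ⟨h1, h, h2⟩
  · rw [h]; nlinarith only []
  · rw [h]; nlinarith only [hd, h1]
  · rw [h]; nlinarith only [hd, h1]

/-- convexity -/
lemma huber_convex (d x y : ℝ) (hd : 0 < d) :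
    huber d y ≤ huber d x + 2 * clip d y * (y - x) := by
  rcases hub_cases d y hd with ⟨h1, h, h2⟩ | ⟨h1, h, h2⟩ | ⟨h1, h, h2⟩ <;>
  rcases hub_cases d x hd with ⟨g1, -, g2⟩ | ⟨g1, -, g2⟩ | ⟨g1, -, g2⟩ <;>
  rw [h, h2, g2]
  · linarith only [sq_nonneg (x - y)]
  · have h1' := abs_le.mp h1
    linarith only [sq_nonneg (y - d), mul_nonneg (sub_nonneg.mpr g1.le) (sub_nonneg.mpr h1'.2)]
  · have h1' := abs_le.mp h1
    linarith only [sq_nonneg (y + d), mul_nonneg (sub_nonneg.mpr g1.le) (sub_nonneg.mpr h1'.1)]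
  · have g1' := abs_le.mp g1
    linarith only [sq_nonneg (x - d)]
  · linarith only []
  · nlinarith only [hd, g1]
  · have g1' := abs_le.mp g1
    linarith only [sq_nonneg (x + d)]
  · nlinarith only [hd, g1]
  · linarith only []

/-- second order upper bound -/
lemma huber_taylor (d x y : ℝ) (hd : 0 < d) :
    huber d y ≤ huber d x + 2 * clip d x * (y - x) + (y - x) ^ 2 := by
  rcases hub_cases d y hd with ⟨h1, -, h2⟩ | ⟨h1, -, h2⟩ | ⟨h1, -, h2⟩ <;>
  rcases hub_cases d x hd with ⟨g1, g, g2⟩ | ⟨g1, g, g2⟩ | ⟨g1, g, g2⟩ <;>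
  rw [h2, g, g2]
  · linarith only []
  · have h1' := abs_le.mp h1
    linarith only [mul_nonneg (sub_nonneg.mpr g1.le) (by linarith : (0:ℝ) ≤ x + d - 2 * y)]
  · have h1' := abs_le.mp h1
    linarith only [mul_nonneg (by linarith : (0:ℝ) ≤ -d - x) (by linarith : (0:ℝ) ≤ 2 * y - x + d)]
  · linarith only [sq_nonneg (y - d)]
  · linarith only [sq_nonneg (y - x)]
  · nlinarith only [hd, g1, sq_nonneg (y - d), mul_nonneg (sub_nonneg.mpr h1.le) (sub_nonneg.mpr g1.le)]
  · linarith only [sq_nonneg (y + d)]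
  · nlinarith only [hd, g1, h1]
  · linarith only [sq_nonneg (y - x)]

/-- Lipschitz version -/
lemma huber_lip (d x y : ℝ) (hd : 0 < d) :
    huber d y ≤ huber d x + 2 * clip d x * (y - x) + 4 * d * |y - x| := by
  have h1 := huber_convex d x y hd
  have h2 := abs_le.mp (clip_abs d x hd)
  have h3 := abs_le.mp (clip_abs d y hd)
  rcases le_total 0 (y - x) with h | h
  · rw [abs_of_nonneg h]
    linarith only [h1, mul_nonneg h (by linarith : 0 ≤ d - clip d y), mul_nonneg h (by linarith : 0 ≤ clip d x + d)]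
  · rw [abs_of_nonpos h]
    linarith only [h1, mul_nonneg (neg_nonneg.mpr h) (by linarith : 0 ≤ d + clip d y), mul_nonneg (neg_nonneg.mpr h) (by linarith : 0 ≤ d - clip d x)]

/-- cost of a jump -/
noncomputable def cost (d x : ℝ) : ℝ := min (x ^ 2) (4 * d * |x|)

lemma cost_nonneg (d x : ℝ) (hd : 0 < d) : 0 ≤ cost d x := by
  unfold cost
  exact le_min (sq_nonneg _) (by positivity)

lemma huber_cost (d x y : ℝ) (hd : 0 < d) :
    huber d y ≤ huber d x + 2 * clip d x * (y - x) + cost d (y - x) := by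
  unfold cost
  rcases le_total ((y - x) ^ 2) (4 * d * |y - x|) with h | h
  · rw [min_eq_left h]; exact huber_taylor d x y hd
  · rw [min_eq_right h]; exact huber_lip d x y hd

lemma cost_add (d x y : ℝ) (hd : 0 < d) : cost d (x + y) ≤ 4 * (cost d x + cost d y) := by
  -- reduce to the larger one
  have aux : ∀ a b : ℝ, |b| ≤ |a| → cost d (a + b) ≤ 4 * cost d a := by
    intro a b hab
    have h1 : |a + b| ≤ 2 * |a| := by
      have := abs_add_le a b
      linarith
    unfold cost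
    rcases le_total (a ^ 2) (4 * d * |a|) with h | h
    · rw [min_eq_left h]
      refine (min_le_left _ _).trans ?_
      have : (a + b) ^ 2 ≤ (2 * |a|) ^ 2 := by
        rw [← sq_abs (a + b)]
        exact pow_le_pow_left₀ (abs_nonneg _) h1 2
      rw [mul_pow, sq_abs] at this
      linarith only [this]
    · rw [min_eq_right h]
      refine (min_le_right _ _).trans ?_
      have : 4 * d * |a + b| ≤ 4 * d * (2 * |a|) := mul_le_mul_of_nonneg_left h1 (by positivity)
      have h0 : 0 ≤ d * |a| := by positivity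
      linarith
  rcases le_total |y| |x| with h | h
  · have := aux x y h
    have h2 := cost_nonneg d y hd
    linarith
  · have := aux y x h
    rw [add_comm] at this
    have h2 := cost_nonneg d x hd
    linarith

/-- the key positivity property of the Huber function on a triangle -/
lemma huber_triangle (d a b c : ℝ) (hd : 0 < d) :
    -(2 * clip d a * (b + c) + 2 * clip d b * (a + c) + 2 * clip d c * (a + b)) ≤
      2 * (huber d a + huber d b + huber d c) := by
  obtain ⟨u1, hu1⟩ : ∃ u, u = clip d a := ⟨_, rfl⟩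
  obtain ⟨u2, hu2⟩ : ∃ u, u = clip d b := ⟨_, rfl⟩
  obtain ⟨u3, hu3⟩ : ∃ u, u = clip d c := ⟨_, rfl⟩
  -- decomposition `w = u + h`, `huber = u^2 + 2 u h`
  have dec : ∀ w : ℝ, ∃ h : ℝ, w = clip d w + h ∧ huber d w = (clip d w) ^ 2 + 2 * clip d w * h ∧
      ((h = 0 ∧ |clip d w| ≤ d) ∨ (0 < h ∧ clip d w = d) ∨ (h < 0 ∧ clip d w = -d)) := by
    intro w
    rcases hub_cases d w hd with ⟨h1, h, h2⟩ | ⟨h1, h, h2⟩ | ⟨h1, h, h2⟩
    · exact ⟨0, by rw [h]; ring, by rw [h, h2]; ring, Or.inl ⟨rfl, by rw [h]; exact h1⟩⟩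
    · exact ⟨w - d, by rw [h]; ring, by rw [h, h2]; ring, Or.inr (Or.inl ⟨by linarith, h⟩)⟩
    · exact ⟨w + d, by rw [h]; ring, by rw [h, h2]; ring, Or.inr (Or.inr ⟨by linarith, h⟩)⟩
  obtain ⟨h1, ea, ma, ca⟩ := dec a
  obtain ⟨h2, eb, mb, cb⟩ := dec b
  obtain ⟨h3, ec, mc, cc'⟩ := dec c
  have ba := abs_le.mp (clip_abs d a hd)
  have bb := abs_le.mp (clip_abs d b hd)
  have bc := abs_le.mp (clip_abs d c hd)
  rw [ma, mb, mc]
  rw [← hu1] at ea ca ba ⊢
  rw [← hu2] at eb cb bb ⊢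
  rw [← hu3] at ec cc' bc ⊢
  rw [ea, eb, ec]
  -- each excess contributes non-negatively
  have key : ∀ (S u h : ℝ), ((h = 0 ∧ |u| ≤ d) ∨ (0 < h ∧ u = d) ∨ (h < 0 ∧ u = -d)) →
      (u = d → -d ≤ S) → (u = -d → S ≤ d) → 0 ≤ S * h + u * h := by
    intro S u h hc h1 h2
    rcases hc with ⟨rfl, -⟩ | ⟨hh, rfl⟩ | ⟨hh, rfl⟩
    · simp
    · have := h1 rfl
      nlinarith only [hh, this]
    · have := h2 rfl
      nlinarith only [hh, this]
  have k1 := key (u1 + u2 + u3) u1 h1 ca (fun h => by linarith only [bb, bc, h]) (fun h => by linarith only [bb, bc, h])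
  have k2 := key (u1 + u2 + u3) u2 h2 cb (fun h => by linarith only [ba, bc, h]) (fun h => by linarith only [ba, bc, h])
  have k3 := key (u1 + u2 + u3) u3 h3 cc' (fun h => by linarith only [ba, bb, h]) (fun h => by linarith only [ba, bb, h])
  linarith only [k1, k2, k3, sq_nonneg (u1 + u2 + u3)]

end Vale.Agent.P046.C
end
end

section

section

set_option autoImplicit false

open scoped Classical
open Finset

namespace Vale.Agent.P046.C

open Vale.Agent.P046

variable {n : ℕ}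

/-- supersolutions bound the second moment -/
lemma super_sq (Φ : SimpleGraph (Fin n) → ℝ) (Es : ℝ) (hEs : 0 < Es)
    (h1 : ∀ G, Es - 3 ≤ (numEdges G : ℝ) → (numEdges G : ℝ) < Es → Es ^ 2 ≤ Φ G)
    (h2 : ∀ G, Es ≤ (numEdges G : ℝ) → ((numEdges G : ℝ) ^ 2 ≤ Φ G ∨
      ((triangles G).Nonempty ∧
        ∑ t ∈ triangles G, Φ (removeTriangle G t) ≤ (triangles G).card * Φ G)))
    (k : ℕ) (G : SimpleGraph (Fin n)) (hk : numEdges G ≤ k) :
    ((numEdges G : ℝ) < Es → V (fun H => (numEdges H : ℝ) ^ 2) k G ≤ Es ^ 2) ∧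
    (Es ≤ (numEdges G : ℝ) → V (fun H => (numEdges H : ℝ) ^ 2) k G ≤ Φ G) := by
  constructor
  · intro h
    refine (V_le_sq k G).trans ?_
    exact pow_le_pow_left₀ (by positivity) h.le 2
  induction k generalizing G with
  | zero =>
    intro h
    have h0 : numEdges G = 0 := by omega
    rw [h0] at h
    simp only [Nat.cast_zero] at h
    linarith only [hEs, h]
  | succ k ih =>
    intro h
    rcases h2 G h with h3 | ⟨hT, h3⟩
    · exact (V_le_sq (k + 1) G).trans h3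
    · rw [V_succ_of_nonempty _ _ _ hT]
      have hc : (0 : ℝ) < (triangles G).card := by exact_mod_cast hT.card_pos
      rw [div_le_iff₀ hc]
      calc (∑ t ∈ triangles G, V (fun H => (numEdges H : ℝ) ^ 2) k (removeTriangle G t))
          ≤ ∑ t ∈ triangles G, Φ (removeTriangle G t) := by
            refine Finset.sum_le_sum fun t ht => ?_
            have h5 := numEdges_removeTriangle G t ht
            have h6 : (numEdges (removeTriangle G t) : ℝ) + 3 = numEdges G := by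
              exact_mod_cast h5
            rcases lt_or_ge (numEdges (removeTriangle G t) : ℝ) Es with h7 | h7
            · refine le_trans ?_ (h1 _ (by linarith only [h, h6]) h7)
              refine (V_le_sq k _).trans ?_
              exact pow_le_pow_left₀ (by positivity) h7.le 2
            · exact ih _ (by omega) h7
        _ ≤ (triangles G).card * Φ G := h3
        _ = Φ G * (triangles G).card := mul_comm _ _

/-- expectations of functions bounded by one are bounded by one -/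
lemma V_le_one (f : SimpleGraph (Fin n) → ℝ) (hf : ∀ H, f H ≤ 1) (k : ℕ)
    (G : SimpleGraph (Fin n)) : V f k G ≤ 1 := by
  unfold V
  calc expect (run k G) f ≤ expect (run k G) (fun _ => 1) := expect_mono _ _ _ hf
    _ = 1 := expect_const _ _

/-- supersolutions bound the probability of a bad event at a given level -/
lemma super_level (Φ : SimpleGraph (Fin n) → ℝ) (f : SimpleGraph (Fin n) → ℝ) (e1 : ℕ)
    (hf : ∀ H, f H ≤ 1)
    (h0 : ∀ G, numEdges G = e1 → f G ≤ Φ G)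
    (h2 : ∀ G, e1 < numEdges G → (1 ≤ Φ G ∨
      ((triangles G).Nonempty ∧
        ∑ t ∈ triangles G, Φ (removeTriangle G t) ≤ (triangles G).card * Φ G)))
    (k : ℕ) (G : SimpleGraph (Fin n)) (hk : numEdges G = e1 + 3 * k) :
    V f k G ≤ Φ G := by
  induction k generalizing G with
  | zero =>
    rw [V_zero]
    exact h0 G (by omega)
  | succ k ih =>
    rcases h2 G (by omega) with h3 | ⟨hT, h3⟩
    · exact (V_le_one f hf (k + 1) G).trans h3
    · rw [V_succ_of_nonempty _ _ _ hT]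
      have hc : (0 : ℝ) < (triangles G).card := by exact_mod_cast hT.card_pos
      rw [div_le_iff₀ hc]
      calc (∑ t ∈ triangles G, V f k (removeTriangle G t))
          ≤ ∑ t ∈ triangles G, Φ (removeTriangle G t) := by
            refine Finset.sum_le_sum fun t ht => ?_
            have h5 := numEdges_removeTriangle G t ht
            exact ih _ (by omega)
        _ ≤ (triangles G).card * Φ G := h3
        _ = Φ G * (triangles G).card := mul_comm _ _

end Vale.Agent.P046.C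
end
end

section

section

set_option autoImplicit false

open scoped Classical
open Finset

namespace Vale.Agent.P046.C

open Vale.Agent.P046 Vale.Agent.P046.OS

variable {n : ℕ}

lemma pow8_taylor (z d : ℝ) :
    (z + d) ^ 8 ≤ z ^ 8 + 8 * z ^ 7 * d + 250 * (z ^ 6 * d ^ 2 + d ^ 8) := by
  have hb : ∀ i : ℕ, i ≤ 6 → |z| ^ i * |d| ^ (8 - i) ≤ z ^ 6 * d ^ 2 + d ^ 8 := by
    intro i hi
    have hz : z ^ 6 = |z| ^ 6 := by rw [← abs_pow, abs_of_nonneg (by positivity)]
    have hd2 : d ^ 2 = |d| ^ 2 := by rw [← abs_pow, abs_of_nonneg (by positivity)]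
    have hd8 : d ^ 8 = |d| ^ 8 := by rw [← abs_pow, abs_of_nonneg (by positivity)]
    rw [hz, hd2, hd8]
    have h0 := abs_nonneg z
    have h1 := abs_nonneg d
    rcases le_total |z| |d| with h | h
    · calc |z| ^ i * |d| ^ (8 - i) ≤ |d| ^ i * |d| ^ (8 - i) := by gcongr
        _ = |d| ^ 8 := by rw [← pow_add]; congr 1; omega
        _ ≤ _ := by linarith only [mul_nonneg (pow_nonneg h0 6) (pow_nonneg h1 2)]
    · calc |z| ^ i * |d| ^ (8 - i) = |z| ^ i * (|d| ^ (6 - i) * |d| ^ 2) := by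
            rw [← pow_add]; congr 2; omega
        _ ≤ |z| ^ i * (|z| ^ (6 - i) * |d| ^ 2) := by gcongr
        _ = |z| ^ 6 * |d| ^ 2 := by rw [← mul_assoc, ← pow_add]; congr 2; omega
        _ ≤ _ := by linarith only [pow_nonneg h1 8]
  have e5 := hb 5 (by norm_num)
  have e4 := hb 4 (by norm_num)
  have e3 := hb 3 (by norm_num)
  have e2 := hb 2 (by norm_num)
  have e1 := hb 1 (by norm_num)
  have g : ∀ i j : ℕ, z ^ i * d ^ j ≤ |z| ^ i * |d| ^ j := by
    intro i j
    rw [← abs_pow, ← abs_pow, ← abs_mul]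
    exact le_abs_self _
  have g5 := g 5 3
  have g4 := g 4 4
  have g3 := g 3 5
  have g2 := g 2 6
  have g1 := g 1 7
  norm_num at e5 e4 e3 e2 e1 g1
  have expand : (z + d) ^ 8 = z ^ 8 + 8 * z ^ 7 * d + 28 * (z ^ 6 * d ^ 2) + 56 * (z ^ 5 * d ^ 3)
    + 70 * (z ^ 4 * d ^ 4) + 56 * (z ^ 3 * d ^ 5) + 28 * (z ^ 2 * d ^ 6) + 8 * (z * d ^ 7) + d ^ 8 := by
    ring
  rw [expand]
  have p : 0 ≤ z ^ 6 * d ^ 2 := by positivity
  have p8 : 0 ≤ d ^ 8 := by positivity
  nlinarith only [g4, g3, e4, e3, e1, g1, p8]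

lemma young8 (a b : ℝ) : 8 * (|a| ^ 7 * |b|) ≤ 7 * a ^ 8 + b ^ 8 := by
  have ha : a ^ 8 = |a| ^ 8 := by rw [← abs_pow, abs_of_nonneg (by positivity)]
  have hb : b ^ 8 = |b| ^ 8 := by rw [← abs_pow, abs_of_nonneg (by positivity)]
  rw [ha, hb]
  obtain ⟨x, hx⟩ : ∃ x, x = |a| := ⟨_, rfl⟩
  obtain ⟨y, hy⟩ : ∃ y, y = |b| := ⟨_, rfl⟩
  have hx0 : 0 ≤ x := by rw [hx]; exact abs_nonneg _
  have hy0 : 0 ≤ y := by rw [hy]; exact abs_nonneg _
  rw [← hx, ← hy]
  have : 7 * x ^ 8 + y ^ 8 - 8 * (x ^ 7 * y) =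
    (x - y) ^ 2 * (7 * x ^ 6 + 6 * x ^ 5 * y + 5 * x ^ 4 * y ^ 2 + 4 * x ^ 3 * y ^ 3 +
      3 * x ^ 2 * y ^ 4 + 2 * x * y ^ 5 + y ^ 6) := by ring
  have h2 : 0 ≤ (x - y) ^ 2 * (7 * x ^ 6 + 6 * x ^ 5 * y + 5 * x ^ 4 * y ^ 2 + 4 * x ^ 3 * y ^ 3 +
      3 * x ^ 2 * y ^ 4 + 2 * x * y ^ 5 + y ^ 6) := by positivity
  linarith only [h2]

lemma abs7_le (z c : ℝ) (hc : 0 < c) (K : ℝ) (hK : 0 ≤ K) :
    K * |z| ^ 7 ≤ c * z ^ 8 + K ^ 8 / c ^ 7 := by
  have hz : z ^ 8 = |z| ^ 8 := by rw [← abs_pow, abs_of_nonneg (by positivity)]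
  rw [hz]
  have h0 := abs_nonneg z
  rcases le_total K (c * |z|) with h | h
  · have : K * |z| ^ 7 ≤ (c * |z|) * |z| ^ 7 := by gcongr
    have h2 : 0 ≤ K ^ 8 / c ^ 7 := by positivity
    linarith only [this, h2]
  · have h1 : |z| ≤ K / c := by rw [le_div_iff₀ hc]; linarith
    have : K * |z| ^ 7 ≤ K * (K / c) ^ 7 := by gcongr
    have h3 : K * (K / c) ^ 7 = K ^ 8 / c ^ 7 := by rw [div_pow]; ring
    have h4 : 0 ≤ c * |z| ^ 8 := by positivity
    linarith only [this, h3, h4]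

lemma pow6_le (z c : ℝ) (hc : 0 < c) (K : ℝ) (hK : 0 ≤ K) :
    K * z ^ 6 ≤ c * z ^ 8 + K ^ 4 / c ^ 3 := by
  rcases le_total K (c * z ^ 2) with h | h
  · have : K * z ^ 6 ≤ (c * z ^ 2) * z ^ 6 := by gcongr
    have h2 : 0 ≤ K ^ 4 / c ^ 3 := by positivity
    linarith only [this, h2]
  · have h1 : z ^ 2 ≤ K / c := by rw [le_div_iff₀ hc]; linarith
    have h5 : z ^ 6 = (z ^ 2) ^ 3 := by ring
    have : K * z ^ 6 ≤ K * (K / c) ^ 3 := by rw [h5]; gcongr
    have h3 : K * (K / c) ^ 3 = K ^ 4 / c ^ 3 := by rw [div_pow]; ring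
    have h4 : 0 ≤ c * z ^ 8 := by positivity
    linarith only [this, h3, h4]

/-- loss of codegree of an arbitrary pair -/
noncomputable def ll (G : SimpleGraph (Fin n)) (t : Finset (Fin n)) (u v : Fin n) : ℝ :=
  ∑ w, if G.Adj u w ∧ G.Adj v w then (if (u ∈ t ∧ w ∈ t) ∨ (v ∈ t ∧ w ∈ t) then (1:ℝ) else 0) else 0

lemma ll_nonneg (G : SimpleGraph (Fin n)) (t : Finset (Fin n)) (u v : Fin n) : 0 ≤ ll G t u v := by
  unfold ll
  refine Finset.sum_nonneg fun w _ => ?_
  split_ifs <;> norm_num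

lemma codeg_remove_ll (G : SimpleGraph (Fin n)) (t : Finset (Fin n)) (u v : Fin n) :
    (codeg (removeTriangle G t) u v : ℝ) = codeg G u v - ll G t u v := by
  rw [codeg_real, codeg_real, ll, ← Finset.sum_sub_distrib]
  refine Finset.sum_congr rfl fun w _ => ?_
  simp only [removeTriangle_adj]
  by_cases h1 : G.Adj u w ∧ G.Adj v w
  · rw [if_pos h1, if_pos h1]
    by_cases h2 : (u ∈ t ∧ w ∈ t) ∨ (v ∈ t ∧ w ∈ t)
    · have h5 : ¬ ((G.Adj u w ∧ ¬ (u ∈ t ∧ w ∈ t)) ∧ (G.Adj v w ∧ ¬ (v ∈ t ∧ w ∈ t))) := by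
        rintro ⟨h3, h4⟩
        rcases h2 with h | h
        · exact h3.2 h
        · exact h4.2 h
      rw [if_pos h2, if_neg h5]
      ring
    · have h5 : ((G.Adj u w ∧ ¬ (u ∈ t ∧ w ∈ t)) ∧ (G.Adj v w ∧ ¬ (v ∈ t ∧ w ∈ t))) :=
        ⟨⟨h1.1, fun h => h2 (Or.inl h)⟩, ⟨h1.2, fun h => h2 (Or.inr h)⟩⟩
      rw [if_neg h2, if_pos h5]
      ring
  · rw [if_neg h1, if_neg h1, if_neg (fun h => h1 ⟨h.1.1, h.2.1⟩)]
    ring

lemma ll_le_two (G : SimpleGraph (Fin n)) (t : Finset (Fin n)) (ht : t ∈ triangles G)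
    (u v : Fin n) : ll G t u v ≤ 2 := by
  have hcard : t.card = 3 := by
    unfold triangles at ht
    rw [SimpleGraph.mem_cliqueFinset_iff] at ht
    exact ht.card_eq
  have aux : ∀ a : Fin n, a ∈ t → ∑ w, (if G.Adj a w ∧ w ∈ t then (1:ℝ) else 0) ≤ 2 := by
    intro a ha
    rw [← Finset.sum_filter, Finset.sum_const, nsmul_eq_mul, mul_one]
    have : (univ.filter fun w => G.Adj a w ∧ w ∈ t) ⊆ t.erase a := by
      intro w hw
      simp only [Finset.mem_filter, Finset.mem_univ, true_and] at hw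
      rw [Finset.mem_erase]
      exact ⟨(G.ne_of_adj hw.1).symm, hw.2⟩
    have h2 := Finset.card_le_card this
    rw [Finset.card_erase_of_mem ha, hcard] at h2
    exact_mod_cast h2
  unfold ll
  by_cases hu : u ∈ t
  · refine le_trans ?_ (aux u hu)
    refine Finset.sum_le_sum fun w _ => ?_
    by_cases h1 : G.Adj u w ∧ G.Adj v w
    · rw [if_pos h1]
      by_cases h2 : w ∈ t
      · rw [if_pos (Or.inl ⟨hu, h2⟩), if_pos ⟨h1.1, h2⟩]
      · rw [if_neg, if_neg (fun h => h2 h.2)]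
        rintro (h | h)
        · exact h2 h.2
        · exact h2 h.2
    · rw [if_neg h1]
      split_ifs <;> norm_num
  · by_cases hv : v ∈ t
    · refine le_trans ?_ (aux v hv)
      refine Finset.sum_le_sum fun w _ => ?_
      by_cases h1 : G.Adj u w ∧ G.Adj v w
      · rw [if_pos h1]
        by_cases h2 : w ∈ t
        · rw [if_pos (Or.inr ⟨hv, h2⟩), if_pos ⟨h1.2, h2⟩]
        · rw [if_neg, if_neg (fun h => h2 h.2)]
          rintro (h | h)
          · exact h2 h.2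
          · exact h2 h.2
      · rw [if_neg h1]
        split_ifs <;> norm_num
    · have : ∀ w, (if G.Adj u w ∧ G.Adj v w then
        (if (u ∈ t ∧ w ∈ t) ∨ (v ∈ t ∧ w ∈ t) then (1:ℝ) else 0) else 0) = 0 := by
        intro w
        have : ¬ ((u ∈ t ∧ w ∈ t) ∨ (v ∈ t ∧ w ∈ t)) := by
          rintro (h | h)
          · exact hu h.1
          · exact hv h.1
        rw [if_neg this]
        simp
      simp only [this, Finset.sum_const_zero]
      norm_num

lemma sum_ll_bounds (G : SimpleGraph (Fin n)) (u v : Fin n) (huv : u ≠ v) :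
    SS G u v - codeg G u v ≤ ∑ t ∈ triangles G, ll G t u v ∧
      ∑ t ∈ triangles G, ll G t u v ≤ SS G u v := by
  have h1 : ∑ t ∈ triangles G, ll G t u v = ∑ w, if G.Adj u w ∧ G.Adj v w then
      (((triangles G).filter (fun t => (u ∈ t ∧ w ∈ t) ∨ (v ∈ t ∧ w ∈ t))).card : ℝ) else 0 := by
    unfold ll
    rw [Finset.sum_comm]
    refine Finset.sum_congr rfl fun w _ => ?_
    by_cases h : G.Adj u w ∧ G.Adj v w
    · simp only [if_pos h]
      rw [Finset.card_filter]
      push_cast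
      rfl
    · simp only [if_neg h, Finset.sum_const_zero]
  have h2 : ∀ w, G.Adj u w ∧ G.Adj v w →
      ((codeg G u w : ℝ) + codeg G v w) - 1 ≤
        (((triangles G).filter (fun t => (u ∈ t ∧ w ∈ t) ∨ (v ∈ t ∧ w ∈ t))).card : ℝ) ∧
      (((triangles G).filter (fun t => (u ∈ t ∧ w ∈ t) ∨ (v ∈ t ∧ w ∈ t))).card : ℝ) ≤
        (codeg G u w : ℝ) + codeg G v w := by
    intro w hw
    have e1 := card_triangles_edge G u w hw.1
    have e2 := card_triangles_edge G v w hw.2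
    have e3 := card_three_le_one G u w v (G.ne_of_adj hw.1) huv (G.ne_of_adj hw.2).symm
    have e4 := Finset.card_union_add_card_inter ((triangles G).filter (fun t => u ∈ t ∧ w ∈ t))
      ((triangles G).filter (fun t => v ∈ t ∧ w ∈ t))
    rw [← Finset.filter_or, ← Finset.filter_and, e1, e2] at e4
    have e5 : ((triangles G).filter (fun t => (u ∈ t ∧ w ∈ t) ∧ (v ∈ t ∧ w ∈ t))).card ≤ 1 := by
      refine le_trans (Finset.card_le_card ?_) e3
      intro t ht
      simp only [Finset.mem_filter] at ht ⊢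
      exact ⟨ht.1, ht.2.1.1, ht.2.1.2, ht.2.2.1⟩
    have e4' : (((triangles G).filter (fun t => (u ∈ t ∧ w ∈ t) ∨ (v ∈ t ∧ w ∈ t))).card : ℝ) +
      (((triangles G).filter (fun t => (u ∈ t ∧ w ∈ t) ∧ (v ∈ t ∧ w ∈ t))).card : ℝ) =
      (codeg G u w : ℝ) + codeg G v w := by exact_mod_cast e4
    have e5' : (((triangles G).filter (fun t => (u ∈ t ∧ w ∈ t) ∧ (v ∈ t ∧ w ∈ t))).card : ℝ) ≤ 1 := by
      exact_mod_cast e5
    have e6 : (0:ℝ) ≤ (((triangles G).filter (fun t => (u ∈ t ∧ w ∈ t) ∧ (v ∈ t ∧ w ∈ t))).card : ℝ) := by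
      positivity
    constructor <;> linarith only [e4', e5']
  rw [h1]
  constructor
  · rw [codeg_real, SS, ← Finset.sum_sub_distrib]
    refine Finset.sum_le_sum fun w _ => ?_
    by_cases h : G.Adj u w ∧ G.Adj v w
    · rw [if_pos h, if_pos h, if_pos h]; exact (h2 w h).1
    · rw [if_neg h, if_neg h, if_neg h]; norm_num
  · rw [SS]
    refine Finset.sum_le_sum fun w _ => ?_
    by_cases h : G.Adj u w ∧ G.Adj v w
    · rw [if_pos h, if_pos h]; exact (h2 w h).2
    · rw [if_neg h, if_neg h]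

end Vale.Agent.P046.C
end
end

section

section

set_option autoImplicit false

open scoped Classical
open Finset

namespace Vale.Agent.P046.C

open Vale.Agent.P046 Vale.Agent.P046.OS

variable {n : ℕ}

/-- numerical facts about `a = (e/(e-3))^2` -/
lemma a_facts (e : ℝ) (he : 1000 ≤ e) :
    1 ≤ (e / (e - 3)) ^ 2 ∧ (e / (e - 3)) ^ 2 ≤ 1 + 62 / (10 * e) ∧
      6 / e ≤ (e / (e - 3)) ^ 2 - 1 ∧ (e / (e - 3)) ^ 2 - 1 ≤ 6 / e + 30 / e ^ 2 := by
  have h3 : 0 < e - 3 := by linarith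
  have he0 : 0 < e := by linarith
  have h0 : (e / (e - 3)) ^ 2 - 1 = (6 * e - 9) / (e - 3) ^ 2 := by
    field_simp
    ring
  have h1 : 6 / e ≤ (6 * e - 9) / (e - 3) ^ 2 := by
    rw [div_le_div_iff₀ he0 (by positivity)]
    linarith only [he]
  have h2 : (6 * e - 9) / (e - 3) ^ 2 ≤ 6 / e + 30 / e ^ 2 := by
    have : 6 / e + 30 / e ^ 2 = (6 * e + 30) / e ^ 2 := by field_simp
    rw [this, div_le_div_iff₀ (by positivity) (by positivity)]
    nlinarith only [he]
  have h4 : 6 / e + 30 / e ^ 2 ≤ 62 / (10 * e) := by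
    have : 6 / e + 30 / e ^ 2 = (6 * e + 30) / e ^ 2 := by field_simp
    rw [this, div_le_div_iff₀ (by positivity) (by positivity)]
    nlinarith only [he]
  refine ⟨?_, ?_, ?_, ?_⟩
  · have : 0 ≤ 6 / e := by positivity
    linarith only [h0, h1, this]
  · linarith
  · linarith only [h0, h1]
  · linarith only [h0, h2]

lemma coef_bound (c T e a ζ : ℝ) (hc : 1000 ≤ c) (he : 1000 ≤ e)
    (hce : 1000 * c ≤ e) (hζ : |ζ| ≤ 1 / 100)
    (hT : T = (1 + ζ) * c * e / 3) (ha : a = (e / (e - 3)) ^ 2) :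
    |T * (a - 1) - 2 * a * c| ≤ 2 * c * |ζ| + 1 / 10 := by
  obtain ⟨a1, a2, a3, a4⟩ := a_facts e he
  rw [← ha] at a1 a2 a3 a4
  have hc0 : 0 < c := by linarith only [hc]
  have he0 : 0 < e := by linarith only [hc, hce]
  have hζ' := abs_le.mp hζ
  have h1 : T * (a - 1) - 2 * a * c = 2 * c * ζ + ((1 + ζ) * c * (e * (a - 1) - 6) / 3 - 2 * c * (a - 1)) := by
    rw [hT]; ring
  have h2 : 0 ≤ e * (a - 1) - 6 := by
    have : e * (6 / e) ≤ e * (a - 1) := mul_le_mul_of_nonneg_left a3 he0.le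
    rw [mul_div_cancel₀ _ he0.ne'] at this
    linarith only [this]
  have h3 : e * (a - 1) - 6 ≤ 30 / e := by
    have : e * (a - 1) ≤ e * (6 / e + 30 / e ^ 2) := mul_le_mul_of_nonneg_left a4 he0.le
    have h4 : e * (6 / e + 30 / e ^ 2) = 6 + 30 / e := by field_simp
    linarith only [this, h4]
  have hcev : c / e ≤ 1 / 1000 := by
    rw [div_le_div_iff₀ he0 (by norm_num)]; linarith only [hce]
  have h5 : (1 + ζ) * c * (e * (a - 1) - 6) / 3 ≤ 1 / 20 := by
    calc (1 + ζ) * c * (e * (a - 1) - 6) / 3 ≤ (1 + 1 / 100) * c * (30 / e) / 3 := by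
          gcongr
          linarith only [hζ']
      _ = (101 / 10) * (c / e) := by ring
      _ ≤ 1 / 20 := by linarith only [hcev]
  have h6 : 0 ≤ (1 + ζ) * c * (e * (a - 1) - 6) / 3 := by
    have : 0 ≤ 1 + ζ := by linarith only [hζ']
    positivity
  have h7 : 2 * c * (a - 1) ≤ 1 / 20 := by
    calc 2 * c * (a - 1) ≤ 2 * c * (62 / (10 * e)) := by gcongr; linarith only [a2]
      _ = (124 / 10) * (c / e) := by ring
      _ ≤ 1 / 20 := by linarith only [hcev]
  have h8 : 0 ≤ 2 * c * (a - 1) := by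
    have : 0 ≤ a - 1 := by linarith only [a1]
    positivity
  rw [h1]
  calc _ ≤ |2 * c * ζ| + |(1 + ζ) * c * (e * (a - 1) - 6) / 3 - 2 * c * (a - 1)| := abs_add_le _ _
    _ ≤ 2 * c * |ζ| + 1 / 10 := by
        rw [abs_mul, abs_of_pos (by positivity : (0:ℝ) < 2 * c)]
        have : |(1 + ζ) * c * (e * (a - 1) - 6) / 3 - 2 * c * (a - 1)| ≤ 1 / 10 := by
          rw [abs_le]; constructor <;> linarith only [h6, h7, h5, h8]
        linarith only [this]

lemma first_bound (c T e a z ζ Y L1 sw δ : ℝ) (hc : 1000 ≤ c) (he : 1000 ≤ e)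
    (hce : 1000 * c ≤ e) (hY : Y = c * (1 + z)) (hz : |z| ≤ 1 / 100) (hζ : |ζ| ≤ 1 / 100)
    (hT : T = (1 + ζ) * c * e / 3) (ha : a = (e / (e - 3)) ^ 2)
    (hL1 : L1 = c * (2 * Y + sw) - δ) (hδ0 : 0 ≤ δ) (hδ : δ ≤ Y) :
    |T * ((a - 1) * (1 + z)) - a / c * L1| ≤
      (202 / 100) * c * |ζ| + (1 + 1 / 100) * |sw| + 3 / 2 := by
  obtain ⟨a1, a2, a3, a4⟩ := a_facts e he
  have hcoef := coef_bound c T e a ζ hc he hce hζ hT ha
  rw [← ha] at a1 a2 a3 a4
  have hc0 : 0 < c := by linarith only [hc]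
  have he0 : 0 < e := by linarith only [hc, hce]
  have hz' := abs_le.mp hz
  have ha62 : a - 1 ≤ 1 / 100 := by
    have : 62 / (10 * e) ≤ 1 / 100 := by
      rw [div_le_div_iff₀ (by positivity) (by positivity)]; linarith only [hc, hce]
    linarith only [a2, this]
  have hmain : T * ((a - 1) * (1 + z)) - a / c * L1 =
      (T * (a - 1) - 2 * a * c) * (1 + z) - a * sw + a * (δ / c) := by
    rw [hL1, hY]; field_simp; ring
  have hδc : δ / c ≤ 1 + 1 / 100 := by
    rw [div_le_iff₀ hc0]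
    nlinarith only [hY, hδ, hz', hc]
  have hδc0 : 0 ≤ δ / c := by positivity
  rw [hmain]
  have h1 : |(T * (a - 1) - 2 * a * c) * (1 + z)| ≤ (2 * c * |ζ| + 1 / 10) * (1 + 1 / 100) := by
    rw [abs_mul]
    gcongr
    rw [abs_le]; constructor <;> linarith only [hz']
  have h2 : |a * sw| ≤ (1 + 1 / 100) * |sw| := by
    rw [abs_mul, abs_of_nonneg (by linarith only [a1] : 0 ≤ a)]
    gcongr
    linarith only [ha62]
  have h3 : |a * (δ / c)| ≤ (1 + 1 / 100) * (1 + 1 / 100) := by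
    rw [abs_of_nonneg (by positivity)]
    gcongr
    linarith only [ha62]
  have h4 := abs_add_le ((T * (a - 1) - 2 * a * c) * (1 + z) - a * sw) (a * (δ / c))
  have h5 := abs_sub ((T * (a - 1) - 2 * a * c) * (1 + z)) (a * sw)
  have h6 : 0 ≤ c * |ζ| := by positivity
  linarith only [h1, h2, h3, h4, h5]

/-- the real-number core of the one-pair estimate. -/
lemma pair_core (c T e a z ζ Y L1 sw δ Q : ℝ) (hc : 1000 ≤ c) (he : 1000 ≤ e)
    (hce : 1000 * c ≤ e) (hY : Y = c * (1 + z)) (hz : |z| ≤ 1 / 100) (hζ : |ζ| ≤ 1 / 100)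
    (hT : T = (1 + ζ) * c * e / 3) (ha : a = (e / (e - 3)) ^ 2)
    (hL1 : L1 = c * (2 * Y + sw) - δ) (hδ0 : 0 ≤ δ) (hδ : δ ≤ Y)
    (hsw : 8 * (|z| ^ 7 * |sw|) ≤ 14 * Y * z ^ 8 + Q) :
    8 * z ^ 7 * (T * ((a - 1) * (1 + z)) - a / c * L1) ≤
      30 * c * z ^ 8 + 3 * c * ζ ^ 8 + (1 + 1 / 100) * Q + 12 ^ 8 / c ^ 7 := by
  have habs := first_bound c T e a z ζ Y L1 sw δ hc he hce hY hz hζ hT ha hL1 hδ0 hδ
  have hc0 : 0 < c := by linarith only [hc]
  have hz' := abs_le.mp hz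
  obtain ⟨X, hX⟩ : ∃ X, X = T * ((a - 1) * (1 + z)) - a / c * L1 := ⟨_, rfl⟩
  rw [← hX] at habs ⊢
  have hup : 8 * z ^ 7 * X ≤ 8 * |z| ^ 7 * |X| := by
    have : 8 * z ^ 7 * X ≤ |8 * z ^ 7 * X| := le_abs_self _
    refine this.trans (le_of_eq ?_)
    rw [abs_mul, abs_mul, abs_pow]
    norm_num
  refine hup.trans ?_
  have h7 : 0 ≤ |z| ^ 7 := by positivity
  have hy := young8 z ζ
  have h12 := abs7_le z c hc0 12 (by norm_num)
  have step1 : 8 * |z| ^ 7 * |X| ≤
      8 * |z| ^ 7 * ((202 / 100) * c * |ζ| + (1 + 1 / 100) * |sw| + 3 / 2) :=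
    mul_le_mul_of_nonneg_left habs (by positivity)
  have step2 : 8 * |z| ^ 7 * ((202 / 100) * c * |ζ| + (1 + 1 / 100) * |sw| + 3 / 2) =
      (202 / 100) * c * (8 * (|z| ^ 7 * |ζ|)) + (1 + 1 / 100) * (8 * (|z| ^ 7 * |sw|))
        + 12 * |z| ^ 7 := by ring
  have step3 : (202 / 100) * c * (8 * (|z| ^ 7 * |ζ|)) ≤ (202 / 100) * c * (7 * z ^ 8 + ζ ^ 8) :=
    mul_le_mul_of_nonneg_left hy (by positivity)
  have step4 : (1 + 1 / 100) * (8 * (|z| ^ 7 * |sw|)) ≤ (1 + 1 / 100) * (14 * Y * z ^ 8 + Q) :=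
    mul_le_mul_of_nonneg_left hsw (by norm_num)
  have hYc : Y ≤ (1 + 1 / 100) * c := by rw [hY]; nlinarith only [hz', hc]
  have hz8 : 0 ≤ z ^ 8 := by positivity
  have h9 : 14 * Y * z ^ 8 ≤ 14 * ((1 + 1 / 100) * c) * z ^ 8 :=
    mul_le_mul_of_nonneg_right (by linarith only [hYc]) hz8
  have h10 : 0 ≤ c * z ^ 8 := by positivity
  have h11 : 0 ≤ c * ζ ^ 8 := by positivity
  linarith only [hsw, h12, step1, step3, h9, h10, h11]

lemma pair_core2 (c T e a z ζ Y L1 sw δ : ℝ) (hc : 1000 ≤ c) (he : 1000 ≤ e)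
    (hce : 1000 * c ≤ e) (hY : Y = c * (1 + z)) (hz : |z| ≤ 1 / 100) (hζ : |ζ| ≤ 1 / 100)
    (hT : T = (1 + ζ) * c * e / 3) (ha : a = (e / (e - 3)) ^ 2)
    (hL1 : L1 = c * (2 * Y + sw) - δ) (hδ0 : 0 ≤ δ) (hsw : |sw| ≤ Y / 10) :
    2 * T * ((a - 1) * (1 + z)) ^ 2 + 4 * (a / c) ^ 2 * L1 ≤ 10 := by
  obtain ⟨a1, a2, a3, a4⟩ := a_facts e he
  rw [← ha] at a1 a2 a3 a4
  have hc0 : 0 < c := by linarith only [hc]
  have he0 : 0 < e := by linarith only [hc, hce]
  have hz' := abs_le.mp hz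
  have hζ' := abs_le.mp hζ
  have hcev : c / e ≤ 1 / 1000 := by
    rw [div_le_div_iff₀ he0 (by norm_num)]; linarith only [hce]
  have ha62 : a - 1 ≤ 1 / 100 := by
    have : 62 / (10 * e) ≤ 1 / 100 := by
      rw [div_le_div_iff₀ (by positivity) (by positivity)]; linarith only [hc, hce]
    linarith only [a2, this]
  have ha0 : 0 ≤ a - 1 := by linarith only [a1]
  have h1z : 0 ≤ 1 + z := by linarith only [hz']
  have hY0 : 0 < Y := by rw [hY]; have : 0 < 1 + z := by linarith only [hz']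
                         positivity
  have hYc : Y ≤ (1 + 1 / 100) * c := by rw [hY]; nlinarith only [hz', hc]
  have t1 : 2 * T * ((a - 1) * (1 + z)) ^ 2 ≤ 1 := by
    have hT0 : T ≤ (1 + 1 / 100) * c * e / 3 := by
      rw [hT]; gcongr; linarith only [hζ']
    have hTn : 0 ≤ T := by
      rw [hT]
      have : 0 ≤ 1 + ζ := by linarith only [hζ']
      positivity
    calc 2 * T * ((a - 1) * (1 + z)) ^ 2
        ≤ 2 * ((1 + 1 / 100) * c * e / 3) * ((62 / (10 * e)) * (1 + 1 / 100)) ^ 2 := by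
          gcongr
          · linarith only [a2]
          · linarith only [hz']
      _ = (2 * (101 / 100) / 3 * (62 / 10) ^ 2 * (101 / 100) ^ 2) * (c / e) := by
          field_simp
          ring
      _ ≤ (2 * (101 / 100) / 3 * (62 / 10) ^ 2 * (101 / 100) ^ 2) * (1 / 1000) := by gcongr
      _ ≤ 1 := by norm_num
  have t2 : 4 * (a / c) ^ 2 * L1 ≤ 9 := by
    have hsw' := abs_le.mp hsw
    have hL : L1 ≤ c * ((21 / 10) * Y) := by
      rw [hL1]; nlinarith only [hδ0, hsw', hc]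
    calc 4 * (a / c) ^ 2 * L1 ≤ 4 * (a / c) ^ 2 * (c * ((21 / 10) * ((1 + 1 / 100) * c))) := by
          gcongr
          refine hL.trans ?_
          gcongr
      _ = 4 * (21 / 10) * (101 / 100) * a ^ 2 := by field_simp; ring
      _ ≤ 4 * (21 / 10) * (101 / 100) * (1 + 1 / 100) ^ 2 := by gcongr; linarith only [ha62]
      _ ≤ 9 := by norm_num
  linarith only [t1, t2]

end Vale.Agent.P046.C
end
end

section

section

set_option autoImplicit false

open scoped Classical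
open Finset

namespace Vale.Agent.P046.C

open Vale.Agent.P046 Vale.Agent.P046.OS

variable {n : ℕ}

lemma numEdges_remove_real (G : SimpleGraph (Fin n)) (t : Finset (Fin n)) (ht : t ∈ triangles G) :
    (numEdges (removeTriangle G t) : ℝ) = (numEdges G : ℝ) - 3 := by
  have := numEdges_removeTriangle G t ht
  have h2 : (numEdges (removeTriangle G t) : ℝ) + 3 = (numEdges G : ℝ) := by exact_mod_cast this
  linarith only [h2]

lemma cc_pos (G : SimpleGraph (Fin n)) (hn : 0 < n) (hE : 0 < numEdges G) : 0 < cc G := by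
  unfold cc
  have h1 : (0:ℝ) < numEdges G := by exact_mod_cast hE
  have h2 : (0:ℝ) < n := by exact_mod_cast hn
  positivity

lemma rr_eq_div (G : SimpleGraph (Fin n)) (u v : Fin n) : rr G u v = (codeg G u v : ℝ) / cc G := by
  unfold rr cc
  rw [div_div_eq_mul_div]

lemma codeg_eq (G : SimpleGraph (Fin n)) (hc : 0 < cc G) (u v : Fin n) :
    (codeg G u v : ℝ) = cc G * (1 + zz G u v) := by
  unfold zz
  rw [rr_eq_div]
  field_simp
  ring


lemma zz_remove (G : SimpleGraph (Fin n)) (t : Finset (Fin n)) (ht : t ∈ triangles G)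
    (u v : Fin n) (hn : 0 < n) (he : 3 < (numEdges G : ℝ)) :
    zz (removeTriangle G t) u v = zz G u v +
      ((((numEdges G : ℝ) / ((numEdges G : ℝ) - 3)) ^ 2 - 1) * (1 + zz G u v) -
        ((numEdges G : ℝ) / ((numEdges G : ℝ) - 3)) ^ 2 / cc G * ll G t u v) := by
  have hn0 : (0:ℝ) < n := by exact_mod_cast hn
  unfold zz rr cc
  rw [codeg_remove_ll, numEdges_remove_real G t ht]
  have h3 : (numEdges G : ℝ) - 3 ≠ 0 := by linarith only [he]
  have h4 : (numEdges G : ℝ) ≠ 0 := by linarith only [he]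
  field_simp
  ring

/-- `rho - 1` as an average -/
lemma rho_sub_one (G : SimpleGraph (Fin n)) (hn : 0 < n) (hE : 0 < numEdges G) :
    rho G - 1 = edgeSum G (fun u v => zz G u v) / (2 * numEdges G) := by
  have hc := cc_pos G hn hE
  have hE0 : (0:ℝ) < numEdges G := by exact_mod_cast hE
  have hn0 : (0:ℝ) < n := by exact_mod_cast hn
  have h1 := OS.edgeSum_codeg G
  have h2 : edgeSum G (fun u v => (codeg G u v : ℝ)) =
      cc G * (2 * numEdges G + edgeSum G (fun u v => zz G u v)) := by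
    rw [← edgeSum_one, ← edgeSum_add, ← edgeSum_mul]
    congr 1
    funext u v
    exact codeg_eq G hc u v
  rw [h2] at h1
  have h3 : rho G = 3 * ((triangles G).card : ℝ) / (cc G * numEdges G) := by
    unfold rho cc
    field_simp
  rw [h3]
  have h4 : 3 * ((triangles G).card : ℝ) = cc G * (2 * numEdges G + edgeSum G (fun u v => zz G u v)) / 2 := by
    linarith only [h1]
  rw [h4]
  field_simp
  ring

lemma T_eq (G : SimpleGraph (Fin n)) (hn : 0 < n) (hE : 0 < numEdges G) :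
    ((triangles G).card : ℝ) = (1 + (rho G - 1)) * cc G * numEdges G / 3 := by
  have hE0 : (0:ℝ) < numEdges G := by exact_mod_cast hE
  have hn0 : (0:ℝ) < n := by exact_mod_cast hn
  unfold rho cc
  field_simp
  ring

/-- sum of eighth powers at neighbouring pairs -/
noncomputable def Q8 (G : SimpleGraph (Fin n)) (u v : Fin n) : ℝ :=
  ∑ w, if G.Adj u w ∧ G.Adj v w then (zz G u w ^ 8 + zz G v w ^ 8) else 0

lemma SS_eq (G : SimpleGraph (Fin n)) (hc : 0 < cc G) (u v : Fin n) :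
    SS G u v = cc G * (2 * (codeg G u v : ℝ) + cc G * ww G u v) := by
  have h1 : cc G * ww G u v = ∑ x, if G.Adj u x ∧ G.Adj v x then (zz G u x + zz G v x) else 0 := by
    unfold ww
    field_simp
  rw [h1, codeg_real, Finset.mul_sum, ← Finset.sum_add_distrib, Finset.mul_sum]
  unfold SS
  refine Finset.sum_congr rfl fun x _ => ?_
  by_cases h : G.Adj u x ∧ G.Adj v x
  · rw [if_pos h, if_pos h, if_pos h, codeg_eq G hc, codeg_eq G hc]; ring
  · rw [if_neg h, if_neg h, if_neg h]; ring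

lemma sw_abs (G : SimpleGraph (Fin n)) (hc : 0 < cc G) (u v : Fin n)
    (hz : ∀ a b, a ≠ b → |zz G a b| ≤ 1 / 100) :
    |cc G * ww G u v| ≤ (codeg G u v : ℝ) / 10 ∧
    8 * (|zz G u v| ^ 7 * |cc G * ww G u v|) ≤
      14 * (codeg G u v : ℝ) * zz G u v ^ 8 + Q8 G u v := by
  have hsum : cc G * ww G u v =
      ∑ x, if G.Adj u x ∧ G.Adj v x then (zz G u x + zz G v x) else 0 := by
    unfold ww; field_simp
  have habs : |cc G * ww G u v| ≤
      ∑ x, if G.Adj u x ∧ G.Adj v x then (|zz G u x| + |zz G v x|) else 0 := by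
    rw [hsum]
    refine (Finset.abs_sum_le_sum_abs _ _).trans (Finset.sum_le_sum fun x _ => ?_)
    by_cases h : G.Adj u x ∧ G.Adj v x
    · rw [if_pos h, if_pos h]; exact abs_add_le _ _
    · rw [if_neg h, if_neg h, abs_zero]
  obtain ⟨z, hzd⟩ : ∃ z, z = zz G u v := ⟨_, rfl⟩
  obtain ⟨sw, hswd⟩ : ∃ sw, sw = cc G * ww G u v := ⟨_, rfl⟩
  rw [← hswd] at habs ⊢
  rw [← hzd]
  constructor
  · refine habs.trans ?_
    rw [codeg_real, Finset.sum_div]
    refine Finset.sum_le_sum fun x _ => ?_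
    by_cases h : G.Adj u x ∧ G.Adj v x
    · rw [if_pos h, if_pos h]
      have h1 := hz u x (G.ne_of_adj h.1)
      have h2 := hz v x (G.ne_of_adj h.2)
      linarith
    · rw [if_neg h, if_neg h]; norm_num
  · have h7 : 0 ≤ |z| ^ 7 := by positivity
    have st1 : 8 * (|z| ^ 7 * |sw|) ≤ 8 * (|z| ^ 7 *
          ∑ x, if G.Adj u x ∧ G.Adj v x then (|zz G u x| + |zz G v x|) else 0) :=
      mul_le_mul_of_nonneg_left (mul_le_mul_of_nonneg_left habs h7) (by norm_num)
    have st2 : 8 * (|z| ^ 7 *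
          ∑ x, if G.Adj u x ∧ G.Adj v x then (|zz G u x| + |zz G v x|) else 0) =
        ∑ x, if G.Adj u x ∧ G.Adj v x then
          (8 * (|z| ^ 7 * |zz G u x|) + 8 * (|z| ^ 7 * |zz G v x|)) else 0 := by
      rw [Finset.mul_sum, Finset.mul_sum]
      refine Finset.sum_congr rfl fun x _ => ?_
      split_ifs <;> ring
    have st3 : (∑ x, if G.Adj u x ∧ G.Adj v x then
          (8 * (|z| ^ 7 * |zz G u x|) + 8 * (|z| ^ 7 * |zz G v x|)) else 0) ≤
        ∑ x, ((14 * z ^ 8) * (if G.Adj u x ∧ G.Adj v x then (1:ℝ) else 0) +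
          (if G.Adj u x ∧ G.Adj v x then (zz G u x ^ 8 + zz G v x ^ 8) else 0)) := by
      refine Finset.sum_le_sum fun x _ => ?_
      by_cases h : G.Adj u x ∧ G.Adj v x
      · rw [if_pos h, if_pos h, if_pos h]
        have h1 := young8 z (zz G u x)
        have h2 := young8 z (zz G v x)
        linarith only [h1, h2]
      · rw [if_neg h, if_neg h, if_neg h]; simp
    rw [Finset.sum_add_distrib, ← Finset.mul_sum, ← codeg_real] at st3
    unfold Q8
    linarith only [st1, st2, st3]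

lemma term_bound (c z A B k : ℝ) (hc0 : 0 < c) (hk0 : 0 ≤ k) (hk2 : k ≤ 2)
    (hA0 : 0 ≤ A) (hA1 : A ≤ 1 / (10 * c)) (hB0 : 0 ≤ B) (hB1 : B ≤ (1 + 1 / 100) / c) :
    (z + (A - B * k)) ^ 8 ≤ z ^ 8 + 8 * z ^ 7 * (A - B * k) +
        (250 * (z ^ 6 + (3 / c) ^ 6)) * (2 * A ^ 2 + 4 * B ^ 2 * k) := by
  have hT8 := pow8_taylor z (A - B * k)
  have hd2 : (A - B * k) ^ 2 ≤ 2 * A ^ 2 + 4 * B ^ 2 * k := by
    have h1 : (A - B * k) ^ 2 ≤ 2 * A ^ 2 + 2 * (B * k) ^ 2 := by
      linarith only [sq_nonneg (A + B * k)]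
    have h2 : (B * k) ^ 2 ≤ B ^ 2 * (2 * k) := by
      rw [mul_pow]
      refine mul_le_mul_of_nonneg_left ?_ (sq_nonneg _)
      nlinarith only [hk0, hk2]
    linarith only [h1, h2]
  have habsd : |A - B * k| ≤ 3 / c := by
    have h1 : B * k ≤ (1 + 1 / 100) / c * 2 := mul_le_mul hB1 hk2 hk0 (by positivity)
    have h2 : (1 + 1 / 100) / c * 2 = (202 / 100) * (1 / c) := by ring
    have h3 : 3 / c = 3 * (1 / c) := by ring
    have h4 : 1 / (10 * c) = (1 / 10) * (1 / c) := by field_simp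
    have h5 : 0 < 1 / c := by positivity
    have h6 : 0 ≤ B * k := by positivity
    rw [abs_le]
    constructor <;> linarith only [hA0, h1, h2, h3, h5, hA1, h4, h6]
  have hd8 : (A - B * k) ^ 8 ≤ (3 / c) ^ 6 * (A - B * k) ^ 2 := by
    have h1 : (A - B * k) ^ 8 = |A - B * k| ^ 6 * (A - B * k) ^ 2 := by
      rw [← abs_pow, abs_of_nonneg (by positivity : 0 ≤ (A - B * k) ^ 6)]; ring
    rw [h1]
    exact mul_le_mul_of_nonneg_right (pow_le_pow_left₀ (abs_nonneg _) habsd 6) (sq_nonneg _)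
  have hz6 : 0 ≤ z ^ 6 := by positivity
  have h9 : z ^ 6 * (A - B * k) ^ 2 + (A - B * k) ^ 8 ≤
      (z ^ 6 + (3 / c) ^ 6) * (2 * A ^ 2 + 4 * B ^ 2 * k) := by
    calc _ ≤ z ^ 6 * (A - B * k) ^ 2 + (3 / c) ^ 6 * (A - B * k) ^ 2 := by linarith only [hd8]
      _ = (z ^ 6 + (3 / c) ^ 6) * (A - B * k) ^ 2 := by ring
      _ ≤ _ := mul_le_mul_of_nonneg_left hd2 (by positivity)
  linarith

lemma last_arith (c z W : ℝ) (hc : 1000 ≤ c) (hW : W ≤ 10) :
    (250 * (z ^ 6 + (3 / c) ^ 6)) * W + 12 ^ 8 / c ^ 7 ≤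
      c * z ^ 8 + 10 ^ 14 / c ^ 3 := by
  have hc0 : 0 < c := by linarith
  have h6 := pow6_le z c hc0 2500 (by norm_num)
  have hz6 : 0 ≤ z ^ 6 := by positivity
  have hfin : (250 * (z ^ 6 + (3 / c) ^ 6)) * W ≤
      c * z ^ 8 + 2500 ^ 4 / c ^ 3 + 2500 * (3 / c) ^ 6 := by
    calc _ ≤ (250 * (z ^ 6 + (3 / c) ^ 6)) * 10 := mul_le_mul_of_nonneg_left hW (by positivity)
      _ = 2500 * z ^ 6 + 2500 * (3 / c) ^ 6 := by ring
      _ ≤ _ := by linarith
  have hc3 : 0 < c ^ 3 := by positivity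
  have h1 : 2500 * (3 / c) ^ 6 ≤ (2500 * 3 ^ 6) / c ^ 3 := by
    rw [div_pow, mul_div_assoc', div_le_div_iff₀ (by positivity) hc3]
    have : c ^ 3 ≤ c ^ 6 := pow_le_pow_right₀ (by linarith only [hc]) (by norm_num)
    exact mul_le_mul_of_nonneg_left this (by norm_num)
  have h2 : 12 ^ 8 / c ^ 7 ≤ 12 ^ 8 / c ^ 3 := by
    have : c ^ 3 ≤ c ^ 7 := pow_le_pow_right₀ (by linarith only [hc]) (by norm_num)
    exact div_le_div_of_nonneg_left (by norm_num) hc3 this
  have h3 : 2500 ^ 4 / c ^ 3 + (2500 * 3 ^ 6) / c ^ 3 + 12 ^ 8 / c ^ 3 =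
    (2500 ^ 4 + 2500 * 3 ^ 6 + 12 ^ 8) / c ^ 3 := by ring
  have h4 : (2500 ^ 4 + 2500 * 3 ^ 6 + 12 ^ 8 : ℝ) / c ^ 3 ≤ 10 ^ 14 / c ^ 3 :=
    div_le_div_of_nonneg_right (by norm_num) hc3.le
  linarith

lemma AB_facts (c e a z : ℝ) (hc : 1000 ≤ c) (he : 1000 ≤ e) (hce : 1000 * c ≤ e)
    (hz : |z| ≤ 1 / 100) (ha : a = (e / (e - 3)) ^ 2) :
    0 ≤ (a - 1) * (1 + z) ∧ (a - 1) * (1 + z) ≤ 1 / (10 * c) ∧ 0 ≤ a / c ∧
      a / c ≤ (1 + 1 / 100) / c := by
  obtain ⟨a1, a2, a3, a4⟩ := a_facts e he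
  rw [← ha] at a1 a2 a3 a4
  have hz' := abs_le.mp hz
  have hc0 : 0 < c := by linarith only [hc]
  have he0 : 0 < e := by linarith only [hc, hce]
  have ha62 : a - 1 ≤ 1 / (100 * c) := by
    have : 62 / (10 * e) ≤ 1 / (100 * c) := by
      rw [div_le_div_iff₀ (by positivity) (by positivity)]; linarith only [hc, hce]
    linarith only [a2, this]
  have ha1c : a ≤ 1 + 1 / 100 := by
    have : 1 / (100 * c) ≤ 1 / 100 := by
      rw [div_le_div_iff₀ (by positivity) (by positivity)]; linarith only [hc]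
    linarith only [ha62, this]
  have h1 : 0 ≤ a - 1 := by linarith only [a1]
  have h2 : 0 ≤ 1 + z := by linarith only [hz']
  refine ⟨by positivity, ?_, by positivity, ?_⟩
  · calc (a - 1) * (1 + z) ≤ (1 / (100 * c)) * (1 + 1 / 100) :=
          mul_le_mul ha62 (by linarith only [hz']) h2 (by positivity)
      _ ≤ 1 / (10 * c) := by
          rw [div_mul_eq_mul_div, div_le_div_iff₀ (by positivity) (by positivity)]; linarith only [hc]
  · exact div_le_div_of_nonneg_right ha1c hc0.le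

lemma pair_sum_aux (G : SimpleGraph (Fin n)) (u v : Fin n) (hn : 0 < n)
    (c e a z : ℝ) (hcd : c = cc G) (hed : e = (numEdges G : ℝ)) (ha : a = (e / (e - 3)) ^ 2)
    (hzd : z = zz G u v) (hc : 1000 ≤ c) (he : 1000 ≤ e) (hce : 1000 * c ≤ e)
    (hz : |z| ≤ 1 / 100) :
    ∑ t ∈ triangles G, zz (removeTriangle G t) u v ^ 8 ≤
      ((triangles G).card : ℝ) * z ^ 8 + 8 * z ^ 7 *
        (((triangles G).card : ℝ) * ((a - 1) * (1 + z)) - a / c * ∑ t ∈ triangles G, ll G t u v) +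
        (250 * (z ^ 6 + (3 / c) ^ 6)) * (2 * ((triangles G).card : ℝ) * ((a - 1) * (1 + z)) ^ 2 +
          4 * (a / c) ^ 2 * ∑ t ∈ triangles G, ll G t u v) := by
  obtain ⟨hA0, hA1, hB0, hB1⟩ := AB_facts c e a z hc he hce hz ha
  obtain ⟨A, hA⟩ : ∃ A, A = (a - 1) * (1 + z) := ⟨_, rfl⟩
  obtain ⟨B, hB⟩ : ∃ B, B = a / c := ⟨_, rfl⟩
  rw [← hA] at hA0 hA1 ⊢
  rw [← hB] at hB0 hB1 ⊢
  have hterm : ∀ t ∈ triangles G, zz (removeTriangle G t) u v ^ 8 ≤
      z ^ 8 + 8 * z ^ 7 * (A - B * ll G t u v) +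
        (250 * (z ^ 6 + (3 / c) ^ 6)) * (2 * A ^ 2 + 4 * B ^ 2 * ll G t u v) := by
    intro t ht
    have e1 : zz (removeTriangle G t) u v = z + (A - B * ll G t u v) := by
      rw [zz_remove G t ht u v hn (by rw [← hed]; linarith only [hc, hce]), ← hzd, ← hcd, ← hed, ← ha, hA, hB]
    rw [e1]
    exact term_bound c z A B _ (by linarith only [hc]) (ll_nonneg G t u v) (ll_le_two G t ht u v) hA0 hA1 hB0 hB1
  refine (Finset.sum_le_sum hterm).trans (le_of_eq ?_)
  rw [Finset.sum_add_distrib, Finset.sum_add_distrib, Finset.sum_const, ← Finset.mul_sum,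
    ← Finset.mul_sum, Finset.sum_sub_distrib, Finset.sum_add_distrib, Finset.sum_const,
    Finset.sum_const, ← Finset.mul_sum, ← Finset.mul_sum]
  simp only [nsmul_eq_mul]
  ring

lemma pair_sum (G : SimpleGraph (Fin n)) (u v : Fin n) (huv : u ≠ v) (hn : 0 < n)
    (hc : 1000 ≤ cc G) (he : 1000 ≤ (numEdges G : ℝ)) (hce : 1000 * cc G ≤ numEdges G)
    (hz : ∀ a b, a ≠ b → |zz G a b| ≤ 1 / 100) (hζ : |rho G - 1| ≤ 1 / 100) :
    ∑ t ∈ triangles G, zz (removeTriangle G t) u v ^ 8 ≤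
      (((triangles G).card : ℝ) + 31 * cc G) * zz G u v ^ 8 + 3 * cc G * (rho G - 1) ^ 8 +
        (1 + 1 / 100) * Q8 G u v + 10 ^ 14 / cc G ^ 3 := by
  have hE : 0 < numEdges G := by
    have : (0:ℝ) < numEdges G := by linarith only [hc, hce]
    exact_mod_cast this
  have hcpos : 0 < cc G := by linarith only [hc]
  have hT := T_eq G hn hE
  have hll := sum_ll_bounds G u v huv
  have hcg := codeg_eq G hcpos u v
  obtain ⟨hsw1, hsw8⟩ := sw_abs G hcpos u v hz
  have hzuv := hz u v huv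
  rw [SS_eq G hcpos] at hll
  obtain ⟨c, hcd⟩ : ∃ c, c = cc G := ⟨_, rfl⟩
  obtain ⟨e, hed⟩ : ∃ e, e = (numEdges G : ℝ) := ⟨_, rfl⟩
  obtain ⟨a, ha⟩ : ∃ a, a = (e / (e - 3)) ^ 2 := ⟨_, rfl⟩
  obtain ⟨z, hzd⟩ : ∃ z, z = zz G u v := ⟨_, rfl⟩
  have haux := pair_sum_aux G u v hn c e a z hcd hed ha hzd (by rw [hcd]; exact hc)
    (by rw [hed]; exact he) (by rw [hcd, hed]; exact hce) (by rw [hzd]; exact hzuv)
  obtain ⟨T, hTd⟩ : ∃ T, T = ((triangles G).card : ℝ) := ⟨_, rfl⟩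
  obtain ⟨ζ, hζd⟩ : ∃ ζ, ζ = rho G - 1 := ⟨_, rfl⟩
  obtain ⟨Y, hYd⟩ : ∃ Y, Y = (codeg G u v : ℝ) := ⟨_, rfl⟩
  obtain ⟨L1, hL1d⟩ : ∃ L1, L1 = ∑ t ∈ triangles G, ll G t u v := ⟨_, rfl⟩
  obtain ⟨sw, hswd⟩ : ∃ sw, sw = cc G * ww G u v := ⟨_, rfl⟩
  obtain ⟨Q, hQd⟩ : ∃ Q, Q = Q8 G u v := ⟨_, rfl⟩
  rw [← hswd, ← hYd] at hsw1
  rw [← hswd, ← hYd, ← hzd, ← hQd] at hsw8
  rw [← hswd, ← hYd, ← hL1d, ← hcd] at hll
  rw [← hcd, ← hYd, ← hzd] at hcg
  rw [← hTd, ← hζd, ← hcd, ← hed] at hT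
  rw [← hTd, ← hL1d] at haux
  rw [← hzd] at hzuv
  rw [← hcd] at hc hce
  rw [← hed] at he hce
  rw [← hζd] at hζ
  rw [← hTd, ← hcd, ← hzd, ← hζd, ← hQd]
  obtain ⟨δ, hδd⟩ : ∃ δ, δ = c * (2 * Y + sw) - L1 := ⟨_, rfl⟩
  have hL1 : L1 = c * (2 * Y + sw) - δ := by rw [hδd]; ring
  have hδ0 : 0 ≤ δ := by rw [hδd]; linarith only [hll.2]
  have hδ1 : δ ≤ Y := by rw [hδd]; linarith only [hll.1]
  have core := pair_core c T e a z ζ Y L1 sw δ Q hc he hce hcg hzuv hζ hT ha hL1 hδ0 hδ1 hsw8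
  have core2 := pair_core2 c T e a z ζ Y L1 sw δ hc he hce hcg hzuv hζ hT ha hL1 hδ0 hsw1
  have hlast := last_arith c z _ hc core2
  linarith only [haux, core, hlast]

end Vale.Agent.P046.C
end
end

section

section

set_option autoImplicit false

open scoped Classical
open Finset

namespace Vale.Agent.P046.C

open Vale.Agent.P046 Vale.Agent.P046.OS

variable {n : ℕ}

/-- eighth moment over the edges -/
noncomputable def Phi8 (G : SimpleGraph (Fin n)) : ℝ := edgeSum G (fun u v => zz G u v ^ 8)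

/-- eighth moment over all pairs -/
noncomputable def Z8 (G : SimpleGraph (Fin n)) : ℝ :=
  ∑ u, ∑ v, if u ≠ v then zz G u v ^ 8 else 0

lemma Phi8_nonneg (G : SimpleGraph (Fin n)) : 0 ≤ Phi8 G := by
  unfold Phi8 edgeSum
  refine Finset.sum_nonneg fun u _ => Finset.sum_nonneg fun v _ => ?_
  split_ifs
  · positivity
  · exact le_refl _

lemma Z8_nonneg (G : SimpleGraph (Fin n)) : 0 ≤ Z8 G := by
  unfold Z8
  refine Finset.sum_nonneg fun u _ => Finset.sum_nonneg fun v _ => ?_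
  split_ifs
  · positivity
  · exact le_refl _

lemma two_numEdges_eq (G : SimpleGraph (Fin n)) :
    2 * (numEdges G : ℝ) = ∑ p : Fin n × Fin n, if G.Adj p.1 p.2 then (1:ℝ) else 0 := by
  rw [← edgeSum_one, Fintype.sum_prod_type]
  rfl

/-- power mean inequality for `rho - 1` -/
lemma rho_pow8 (G : SimpleGraph (Fin n)) (hn : 0 < n) (hE : 0 < numEdges G) :
    (rho G - 1) ^ 8 * (2 * numEdges G) ≤ Phi8 G := by
  have hE0 : (0:ℝ) < numEdges G := by exact_mod_cast hE
  rw [rho_sub_one G hn hE]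
  have h := Real.pow_arith_mean_le_arith_mean_pow_of_even (univ : Finset (Fin n × Fin n))
    (fun p => (if G.Adj p.1 p.2 then (1:ℝ) else 0) / (2 * numEdges G))
    (fun p => zz G p.1 p.2) (fun p _ => by split_ifs <;> positivity)
    (by rw [← Finset.sum_div, ← two_numEdges_eq, div_self]; positivity)
    (n := 8) (by decide)
  have e1 : ∑ i : Fin n × Fin n, (if G.Adj i.1 i.2 then (1:ℝ) else 0) / (2 * ↑(numEdges G)) *
      zz G i.1 i.2 = edgeSum G (fun u v => zz G u v) / (2 * numEdges G) := by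
    unfold edgeSum
    rw [Fintype.sum_prod_type, Finset.sum_div]
    refine Finset.sum_congr rfl fun u _ => ?_
    rw [Finset.sum_div]
    refine Finset.sum_congr rfl fun v _ => ?_
    split_ifs <;> ring
  have e2 : ∑ i : Fin n × Fin n, (if G.Adj i.1 i.2 then (1:ℝ) else 0) / (2 * ↑(numEdges G)) *
      zz G i.1 i.2 ^ 8 = Phi8 G / (2 * numEdges G) := by
    unfold Phi8 edgeSum
    rw [Fintype.sum_prod_type, Finset.sum_div]
    refine Finset.sum_congr rfl fun u _ => ?_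
    rw [Finset.sum_div]
    refine Finset.sum_congr rfl fun v _ => ?_
    split_ifs <;> ring
  rw [e1, e2] at h
  calc _ ≤ Phi8 G / (2 * numEdges G) * (2 * numEdges G) :=
        mul_le_mul_of_nonneg_right h (by positivity)
    _ = Phi8 G := by field_simp

lemma edgeSum_Q8 (G : SimpleGraph (Fin n)) (hc : 0 < cc G)
    (hz : ∀ a b, a ≠ b → |zz G a b| ≤ 1 / 100) :
    edgeSum G (fun u v => Q8 G u v) ≤ 2 * ((1 + 1 / 100) * cc G) * Phi8 G := by
  have h1 : edgeSum G (fun u v => Q8 G u v) =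
      triSum G (fun u v w => zz G u w ^ 8 + zz G v w ^ 8) := by
    unfold edgeSum triSum Q8
    refine Finset.sum_congr rfl fun u _ => Finset.sum_congr rfl fun v _ => ?_
    by_cases h : G.Adj u v
    · rw [if_pos h]
      refine Finset.sum_congr rfl fun w _ => ?_
      by_cases h2 : G.Adj u w ∧ G.Adj v w
      · rw [if_pos h2, if_pos ⟨h, h2⟩]
      · rw [if_neg h2, if_neg (fun h3 => h2 h3.2)]
    · rw [if_neg h]
      symm
      apply Finset.sum_eq_zero
      intro w _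
      rw [if_neg (fun h3 => h h3.1)]
  have h2 : triSum G (fun u v w => zz G u w ^ 8) = triSum G (fun u v _ => zz G u v ^ 8) := by
    rw [triSum_swap23 G (fun u v w => zz G u w ^ 8)]
  have h3 : triSum G (fun u v w => zz G v w ^ 8) = triSum G (fun u v _ => zz G u v ^ 8) := by
    rw [triSum_swap12 G (fun u v w => zz G v w ^ 8)]
    exact h2
  rw [h1, triSum_add, h2, h3, ← edgeSum_codeg_mul]
  have h4 : edgeSum G (fun u v => (codeg G u v : ℝ) * zz G u v ^ 8) ≤
      ((1 + 1 / 100) * cc G) * Phi8 G := by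
    unfold Phi8
    rw [← edgeSum_mul]
    apply edgeSum_mono
    intro u v huv
    have h5 := abs_le.mp (hz u v (G.ne_of_adj huv))
    refine mul_le_mul_of_nonneg_right ?_ (by positivity)
    rw [codeg_eq G hc]
    nlinarith only [hc, h5]
  linarith

/-- the early phase inequality for the eighth moment over the edges -/
theorem Phi8_drift (G : SimpleGraph (Fin n)) (hn : 0 < n)
    (hc : 1000 ≤ cc G) (he : 1000 ≤ (numEdges G : ℝ)) (hce : 1000 * cc G ≤ numEdges G)
    (hz : ∀ a b, a ≠ b → |zz G a b| ≤ 1 / 100) (hζ : |rho G - 1| ≤ 1 / 100) :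
    ∑ t ∈ triangles G, Phi8 (removeTriangle G t) ≤
      (((triangles G).card : ℝ) + 37 * cc G) * Phi8 G +
        2 * 10 ^ 14 * (numEdges G : ℝ) / cc G ^ 3 := by
  have hE : 0 < numEdges G := by
    have : (0:ℝ) < numEdges G := by linarith only [hc, hce]
    exact_mod_cast this
  have hc0 : 0 < cc G := by linarith only [hc]
  have h1 : ∑ t ∈ triangles G, Phi8 (removeTriangle G t) ≤
      edgeSum G (fun u v => ∑ t ∈ triangles G, zz (removeTriangle G t) u v ^ 8) := by
    unfold Phi8 edgeSum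
    rw [Finset.sum_comm]
    refine Finset.sum_le_sum fun u _ => ?_
    rw [Finset.sum_comm]
    refine Finset.sum_le_sum fun v _ => ?_
    by_cases h : G.Adj u v
    · rw [if_pos h]
      refine Finset.sum_le_sum fun t _ => ?_
      split_ifs
      · exact le_refl _
      · positivity
    · rw [if_neg h]
      apply Finset.sum_nonpos
      intro t _
      rw [if_neg]
      intro h2
      rw [removeTriangle_adj] at h2
      exact h h2.1
  refine h1.trans ?_
  have h2 : edgeSum G (fun u v => ∑ t ∈ triangles G, zz (removeTriangle G t) u v ^ 8) ≤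
      edgeSum G (fun u v => (((triangles G).card : ℝ) + 31 * cc G) * zz G u v ^ 8 +
        ((1 + 1 / 100) * Q8 G u v + (3 * cc G * (rho G - 1) ^ 8 + 10 ^ 14 / cc G ^ 3) * 1)) := by
    apply edgeSum_mono
    intro u v huv
    have := pair_sum G u v (G.ne_of_adj huv) hn hc he hce hz hζ
    linarith only [this]
  refine h2.trans ?_
  rw [edgeSum_add, edgeSum_add, edgeSum_mul, edgeSum_mul, edgeSum_mul, edgeSum_one]
  have h3 := edgeSum_Q8 G hc0 hz
  have h4 := rho_pow8 G hn hE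
  have h5 : edgeSum G (fun u v => zz G u v ^ 8) = Phi8 G := rfl
  rw [h5]
  have h6 := Phi8_nonneg G
  have h7 : 3 * cc G * ((rho G - 1) ^ 8 * (2 * numEdges G)) ≤ 3 * cc G * Phi8 G :=
    mul_le_mul_of_nonneg_left h4 (by positivity)
  have h8 : (3 * cc G * (rho G - 1) ^ 8 + 10 ^ 14 / cc G ^ 3) * (2 * (numEdges G : ℝ)) =
      3 * cc G * ((rho G - 1) ^ 8 * (2 * numEdges G)) + 2 * 10 ^ 14 * (numEdges G : ℝ) / cc G ^ 3 := by
    ring
  rw [h8]
  have h9 : 0 ≤ cc G * Phi8 G := by positivity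
  linarith only [h3, h7, h9]

lemma numEdges_le (G : SimpleGraph (Fin n)) : 2 * (numEdges G : ℝ) ≤ (n : ℝ) ^ 2 := by
  rw [two_numEdges_eq]
  calc ∑ p : Fin n × Fin n, (if G.Adj p.1 p.2 then (1:ℝ) else 0)
      ≤ ∑ _p : Fin n × Fin n, (1:ℝ) := Finset.sum_le_sum fun p _ => by split_ifs <;> norm_num
    _ = (n:ℝ) ^ 2 := by
        simp only [sum_const, card_univ, Fintype.card_prod, Fintype.card_fin, nsmul_eq_mul, Nat.cast_mul, mul_one, sq]

/-- the early phase inequality for the eighth moment over all pairs -/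
theorem Z8_drift (G : SimpleGraph (Fin n)) (hn : 0 < n)
    (hc : 1000 ≤ cc G) (he : 1000 ≤ (numEdges G : ℝ)) (hce : 1000 * cc G ≤ numEdges G)
    (hz : ∀ a b, a ≠ b → |zz G a b| ≤ 1 / 100) (hζ : |rho G - 1| ≤ 1 / 100) :
    ∑ t ∈ triangles G, Z8 (removeTriangle G t) ≤
      (((triangles G).card : ℝ) + 31 * cc G) * Z8 G + 6 * n * Phi8 G +
        10 ^ 14 * (n : ℝ) ^ 2 / cc G ^ 3 := by
  have hE : 0 < numEdges G := by
    have : (0:ℝ) < numEdges G := by linarith only [hc, hce]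
    exact_mod_cast this
  have hE0 : (0:ℝ) < numEdges G := by linarith only [hc, hce]
  have hn0 : (0:ℝ) < n := by exact_mod_cast hn
  have hc0 : 0 < cc G := by linarith only [hc]
  have h1 : ∑ t ∈ triangles G, Z8 (removeTriangle G t) =
      ∑ u, ∑ v, if u ≠ v then ∑ t ∈ triangles G, zz (removeTriangle G t) u v ^ 8 else 0 := by
    unfold Z8
    rw [Finset.sum_comm]
    refine Finset.sum_congr rfl fun u _ => ?_
    rw [Finset.sum_comm]
    refine Finset.sum_congr rfl fun v _ => ?_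
    by_cases h : u ≠ v
    · simp only [if_pos h]
    · simp only [if_neg h, Finset.sum_const_zero]
  rw [h1]
  have h2 : (∑ u, ∑ v, if u ≠ v then ∑ t ∈ triangles G, zz (removeTriangle G t) u v ^ 8 else 0) ≤
      ∑ u, ∑ v, ((((triangles G).card : ℝ) + 31 * cc G) * (if u ≠ v then zz G u v ^ 8 else 0) +
        ((1 + 1 / 100) * Q8 G u v + (3 * cc G * (rho G - 1) ^ 8 + 10 ^ 14 / cc G ^ 3))) := by
    refine Finset.sum_le_sum fun u _ => Finset.sum_le_sum fun v _ => ?_
    have hQ : 0 ≤ Q8 G u v := by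
      unfold Q8
      refine Finset.sum_nonneg fun w _ => ?_
      split_ifs
      · positivity
      · exact le_refl _
    by_cases h : u ≠ v
    · rw [if_pos h, if_pos h]
      have := pair_sum G u v h hn hc he hce hz hζ
      linarith only [this]
    · rw [if_neg h, if_neg h]
      positivity
  refine h2.trans ?_
  simp only [Finset.sum_add_distrib, ← Finset.mul_sum, Finset.sum_const, Finset.card_univ,
    Fintype.card_fin, nsmul_eq_mul]
  have h3 : ∑ u, ∑ v, Q8 G u v ≤ 2 * n * Phi8 G := by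
    have e1 : ∀ u v, Q8 G u v ≤ ∑ w, ((if G.Adj u w then zz G u w ^ 8 else 0) +
        (if G.Adj v w then zz G v w ^ 8 else 0)) := by
      intro u v
      unfold Q8
      refine Finset.sum_le_sum fun w _ => ?_
      by_cases h : G.Adj u w ∧ G.Adj v w
      · rw [if_pos h, if_pos h.1, if_pos h.2]
      · rw [if_neg h]
        have p1 : 0 ≤ (if G.Adj u w then zz G u w ^ 8 else 0) := by
          split_ifs
          · positivity
          · exact le_refl _
        have p2 : 0 ≤ (if G.Adj v w then zz G v w ^ 8 else 0) := by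
          split_ifs
          · positivity
          · exact le_refl _
        linarith only [p1, p2]
    refine (Finset.sum_le_sum fun u _ => Finset.sum_le_sum fun v _ => e1 u v).trans (le_of_eq ?_)
    simp only [Finset.sum_add_distrib, Finset.sum_const, Finset.card_univ,
      Fintype.card_fin, nsmul_eq_mul, ← Finset.mul_sum]
    have e2 : (∑ u, ∑ w, if G.Adj u w then zz G u w ^ 8 else 0) = Phi8 G := rfl
    rw [e2]
    ring
  have h4 := rho_pow8 G hn hE
  have h6 := Phi8_nonneg G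
  have h7 : 3 * cc G * (rho G - 1) ^ 8 * ((n:ℝ) * n) ≤ 3 * n * Phi8 G := by
    have e1 : cc G * (n : ℝ) ^ 2 ≤ n * (2 * numEdges G) := by
      unfold cc
      have := numEdges_le G
      rw [div_mul_eq_mul_div, div_le_iff₀ (by positivity)]
      have e3 : 4 * (numEdges G : ℝ) ^ 2 * (n:ℝ) ^ 2 = 2 * (numEdges G : ℝ) * (n:ℝ) ^ 2 * (2 * (numEdges G : ℝ)) := by
        ring
      have e4 : (n:ℝ) * (2 * (numEdges G : ℝ)) * (n:ℝ) ^ 3 = 2 * (numEdges G : ℝ) * (n:ℝ) ^ 2 * (n:ℝ) ^ 2 := by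
        ring
      rw [e3, e4]
      exact mul_le_mul_of_nonneg_left this (by positivity)
    have h8 : 0 ≤ (rho G - 1) ^ 8 := by positivity
    calc 3 * cc G * (rho G - 1) ^ 8 * ((n:ℝ) * n) = 3 * (rho G - 1) ^ 8 * (cc G * (n:ℝ) ^ 2) := by ring
      _ ≤ 3 * (rho G - 1) ^ 8 * (n * (2 * numEdges G)) := mul_le_mul_of_nonneg_left e1 (by positivity)
      _ = 3 * n * ((rho G - 1) ^ 8 * (2 * numEdges G)) := by ring
      _ ≤ 3 * n * Phi8 G := mul_le_mul_of_nonneg_left h4 (by positivity)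
  have h5 : (∑ u : Fin n, ∑ v : Fin n, if u ≠ v then zz G u v ^ 8 else 0) = Z8 G := rfl
  rw [h5]
  have h9 : (n:ℝ) * (n * (10 ^ 14 / cc G ^ 3)) = 10 ^ 14 * (n : ℝ) ^ 2 / cc G ^ 3 := by ring
  have h10 : 0 ≤ n * Phi8 G := by positivity
  linarith only [h3, h7, h9, h10]

end Vale.Agent.P046.C
end
end

section

section

set_option autoImplicit false

open scoped Classical
open Finset

namespace Vale.Agent.P046.C

open Vale.Agent.P046 Vale.Agent.P046.OS

variable {n : ℕ}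

lemma wheels_nonneg (G : SimpleGraph (Fin n)) : 0 ≤ wheels G := by
  unfold wheels
  refine Finset.sum_nonneg fun u _ => Finset.sum_nonneg fun v _ => Finset.sum_nonneg fun x _ =>
    Finset.sum_nonneg fun s _ => Finset.sum_nonneg fun y _ => ?_
  split_ifs <;> norm_num

/-- all pair deviations are tiny -/
def Good (s : ℝ) (G : SimpleGraph (Fin n)) : Prop :=
  ∀ u v, u ≠ v → |zz G u v| ≤ s * (cc G / n)

/-- late potential -/
noncomputable def PhiL (F : SimpleGraph (Fin n) → ℝ) (A B D Es M0 : ℝ)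
    (G : SimpleGraph (Fin n)) : ℝ :=
  a1L A Es (numEdges G) * F G + B * a1L A Es (numEdges G) / cc G ^ 4 * wheels G +
    a3L D M0 ((n : ℝ) ^ 3) Es (numEdges G)

lemma T_bounds (G : SimpleGraph (Fin n)) (hn : 0 < n) (hE : 0 < numEdges G)
    (hζ : |rho G - 1| ≤ 1 / 10000) :
    (1 - 1 / 10000) * cc G * (numEdges G : ℝ) / 3 ≤ ((triangles G).card : ℝ) ∧
      ((triangles G).card : ℝ) ≤ (1 + 1 / 10000) * cc G * (numEdges G : ℝ) / 3 := by
  have h := abs_le.mp hζ
  have hc := cc_pos G hn hE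
  have hE0 : (0:ℝ) < numEdges G := by exact_mod_cast hE
  have h1 : 0 < cc G * (numEdges G : ℝ) := by positivity
  rw [T_eq G hn hE]
  constructor
  · nlinarith only [h, h1]
  · nlinarith only [h, h1]

lemma sum_PhiL (F : SimpleGraph (Fin n) → ℝ) (A B D Es M0 : ℝ) (G : SimpleGraph (Fin n)) :
    ∑ t ∈ triangles G, PhiL F A B D Es M0 (removeTriangle G t) =
      a1L A Es ((numEdges G : ℝ) - 3) * (∑ t ∈ triangles G, F (removeTriangle G t)) +
      B * a1L A Es ((numEdges G : ℝ) - 3) / (4 * ((numEdges G : ℝ) - 3) ^ 2 / (n : ℝ) ^ 3) ^ 4 *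
        (∑ t ∈ triangles G, wheels (removeTriangle G t)) +
      ((triangles G).card : ℝ) * a3L D M0 ((n : ℝ) ^ 3) Es ((numEdges G : ℝ) - 3) := by
  have h : ∀ t ∈ triangles G, PhiL F A B D Es M0 (removeTriangle G t) =
      a1L A Es ((numEdges G : ℝ) - 3) * F (removeTriangle G t) +
      B * a1L A Es ((numEdges G : ℝ) - 3) / (4 * ((numEdges G : ℝ) - 3) ^ 2 / (n : ℝ) ^ 3) ^ 4 *
        wheels (removeTriangle G t) +
      a3L D M0 ((n : ℝ) ^ 3) Es ((numEdges G : ℝ) - 3) := by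
    intro t ht
    unfold PhiL cc
    rw [numEdges_remove_real G t ht]
  rw [Finset.sum_congr rfl h, Finset.sum_add_distrib, Finset.sum_add_distrib, Finset.sum_const,
    nsmul_eq_mul, ← Finset.mul_sum, ← Finset.mul_sum]

/-- hypotheses on the main functional -/
structure FHyp (F : SimpleGraph (Fin n) → ℝ) (C K0 κ κL s0 η : ℝ) : Prop where
  nonneg : ∀ G, 0 ≤ F G
  late : ∀ G, K0 ≤ cc G → |rho G - 1| ≤ η →
    ∑ t ∈ triangles G, F (removeTriangle G t) ≤
      (((triangles G).card : ℝ) + (1 + 1 / 200) * cc G) * F G +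
        C * ((numEdges G : ℝ) / cc G + wheels G / cc G ^ 3)
  early : ∀ G, K0 ≤ cc G → (n : ℝ) ^ 3 ≤ s0 ^ 2 * cc G ^ 4 → Good s0 G →
    ∑ t ∈ triangles G, F (removeTriangle G t) ≤
      (((triangles G).card : ℝ) + (1 / 2) * cc G) * F G +
        C * ((numEdges G : ℝ) / cc G + wheels G / cc G ^ 3)
  bad : ∀ G, η < |rho G - 1| → κ * (numEdges G : ℝ) ≤ F G
  low : ∀ G, lowCount G (1 / 100) ≤ κL * F G
  top : F ⊤ ≤ C

lemma PhiL_step (F : SimpleGraph (Fin n) → ℝ) (A B C D K0 κ κL s0 η Es M0 : ℝ)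
    (hF : FHyp F C K0 κ κL s0 η) (hn : 0 < n) (hA : 0 < A) (hB : 0 < B) (hC : 0 ≤ C)
    (hκL : 0 ≤ κL) (hK0 : 10000 ≤ K0) (hκ : 65536 * B * κL ≤ (1 / 1000) * K0)
    (hD : A * C ≤ D) (hCB : 2 * C ≤ B) (hEs : 0 < Es)
    (G : SimpleGraph (Fin n)) (he : 100000 ≤ (numEdges G : ℝ)) (hEe : Es ≤ (numEdges G : ℝ))
    (hc : K0 ≤ cc G) (hη : η ≤ 1 / 10000) (hζ : |rho G - 1| ≤ η) :
    ∑ t ∈ triangles G, PhiL F A B D Es M0 (removeTriangle G t) ≤
      ((triangles G).card : ℝ) * PhiL F A B D Es M0 G := by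
  have hE : 0 < numEdges G := by
    have : (0:ℝ) < numEdges G := by linarith only [he]
    exact_mod_cast this
  have hn0 : (0:ℝ) < n := by exact_mod_cast hn
  obtain ⟨hT1, hT2⟩ := T_bounds G hn hE (hζ.trans hη)
  rw [sum_PhiL]
  unfold PhiL
  refine late_step A B C D ((n:ℝ)^3) Es (numEdges G) (cc G) ((triangles G).card) M0 κL (F G)
    (wheels G) (lowCount G (1 / 100)) _ _ hA hB hC (by positivity) hEs he hEe rfl (by linarith only [hK0, hc])
    hT1 hT2 hD hCB (by linarith only [hκ, hc]) (hF.nonneg G) (wheels_nonneg G) (hF.low G) hκL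
    (hF.late G hc hζ) (wheel_drift G (1 / 100) (by norm_num))

lemma a3L_nonneg (D M0 N Es e : ℝ) (hD : 0 ≤ D) (hEs : 0 < Es) (hEe : Es ≤ e)
    (hM : D * N ^ 2 / Es ^ 2 ≤ M0) : 0 ≤ a3L D M0 N Es e := by
  unfold a3L
  have : D * N ^ 2 / (Es * e) ≤ D * N ^ 2 / Es ^ 2 := by
    apply div_le_div_of_nonneg_left (by positivity) (by positivity)
    nlinarith only [hEs, hEe]
  linarith only [hM, this]

lemma PhiL_bad (F : SimpleGraph (Fin n) → ℝ) (A B C D K0 κ κL s0 η Es M0 : ℝ)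
    (hF : FHyp F C K0 κ κL s0 η) (hA : 0 < A) (hB : 0 < B) (hAκ : 1 ≤ A * κ)
    (hD : 0 ≤ D) (hEs : 0 < Es) (hM : D * ((n : ℝ) ^ 3) ^ 2 / Es ^ 2 ≤ M0)
    (G : SimpleGraph (Fin n)) (hEe : Es ≤ (numEdges G : ℝ))
    (hζ : η < |rho G - 1|) :
    (numEdges G : ℝ) ^ 2 ≤ PhiL F A B D Es M0 G := by
  have he : 0 < (numEdges G : ℝ) := by linarith only [hEs, hEe]
  have h1 := hF.bad G hζ
  have h2 := a3L_nonneg D M0 ((n:ℝ)^3) Es (numEdges G) hD hEs hEe hM
  have h3 := wheels_nonneg G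
  have h4 : 0 ≤ a1L A Es (numEdges G) := a1L_nonneg A Es _ hA.le hEs he.le
  have h5 : A * (numEdges G : ℝ) ≤ a1L A Es (numEdges G) := by
    unfold a1L
    have : 1 ≤ ((numEdges G : ℝ) / Es) ^ (1 / 150 : ℝ) := by
      apply Real.one_le_rpow _ (by norm_num)
      rw [le_div_iff₀ hEs]; linarith only [hEe]
    have h6 : 0 ≤ A * (numEdges G : ℝ) := by positivity
    nlinarith only [this, h6]
  have h7 : (numEdges G : ℝ) ^ 2 ≤ a1L A Es (numEdges G) * F G := by
    have hκE : 0 ≤ κ * (numEdges G : ℝ) := by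
      have : 0 < κ := by
        by_contra hneg
        push Not at hneg
        nlinarith only [hAκ, hA, hneg]
      positivity
    calc (numEdges G : ℝ) ^ 2 = 1 * (numEdges G : ℝ) ^ 2 := by ring
      _ ≤ (A * κ) * (numEdges G : ℝ) ^ 2 := mul_le_mul_of_nonneg_right hAκ (by positivity)
      _ = (A * (numEdges G : ℝ)) * (κ * (numEdges G : ℝ)) := by ring
      _ ≤ a1L A Es (numEdges G) * F G := mul_le_mul h5 h1 hκE h4
  unfold PhiL
  have h8 : 0 ≤ B * a1L A Es (numEdges G) / cc G ^ 4 * wheels G := by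
    have : 0 ≤ cc G := by unfold cc; positivity
    positivity
  linarith only [h2, h7, h8]

end Vale.Agent.P046.C
end
end

section

section

set_option autoImplicit false

open scoped Classical
open Finset

namespace Vale.Agent.P046.C

open Vale.Agent.P046 Vale.Agent.P046.OS

variable {n : ℕ}

/-- early potential -/
noncomputable def PhiE (F : SimpleGraph (Fin n) → ℝ) (A1 B b0 q E0 M0 γ : ℝ)
    (G : SimpleGraph (Fin n)) : ℝ :=
  a1E A1 E0 (numEdges G) * F G + B * a1E A1 E0 (numEdges G) / cc G ^ 4 * wheels G +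
    (4 * q ^ 2 * bE b0 E0 (numEdges G) * Phi8 G + bE b0 E0 (numEdges G) * Z8 G) +
    (M0 + γ * (numEdges G : ℝ))

lemma sum_PhiE (F : SimpleGraph (Fin n) → ℝ) (A1 B b0 q E0 M0 γ : ℝ) (G : SimpleGraph (Fin n)) :
    ∑ t ∈ triangles G, PhiE F A1 B b0 q E0 M0 γ (removeTriangle G t) =
      (a1E A1 E0 ((numEdges G : ℝ) - 3) * (∑ t ∈ triangles G, F (removeTriangle G t)) +
      B * a1E A1 E0 ((numEdges G : ℝ) - 3) / (4 * ((numEdges G : ℝ) - 3) ^ 2 / (n : ℝ) ^ 3) ^ 4 *
        (∑ t ∈ triangles G, wheels (removeTriangle G t))) +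
      (4 * q ^ 2 * bE b0 E0 ((numEdges G : ℝ) - 3) * (∑ t ∈ triangles G, Phi8 (removeTriangle G t)) +
        bE b0 E0 ((numEdges G : ℝ) - 3) * (∑ t ∈ triangles G, Z8 (removeTriangle G t))) +
      ((triangles G).card : ℝ) * (M0 + γ * ((numEdges G : ℝ) - 3)) := by
  have h : ∀ t ∈ triangles G, PhiE F A1 B b0 q E0 M0 γ (removeTriangle G t) =
      (a1E A1 E0 ((numEdges G : ℝ) - 3) * F (removeTriangle G t) +
      B * a1E A1 E0 ((numEdges G : ℝ) - 3) / (4 * ((numEdges G : ℝ) - 3) ^ 2 / (n : ℝ) ^ 3) ^ 4 *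
        wheels (removeTriangle G t)) +
      (4 * q ^ 2 * bE b0 E0 ((numEdges G : ℝ) - 3) * Phi8 (removeTriangle G t) +
        bE b0 E0 ((numEdges G : ℝ) - 3) * Z8 (removeTriangle G t)) +
      (M0 + γ * ((numEdges G : ℝ) - 3)) := by
    intro t ht
    unfold PhiE cc
    rw [numEdges_remove_real G t ht]
  rw [Finset.sum_congr rfl h, Finset.sum_add_distrib, Finset.sum_add_distrib,
    Finset.sum_add_distrib, Finset.sum_add_distrib, Finset.sum_const,
    nsmul_eq_mul, ← Finset.mul_sum, ← Finset.mul_sum, ← Finset.mul_sum, ← Finset.mul_sum]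

lemma rho_of_good (G : SimpleGraph (Fin n)) (hn : 0 < n) (hE : 0 < numEdges G) (x : ℝ)
    (h : ∀ u v, u ≠ v → |zz G u v| ≤ x) : |rho G - 1| ≤ x := by
  have hE0 : (0:ℝ) < numEdges G := by exact_mod_cast hE
  rw [rho_sub_one G hn hE, abs_le]
  have h1 : edgeSum G (fun u v => zz G u v) ≤ edgeSum G (fun _ _ => x * 1) := by
    apply edgeSum_mono
    intro u v huv
    have := (abs_le.mp (h u v (G.ne_of_adj huv))).2
    linarith only [this]
  have h2 : edgeSum G (fun _ _ => (-x) * 1) ≤ edgeSum G (fun u v => zz G u v) := by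
    apply edgeSum_mono
    intro u v huv
    have := (abs_le.mp (h u v (G.ne_of_adj huv))).1
    linarith only [this]
  rw [edgeSum_mul, edgeSum_one] at h1 h2
  constructor
  · rw [le_div_iff₀ (by positivity)]
    linarith only [h2]
  · rw [div_le_iff₀ (by positivity)]
    linarith

/-- basic size facts in the early phase -/
lemma early_size (G : SimpleGraph (Fin n)) (q : ℝ) (hq : 1 ≤ q) (hn : 2000 ≤ (n : ℝ))
    (hE : (n : ℝ) ^ 2 / q ≤ (numEdges G : ℝ)) :
    4 * (n : ℝ) / q ^ 2 ≤ cc G ∧ cc G ≤ n ∧ 1000 * cc G ≤ (numEdges G : ℝ) := by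
  have hn0 : 0 < (n : ℝ) := by linarith only [hn]
  have hq0 : 0 < q := by linarith only [hq]
  have h1 := numEdges_le G
  have h2 : (0:ℝ) ≤ numEdges G := by positivity
  have h3 : (n : ℝ) ^ 2 ≤ q * (numEdges G : ℝ) := by
    rw [div_le_iff₀ hq0] at hE; linarith
  have h4 : (n : ℝ) ^ 4 ≤ q ^ 2 * (numEdges G : ℝ) ^ 2 := by
    have := mul_self_le_mul_self (by positivity) h3
    linarith only [this]
  have h5 : 4 * (numEdges G : ℝ) ^ 2 ≤ (n : ℝ) ^ 4 := by
    have := mul_self_le_mul_self (by positivity) h1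
    linarith only [this]
  unfold cc
  refine ⟨?_, ?_, ?_⟩
  · rw [div_le_div_iff₀ (by positivity) (by positivity)]
    linarith only [h4]
  · rw [div_le_iff₀ (by positivity)]
    linarith only [h5]
  · rw [← mul_div_assoc, div_le_iff₀ (by positivity)]
    have h6 : 1000 * (4 * (numEdges G : ℝ) ^ 2) = (numEdges G : ℝ) * (4000 * (numEdges G : ℝ)) := by
      ring
    rw [h6]
    apply mul_le_mul_of_nonneg_left _ h2
    have h7 : 2000 * (n:ℝ) ^ 2 ≤ n * (n:ℝ) ^ 2 := mul_le_mul_of_nonneg_right hn (by positivity)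
    linarith only [h1, h7]

lemma PhiE_step (F : SimpleGraph (Fin n) → ℝ) (A1 B C K0 κ κL s0 η b0 q E0 M0 γ : ℝ)
    (hF : FHyp F C K0 κ κL s0 η) (hn : 2000 ≤ (n : ℝ)) (hA : 0 < A1) (hB : 0 < B) (hC : 0 ≤ C)
    (hκL : 0 ≤ κL) (hK0 : 10000 ≤ K0) (hκ : 65536 * B * κL ≤ (1 / 1000) * K0)
    (hCB : 4 * C ≤ B) (hE0 : 0 < E0) (hq : 1 ≤ q) (hb0 : 0 < b0) (hs0 : 0 < s0)
    (hs1 : s0 ≤ 1 / 10000)
    (G : SimpleGraph (Fin n)) (he : 100000 ≤ (numEdges G : ℝ))
    (hE : (n : ℝ) ^ 2 / q ≤ (numEdges G : ℝ))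
    (hc : K0 ≤ cc G) (hc4 : (n : ℝ) ^ 3 ≤ s0 ^ 2 * cc G ^ 4) (hG : Good s0 G)
    (hconst : a1E A1 E0 (numEdges G) * (C * ((numEdges G : ℝ) / cc G)) +
      (4 * q ^ 2 * bE b0 E0 (numEdges G) * (2 * 10 ^ 14 * (numEdges G : ℝ) / cc G ^ 3) +
          bE b0 E0 (numEdges G) * (10 ^ 14 * (n : ℝ) ^ 2 / cc G ^ 3)) ≤
      (9 / 10) * γ * cc G * (numEdges G : ℝ)) (hγ : 0 ≤ γ) :
    ∑ t ∈ triangles G, PhiE F A1 B b0 q E0 M0 γ (removeTriangle G t) ≤
      ((triangles G).card : ℝ) * PhiE F A1 B b0 q E0 M0 γ G := by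
  have hn0 : (0:ℝ) < n := by linarith only [hn]
  have hn' : 0 < n := by exact_mod_cast hn0
  have hE0' : (0:ℝ) < numEdges G := by linarith only [hs0, hs1, he]
  have hE' : 0 < numEdges G := by exact_mod_cast hE0'
  obtain ⟨hs4, hs5, hs6⟩ := early_size G q hq hn hE
  have hc0 : 0 < cc G := by linarith only [hK0, hs0, hs1, hc]
  have hbd : ∀ u v, u ≠ v → |zz G u v| ≤ 1 / 10000 := by
    intro u v huv
    refine (hG u v huv).trans ?_
    have h1 : cc G / n ≤ 1 := by rw [div_le_one hn0]; exact hs5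
    have h2 : 0 ≤ cc G / n := by positivity
    nlinarith only [hs1, hs0, h1]
  have hζ : |rho G - 1| ≤ 1 / 10000 := rho_of_good G hn' hE' _ hbd
  obtain ⟨hT1, hT2⟩ := T_bounds G hn' hE' hζ
  rw [sum_PhiE]
  unfold PhiE
  have hbd2 : ∀ u v, u ≠ v → |zz G u v| ≤ 1 / 100 := fun u v huv =>
    (hbd u v huv).trans (by norm_num)
  have hζ2 : |rho G - 1| ≤ 1 / 100 := hζ.trans (by norm_num)
  have p1 := early_step A1 B C ((n:ℝ)^3) E0 (numEdges G) (cc G) ((triangles G).card) κL (F G)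
    (wheels G) (lowCount G (1 / 100)) _ _ hA hB hC (by positivity) hE0 he rfl (by linarith only [hK0, hc])
    hT1 hT2 hCB (by linarith only [hκ, hc]) (hF.nonneg G) (wheels_nonneg G) (hF.low G) hκL
    (hF.early G hc hc4 hG) (wheel_drift G (1 / 100) (by norm_num))
  have p2 := early_penalty b0 E0 q n (numEdges G) (cc G) ((triangles G).card) (Phi8 G) (Z8 G)
    _ _ hb0 hE0 hq hn0 he (by linarith only [hK0, hc]) hs4 hT1 (Phi8_nonneg G) (Z8_nonneg G)
    (Phi8_drift G hn' (by linarith only [hK0, hs0, hs1, hc]) (by linarith only [hK0, hc, hs6]) hs6 hbd2 hζ2)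
    (Z8_drift G hn' (by linarith only [hK0, hc]) (by linarith only [hK0, hc, hs6]) hs6 hbd2 hζ2)
  have p3 : (9 / 10) * γ * cc G * (numEdges G : ℝ) ≤ ((triangles G).card : ℝ) * (3 * γ) := by
    have h1 := mul_le_mul_of_nonneg_right hT1 (by positivity : 0 ≤ 3 * γ)
    have h2 : 0 ≤ γ * cc G * (numEdges G : ℝ) := by positivity
    linarith only [h1, h2]
  linarith only [hconst, p1, p2, p3]

lemma Z8_of_not_good (G : SimpleGraph (Fin n)) (s0 : ℝ) (hs0 : 0 < s0) (hn : 0 < (n : ℝ))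
    (hc : 0 < cc G) (hG : ¬ Good s0 G) : s0 ^ 8 * (cc G / n) ^ 8 ≤ Z8 G := by
  unfold Good at hG
  push Not at hG
  obtain ⟨a, b, hab, h⟩ := hG
  have h1 : s0 ^ 8 * (cc G / n) ^ 8 ≤ zz G a b ^ 8 := by
    rw [← mul_pow, ← Even.pow_abs (by decide : Even 8) (zz G a b)]
    exact pow_le_pow_left₀ (by positivity) h.le 8
  refine h1.trans ?_
  unfold Z8
  have h2 : (if a ≠ b then zz G a b ^ 8 else 0) ≤ ∑ v, if a ≠ v then zz G a v ^ 8 else 0 :=
    Finset.single_le_sum (f := fun v => if a ≠ v then zz G a v ^ 8 else 0)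
      (fun v _ => by
        show 0 ≤ (if a ≠ v then zz G a v ^ 8 else 0)
        split_ifs
        · positivity
        · exact le_refl _) (Finset.mem_univ b)
  have h3 : (∑ v, if a ≠ v then zz G a v ^ 8 else 0) ≤
      ∑ u, ∑ v, if u ≠ v then zz G u v ^ 8 else 0 :=
    Finset.single_le_sum (f := fun u => ∑ v, if u ≠ v then zz G u v ^ 8 else 0)
      (fun u _ => Finset.sum_nonneg fun v _ => by
        show 0 ≤ (if u ≠ v then zz G u v ^ 8 else 0)
        split_ifs
        · positivity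
        · exact le_refl _) (Finset.mem_univ a)
  rw [if_pos hab] at h2
  exact h2.trans h3

end Vale.Agent.P046.C
end
end

section

section

set_option autoImplicit false

open scoped Classical
open Finset

namespace Vale.Agent.P046.C

open Vale.Agent.P046 Vale.Agent.P046.OS

variable {n : ℕ}

lemma a1E_nonneg (A1 E0 e : ℝ) (hA : 0 ≤ A1) (hE0 : 0 < E0) (he : 0 ≤ e) : 0 ≤ a1E A1 E0 e := by
  unfold a1E; positivity

lemma PhiE_bad (F : SimpleGraph (Fin n) → ℝ) (A1 B C K0 κ κL s0 η q M0 γ : ℝ)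
    (hF : FHyp F C K0 κ κL s0 η) (hn : 2000 ≤ (n : ℝ)) (hA : 0 < A1) (hB : 0 < B)
    (hq : 1 ≤ q) (hs0 : 0 < s0) (hM : 0 ≤ M0) (hγ : 0 ≤ γ)
    (G : SimpleGraph (Fin n)) (he : 100000 ≤ (numEdges G : ℝ))
    (hE : (n : ℝ) ^ 2 / q ≤ (numEdges G : ℝ)) (hG : ¬ Good s0 G) :
    (numEdges G : ℝ) ^ 2 ≤
      PhiE F A1 B ((n : ℝ) ^ 4 * q ^ 16 / s0 ^ 8) q ((n : ℝ) ^ 2 / q) M0 γ G := by
  have hn0 : (0:ℝ) < n := by linarith only [hn]
  have hq0 : 0 < q := by linarith only [hq]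
  have hE0' : (0:ℝ) < numEdges G := by linarith only [he]
  obtain ⟨hs4, hs5, hs6⟩ := early_size G q hq hn hE
  have hc0 : 0 < cc G := lt_of_lt_of_le (by positivity) hs4
  have hZ := Z8_of_not_good G s0 hs0 hn0 hc0 hG
  have hle := numEdges_le G
  have hE0 : 0 < (n : ℝ) ^ 2 / q := by positivity
  have ha := a1E_nonneg A1 ((n:ℝ)^2/q) (numEdges G) hA.le hE0 hE0'.le
  have h1 : 4 / q ^ 2 ≤ cc G / n := by
    rw [le_div_iff₀ hn0]
    calc 4 / q ^ 2 * n = 4 * n / q ^ 2 := by ring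
      _ ≤ _ := hs4
  have h2 : (4 / q ^ 2) ^ 8 ≤ (cc G / n) ^ 8 := pow_le_pow_left₀ (by positivity) h1 8
  have h3 : s0 ^ 8 * (4 / q ^ 2) ^ 8 ≤ Z8 G :=
    (mul_le_mul_of_nonneg_left h2 (by positivity)).trans hZ
  have h4 : (n : ℝ) ^ 4 * q ^ 16 / s0 ^ 8 ≤
      bE ((n : ℝ) ^ 4 * q ^ 16 / s0 ^ 8) ((n : ℝ) ^ 2 / q) (numEdges G) := by
    unfold bE
    have : 1 ≤ ((numEdges G : ℝ) / ((n : ℝ) ^ 2 / q)) ^ 40 := by
      apply one_le_pow₀
      rw [le_div_iff₀ hE0]; linarith only [hE]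
    have h0 : 0 ≤ (n : ℝ) ^ 4 * q ^ 16 / s0 ^ 8 := by positivity
    nlinarith only [this, h0]
  have hb0 : 0 ≤ bE ((n : ℝ) ^ 4 * q ^ 16 / s0 ^ 8) ((n : ℝ) ^ 2 / q) (numEdges G) :=
    le_trans (by positivity) h4
  have h5 : (n : ℝ) ^ 4 * 65536 ≤
      bE ((n : ℝ) ^ 4 * q ^ 16 / s0 ^ 8) ((n : ℝ) ^ 2 / q) (numEdges G) * Z8 G := by
    calc (n : ℝ) ^ 4 * 65536 = ((n : ℝ) ^ 4 * q ^ 16 / s0 ^ 8) * (s0 ^ 8 * (4 / q ^ 2) ^ 8) := by
          field_simp
          norm_num
      _ ≤ _ := mul_le_mul h4 h3 (by positivity) hb0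
  have h6 : (numEdges G : ℝ) ^ 2 ≤ (n : ℝ) ^ 4 * 65536 := by
    have := mul_self_le_mul_self (by positivity) hle
    have h7 : 0 ≤ (n : ℝ) ^ 4 := by positivity
    nlinarith only [this]
  unfold PhiE
  have h8 : 0 ≤ a1E A1 ((n : ℝ) ^ 2 / q) (numEdges G) * F G := mul_nonneg ha (hF.nonneg G)
  have h9 : 0 ≤ B * a1E A1 ((n : ℝ) ^ 2 / q) (numEdges G) / cc G ^ 4 * wheels G := by
    have := wheels_nonneg G
    positivity
  have h10 : 0 ≤ 4 * q ^ 2 * bE ((n : ℝ) ^ 4 * q ^ 16 / s0 ^ 8) ((n : ℝ) ^ 2 / q) (numEdges G) *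
      Phi8 G := by
    have := Phi8_nonneg G
    positivity
  have h11 : 0 ≤ γ * (numEdges G : ℝ) := by positivity
  linarith only [hM, h5, h6, h8, h9, h10, h11]

/-- the coefficients match at the transition -/
lemma a1L_le_a1E (A Es E0 e : ℝ) (hA : 0 < A) (hEs : 0 < Es) (he : 0 < e) (he0 : e ≤ E0) :
    a1L A Es e ≤ a1E (a1L A Es E0) E0 e := by
  have hE0 : 0 < E0 := by linarith
  unfold a1E a1L
  obtain ⟨y, hy⟩ : ∃ y, y = e / E0 := ⟨_, rfl⟩
  have hy0 : 0 < y := by rw [hy]; positivity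
  have hy1 : y ≤ 1 := by rw [hy, div_le_one hE0]; exact he0
  have e1 : e / Es = (E0 / Es) * y := by rw [hy]; field_simp
  have e2 : A * e = A * E0 * y := by rw [hy]; field_simp
  rw [← hy, e1, e2, Real.mul_rpow (by positivity) hy0.le]
  have h1 : y * y ^ (1 / 150 : ℝ) ≤ y ^ (3 / 5 : ℝ) := by
    have h2 : y ^ (1 / 150 : ℝ) ≤ 1 := Real.rpow_le_one hy0.le hy1 (by norm_num)
    have h3 : y ≤ y ^ (3 / 5 : ℝ) := by
      calc y = y ^ (1 : ℝ) := (Real.rpow_one y).symm
        _ ≤ y ^ (3 / 5 : ℝ) := Real.rpow_le_rpow_of_exponent_ge hy0 hy1 (by norm_num)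
    calc y * y ^ (1 / 150 : ℝ) ≤ y * 1 := mul_le_mul_of_nonneg_left h2 hy0.le
      _ = y := mul_one _
      _ ≤ _ := h3
  calc A * E0 * y * ((E0 / Es) ^ (1 / 150 : ℝ) * y ^ (1 / 150 : ℝ))
      = A * E0 * (E0 / Es) ^ (1 / 150 : ℝ) * (y * y ^ (1 / 150 : ℝ)) := by ring
    _ ≤ A * E0 * (E0 / Es) ^ (1 / 150 : ℝ) * y ^ (3 / 5 : ℝ) :=
        mul_le_mul_of_nonneg_left h1 (by positivity)

lemma PhiL_le_PhiE (F : SimpleGraph (Fin n) → ℝ) (A B b0 q D Es E0 M0 γ : ℝ)
    (hF : ∀ G, 0 ≤ F G) (hA : 0 < A) (hB : 0 < B) (hD : 0 ≤ D) (hEs : 0 < Es) (hγ : 0 ≤ γ)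
    (hb0 : 0 ≤ b0) (G : SimpleGraph (Fin n)) (he : 0 < (numEdges G : ℝ))
    (heE : (numEdges G : ℝ) ≤ E0) :
    PhiL F A B D Es M0 G ≤ PhiE F (a1L A Es E0) B b0 q E0 M0 γ G := by
  have h1 := a1L_le_a1E A Es E0 (numEdges G) hA hEs he heE
  have hE0 : 0 < E0 := by linarith
  have hc : 0 ≤ cc G := by unfold cc; positivity
  unfold PhiL PhiE
  have h2 : a1L A Es (numEdges G) * F G ≤ a1E (a1L A Es E0) E0 (numEdges G) * F G :=
    mul_le_mul_of_nonneg_right h1 (hF G)
  have h3 : B * a1L A Es (numEdges G) / cc G ^ 4 * wheels G ≤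
      B * a1E (a1L A Es E0) E0 (numEdges G) / cc G ^ 4 * wheels G := by
    apply mul_le_mul_of_nonneg_right _ (wheels_nonneg G)
    apply div_le_div_of_nonneg_right _ (by positivity)
    exact mul_le_mul_of_nonneg_left h1 hB.le
  have h4 : 0 ≤ bE b0 E0 (numEdges G) := by unfold bE; positivity
  have h5 : 0 ≤ 4 * q ^ 2 * bE b0 E0 (numEdges G) * Phi8 G := by
    have := Phi8_nonneg G
    positivity
  have h6 : 0 ≤ bE b0 E0 (numEdges G) * Z8 G := mul_nonneg h4 (Z8_nonneg G)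
  have h7 : a3L D M0 ((n:ℝ)^3) Es (numEdges G) ≤ M0 := by
    unfold a3L
    have : 0 ≤ D * ((n:ℝ)^3) ^ 2 / (Es * (numEdges G)) := by positivity
    linarith only [this]
  have h8 : 0 ≤ γ * (numEdges G : ℝ) := by positivity
  linarith

/-- the combined potential -/
noncomputable def Phi (F : SimpleGraph (Fin n) → ℝ) (A B D Es M0 s0 q : ℝ)
    (G : SimpleGraph (Fin n)) : ℝ :=
  if (numEdges G : ℝ) < (n : ℝ) ^ 2 / q then PhiL F A B D Es M0 G else
    PhiE F (a1L A Es ((n : ℝ) ^ 2 / q)) B ((n : ℝ) ^ 4 * q ^ 16 / s0 ^ 8) q ((n : ℝ) ^ 2 / q)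
      M0 (n / q ^ 8) G

/-- numerical hypotheses -/
structure NHyp (n : ℕ) (A B C D K0 κ κL s0 η Es M0 q : ℝ) : Prop where
  hη : η ≤ 1 / 10000
  hn : 2000 ≤ (n : ℝ)
  hA : 0 < A
  hAκ : 1 ≤ A * κ
  hB : 0 < B
  hC : 0 ≤ C
  hκL : 0 ≤ κL
  hK0 : 10000 ≤ K0
  hκ : 65536 * B * κL ≤ (1 / 1000) * K0
  hD : A * C ≤ D
  hCB : 4 * C ≤ B
  hEs : 100000 ≤ Es
  hKs : K0 ≤ 4 * Es ^ 2 / (n : ℝ) ^ 3
  hEq : Es + 3 ≤ (n : ℝ) ^ 2 / q
  hq : 1 ≤ q
  hs0 : 0 < s0
  hs1 : s0 ≤ 1 / 10000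
  hM : D * ((n : ℝ) ^ 3) ^ 2 / Es ^ 2 ≤ M0
  h4 : (n : ℝ) ^ 3 ≤ s0 ^ 2 * (4 * n / q ^ 2) ^ 4
  hconst : ∀ e c : ℝ, (n : ℝ) ^ 2 / q ≤ e → 2 * e ≤ (n : ℝ) ^ 2 → c = 4 * e ^ 2 / (n : ℝ) ^ 3 →
    a1E (a1L A Es ((n : ℝ) ^ 2 / q)) ((n : ℝ) ^ 2 / q) e * (C * (e / c)) +
      (4 * q ^ 2 * bE ((n : ℝ) ^ 4 * q ^ 16 / s0 ^ 8) ((n : ℝ) ^ 2 / q) e *
          (2 * 10 ^ 14 * e / c ^ 3) +
        bE ((n : ℝ) ^ 4 * q ^ 16 / s0 ^ 8) ((n : ℝ) ^ 2 / q) e *
          (10 ^ 14 * (n : ℝ) ^ 2 / c ^ 3)) ≤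
      (9 / 10) * (n / q ^ 8) * c * e

lemma cc_ge (G : SimpleGraph (Fin n)) (Es K0 : ℝ) (hn : 0 < (n : ℝ)) (hEs : 0 ≤ Es)
    (hKs : K0 ≤ 4 * Es ^ 2 / (n : ℝ) ^ 3) (h : Es ≤ (numEdges G : ℝ)) : K0 ≤ cc G := by
  refine hKs.trans ?_
  unfold cc
  apply div_le_div_of_nonneg_right _ (by positivity)
  have := pow_le_pow_left₀ hEs h 2
  linarith only [this]

lemma nonempty_of_rho (G : SimpleGraph (Fin n)) (h : |rho G - 1| ≤ 1 / 10000) :
    (triangles G).Nonempty := by
  by_contra hne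
  have h1 : ((triangles G).card : ℝ) = 0 := by
    rw [Finset.not_nonempty_iff_eq_empty] at hne
    rw [hne]; simp
  have h2 : rho G = 0 := by
    unfold rho
    rw [h1]; simp only [mul_zero, zero_mul, zero_div]
  rw [h2] at h
  norm_num at h

/-- `Phi` is a supersolution -/
theorem Phi_step (F : SimpleGraph (Fin n) → ℝ) (A B C D K0 κ κL s0 η Es M0 q : ℝ)
    (hF : FHyp F C K0 κ κL s0 η) (hN : NHyp n A B C D K0 κ κL s0 η Es M0 q)
    (G : SimpleGraph (Fin n)) (hE : Es ≤ (numEdges G : ℝ)) :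
    (numEdges G : ℝ) ^ 2 ≤ Phi F A B D Es M0 s0 q G ∨ ((triangles G).Nonempty ∧
      ∑ t ∈ triangles G, Phi F A B D Es M0 s0 q (removeTriangle G t) ≤
        ((triangles G).card : ℝ) * Phi F A B D Es M0 s0 q G) := by
  have hn := hN.hn
  have hA := hN.hA
  have hB := hN.hB
  have hC := hN.hC
  have hD := hN.hD
  have hEs := hN.hEs
  have hEs0 : 0 < Es := by linarith only [hEs]
  have hn0 : (0:ℝ) < n := by linarith only [hn]
  have hn' : 0 < n := by exact_mod_cast hn0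
  have hq := hN.hq
  have hq0 : 0 < q := by linarith only [hq]
  have hs0 := hN.hs0
  have hAC : 0 ≤ A * C := by positivity
  have hD0 : 0 ≤ D := by linarith only [hD, hAC]
  have hM0 : 0 ≤ M0 := le_trans (by positivity) hN.hM
  have he : 100000 ≤ (numEdges G : ℝ) := by linarith only [hE, hEs]
  have hc := cc_ge G Es K0 hn0 hEs0.le hN.hKs hE
  have hγ : 0 ≤ (n : ℝ) / q ^ 8 := by positivity
  rcases lt_or_ge (numEdges G : ℝ) ((n : ℝ) ^ 2 / q) with h | h
  · -- late phase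
    have e1 : Phi F A B D Es M0 s0 q G = PhiL F A B D Es M0 G := by
      unfold Phi
      rw [if_pos h]
    rw [e1]
    rcases le_or_gt |rho G - 1| η with hζ | hζ
    · right
      refine ⟨nonempty_of_rho G (hζ.trans hN.hη), ?_⟩
      have e2 : ∀ t ∈ triangles G, Phi F A B D Es M0 s0 q (removeTriangle G t) =
          PhiL F A B D Es M0 (removeTriangle G t) := by
        intro t ht
        unfold Phi
        rw [if_pos]
        rw [numEdges_remove_real G t ht]
        linarith only [h]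
      rw [Finset.sum_congr rfl e2]
      exact PhiL_step F A B C D K0 κ κL s0 η Es M0 hF hn' hA hB hC hN.hκL hN.hK0 hN.hκ hD
        (by linarith only [hB, hN.hCB]) hEs0 G he hE hc hN.hη hζ
    · left
      exact PhiL_bad F A B C D K0 κ κL s0 η Es M0 hF hA hB hN.hAκ hD0 hEs0 hN.hM G hE hζ
  · -- early phase
    have e1 : Phi F A B D Es M0 s0 q G = PhiE F (a1L A Es ((n : ℝ) ^ 2 / q)) B
        ((n : ℝ) ^ 4 * q ^ 16 / s0 ^ 8) q ((n : ℝ) ^ 2 / q) M0 (n / q ^ 8) G := by
      unfold Phi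
      rw [if_neg (not_lt.mpr h)]
    rw [e1]
    have hE0 : 0 < (n : ℝ) ^ 2 / q := by positivity
    have hA1 : 0 < a1L A Es ((n : ℝ) ^ 2 / q) := by unfold a1L; positivity
    have hb0 : 0 < (n : ℝ) ^ 4 * q ^ 16 / s0 ^ 8 := by positivity
    by_cases hG : Good s0 G
    · right
      obtain ⟨hs4, hs5, hs6⟩ := early_size G q hq hn h
      have hbd : ∀ u v, u ≠ v → |zz G u v| ≤ 1 / 10000 := by
        intro u v huv
        refine (hG u v huv).trans ?_
        have h1 : cc G / n ≤ 1 := by rw [div_le_one hn0]; exact hs5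
        have h2 : 0 ≤ cc G / n := by
          have : 0 < cc G := by linarith only [hc, hN.hK0]
          positivity
        have h3 := hN.hs1
        nlinarith only [h3, hs0, h1]
      have hE' : 0 < numEdges G := by
        have : (0:ℝ) < numEdges G := by linarith only [hE, hEs]
        exact_mod_cast this
      refine ⟨nonempty_of_rho G (rho_of_good G hn' hE' _ hbd), ?_⟩
      have e2 : ∀ t ∈ triangles G, Phi F A B D Es M0 s0 q (removeTriangle G t) ≤
          PhiE F (a1L A Es ((n : ℝ) ^ 2 / q)) B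
        ((n : ℝ) ^ 4 * q ^ 16 / s0 ^ 8) q ((n : ℝ) ^ 2 / q) M0 (n / q ^ 8) (removeTriangle G t) := by
        intro t ht
        unfold Phi
        split_ifs with h7
        · have h8 := numEdges_remove_real G t ht
          exact PhiL_le_PhiE F A B _ q D Es ((n : ℝ) ^ 2 / q) M0 _ hF.nonneg hA hB hD0 hEs0 hγ hb0.le
            _ (by linarith only [hE, hEs, h8]) h7.le
        · exact le_refl _
      refine (Finset.sum_le_sum e2).trans ?_
      have hc4 : (n : ℝ) ^ 3 ≤ s0 ^ 2 * cc G ^ 4 := by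
        refine hN.h4.trans ?_
        apply mul_le_mul_of_nonneg_left _ (by positivity)
        exact pow_le_pow_left₀ (by positivity) hs4 4
      exact PhiE_step F _ B C K0 κ κL s0 η _ q _ M0 _ hF hn hA1 hB hC hN.hκL hN.hK0 hN.hκ
        hN.hCB hE0 hq hb0 hs0 hN.hs1 G he h hc hc4 hG
        (hN.hconst (numEdges G) (cc G) h (numEdges_le G) rfl) hγ
    · left
      exact PhiE_bad F _ B C K0 κ κL s0 η q M0 _ hF hn hA1 hB hq hs0 hM0 hγ G he h hG

end Vale.Agent.P046.C
end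
end

section

section

set_option autoImplicit false

open scoped Classical
open Finset

namespace Vale.Agent.P046.C

open Vale.Agent.P046 Vale.Agent.P046.OS

/-- a power bound -/
lemma rpow_pow_le (x p : ℝ) (m : ℕ) (a : ℝ) (k : ℕ) (hx : 0 ≤ x) (hp : 0 ≤ p) (ha : 0 ≤ a)
    (h : x ≤ p ^ m) (hk : (m : ℝ) * a = k) : x ^ a ≤ p ^ k := by
  calc x ^ a ≤ (p ^ m) ^ a := Real.rpow_le_rpow hx h ha
    _ = p ^ k := by
        rw [← Real.rpow_natCast p m, ← Real.rpow_mul hp, hk, Real.rpow_natCast]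

/-- bound for the coefficient in the early phase -/
lemma a1E_bound (A Es N2 p e : ℝ) (hA : 0 < A) (hp : 1 ≤ p) (hEs : 0 < Es) (hN2 : 0 < N2)
    (h1 : N2 / p ^ 15 / Es ≤ p ^ 600) (he0 : 0 ≤ e) (he : e ≤ N2) :
    a1E (a1L A Es (N2 / p ^ 15)) (N2 / p ^ 15) e ≤ A * N2 / p ^ 2 := by
  have hp0 : 0 < p := by linarith only [hp]
  have hE0 : 0 < N2 / p ^ 15 := by positivity
  have h2 : (N2 / p ^ 15 / Es) ^ (1 / 150 : ℝ) ≤ p ^ 4 :=
    rpow_pow_le _ p 600 (1 / 150) 4 (by positivity) hp0.le (by norm_num) h1 (by norm_num)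
  have h3 : (e / (N2 / p ^ 15)) ^ (3 / 5 : ℝ) ≤ p ^ 9 := by
    refine rpow_pow_le _ p 15 (3 / 5) 9 (by positivity) hp0.le (by norm_num) ?_ (by norm_num)
    rw [div_le_iff₀ hE0]
    have : p ^ 15 * (N2 / p ^ 15) = N2 := by field_simp
    linarith only [he, this]
  unfold a1E a1L
  calc A * (N2 / p ^ 15) * (N2 / p ^ 15 / Es) ^ (1 / 150 : ℝ) * (e / (N2 / p ^ 15)) ^ (3 / 5 : ℝ)
      ≤ A * (N2 / p ^ 15) * p ^ 4 * p ^ 9 := by
        apply mul_le_mul _ h3 (by positivity) (by positivity)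
        exact mul_le_mul_of_nonneg_left h2 (by positivity)
    _ = A * N2 / p ^ 2 := by field_simp

lemma bE_bound (b0 E0 e q : ℝ) (hb : 0 ≤ b0) (hE0 : 0 < E0) (he0 : 0 ≤ e) (he : e ≤ q * E0) :
    bE b0 E0 e ≤ b0 * q ^ 40 := by
  unfold bE
  apply mul_le_mul_of_nonneg_left _ hb
  apply pow_le_pow_left₀ (by positivity)
  rw [div_le_iff₀ hE0]
  exact he

/-- the constant term inequality -/
lemma hconst_of_large (A C s0 Es p N : ℝ) (hA : 0 < A) (hC : 0 ≤ C) (hs0 : 0 < s0)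
    (hp : 1 ≤ p) (hN : N = p ^ 1200) (hEs : 0 < Es)
    (h1 : N ^ 2 / p ^ 15 / Es ≤ p ^ 600) (hAC : A * C ≤ p) (hs : 2 * 10 ^ 13 / s0 ^ 8 ≤ p)
    (e c : ℝ) (he : N ^ 2 / p ^ 15 ≤ e) (heN : 2 * e ≤ N ^ 2) (hc : c = 4 * e ^ 2 / N ^ 3) :
    a1E (a1L A Es (N ^ 2 / p ^ 15)) (N ^ 2 / p ^ 15) e * (C * (e / c)) +
      (4 * (p ^ 15) ^ 2 * bE (N ^ 4 * (p ^ 15) ^ 16 / s0 ^ 8) (N ^ 2 / p ^ 15) e *
          (2 * 10 ^ 14 * e / c ^ 3) +
        bE (N ^ 4 * (p ^ 15) ^ 16 / s0 ^ 8) (N ^ 2 / p ^ 15) e *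
          (10 ^ 14 * N ^ 2 / c ^ 3)) ≤
      (9 / 10) * (N / (p ^ 15) ^ 8) * c * e := by
  have hp0 : 0 < p := by linarith only [hp]
  have hN0 : 0 < N := by rw [hN]; positivity
  have hE0 : 0 < N ^ 2 / p ^ 15 := by positivity
  have he0 : 0 < e := by linarith only [he, hE0]
  have hc0 : 0 < c := by rw [hc]; positivity
  -- lower bound for c
  have hcl : 4 * N / p ^ 30 ≤ c := by
    rw [hc, div_le_div_iff₀ (by positivity) (by positivity)]
    have h2 : (N ^ 2 / p ^ 15) ^ 2 ≤ e ^ 2 := pow_le_pow_left₀ hE0.le he 2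
    have h3 : (N ^ 2 / p ^ 15) ^ 2 * p ^ 30 = N ^ 4 := by field_simp
    have h4 := mul_le_mul_of_nonneg_right h2 (by positivity : 0 ≤ p ^ 30)
    rw [h3] at h4
    linarith only [h4]
  have ha := a1E_bound A Es (N ^ 2) p e hA hp hEs (by positivity) h1 he0.le (by linarith only [he, heN, hE0])
  have hb := bE_bound (N ^ 4 * (p ^ 15) ^ 16 / s0 ^ 8) (N ^ 2 / p ^ 15) e (p ^ 15) (by positivity) hE0
    he0.le (by
      have : p ^ 15 * (N ^ 2 / p ^ 15) = N ^ 2 := by field_simp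
      rw [this]; linarith only [he, heN, hE0])
  obtain ⟨a, hadef⟩ : ∃ a, a = a1E (a1L A Es (N ^ 2 / p ^ 15)) (N ^ 2 / p ^ 15) e := ⟨_, rfl⟩
  obtain ⟨b, hbdef⟩ : ∃ b, b = bE (N ^ 4 * (p ^ 15) ^ 16 / s0 ^ 8) (N ^ 2 / p ^ 15) e := ⟨_, rfl⟩
  rw [← hadef] at ha
  rw [← hbdef] at hb
  rw [← hadef, ← hbdef]
  have hb0 : 0 ≤ b := by rw [hbdef]; unfold bE; positivity
  -- first term
  have t1 : a * (C * (e / c)) ≤ (3 / 10) * (N / (p ^ 15) ^ 8) * c * e := by
    have hcc : (4 * N / p ^ 30) ^ 2 ≤ c ^ 2 := pow_le_pow_left₀ (by positivity) hcl 2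
    have h5 : a * C ≤ (3 / 10) * (N / (p ^ 15) ^ 8) * c ^ 2 := by
      calc a * C ≤ (A * N ^ 2 / p ^ 2) * C := mul_le_mul_of_nonneg_right ha hC
        _ = (A * C) * N ^ 2 / p ^ 2 := by ring
        _ ≤ p * N ^ 2 / p ^ 2 := by
            apply div_le_div_of_nonneg_right _ (by positivity)
            exact mul_le_mul_of_nonneg_right hAC (by positivity)
        _ ≤ (3 / 10) * (N / (p ^ 15) ^ 8) * (4 * N / p ^ 30) ^ 2 := by
            rw [div_le_iff₀ (by positivity)]
            have e1 : (3 / 10) * (N / (p ^ 15) ^ 8) * (4 * N / p ^ 30) ^ 2 * p ^ 2 =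
                (48 / 10) * N ^ 2 * (N / p ^ 178) := by field_simp; norm_num
            rw [e1]
            have e2 : N / p ^ 178 = p ^ 1022 := by
              rw [hN, div_eq_iff (by positivity)]; ring
            rw [e2]
            have h6 : p ≤ p ^ 1022 := le_self_pow₀ hp (by norm_num)
            have h7 : N ^ 2 * p ≤ N ^ 2 * p ^ 1022 := mul_le_mul_of_nonneg_left h6 (by positivity)
            have h8 : 0 ≤ N ^ 2 * p ^ 1022 := by positivity
            linarith only [h7, h8]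
        _ ≤ _ := mul_le_mul_of_nonneg_left hcc (by positivity)
    calc a * (C * (e / c)) = (a * C) * (e / c) := by ring
      _ ≤ ((3 / 10) * (N / (p ^ 15) ^ 8) * c ^ 2) * (e / c) :=
          mul_le_mul_of_nonneg_right h5 (by positivity)
      _ = _ := by field_simp
  -- the other terms
  have hc4 : (4 * N / p ^ 30) ^ 4 ≤ c ^ 4 := pow_le_pow_left₀ (by positivity) hcl 4
  have hkey : 8 * 10 ^ 14 * p ^ 30 * b ≤ (3 / 10) * (N / (p ^ 15) ^ 8) * c ^ 4 := by
    calc 8 * 10 ^ 14 * p ^ 30 * b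
        ≤ 8 * 10 ^ 14 * p ^ 30 * (N ^ 4 * (p ^ 15) ^ 16 / s0 ^ 8 * (p ^ 15) ^ 40) :=
          mul_le_mul_of_nonneg_left hb (by positivity)
      _ = 40 * (2 * 10 ^ 13 / s0 ^ 8) * (N ^ 4 * p ^ 870) := by ring
      _ ≤ 40 * p * (N ^ 4 * p ^ 870) := by
          apply mul_le_mul_of_nonneg_right _ (by positivity)
          linarith only [hs]
      _ ≤ (3 / 10) * (N / (p ^ 15) ^ 8) * (4 * N / p ^ 30) ^ 4 := by
          have e1 : (3 / 10) * (N / (p ^ 15) ^ 8) * (4 * N / p ^ 30) ^ 4 =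
              (768 / 10) * N ^ 4 * (N / p ^ 240) := by field_simp; norm_num
          rw [e1]
          have e2 : N / p ^ 240 = p ^ 960 := by
            rw [hN, div_eq_iff (by positivity)]; ring
          rw [e2]
          have h6 : p ^ 871 ≤ p ^ 960 := pow_le_pow_right₀ hp (by norm_num)
          have h7 : N ^ 4 * p ^ 871 ≤ N ^ 4 * p ^ 960 := mul_le_mul_of_nonneg_left h6 (by positivity)
          have h8 : 0 ≤ N ^ 4 * p ^ 960 := by positivity
          have e3 : 40 * p * (N ^ 4 * p ^ 870) = 40 * (N ^ 4 * p ^ 871) := by ring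
          rw [e3]
          linarith only [h7, h8]
      _ ≤ _ := mul_le_mul_of_nonneg_left hc4 (by positivity)
  have t2 : 4 * (p ^ 15) ^ 2 * b * (2 * 10 ^ 14 * e / c ^ 3) ≤
      (3 / 10) * (N / (p ^ 15) ^ 8) * c * e := by
    calc 4 * (p ^ 15) ^ 2 * b * (2 * 10 ^ 14 * e / c ^ 3)
        = (8 * 10 ^ 14 * p ^ 30 * b) * (e / c ^ 3) := by ring
      _ ≤ ((3 / 10) * (N / (p ^ 15) ^ 8) * c ^ 4) * (e / c ^ 3) :=
          mul_le_mul_of_nonneg_right hkey (by positivity)
      _ = _ := by field_simp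
  have t3 : b * (10 ^ 14 * N ^ 2 / c ^ 3) ≤ (3 / 10) * (N / (p ^ 15) ^ 8) * c * e := by
    have h9 : N ^ 2 ≤ p ^ 15 * e := by
      rw [div_le_iff₀ (by positivity)] at he
      linarith only [he]
    have h10 : p ^ 15 ≤ p ^ 30 := pow_le_pow_right₀ hp (by norm_num)
    calc b * (10 ^ 14 * N ^ 2 / c ^ 3) = b * 10 ^ 14 / c ^ 3 * N ^ 2 := by ring
      _ ≤ b * 10 ^ 14 / c ^ 3 * (p ^ 15 * e) := mul_le_mul_of_nonneg_left h9 (by positivity)
      _ ≤ b * 10 ^ 14 / c ^ 3 * (p ^ 30 * e) := by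
          apply mul_le_mul_of_nonneg_left _ (by positivity)
          exact mul_le_mul_of_nonneg_right h10 he0.le
      _ ≤ (8 * 10 ^ 14 * p ^ 30 * b) * (e / c ^ 3) := by
          have : 0 ≤ b * p ^ 30 * (e / c ^ 3) := by positivity
          have e5 : b * 10 ^ 14 / c ^ 3 * (p ^ 30 * e) = 10 ^ 14 * (b * p ^ 30 * (e / c ^ 3)) := by ring
          have e6 : (8 * 10 ^ 14 * p ^ 30 * b) * (e / c ^ 3) =
            8 * 10 ^ 14 * (b * p ^ 30 * (e / c ^ 3)) := by ring
          rw [e5, e6]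
          linarith only [this]
      _ ≤ ((3 / 10) * (N / (p ^ 15) ^ 8) * c ^ 4) * (e / c ^ 3) :=
          mul_le_mul_of_nonneg_right hkey (by positivity)
      _ = _ := by field_simp
  linarith only [t1, t2, t3]

end Vale.Agent.P046.C
end
end

section

section

set_option autoImplicit false

open scoped Classical
open Finset

namespace Vale.Agent.P046.C

open Vale.Agent.P046 Vale.Agent.P046.OS

lemma zz_top (n : ℕ) (hn : 2 ≤ n) (u v : Fin n) (h : u ≠ v) :
    zz (⊤ : SimpleGraph (Fin n)) u v = -(1 / ((n : ℝ) - 1) ^ 2) := by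
  have hn' : (2 : ℝ) ≤ n := by exact_mod_cast hn
  have hE : (numEdges (⊤ : SimpleGraph (Fin n)) : ℝ) = (n : ℝ) * ((n : ℝ) - 1) / 2 := by
    rw [numEdges_top, choose_two_real]
  have hm : 0 < (n : ℝ) - 1 := by linarith only [hn']
  unfold zz rr
  rw [codeg_top n u v h, hE, Nat.cast_sub hn]
  push_cast
  field_simp
  ring

lemma zz_top8 (n : ℕ) (hn : 2 ≤ n) (u v : Fin n) (h : u ≠ v) :
    zz (⊤ : SimpleGraph (Fin n)) u v ^ 8 ≤ 65536 / (n : ℝ) ^ 16 := by
  have hn' : (2 : ℝ) ≤ n := by exact_mod_cast hn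
  have hm : 0 < (n : ℝ) - 1 := by linarith only [hn']
  rw [zz_top n hn u v h]
  have h1 : (-(1 / ((n : ℝ) - 1) ^ 2)) ^ 8 = 1 / ((n : ℝ) - 1) ^ 16 := by
    field_simp
  rw [h1, div_le_div_iff₀ (by positivity) (by positivity)]
  have h2 : (n:ℝ) ≤ 2 * ((n:ℝ) - 1) := by linarith only [hn']
  have h3 : (n:ℝ) ^ 16 ≤ (2 * ((n:ℝ) - 1)) ^ 16 := pow_le_pow_left₀ (by positivity) h2 16
  calc 1 * (n:ℝ) ^ 16 = (n:ℝ) ^ 16 := one_mul _
    _ ≤ (2 * ((n:ℝ) - 1)) ^ 16 := h3
    _ = 65536 * ((n:ℝ) - 1) ^ 16 := by rw [mul_pow]; norm_num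

lemma Phi8_top (n : ℕ) (hn : 2 ≤ n) :
    Phi8 (⊤ : SimpleGraph (Fin n)) ≤ 65536 / (n : ℝ) ^ 14 := by
  have hn' : (2 : ℝ) ≤ n := by exact_mod_cast hn
  have key : Phi8 (⊤ : SimpleGraph (Fin n)) ≤
      ∑ _u : Fin n, ∑ _v : Fin n, 65536 / (n : ℝ) ^ 16 := by
    unfold Phi8 edgeSum
    refine Finset.sum_le_sum fun u _ => Finset.sum_le_sum fun v _ => ?_
    split_ifs with h
    · exact zz_top8 n hn u v ((SimpleGraph.top_adj u v).mp h)
    · positivity
  refine key.trans (le_of_eq ?_)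
  simp only [Finset.sum_const, Finset.card_univ, Fintype.card_fin, nsmul_eq_mul]
  field_simp

lemma Z8_top (n : ℕ) (hn : 2 ≤ n) :
    Z8 (⊤ : SimpleGraph (Fin n)) ≤ 65536 / (n : ℝ) ^ 14 := by
  have hn' : (2 : ℝ) ≤ n := by exact_mod_cast hn
  unfold Z8
  calc (∑ u : Fin n, ∑ v : Fin n, if u ≠ v then
        zz (⊤ : SimpleGraph (Fin n)) u v ^ 8 else 0)
      ≤ ∑ _u : Fin n, ∑ _v : Fin n, 65536 / (n : ℝ) ^ 16 := by
        refine Finset.sum_le_sum fun u _ => Finset.sum_le_sum fun v _ => ?_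
        by_cases h : u ≠ v
        · rw [if_pos h]
          exact zz_top8 n hn u v h
        · rw [if_neg h]
          positivity
    _ = 65536 / (n : ℝ) ^ 14 := by
        simp only [Finset.sum_const, Finset.card_univ, Fintype.card_fin, nsmul_eq_mul]
        field_simp

lemma wheels_top_le (n : ℕ) (G : SimpleGraph (Fin n)) : wheels G ≤ (n : ℝ) ^ 5 := by
  unfold wheels
  calc (∑ u : Fin n, ∑ v : Fin n, ∑ x : Fin n, ∑ s : Fin n, ∑ y : Fin n,
        if IsWheel G u v x s y then (1:ℝ) else 0)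
      ≤ ∑ _u : Fin n, ∑ _v : Fin n, ∑ _x : Fin n, ∑ _s : Fin n, ∑ _y : Fin n, (1:ℝ) := by
        refine Finset.sum_le_sum fun u _ => Finset.sum_le_sum fun v _ =>
          Finset.sum_le_sum fun x _ => Finset.sum_le_sum fun s _ => Finset.sum_le_sum fun y _ => ?_
        split_ifs <;> norm_num
    _ = (n : ℝ) ^ 5 := by
        simp only [Finset.sum_const, Finset.card_univ, Fintype.card_fin, nsmul_eq_mul]
        ring

/-- size of the potential at the complete graph -/
lemma Phi_top (n : ℕ) (F : SimpleGraph (Fin n) → ℝ) (A B C D K0 κ κL s0 η Es M0 p : ℝ)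
    (hF : FHyp F C K0 κ κL s0 η) (hn : 2 ≤ n) (hA : 0 < A) (hB : 0 < B) (hC : 0 ≤ C)
    (hs0 : 0 < s0) (hp : 2 ≤ p) (hN : (n : ℝ) = p ^ 1200) (hEs : 0 < Es)
    (h1 : (n : ℝ) ^ 2 / p ^ 15 / Es ≤ p ^ 600) (hs : 2 * 10 ^ 13 / s0 ^ 8 ≤ p) :
    Phi F A B D Es M0 s0 (p ^ 15) ⊤ ≤ M0 + (A * C + 256 * A * B + 2) * (n : ℝ) ^ 3 / p ^ 2 := by
  have hn' : (2 : ℝ) ≤ n := by exact_mod_cast hn
  have hp0 : 0 < p := by linarith only [hp]
  have hp1 : 1 ≤ p := by linarith only [hp]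
  have hn0 : (0:ℝ) < n := by linarith only [hn']
  have hE : (numEdges (⊤ : SimpleGraph (Fin n)) : ℝ) = (n : ℝ) * ((n : ℝ) - 1) / 2 := by
    rw [numEdges_top, choose_two_real]
  obtain ⟨e, he⟩ : ∃ e, e = (numEdges (⊤ : SimpleGraph (Fin n)) : ℝ) := ⟨_, rfl⟩
  rw [← he] at hE
  have he0 : 0 < e := by rw [hE]; have : 0 < (n:ℝ) - 1 := by linarith only [hn']
                         positivity
  have he2 : 2 * e ≤ (n:ℝ) ^ 2 := by rw [hE]; linarith only [hn']
  have he4 : (n:ℝ) ^ 2 ≤ 4 * e := by rw [hE]; nlinarith only [hn']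
  have hE0 : 0 < (n:ℝ) ^ 2 / p ^ 15 := by positivity
  have hEE0 : (n:ℝ) ^ 2 / p ^ 15 ≤ e := by
    rw [div_le_iff₀ (by positivity)]
    have : (4:ℝ) ≤ p ^ 15 := by
      calc (4:ℝ) ≤ 2 ^ 15 := by norm_num
        _ ≤ p ^ 15 := pow_le_pow_left₀ (by norm_num) hp 15
    nlinarith only [he4, this]
  unfold Phi
  rw [if_neg (by rw [← he]; exact not_lt.mpr hEE0)]
  unfold PhiE
  rw [← he]
  have ha := a1E_bound A Es ((n:ℝ) ^ 2) p e hA hp1 hEs (by positivity) h1 he0.le (by linarith only [hn', hE, he0])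
  have hb := bE_bound ((n:ℝ) ^ 4 * (p ^ 15) ^ 16 / s0 ^ 8) ((n:ℝ) ^ 2 / p ^ 15) e (p ^ 15)
    (by positivity) hE0 he0.le (by
      have : p ^ 15 * ((n:ℝ) ^ 2 / p ^ 15) = (n:ℝ) ^ 2 := by field_simp
      rw [this]; linarith only [hn', hE, he0])
  obtain ⟨a, hadef⟩ : ∃ a, a = a1E (a1L A Es ((n:ℝ) ^ 2 / p ^ 15)) ((n:ℝ) ^ 2 / p ^ 15) e := ⟨_, rfl⟩
  obtain ⟨b, hbdef⟩ : ∃ b, b = bE ((n:ℝ) ^ 4 * (p ^ 15) ^ 16 / s0 ^ 8) ((n:ℝ) ^ 2 / p ^ 15) e :=
    ⟨_, rfl⟩
  rw [← hadef] at ha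
  rw [← hbdef] at hb
  rw [← hadef, ← hbdef]
  have ha0 : 0 ≤ a := by rw [hadef]; unfold a1E a1L; positivity
  have hb0 : 0 ≤ b := by rw [hbdef]; unfold bE; positivity
  have hcc : (n:ℝ) / 4 ≤ cc (⊤ : SimpleGraph (Fin n)) := by
    unfold cc
    rw [← he, div_le_div_iff₀ (by norm_num) (by positivity)]
    have := pow_le_pow_left₀ (by positivity) he4 2
    linarith only [this]
  have hcc4 : ((n:ℝ) / 4) ^ 4 ≤ cc (⊤ : SimpleGraph (Fin n)) ^ 4 :=
    pow_le_pow_left₀ (by positivity) hcc 4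
  have hcc0 : 0 < cc (⊤ : SimpleGraph (Fin n)) := lt_of_lt_of_le (by positivity) hcc
  have t1 : a * F ⊤ ≤ A * C * (n:ℝ) ^ 3 / p ^ 2 := by
    calc a * F ⊤ ≤ a * C := mul_le_mul_of_nonneg_left hF.top ha0
      _ ≤ (A * (n:ℝ) ^ 2 / p ^ 2) * C := mul_le_mul_of_nonneg_right ha hC
      _ = A * C * (n:ℝ) ^ 2 / p ^ 2 := by ring
      _ ≤ A * C * (n:ℝ) ^ 3 / p ^ 2 := by
          apply div_le_div_of_nonneg_right _ (by positivity)
          apply mul_le_mul_of_nonneg_left _ (by positivity)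
          exact pow_le_pow_right₀ (by linarith only [hn']) (by norm_num)
  have t2 : B * a / cc (⊤ : SimpleGraph (Fin n)) ^ 4 * wheels (⊤ : SimpleGraph (Fin n)) ≤
      256 * A * B * (n:ℝ) ^ 3 / p ^ 2 := by
    have hw := wheels_top_le n ⊤
    have hw0 := wheels_nonneg (⊤ : SimpleGraph (Fin n))
    calc B * a / cc (⊤ : SimpleGraph (Fin n)) ^ 4 * wheels (⊤ : SimpleGraph (Fin n))
        ≤ B * a / ((n:ℝ) / 4) ^ 4 * wheels (⊤ : SimpleGraph (Fin n)) := by
          apply mul_le_mul_of_nonneg_right _ hw0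
          exact div_le_div_of_nonneg_left (by positivity) (by positivity) hcc4
      _ ≤ B * a / ((n:ℝ) / 4) ^ 4 * (n:ℝ) ^ 5 := mul_le_mul_of_nonneg_left hw (by positivity)
      _ = 256 * B * (n:ℝ) * a := by field_simp; norm_num
      _ ≤ 256 * B * (n:ℝ) * (A * (n:ℝ) ^ 2 / p ^ 2) := mul_le_mul_of_nonneg_left ha (by positivity)
      _ = _ := by ring
  have hP8 := Phi8_top n hn
  have hZ8 := Z8_top n hn
  have hbn : b * (65536 / (n:ℝ) ^ 14) * (5 * p ^ 30) ≤ (n:ℝ) ^ 3 / p ^ 2 := by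
    calc b * (65536 / (n:ℝ) ^ 14) * (5 * p ^ 30)
        ≤ ((n:ℝ) ^ 4 * (p ^ 15) ^ 16 / s0 ^ 8 * (p ^ 15) ^ 40) * (65536 / (n:ℝ) ^ 14) * (5 * p ^ 30) := by
          apply mul_le_mul_of_nonneg_right _ (by positivity)
          exact mul_le_mul_of_nonneg_right hb (by positivity)
      _ = (327680 / s0 ^ 8) * (p ^ 870 / (n:ℝ) ^ 10) := by field_simp; ring
      _ ≤ p * (p ^ 870 / (n:ℝ) ^ 10) := by
          apply mul_le_mul_of_nonneg_right _ (by positivity)
          refine le_trans ?_ hs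
          apply div_le_div_of_nonneg_right _ (by positivity)
          norm_num
      _ ≤ (n:ℝ) ^ 3 / p ^ 2 := by
          rw [← mul_div_assoc, div_le_div_iff₀ (by positivity) (by positivity), hN]
          have e1 : p * p ^ 870 * p ^ 2 = p ^ 873 := by ring
          have e2 : (p ^ 1200) ^ 3 * (p ^ 1200) ^ 10 = p ^ 15600 := by ring
          rw [e1, e2]
          exact pow_le_pow_right₀ hp1 (by norm_num)
  have t3 : 4 * (p ^ 15) ^ 2 * b * Phi8 (⊤ : SimpleGraph (Fin n)) +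
      b * Z8 (⊤ : SimpleGraph (Fin n)) ≤ (n:ℝ) ^ 3 / p ^ 2 := by
    have q1 : 4 * (p ^ 15) ^ 2 * b * Phi8 (⊤ : SimpleGraph (Fin n)) ≤
        4 * (p ^ 15) ^ 2 * b * (65536 / (n:ℝ) ^ 14) := mul_le_mul_of_nonneg_left hP8 (by positivity)
    have q2 : b * Z8 (⊤ : SimpleGraph (Fin n)) ≤ b * (65536 / (n:ℝ) ^ 14) :=
      mul_le_mul_of_nonneg_left hZ8 hb0
    have q3 : (1:ℝ) ≤ p ^ 30 := one_le_pow₀ hp1
    have q4 : b * (65536 / (n:ℝ) ^ 14) * 1 ≤ b * (65536 / (n:ℝ) ^ 14) * p ^ 30 :=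
      mul_le_mul_of_nonneg_left q3 (by positivity)
    have q5 : 4 * (p ^ 15) ^ 2 * b * (65536 / (n:ℝ) ^ 14) = b * (65536 / (n:ℝ) ^ 14) * (4 * p ^ 30) := by
      ring
    linarith only [hbn, q1, q2, q4]
  have t4 : (n:ℝ) / (p ^ 15) ^ 8 * e ≤ (n:ℝ) ^ 3 / p ^ 2 := by
    have q1 : (n:ℝ) / (p ^ 15) ^ 8 ≤ (n:ℝ) / p ^ 2 := by
      apply div_le_div_of_nonneg_left hn0.le (by positivity)
      rw [← pow_mul]
      exact pow_le_pow_right₀ hp1 (by norm_num)
    calc (n:ℝ) / (p ^ 15) ^ 8 * e ≤ (n:ℝ) / p ^ 2 * (n:ℝ) ^ 2 :=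
          mul_le_mul q1 (by linarith only [hn', hE, he4]) he0.le (by positivity)
      _ = _ := by ring
  have e9 : (A * C + 256 * A * B + 2) * (n : ℝ) ^ 3 / p ^ 2 = A * C * (n:ℝ) ^ 3 / p ^ 2 +
      256 * A * B * (n:ℝ) ^ 3 / p ^ 2 + (n:ℝ) ^ 3 / p ^ 2 + (n:ℝ) ^ 3 / p ^ 2 := by ring
  rw [e9]
  linarith only [t1, t2, t3, t4]

end Vale.Agent.P046.C
end
end

section

section

set_option autoImplicit false

open scoped Classical
open Finset

namespace Vale.Agent.P046.C

open Vale.Agent.P046 Vale.Agent.P046.OS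

variable {n : ℕ}

lemma MM_nonneg (d : ℝ) (hd : 0 < d) (G : SimpleGraph (Fin n)) : 0 ≤ MM d G :=
  Vale.Agent.P046.edgeSum_nonneg G _ fun _ _ _ => huber_nonneg d _ hd

lemma TH_nonneg (D : ℝ) (hD : 0 < D) (G : SimpleGraph (Fin n)) : 0 ≤ TH D G :=
  Vale.Agent.P046.edgeSum_nonneg G _ fun _ _ _ => theta_nonneg D _ hD

lemma RF_nonneg (G : SimpleGraph (Fin n)) : 0 ≤ RF G := by unfold RF; positivity

lemma FF_nonneg (d D β μ : ℝ) (hd : 0 < d) (hD : 0 < D) (hβ : 0 < β) (hμ : 0 < μ)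
    (G : SimpleGraph (Fin n)) : 0 ≤ FF d β D μ G := by
  have h1 := MM_nonneg d hd G
  have h2 := TH_nonneg D hD G
  have h3 := RF_nonneg G
  unfold FF
  positivity

/-- far triangle density is expensive -/
lemma FF_bad (d D β μ η : ℝ) (hd : 0 < d) (hD : 0 < D) (hβ : 0 < β) (hμ : 0 < μ) (hη : 0 ≤ η)
    (G : SimpleGraph (Fin n)) (h : η < |rho G - 1|) :
    (μ * η ^ 2) * (numEdges G : ℝ) ≤ FF d β D μ G := by
  have h1 := MM_nonneg d hd G
  have h2 := TH_nonneg D hD G
  have h3 : η ^ 2 ≤ (rho G - 1) ^ 2 := by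
    rw [← sq_abs (rho G - 1)]
    exact pow_le_pow_left₀ hη h.le 2
  have h4 : (numEdges G : ℝ) * η ^ 2 ≤ RF G := by
    unfold RF
    exact mul_le_mul_of_nonneg_left h3 (by positivity)
  have h5 := mul_le_mul_of_nonneg_left h4 hμ.le
  have h6 : 0 ≤ β * TH D G := by positivity
  unfold FF
  linarith

/-- low codegrees are expensive -/
lemma FF_low (d D β μ : ℝ) (hd : 0 < d) (hD : 0 < D) (hD1 : D ≤ 1 / 20000) (hβ : 0 < β) (hμ : 0 < μ)
    (G : SimpleGraph (Fin n)) :
    lowCount G (1 / 100) ≤ (40000 / β) * FF d β D μ G := by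
  have h1 := MM_nonneg d hd G
  have h3 := RF_nonneg G
  have h4 : lowCount G (1 / 100) ≤ 40000 * TH D G := by
    unfold lowCount TH
    rw [← edgeSum_mul]
    apply edgeSum_mono
    intro u v _
    have hr := Vale.Agent.P046.rr_nonneg G u v
    by_cases h : rr G u v < 1 - 1 / 100
    · rw [if_pos h]
      have h5 : 1 / 20000 ≤ hh (rr G u v) := by
        unfold hh
        rw [if_pos (by linarith only [h])]
        have a1 : (1 / 100) ^ 2 ≤ (1 - rr G u v) ^ 2 := pow_le_pow_left₀ (by norm_num) (by linarith only [h]) 2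
        rcases le_or_gt (1/2) (rr G u v) with h6 | h6
        · nlinarith only [a1, h6]
        · have a2 : (1 / 2) ^ 2 ≤ (1 - rr G u v) ^ 2 := pow_le_pow_left₀ (by norm_num) (by linarith only [h6]) 2
          nlinarith only [a2, hr]
      have h6 := Lam_ge_half D (hh (rr G u v)) hD (by linarith only [hD1, h5])
      unfold theta
      linarith only [h5, h6]
    · rw [if_neg h]
      have := theta_nonneg D (rr G u v) hD
      linarith only [this]
  have h5 : β * TH D G ≤ FF d β D μ G := by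
    unfold FF
    have : 0 ≤ μ * RF G := by positivity
    linarith only [h1, this]
  calc lowCount G (1 / 100) ≤ 40000 * TH D G := h4
    _ = (40000 / β) * (β * TH D G) := by field_simp
    _ ≤ _ := mul_le_mul_of_nonneg_left h5 (by positivity)

lemma le_of_Lam (D s : ℝ) (hD : 0 < D) (hs : 0 ≤ s) : s ≤ √(2 * D * Lam D s) + 2 * Lam D s := by
  have hL := Lam_nonneg D s hD
  rcases le_or_gt s D with h | h
  · have e : 2 * D * Lam D s = s ^ 2 := by
      unfold Lam; rw [if_pos h]; field_simp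
    rw [e, Real.sqrt_sq hs]
    linarith
  · have := Lam_ge_half D s hD h.le
    have h2 : 0 ≤ √(2 * D * Lam D s) := Real.sqrt_nonneg _
    linarith only [this, h2]

/-- Cauchy-Schwarz for square roots over ordered edges -/
lemma edgeSum_sqrt_le (G : SimpleGraph (Fin n)) (f : Fin n → Fin n → ℝ)
    (hf : ∀ u v, G.Adj u v → 0 ≤ f u v) :
    edgeSum G (fun u v => √(f u v)) ≤ √(2 * numEdges G * edgeSum G f) := by
  have hE0 : 0 ≤ 2 * (numEdges G : ℝ) := by positivity
  have hS : 0 ≤ edgeSum G f := Vale.Agent.P046.edgeSum_nonneg G f hf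
  have hnn : 0 ≤ edgeSum G (fun u v => √(f u v)) :=
    Vale.Agent.P046.edgeSum_nonneg G _ fun u v _ => Real.sqrt_nonneg _
  apply Real.le_sqrt_of_sq_le
  obtain ⟨S, hSd⟩ : ∃ S, S = edgeSum G (fun u v => √(f u v)) := ⟨_, rfl⟩
  obtain ⟨E2, hE2⟩ : ∃ E2, E2 = 2 * (numEdges G : ℝ) := ⟨_, rfl⟩
  rw [← hSd, ← hE2]
  rw [← hSd] at hnn
  rw [← hE2] at hE0
  -- (E2 √f - S)^2 ≥ 0 summed
  have h1 : edgeSum G (fun u v => (2 * S) * √(f u v)) ≤
      edgeSum G (fun u v => E2 * f u v + (S ^ 2 / E2) * 1) := by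
    apply edgeSum_mono
    intro u v huv
    have hE : 0 < numEdges G := by
      unfold numEdges
      rw [Finset.card_pos]
      exact ⟨s(u, v), by simpa using huv⟩
    have hE2p : 0 < E2 := by
      have : (0:ℝ) < numEdges G := by exact_mod_cast hE
      rw [hE2]; positivity
    have h2 := Real.sq_sqrt (hf u v huv)
    have h3 := sq_nonneg (E2 * √(f u v) - S)
    have h4 : E2 * f u v + S ^ 2 / E2 * 1 - 2 * S * √(f u v) = (E2 * √(f u v) - S) ^ 2 / E2 := by
      field_simp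
      rw [← h2]
      have h5 : √(√(f u v) ^ 2) = √(f u v) := Real.sqrt_sq (Real.sqrt_nonneg _)
      rw [h5]
      ring
    have h5 : 0 ≤ (E2 * √(f u v) - S) ^ 2 / E2 := by positivity
    linarith only [h4, h5]
  rw [edgeSum_add, edgeSum_mul, edgeSum_mul, edgeSum_mul, Vale.Agent.P046.OS.edgeSum_one, ← hSd,
    ← hE2] at h1
  rcases eq_or_lt_of_le hE0 with h0 | h0
  · have h6 : S = 0 := by
      have hE : numEdges G = 0 := by
        have : (numEdges G : ℝ) = 0 := by linarith only [hE2, h0]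
        exact_mod_cast this
      have hne : ∀ u v, ¬ G.Adj u v := by
        intro u v huv
        have : 0 < numEdges G := by
          unfold numEdges
          rw [Finset.card_pos]
          exact ⟨s(u, v), by simpa using huv⟩
        omega
      rw [hSd]
      unfold edgeSum
      apply Finset.sum_eq_zero
      intro u _
      apply Finset.sum_eq_zero
      intro v _
      rw [if_neg (hne u v)]
    rw [h6, ← h0]
    simp
  · have h6 : S ^ 2 / E2 * E2 = S ^ 2 := by field_simp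
    rw [h6] at h1
    linarith only [h1]

/-- the old potential is controlled by the functional -/
lemma Psi_le_FF (d D β μ : ℝ) (hd : 0 < d) (hD : 0 < D) (hD1 : D ≤ 1 / 2) (hβ : 0 < β)
    (hβ1 : β ≤ 1) (hμ : 0 < μ) (G : SimpleGraph (Fin n)) :
    Psi G ≤ (1 / β) * ((numEdges G : ℝ) * √((numEdges G : ℝ) * FF d β D μ G) +
      (numEdges G : ℝ) * FF d β D μ G) := by
  have h1 := MM_nonneg d hd G
  have h2 := TH_nonneg D hD G
  have h3 := RF_nonneg G
  have hE0 : 0 ≤ (numEdges G : ℝ) := by positivity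
  have hF : β * TH D G ≤ FF d β D μ G := by
    unfold FF
    have : 0 ≤ μ * RF G := by positivity
    linarith only [h1, this]
  have hF0 : 0 ≤ FF d β D μ G := FF_nonneg d D β μ hd hD hβ hμ G
  have hRF : TH D G ≤ (1 / β) * FF d β D μ G := by
    calc TH D G = (1 / β) * (β * TH D G) := by field_simp
      _ ≤ _ := mul_le_mul_of_nonneg_left hF (by positivity)
  have h4 : edgeSum G (fun u v => hfun (rr G u v)) ≤
      edgeSum G (fun u v => √(2 * D * theta D (rr G u v)) + 2 * theta D (rr G u v)) := by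
    apply edgeSum_mono
    intro u v _
    have hr := Vale.Agent.P046.rr_nonneg G u v
    have : hfun (rr G u v) = hh (rr G u v) := rfl
    rw [this]
    exact le_of_Lam D _ hD (hh_nonneg _ hr)
  rw [edgeSum_add, edgeSum_mul] at h4
  have h5 := edgeSum_sqrt_le G (fun u v => 2 * D * theta D (rr G u v)) (fun u v _ => by
    have := theta_nonneg D (rr G u v) hD
    positivity)
  rw [edgeSum_mul] at h5
  have h6 : √(2 * (numEdges G : ℝ) * (2 * D * edgeSum G (fun u v => theta D (rr G u v)))) ≤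
      2 * ((1 / β) * √((numEdges G : ℝ) * FF d β D μ G)) := by
    have h7 : 2 * (numEdges G : ℝ) * (2 * D * edgeSum G (fun u v => theta D (rr G u v))) ≤
        4 * ((1 / β) ^ 2 * ((numEdges G : ℝ) * FF d β D μ G)) := by
      have e1 : edgeSum G (fun u v => theta D (rr G u v)) = TH D G := rfl
      rw [e1]
      have a1 : TH D G ≤ (1 / β) ^ 2 * FF d β D μ G := by
        refine hRF.trans ?_
        apply mul_le_mul_of_nonneg_right _ hF0
        have : 1 ≤ 1 / β := by rw [le_div_iff₀ hβ]; linarith only [hβ1]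
        nlinarith only [this]
      have a2 : D * TH D G ≤ 1 * TH D G := mul_le_mul_of_nonneg_right (by linarith only [hD, hD1]) h2
      have a3 : (numEdges G : ℝ) * (D * TH D G) ≤ (numEdges G : ℝ) * ((1 / β) ^ 2 * FF d β D μ G) :=
        mul_le_mul_of_nonneg_left (by linarith only [a1, a2]) hE0
      linarith only [a3]
    calc √(2 * (numEdges G : ℝ) * (2 * D * edgeSum G (fun u v => theta D (rr G u v))))
        ≤ √(4 * ((1 / β) ^ 2 * ((numEdges G : ℝ) * FF d β D μ G))) := Real.sqrt_le_sqrt h7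
      _ = √((2 * (1 / β)) ^ 2 * ((numEdges G : ℝ) * FF d β D μ G)) := by
          congr 1; ring
      _ = 2 * (1 / β) * √((numEdges G : ℝ) * FF d β D μ G) := by
          rw [Real.sqrt_mul (by positivity), Real.sqrt_sq (by positivity)]
      _ = _ := by ring
  have h8 : edgeSum G (fun u v => theta D (rr G u v)) = TH D G := rfl
  rw [h8] at h4
  have h9 : edgeSum G (fun u v => hfun (rr G u v)) ≤
      2 * ((1 / β) * √((numEdges G : ℝ) * FF d β D μ G)) + 2 * ((1 / β) * FF d β D μ G) := by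
    linarith only [hRF, h4, h5, h6]
  unfold Psi
  calc (numEdges G : ℝ) * (edgeSum G (fun u v => hfun (rr G u v)) / 2)
      ≤ (numEdges G : ℝ) * ((1 / β) * √((numEdges G : ℝ) * FF d β D μ G) +
        (1 / β) * FF d β D μ G) := by
        apply mul_le_mul_of_nonneg_left _ hE0
        linarith only [hRF, h4, h5, h6]
    _ = _ := by ring

end Vale.Agent.P046.C
end
end

section

section

set_option autoImplicit false

open scoped Classical
open Finset

namespace Vale.Agent.P046.OS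

variable {n : ℕ}








end Vale.Agent.P046.OS
end
end

section

section

set_option autoImplicit false

open scoped Classical
open Finset

namespace Vale.Agent.P046.C.K

open Vale.Agent.P046
open Vale.Agent.P046.OS (triSum codeg_le rr_nonneg)

variable {n : ℕ}

/-- real parameters of a graph with large `c` -/
structure Par (e c N T ρ a b : ℝ) : Prop where
  hc : 1000 ≤ c
  he : 500000 ≤ e
  hcN : c ≤ N
  hNc : N * c ≤ 2 * e
  hT : T = e * c * ρ / 3
  ha0 : 0 ≤ a
  ha : a ≤ 13 / e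
  hb0 : 0 ≤ b
  hb : b ≤ 13 / e
  ha12 : 12 ≤ e * a
  ha12' : e * a ≤ 12 + 100 / e
  hb12 : 12 ≤ e * b
  hb12' : e * b ≤ 12 + 130 / e

lemma two_numEdges_le (G : SimpleGraph (Fin n)) : 2 * (numEdges G : ℝ) ≤ (n:ℝ) ^ 2 := by
  rw [← edgeSum_one]
  unfold edgeSum
  calc ∑ u, ∑ v, (if G.Adj u v then (1:ℝ) else 0) ≤ ∑ u : Fin n, ∑ v : Fin n, (1:ℝ) := by
        refine Finset.sum_le_sum fun u _ => Finset.sum_le_sum fun v _ => ?_
        split_ifs <;> norm_num
    _ = (n:ℝ) ^ 2 := by simp only [sum_const, card_univ, Fintype.card_fin, nsmul_eq_mul, mul_one]; ring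

lemma eps_facts (e ε : ℝ) (he : 500000 ≤ e) (hε : ε = (e / (e - 3)) ^ 2 - 1) :
    0 ≤ ε ∧ ε ≤ 7 / e ∧ 12 ≤ e * ((1 + ε) ^ 2 - 1) ∧ e * ((1 + ε) ^ 2 - 1) ≤ 12 + 100 / e ∧
    12 ≤ e * (2 * ε * (1 + ε)) ∧ e * (2 * ε * (1 + ε)) ≤ 12 + 130 / e := by
  have he0 : 0 < e := by linarith only [he]
  have he3 : 0 < e - 3 := by linarith only [he]
  have e1 : ε = (6 * e - 9) / (e - 3) ^ 2 := by
    rw [hε]; field_simp; ring
  have hsq : 0 < (e - 3) ^ 2 := by positivity
  have l0 : 0 ≤ ε := by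
    rw [e1]; apply div_nonneg _ hsq.le; linarith only [he]
  have l1 : 6 / e ≤ ε := by
    rw [e1, div_le_div_iff₀ he0 hsq]; linarith only [he]
  have l2 : ε ≤ 6 / e + 28 / e ^ 2 := by
    have : 6 / e + 28 / e ^ 2 = (6 * e + 28) / e ^ 2 := by field_simp
    rw [e1, this, div_le_div_iff₀ hsq (by positivity)]
    nlinarith only [he]
  have l3 : e * ε ≤ 6 + 28 / e := by
    have := mul_le_mul_of_nonneg_left l2 he0.le
    have e2 : e * (6 / e + 28 / e ^ 2) = 6 + 28 / e := by field_simp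
    linarith only [this, e2]
  have l4 : 6 ≤ e * ε := by
    have := mul_le_mul_of_nonneg_left l1 he0.le
    have e2 : e * (6 / e) = 6 := by field_simp
    linarith only [this, e2]
  have l5 : 28 / e ≤ 1 / 10000 := by
    rw [div_le_div_iff₀ he0 (by norm_num)]; linarith only [he]
  have l6 : ε ≤ 7 / e := by
    rw [le_div_iff₀ he0]; linarith only [l3, l5]
  have l7 : e * ε ^ 2 ≤ 37 / e := by
    rw [le_div_iff₀ he0]
    have : e * ε ^ 2 * e = (e * ε) ^ 2 := by ring
    rw [this]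
    have : e * ε ≤ 6.01 := by linarith only [l3, l5]
    nlinarith only [l3, l5, l4]
  have h37 : 28 / e = 28 * (1 / e) := by ring
  have h37' : 37 / e = 37 * (1 / e) := by ring
  have h100 : 100 / e = 100 * (1 / e) := by ring
  have h130 : 130 / e = 130 * (1 / e) := by ring
  have hinv : 0 < 1 / e := by positivity
  refine ⟨l0, l6, ?_, ?_, ?_, ?_⟩
  · linarith only [l4, mul_nonneg he0.le (sq_nonneg ε)]
  · linarith only [l3, l7, h37, h37', h100, hinv]
  · linarith only [l4, mul_nonneg he0.le (sq_nonneg ε)]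
  · linarith only [l3, l7, h37, h37', h130]

lemma par_of (G : SimpleGraph (Fin n)) (hc : 1000 ≤ cc G) :
    Par (numEdges G) (cc G) n ((triangles G).card) (rho G) ((1 + eps G) ^ 2 - 1)
      (2 * eps G * (1 + eps G)) := by
  have hn : 0 < n := by
    rcases Nat.eq_zero_or_pos n with h | h
    · subst h
      unfold cc at hc
      norm_num at hc
    · exact h
  have hn0 : (0:ℝ) < n := by exact_mod_cast hn
  have hE : (0:ℝ) < numEdges G := by
    rcases (Nat.cast_nonneg (α := ℝ) (numEdges G)).lt_or_eq with h | h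
    · exact h
    · unfold cc at hc
      rw [← h] at hc
      norm_num at hc
  have h2e := two_numEdges_le G
  obtain ⟨e, he⟩ : ∃ e : ℝ, e = (numEdges G : ℝ) := ⟨_, rfl⟩
  obtain ⟨N, hN⟩ : ∃ N : ℝ, N = (n : ℝ) := ⟨_, rfl⟩
  obtain ⟨c, hcd⟩ : ∃ c : ℝ, c = cc G := ⟨_, rfl⟩
  have hc1 : c = 4 * e ^ 2 / N ^ 3 := by rw [hcd, he, hN]; rfl
  have hρ : rho G = 3 * ((triangles G).card : ℝ) * N ^ 3 / (4 * e ^ 3) := by rw [he, hN]; rfl
  rw [← he] at hE h2e ⊢
  rw [← hN] at hn0 h2e ⊢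
  rw [← hcd] at hc ⊢
  have hNc : N * c ≤ 2 * e := by
    have : N * c = 4 * e ^ 2 / N ^ 2 := by rw [hc1]; field_simp
    rw [this, div_le_iff₀ (by positivity)]
    nlinarith only [h2e, hE]
  have hcN : c ≤ N := by
    by_contra hcon
    push Not at hcon
    have h3 : N * N < N * c := mul_lt_mul_of_pos_left hcon hn0
    linarith only [h2e, hNc, h3]
  have he5 : 500000 ≤ e := by
    have : c * c ≤ N * c := mul_le_mul_of_nonneg_right hcN (by linarith only [hc])
    nlinarith only [hc, hNc, hcN]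
  have hT : ((triangles G).card : ℝ) = e * c * rho G / 3 := by
    rw [hρ, hc1]; field_simp
  obtain ⟨f0, f1, f2, f3, f4, f5⟩ := eps_facts e (eps G) he5 (by unfold eps; rw [← he])
  have he0 : 0 < e := by linarith only [he5]
  refine ⟨hc, he5, hcN, hNc, hT, ?_, ?_, ?_, ?_, f2, f3, f4, f5⟩
  · nlinarith only [he, f2]
  · rw [le_div_iff₀ he0]
    have : 100 / e ≤ 1 := by rw [div_le_one he0]; linarith only [he5]
    linarith only [f3, this]
  · positivity
  · rw [le_div_iff₀ he0]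
    have : 130 / e ≤ 1 := by rw [div_le_one he0]; linarith only [he5]
    linarith only [f5, this]

/-- real arithmetic for the drift of `w` -/
lemma dw_real (e c N T ρ a b w r q A f : ℝ) (P : Par e c N T ρ a b) (hρ0 : 0 ≤ ρ) (hρ : ρ ≤ 2)
    (hr : 0 ≤ r) (hrN : c * r ≤ N) (hq : 0 ≤ q)
    (hf0 : 0 ≤ f) (hf : f ≤ 4 * r ^ 2 + 2 * (w + 2 * r)) :
    |((T - c * r) * (a * w + b * r) - (1 + a) * (2 * c * w + c * q - 2 * w) -
      (1 + a) * (c * A + 2 * c * (w + 2 * r) - 2 * (w + 2 * r) - f) -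
      b * (c * (w + 2 * r) - 2 * r)) - c * (4 * (ρ - 1) * (w + r) - q - A)| ≤
      7 * |w| + 9 * r + 5 * r ^ 2 + 15 * c / e * (q + |A|) := by
  obtain ⟨hc, he, hcN, hNc, hT, ha0, ha, hb0, hb, ha1, ha2, hb1, hb2⟩ := P
  have he0 : 0 < e := by linarith only [he]
  have hc0 : 0 < c := by linarith only [hc]
  have hinv : 0 < 1 / e := by positivity
  -- c / e ≤ 1/500
  have hcc : c * c ≤ 2 * e := by
    have := mul_le_mul_of_nonneg_right hcN hc0.le
    linarith only [hNc, this]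
  have hce : c / e ≤ 1 / 500 := by
    rw [div_le_div_iff₀ he0 (by norm_num)]
    nlinarith only [hcc, hc]
  have hce0 : 0 < c / e := by positivity
  have hcr : c / e * r ≤ 1 / 500 := by
    have : c / e * r = (c * r) / e := by ring
    rw [this, div_le_div_iff₀ he0 (by norm_num)]
    have h1 : c * r * c ≤ N * c := mul_le_mul_of_nonneg_right hrN hc0.le
    nlinarith only [hrN, hc, hNc, hcN]
  have hca : c * a ≤ 13 * (c / e) := by
    have := mul_le_mul_of_nonneg_left ha hc0.le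
    have e1 : c * (13 / e) = 13 * (c / e) := by ring
    linarith only [this, e1]
  have hcb : c * b ≤ 13 * (c / e) := by
    have := mul_le_mul_of_nonneg_left hb hc0.le
    have e1 : c * (13 / e) = 13 * (c / e) := by ring
    linarith only [this, e1]
  have hca0 : 0 ≤ c * a := by positivity
  have hcb0 : 0 ≤ c * b := by positivity
  have ha3 : a ≤ 1 / 1000 := by
    refine ha.trans ?_
    rw [div_le_div_iff₀ he0 (by norm_num)]; linarith only [he]
  have hb3 : b ≤ 1 / 1000 := by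
    refine hb.trans ?_
    rw [div_le_div_iff₀ he0 (by norm_num)]; linarith only [he]
  -- T a and T b
  have hTa : |T * a - 4 * c * ρ| ≤ 14 / 100 := by
    have e1 : T * a - 4 * c * ρ = c * ρ / 3 * (e * a - 12) := by rw [hT]; ring
    rw [e1, abs_of_nonneg (by
      apply mul_nonneg (by positivity); linarith only [ha1])]
    have h1 : c * ρ / 3 * (e * a - 12) ≤ c * 2 / 3 * (100 / e) := by
      apply mul_le_mul _ (by linarith only [ha2]) (by linarith only [ha1]) (by positivity)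
      have := mul_le_mul_of_nonneg_left hρ hc0.le
      linarith only [this]
    have h2 : c * 2 / 3 * (100 / e) = 200 / 3 * (c / e) := by ring
    linarith only [hce, h1, h2]
  have hTb : |T * b - 4 * c * ρ| ≤ 18 / 100 := by
    have e1 : T * b - 4 * c * ρ = c * ρ / 3 * (e * b - 12) := by rw [hT]; ring
    rw [e1, abs_of_nonneg (by
      apply mul_nonneg (by positivity); linarith only [hb1])]
    have h1 : c * ρ / 3 * (e * b - 12) ≤ c * 2 / 3 * (130 / e) := by
      apply mul_le_mul _ (by linarith only [hb2]) (by linarith only [hb1]) (by positivity)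
      have := mul_le_mul_of_nonneg_left hρ hc0.le
      linarith only [this]
    have h2 : c * 2 / 3 * (130 / e) = 260 / 3 * (c / e) := by ring
    linarith only [hce, h1, h2]
  have habs : ∀ x y : ℝ, ∀ K : ℝ, |x| ≤ K → |x * y| ≤ K * |y| := by
    intro x y K h
    rw [abs_mul]
    exact mul_le_mul_of_nonneg_right h (abs_nonneg _)
  have hw0 := abs_nonneg w
  have hA0 := abs_nonneg A
  have hra : |r| = r := abs_of_nonneg hr
  have hqa : |q| = q := abs_of_nonneg hq
  -- individual terms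
  have t1 := habs (T * a - 4 * c * ρ) w _ hTa
  have t2 := habs (T * b - 4 * c * ρ) r _ hTb
  have t3 : |(c * a * r) * w| ≤ 26 / 1000 * |w| := by
    apply habs
    rw [abs_of_nonneg (by positivity)]
    have : c * a * r ≤ 13 * (c / e) * r := mul_le_mul_of_nonneg_right hca hr
    linarith only [hcr, this]
  have t4 : |(c * b * r) * r| ≤ 26 / 1000 * |r| := by
    apply habs
    rw [abs_of_nonneg (by positivity)]
    have : c * b * r ≤ 13 * (c / e) * r := mul_le_mul_of_nonneg_right hcb hr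
    linarith only [hcr, this]
  have t5 : |(2 * (c * a)) * w| ≤ 52 / 1000 * |w| := by
    apply habs
    rw [abs_of_nonneg (by positivity)]
    linarith only [hce, hca]
  have t6 : |(2 * a) * w| ≤ 2 / 1000 * |w| := by
    apply habs
    rw [abs_of_nonneg (by positivity)]
    linarith only [ha3]
  have t7 : |(c * a) * q| ≤ 13 * (c / e) * |q| := by
    apply habs
    rw [abs_of_nonneg (by positivity)]
    exact hca
  have t8 : |(c * a) * A| ≤ 13 * (c / e) * |A| := by
    apply habs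
    rw [abs_of_nonneg (by positivity)]
    exact hca
  have t9 : |(c * a) * r| ≤ 26 / 1000 * |r| := by
    apply habs
    rw [abs_of_nonneg (by positivity)]
    linarith only [hce, hca]
  have t9' : |(c * a) * w| ≤ 26 / 1000 * |w| := by
    apply habs
    rw [abs_of_nonneg (by positivity)]
    linarith only [hce, hca]
  have t10 : |a * r| ≤ 1 / 1000 * |r| := by
    apply habs
    rw [abs_of_nonneg (by positivity)]
    linarith only [ha3]
  have t10' : |a * w| ≤ 1 / 1000 * |w| := by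
    apply habs
    rw [abs_of_nonneg (by positivity)]
    linarith only [ha3]
  have t11 : |(c * b) * w| ≤ 26 / 1000 * |w| := by
    apply habs
    rw [abs_of_nonneg (by positivity)]
    linarith only [hce, hcb]
  have t12 : |(c * b) * r| ≤ 26 / 1000 * |r| := by
    apply habs
    rw [abs_of_nonneg (by positivity)]
    linarith only [hce, hcb]
  have t13 : |b * r| ≤ 1 / 1000 * |r| := by
    apply habs
    rw [abs_of_nonneg (by positivity)]
    linarith only [hb3]
  have t14 : |(1 + a) * f| ≤ 1001 / 1000 * (4 * r ^ 2 + 2 * |w| + 4 * r) := by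
    rw [abs_of_nonneg (by positivity)]
    have : f ≤ 4 * r ^ 2 + 2 * |w| + 4 * r := by
      have := le_abs_self w
      linarith only [hf, this]
    exact mul_le_mul (by linarith only [ha3]) this hf0 (by norm_num)
  rw [hra] at t2 t4 t9 t10 t12 t13
  rw [hqa] at t7
  have hw1 := abs_le.mp (le_refl |w|)
  have e15 : 15 * c / e * (q + |A|) = 15 * (c / e) * q + 15 * (c / e) * |A| := by ring
  have g1 : 0 ≤ (c / e) * q := by positivity
  have g2 : 0 ≤ (c / e) * |A| := by positivity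
  have hid : ((T - c * r) * (a * w + b * r) - (1 + a) * (2 * c * w + c * q - 2 * w) -
      (1 + a) * (c * A + 2 * c * (w + 2 * r) - 2 * (w + 2 * r) - f) -
      b * (c * (w + 2 * r) - 2 * r)) - c * (4 * (ρ - 1) * (w + r) - q - A) =
      (T * a - 4 * c * ρ) * w + (T * b - 4 * c * ρ) * r - (c * a * r) * w - (c * b * r) * r
      + 4 * w + 4 * r - (2 * (c * a)) * w + (2 * a) * w - (c * a) * q - (c * a) * A
      - 2 * ((c * a) * w) - 4 * ((c * a) * r) + 2 * (a * w) + 4 * (a * r) + (1 + a) * f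
      - (c * b) * w - 2 * ((c * b) * r) + 2 * (b * r) := by ring
  rw [hid, e15, abs_le]
  have r2 : 0 ≤ r ^ 2 := sq_nonneg r
  constructor
  · linarith only [hr, hf0, hf, hw0, hw1, g1, g2, (abs_le.mp t1).1, (abs_le.mp t2).1, (abs_le.mp t3).2, (abs_le.mp t4).2, (abs_le.mp t5).2, (abs_le.mp t6).1, (abs_le.mp t7).2, (abs_le.mp t8).2, (abs_le.mp t9).2, (abs_le.mp t10).1, (abs_le.mp t11).2, (abs_le.mp t12).2, (abs_le.mp t13).1, (abs_le.mp t14).1]
  · linarith only [hr, hw0, hw1, g1, g2, r2, (abs_le.mp t1).2, (abs_le.mp t2).2, (abs_le.mp t3).1, (abs_le.mp t4).1, (abs_le.mp t5).1, (abs_le.mp t6).2, (abs_le.mp t7).1, (abs_le.mp t8).1, (abs_le.mp t9).1, (abs_le.mp t10).2, (abs_le.mp t11).1, (abs_le.mp t12).1, (abs_le.mp t13).2, (abs_le.mp t14).2]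

lemma rr_cc_le (G : SimpleGraph (Fin n)) (hc : 0 < cc G) (u v : Fin n) :
    cc G * rr G u v ≤ n := by
  rw [← codeg_eq G hc.ne']
  exact_mod_cast codeg_le G u v

lemma qq_nonneg (G : SimpleGraph (Fin n)) (u v : Fin n) : 0 ≤ qq G u v := by
  unfold qq
  apply div_nonneg
  · refine Finset.sum_nonneg fun x _ => ?_
    split_ifs
    · positivity
    · exact le_refl _
  · unfold cc; positivity

lemma rho_nonneg (G : SimpleGraph (Fin n)) : 0 ≤ rho G := by
  unfold rho; positivity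

/-- the drift of `w` -/
lemma dw_bound (G : SimpleGraph (Fin n)) (hc : 1000 ≤ cc G) (hρ : rho G ≤ 2) (u v : Fin n)
    (huv : G.Adj u v) :
    |∑ t ∈ (triangles G).filter (fun t => ¬ (u ∈ t ∧ v ∈ t)),
      (ww (removeTriangle G t) u v - ww G u v) -
      cc G * (4 * (rho G - 1) * (ww G u v + rr G u v) - qq G u v - Aw G u v)| ≤
      7 * |ww G u v| + 9 * rr G u v + 5 * rr G u v ^ 2 +
        15 * cc G / numEdges G * (qq G u v + |Aw G u v|) := by
  have P := par_of G hc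
  have hc0 : 0 < cc G := by linarith
  have hE : 3 < numEdges G := by
    have := P.he
    have h3 : (3:ℝ) < numEdges G := by linarith only [this]
    exact_mod_cast h3
  obtain ⟨f, hf0, hf, hS⟩ := SBB_bounds G hc0 u v huv
  rw [sum_ww_diff G hE hc0 u v huv, hS, codeg_eq G hc0.ne']
  have := dw_real _ _ _ _ _ _ _ (ww G u v) (rr G u v) (qq G u v) (Aw G u v) f P (rho_nonneg G) hρ
    (rr_nonneg G u v) (rr_cc_le G hc0 u v) (qq_nonneg G u v) hf0 hf
  have e1 : ∀ a : ℝ, 1 + ((1 + a) ^ 2 - 1) = (1 + a) ^ 2 := fun a => by ring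
  rw [e1] at this
  exact this

end Vale.Agent.P046.C.K
end
end

section

section

set_option autoImplicit false

open scoped Classical
open Finset

namespace Vale.Agent.P046.C.K

open Vale.Agent.P046
open Vale.Agent.P046.OS (triSum removeTriangle_adj card_triangles_edge card_triangles_edge_not
  triSum_swap12 triSum_swap23 triSum_add triSum_mul triSum_mono edgeSum_codeg_mul codeg_comm
  codeg_remove kk kk_nonneg kk_le_two KK sum_kk card_triangles_not_edge edgeSum_mul_KK codeg_real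
  codeg_le rr_nonneg)

variable {n : ℕ}

lemma cost_neg (d x : ℝ) : cost d (-x) = cost d x := by
  unfold cost; rw [neg_sq, abs_neg]

lemma cost_mul (d α x : ℝ) (hd : 0 < d) (hα : 1 ≤ α) : cost d (α * x) ≤ α ^ 2 * cost d x := by
  unfold cost
  rw [abs_mul, abs_of_nonneg (by linarith : 0 ≤ α)]
  rcases le_total (x ^ 2) (4 * d * |x|) with h | h
  · rw [min_eq_left h]
    refine (min_le_left _ _).trans ?_
    rw [mul_pow]
  · rw [min_eq_right h]
    refine (min_le_right _ _).trans ?_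
    have h0 : 0 ≤ d * |x| := by positivity
    have : α ≤ α ^ 2 := by nlinarith only [hα]
    nlinarith only [h0, this]

lemma cost_zero (d : ℝ) : cost d 0 = 0 := by
  unfold cost; simp

lemma cost_le_sq (d x : ℝ) : cost d x ≤ x ^ 2 := min_le_left _ _

lemma cost_sum_two (d : ℝ) (hd : 0 < d) {α : Type*} [DecidableEq α] (s : Finset α) (f : α → ℝ)
    (hs : s.card ≤ 2) : cost d (∑ x ∈ s, f x) ≤ 4 * ∑ x ∈ s, cost d (f x) := by
  have h : s.card = 0 ∨ s.card = 1 ∨ s.card = 2 := by omega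
  rcases h with h | h | h
  · rw [Finset.card_eq_zero] at h
    subst h
    simp [cost_zero]
  · rw [Finset.card_eq_one] at h
    obtain ⟨a, rfl⟩ := h
    rw [Finset.sum_singleton, Finset.sum_singleton]
    have := cost_nonneg d (f a) hd
    linarith only [this]
  · rw [Finset.card_eq_two] at h
    obtain ⟨a, b, hab, rfl⟩ := h
    rw [Finset.sum_pair hab, Finset.sum_pair hab]
    exact cost_add d _ _ hd

/-- the set of killed third vertices -/
noncomputable def kset (G : SimpleGraph (Fin n)) (t : Finset (Fin n)) (u v : Fin n) :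
    Finset (Fin n) :=
  univ.filter fun x => (G.Adj u x ∧ G.Adj v x) ∧ ((u ∈ t ∧ x ∈ t) ∨ (v ∈ t ∧ x ∈ t))

lemma Kw_eq_sum (G : SimpleGraph (Fin n)) (t : Finset (Fin n)) (f : Fin n → ℝ) (u v : Fin n)
    (huv : ¬ (u ∈ t ∧ v ∈ t)) : Kw G t f u v = ∑ x ∈ kset G t u v, f x := by
  unfold Kw kset kil
  rw [Finset.sum_filter]
  refine Finset.sum_congr rfl fun x _ => ?_
  by_cases h1 : G.Adj u x ∧ G.Adj v x
  · rw [if_pos h1]
    by_cases h2 : u ∈ t ∧ x ∈ t
    · have h3 : ¬ (v ∈ t ∧ x ∈ t) := fun h => huv ⟨h2.1, h.1⟩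
      rw [if_pos h2, if_neg h3, if_pos ⟨h1, Or.inl h2⟩]
      ring
    · by_cases h3 : v ∈ t ∧ x ∈ t
      · rw [if_neg h2, if_pos h3, if_pos ⟨h1, Or.inr h3⟩]
        ring
      · rw [if_neg h2, if_neg h3, if_neg (fun h => by
          rcases h.2 with h4 | h4
          · exact h2 h4
          · exact h3 h4)]
        ring
  · rw [if_neg h1, if_neg (fun h => h1 h.1)]

lemma kset_card (G : SimpleGraph (Fin n)) (t : Finset (Fin n)) (ht : t ∈ triangles G)
    (u v : Fin n) (huv : ¬ (u ∈ t ∧ v ∈ t)) : (kset G t u v).card ≤ 2 := by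
  have h1 := kk_le_two G t ht u v huv
  rw [kk_eq_Kw, Kw_eq_sum G t _ u v huv] at h1
  simp only [Finset.sum_const, nsmul_eq_mul, mul_one] at h1
  exact_mod_cast h1

/-- cost of the primary kills -/
lemma cost_Sz (G : SimpleGraph (Fin n)) (d : ℝ) (hd : 0 < d) (t : Finset (Fin n))
    (ht : t ∈ triangles G) (u v : Fin n) (huv : ¬ (u ∈ t ∧ v ∈ t)) :
    cost d (Sz G t u v / cc G) ≤
      4 * Kw G t (fun x => cost d ((zz G u x + zz G v x) / cc G)) u v := by
  unfold Sz
  rw [Kw_eq_sum G t _ u v huv, Kw_eq_sum G t _ u v huv, Finset.sum_div]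
  exact cost_sum_two d hd _ _ (kset_card G t ht u v huv)

lemma sum_cost_Sz (G : SimpleGraph (Fin n)) (d : ℝ) (hd : 0 < d) (u v : Fin n)
    (huv : G.Adj u v) :
    ∑ t ∈ (triangles G).filter (fun t => ¬ (u ∈ t ∧ v ∈ t)), cost d (Sz G t u v / cc G) ≤
      4 * ∑ x, if G.Adj u x ∧ G.Adj v x then ((codeg G u x : ℝ) + codeg G v x) *
        cost d ((zz G u x + zz G v x) / cc G) else 0 := by
  calc ∑ t ∈ (triangles G).filter (fun t => ¬ (u ∈ t ∧ v ∈ t)), cost d (Sz G t u v / cc G)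
      ≤ ∑ t ∈ (triangles G).filter (fun t => ¬ (u ∈ t ∧ v ∈ t)),
        4 * Kw G t (fun x => cost d ((zz G u x + zz G v x) / cc G)) u v := by
        refine Finset.sum_le_sum fun t ht => ?_
        rw [Finset.mem_filter] at ht
        exact cost_Sz G d hd t ht.1 u v ht.2
    _ = 4 * ∑ x, if G.Adj u x ∧ G.Adj v x then ((codeg G u x : ℝ) + codeg G v x - 2) *
        cost d ((zz G u x + zz G v x) / cc G) else 0 := by
        rw [← Finset.mul_sum, sum_Kw G _ u v huv]
    _ ≤ _ := by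
        apply mul_le_mul_of_nonneg_left _ (by norm_num)
        refine Finset.sum_le_sum fun x _ => ?_
        split_ifs
        · apply mul_le_mul_of_nonneg_right _ (cost_nonneg d _ hd)
          linarith
        · exact le_refl _

/-- crude bound for `SS` -/
lemma SS_le (G : SimpleGraph (Fin n)) (u v : Fin n) : SS G u v ≤ 4 * (numEdges G : ℝ) := by
  have h1 : ∀ a : Fin n, ∑ x, (if G.Adj a x then (codeg G a x : ℝ) else 0) ≤
      2 * (numEdges G : ℝ) := by
    intro a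
    rw [← edgeSum_one]
    unfold edgeSum
    refine Finset.sum_le_sum fun x _ => ?_
    rw [codeg_real]
    split_ifs with h
    · refine Finset.sum_le_sum fun y _ => ?_
      by_cases h2 : G.Adj x y
      · rw [if_pos h2]; split_ifs <;> norm_num
      · rw [if_neg h2, if_neg (fun h3 => h2 h3.2)]
    · refine Finset.sum_nonneg fun y _ => ?_
      split_ifs <;> norm_num
  unfold SS
  calc _ ≤ ∑ x, ((if G.Adj u x then (codeg G u x : ℝ) else 0) +
        (if G.Adj v x then (codeg G v x : ℝ) else 0)) := by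
        refine Finset.sum_le_sum fun x _ => ?_
        by_cases h : G.Adj u x ∧ G.Adj v x
        · rw [if_pos h, if_pos h.1, if_pos h.2]
        · rw [if_neg h]
          have a1 : (0:ℝ) ≤ codeg G u x := Nat.cast_nonneg _
          have a2 : (0:ℝ) ≤ codeg G v x := Nat.cast_nonneg _
          split_ifs <;> linarith only []
    _ ≤ _ := by
        rw [Finset.sum_add_distrib]
        have := h1 u
        have := h1 v
        linarith

lemma SS_nonneg (G : SimpleGraph (Fin n)) (u v : Fin n) : 0 ≤ SS G u v := by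
  unfold SS
  refine Finset.sum_nonneg fun x _ => ?_
  split_ifs
  · positivity
  · exact le_refl _

lemma ww_abs_le (G : SimpleGraph (Fin n)) (hc : 0 < cc G) (u v : Fin n) :
    cc G ^ 2 * |ww G u v| ≤ 4 * (numEdges G : ℝ) + 2 * (cc G ^ 2 * rr G u v) := by
  have h1 := SS_le G u v
  have h2 := SS_nonneg G u v
  rw [SS_eq G hc] at h1 h2
  have hc2 : 0 < cc G ^ 2 := by positivity
  have hr := rr_nonneg G u v
  have h3 : 0 ≤ cc G ^ 2 * rr G u v := by positivity
  have hE : (0:ℝ) ≤ numEdges G := Nat.cast_nonneg _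
  rcases le_total 0 (ww G u v) with h | h
  · rw [abs_of_nonneg h]; linarith only [h1, h3]
  · rw [abs_of_nonpos h]; linarith only [h2]

/-- the small part of the increment -/
lemma cost_X0_real (e c N T ρ a b w r r' d : ℝ) (P : Par e c N T ρ a b) (hρ : ρ ≤ 2)
    (hρ0 : 0 ≤ ρ) (hd : 0 < d) (hd1 : d ≤ 1)
    (hr0 : 0 ≤ r') (hr' : r' ≤ r) (hrN : c * r ≤ N) (hw : c ^ 2 * |w| ≤ 4 * e + 2 * (c ^ 2 * r)) :
    T * cost d (a * w + b * r') ≤ 1808 / (c * d) * huber d w + 452 / c * r := by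
  obtain ⟨hc, he, hcN, hNc, hT, ha0, ha, hb0, hb, ha1, ha2, hb1, hb2⟩ := P
  have he0 : 0 < e := by linarith only [he]
  have hc0 : 0 < c := by linarith only [hc]
  have hr : 0 ≤ r := le_trans hr0 hr'
  have hT0 : 0 ≤ T := by rw [hT]; positivity
  have hcc : c * c ≤ 2 * e := by
    have := mul_le_mul_of_nonneg_right hcN hc0.le
    linarith only [hNc, this]
  have hcr : c * c * r ≤ 2 * e := by
    have h1 : c * r * c ≤ N * c := mul_le_mul_of_nonneg_right hrN hc0.le
    linarith only [hNc, h1]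
  have hce : c / e ≤ 2 / c := by
    rw [div_le_div_iff₀ he0 hc0]
    linarith only [hcc]
  have hcer : c / e * r ≤ 2 / c := by
    have : c / e * r = (c * r) / e := by ring
    rw [this, div_le_div_iff₀ he0 hc0]
    linarith only [hcr]
  have hcew : c / e * |w| ≤ 8 / c := by
    have : c / e * |w| = (c * |w|) / e := by ring
    rw [this, div_le_div_iff₀ he0 hc0]
    linarith only [hw, hcr]
  have h1 : |a * w + b * r'| ≤ 13 / e * (|w| + r) := by
    calc |a * w + b * r'| ≤ |a * w| + |b * r'| := abs_add_le _ _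
      _ = a * |w| + b * r' := by
          rw [abs_mul, abs_mul, abs_of_nonneg ha0, abs_of_nonneg hb0, abs_of_nonneg hr0]
      _ ≤ 13 / e * |w| + 13 / e * r := by
          apply add_le_add
          · exact mul_le_mul_of_nonneg_right ha (abs_nonneg _)
          · exact mul_le_mul hb hr' hr0 (by positivity)
      _ = _ := by ring
  have h2 : cost d (a * w + b * r') ≤ 338 / e ^ 2 * (w ^ 2 + r ^ 2) := by
    refine (cost_le_sq d _).trans ?_
    rw [← sq_abs (a * w + b * r')]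
    calc |a * w + b * r'| ^ 2 ≤ (13 / e * (|w| + r)) ^ 2 := pow_le_pow_left₀ (abs_nonneg _) h1 2
      _ = 169 / e ^ 2 * (|w| + r) ^ 2 := by ring
      _ ≤ 169 / e ^ 2 * (2 * (w ^ 2 + r ^ 2)) := by
          apply mul_le_mul_of_nonneg_left _ (by positivity)
          rw [← sq_abs w]
          linarith only [sq_nonneg (|w| - r)]
      _ = _ := by ring
  have h3 : T * cost d (a * w + b * r') ≤ 226 * (c / e) * (w ^ 2 + r ^ 2) := by
    calc T * cost d (a * w + b * r') ≤ T * (338 / e ^ 2 * (w ^ 2 + r ^ 2)) :=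
          mul_le_mul_of_nonneg_left h2 hT0
      _ = (338 / 3 * ρ) * (c / e) * (w ^ 2 + r ^ 2) := by rw [hT]; field_simp
      _ ≤ 226 * (c / e) * (w ^ 2 + r ^ 2) := by
          apply mul_le_mul_of_nonneg_right _ (by positivity)
          apply mul_le_mul_of_nonneg_right _ (by positivity)
          linarith only [hρ]
  have h4 : 226 * (c / e) * r ^ 2 ≤ 452 / c * r := by
    have : 226 * (c / e) * r ^ 2 = 226 * (c / e * r) * r := by ring
    rw [this]
    have h5 : 226 * (c / e * r) * r ≤ 226 * (2 / c) * r := by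
      apply mul_le_mul_of_nonneg_right _ hr
      linarith only [hcer]
    have : 226 * (2 / c) * r = 452 / c * r := by ring
    linarith only [h5, this]
  have h5 : 226 * (c / e) * w ^ 2 ≤ 1808 / (c * d) * huber d w := by
    rcases le_or_gt |w| d with hwd | hwd
    · have e1 : huber d w = w ^ 2 := by unfold huber; rw [if_pos hwd]
      rw [e1]
      apply mul_le_mul_of_nonneg_right _ (sq_nonneg w)
      have : 452 / c ≤ 1808 / (c * d) := by
        rw [div_le_div_iff₀ hc0 (by positivity)]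
        nlinarith only [hd1, hc]
      have e2 : 226 * (2 / c) = 452 / c := by ring
      linarith only [hce, this, e2]
    · have e1 := huber_ge_lin d w hd hwd.le
      have e2 : 226 * (c / e) * w ^ 2 ≤ 1808 / c * |w| := by
        have : 226 * (c / e) * w ^ 2 = 226 * (c / e * |w|) * |w| := by
          rw [← sq_abs w]; ring
        rw [this]
        have h6 : 226 * (c / e * |w|) * |w| ≤ 226 * (8 / c) * |w| := by
          apply mul_le_mul_of_nonneg_right _ (abs_nonneg w)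
          linarith only [hcew]
        have : 226 * (8 / c) * |w| = 1808 / c * |w| := by ring
        linarith only [h6, this]
      have e3 : 1808 / c * |w| = 1808 / (c * d) * (d * |w|) := by
        field_simp
      have e4 : 1808 / (c * d) * (d * |w|) ≤ 1808 / (c * d) * huber d w :=
        mul_le_mul_of_nonneg_left e1 (by positivity)
      linarith only [e2, e3, e4]
  have h6 : 226 * (c / e) * (w ^ 2 + r ^ 2) = 226 * (c / e) * w ^ 2 + 226 * (c / e) * r ^ 2 := by
    ring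
  linarith only [h3, h4, h5]

/-- total cost at an edge -/
lemma sum_cost (G : SimpleGraph (Fin n)) (d : ℝ) (hd : 0 < d) (hd1 : d ≤ 1)
    (hc : 1000 ≤ cc G) (hρ : rho G ≤ 2) (u v : Fin n) (huv : G.Adj u v) :
    ∑ t ∈ (triangles G).filter (fun t => ¬ (u ∈ t ∧ v ∈ t)),
      cost d (ww (removeTriangle G t) u v - ww G u v) ≤
    32 * (∑ x, if G.Adj u x ∧ G.Adj v x then ((codeg G u x : ℝ) + codeg G v x) *
        cost d ((zz G u x + zz G v x) / cc G) else 0) +
    32 * (∑ t ∈ (triangles G).filter (fun t => ¬ (u ∈ t ∧ v ∈ t)),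
      cost d (BB G t u v / cc G ^ 2)) +
    (28928 / (cc G * d) * huber d (ww G u v) + 7232 / cc G * rr G u v) := by
  have P := par_of G hc
  have hc0 : 0 < cc G := by linarith
  have hE : 3 < numEdges G := by
    have := P.he
    have h3 : (3:ℝ) < numEdges G := by linarith only [this]
    exact_mod_cast h3
  have he0 : (0:ℝ) < numEdges G := by
    have := P.he
    linarith only [this]
  have ha0 := P.ha0
  have ha := P.ha
  have ha3 : (1 + eps G) ^ 2 ≤ 1 + 1 / 1000 := by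
    have : 13 / (numEdges G : ℝ) ≤ 1 / 1000 := by
      rw [div_le_div_iff₀ he0 (by norm_num)]
      have := P.he
      linarith only [this]
    linarith
  have ha1 : 1 ≤ (1 + eps G) ^ 2 := by linarith only [ha0]
  have hpt : ∀ t ∈ (triangles G).filter (fun t => ¬ (u ∈ t ∧ v ∈ t)),
      cost d (ww (removeTriangle G t) u v - ww G u v) ≤
      8 * cost d (Sz G t u v / cc G) + 32 * cost d (BB G t u v / cc G ^ 2) +
      16 * cost d (((1 + eps G) ^ 2 - 1) * ww G u v + 2 * eps G * (1 + eps G) *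
        (rr G u v - kk G t u v / cc G)) := by
    intro t ht
    rw [Finset.mem_filter] at ht
    rw [ww_remove G t ht.1 hE hc0 u v ht.2]
    have e1 : (1 + eps G) ^ 2 * (ww G u v - Sz G t u v / cc G - BB G t u v / cc G ^ 2) +
        2 * eps G * (1 + eps G) * (rr G u v - kk G t u v / cc G) - ww G u v =
        -((1 + eps G) ^ 2 * (Sz G t u v / cc G)) + (-((1 + eps G) ^ 2 * (BB G t u v / cc G ^ 2)) +
        (((1 + eps G) ^ 2 - 1) * ww G u v + 2 * eps G * (1 + eps G) *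
        (rr G u v - kk G t u v / cc G))) := by ring
    rw [e1]
    have c1 := cost_add d (-((1 + eps G) ^ 2 * (Sz G t u v / cc G)))
      (-((1 + eps G) ^ 2 * (BB G t u v / cc G ^ 2)) +
        (((1 + eps G) ^ 2 - 1) * ww G u v + 2 * eps G * (1 + eps G) *
        (rr G u v - kk G t u v / cc G))) hd
    have c2 := cost_add d (-((1 + eps G) ^ 2 * (BB G t u v / cc G ^ 2)))
        (((1 + eps G) ^ 2 - 1) * ww G u v + 2 * eps G * (1 + eps G) *
        (rr G u v - kk G t u v / cc G)) hd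
    rw [cost_neg] at c1 c2
    have c3 := cost_mul d ((1 + eps G) ^ 2) (Sz G t u v / cc G) hd ha1
    have c4 := cost_mul d ((1 + eps G) ^ 2) (BB G t u v / cc G ^ 2) hd ha1
    have hsq : ((1 + eps G) ^ 2) ^ 2 ≤ 2 := by nlinarith only [ha3]
    have n1 := cost_nonneg d (Sz G t u v / cc G) hd
    have n2 := cost_nonneg d (BB G t u v / cc G ^ 2) hd
    have c5 := mul_le_mul_of_nonneg_right hsq n1
    have c6 := mul_le_mul_of_nonneg_right hsq n2
    linarith only [c1, c2, c3, c4, c5, c6]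
  have hX0 : ∀ t ∈ (triangles G).filter (fun t => ¬ (u ∈ t ∧ v ∈ t)),
      ((triangles G).card : ℝ) * cost d (((1 + eps G) ^ 2 - 1) * ww G u v +
        2 * eps G * (1 + eps G) * (rr G u v - kk G t u v / cc G)) ≤
        1808 / (cc G * d) * huber d (ww G u v) + 452 / cc G * rr G u v := by
    intro t ht
    rw [Finset.mem_filter] at ht
    have k0 := kk_nonneg G t u v
    have hcd : 0 ≤ kk G t u v / cc G := by positivity
    apply cost_X0_real _ _ _ _ _ _ _ _ _ _ _ P hρ (rho_nonneg G) hd hd1 _ (by linarith only [hcd])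
      (rr_cc_le G hc0 u v) (ww_abs_le G hc0 u v)
    have h1 : (0:ℝ) ≤ codeg (removeTriangle G t) u v := Nat.cast_nonneg _
    rw [codeg_remove G t u v ht.2, codeg_eq G hc0.ne'] at h1
    rw [sub_nonneg, div_le_iff₀ hc0]
    linarith only [h1]
  -- sum the small parts
  have hsum0 : ∑ t ∈ (triangles G).filter (fun t => ¬ (u ∈ t ∧ v ∈ t)),
      cost d (((1 + eps G) ^ 2 - 1) * ww G u v +
        2 * eps G * (1 + eps G) * (rr G u v - kk G t u v / cc G)) ≤
      1808 / (cc G * d) * huber d (ww G u v) + 452 / cc G * rr G u v := by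
    have hB0 : 0 ≤ 1808 / (cc G * d) * huber d (ww G u v) + 452 / cc G * rr G u v := by
      have := huber_nonneg d (ww G u v) hd
      have := rr_nonneg G u v
      positivity
    rcases Nat.eq_zero_or_pos (triangles G).card with h0 | hpos
    · rw [Finset.card_eq_zero] at h0
      rw [h0]
      simpa only [not_and, filter_empty, sum_empty, ge_iff_le] using hB0
    · have hT0 : (0:ℝ) < (triangles G).card := by exact_mod_cast hpos
      have h1 : ∑ t ∈ (triangles G).filter (fun t => ¬ (u ∈ t ∧ v ∈ t)),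
          cost d (((1 + eps G) ^ 2 - 1) * ww G u v +
            2 * eps G * (1 + eps G) * (rr G u v - kk G t u v / cc G)) ≤
          ∑ t ∈ (triangles G).filter (fun t => ¬ (u ∈ t ∧ v ∈ t)),
          (1808 / (cc G * d) * huber d (ww G u v) + 452 / cc G * rr G u v) /
            (triangles G).card := by
        refine Finset.sum_le_sum fun t ht => ?_
        rw [le_div_iff₀ hT0, mul_comm]
        exact hX0 t ht
      refine h1.trans ?_
      rw [Finset.sum_const, nsmul_eq_mul, mul_div_assoc', div_le_iff₀ hT0]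
      have h2 : (((triangles G).filter (fun t => ¬ (u ∈ t ∧ v ∈ t))).card : ℝ) ≤
          (triangles G).card := by
        exact_mod_cast Finset.card_filter_le _ _
      rw [mul_comm _ (((triangles G).card : ℝ))]
      exact mul_le_mul_of_nonneg_right h2 hB0
  have h1 := sum_cost_Sz G d hd u v huv
  calc _ ≤ ∑ t ∈ (triangles G).filter (fun t => ¬ (u ∈ t ∧ v ∈ t)),
      (8 * cost d (Sz G t u v / cc G) + 32 * cost d (BB G t u v / cc G ^ 2) +
      16 * cost d (((1 + eps G) ^ 2 - 1) * ww G u v + 2 * eps G * (1 + eps G) *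
        (rr G u v - kk G t u v / cc G))) := Finset.sum_le_sum hpt
    _ = 8 * (∑ t ∈ (triangles G).filter (fun t => ¬ (u ∈ t ∧ v ∈ t)),
          cost d (Sz G t u v / cc G)) +
        32 * (∑ t ∈ (triangles G).filter (fun t => ¬ (u ∈ t ∧ v ∈ t)),
          cost d (BB G t u v / cc G ^ 2)) +
        16 * (∑ t ∈ (triangles G).filter (fun t => ¬ (u ∈ t ∧ v ∈ t)),
          cost d (((1 + eps G) ^ 2 - 1) * ww G u v + 2 * eps G * (1 + eps G) *
        (rr G u v - kk G t u v / cc G))) := by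
        rw [Finset.sum_add_distrib, Finset.sum_add_distrib, ← Finset.mul_sum, ← Finset.mul_sum,
          ← Finset.mul_sum]
    _ ≤ _ := by
        have e1 : 28928 / (cc G * d) * huber d (ww G u v) + 7232 / cc G * rr G u v =
            16 * (1808 / (cc G * d) * huber d (ww G u v) + 452 / cc G * rr G u v) := by ring
        rw [e1]
        linarith only [hsum0, h1]

end Vale.Agent.P046.C.K
end
end

section

section

set_option autoImplicit false

open scoped Classical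
open Finset

namespace Vale.Agent.P046.C.K

open Vale.Agent.P046
open Vale.Agent.P046.OS (triSum triSum_swap12 triSum_swap23 triSum_add triSum_mul triSum_mono
  edgeSum_codeg_mul codeg_comm card_triangles_not_edge codeg_real codeg_le rr_nonneg)
open Vale.Agent.P046.LB (sum_edgeSum_remove)

variable {n : ℕ}

/-- error terms of the `M`-inequality at an edge -/
noncomputable def mErr (G : SimpleGraph (Fin n)) (d : ℝ) (u v : Fin n) : ℝ :=
  2 * |clip d (ww G u v)| * (7 * |ww G u v| + 9 * rr G u v + 5 * rr G u v ^ 2 +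
        15 * cc G / numEdges G * (qq G u v + |Aw G u v|)) +
    32 * (∑ x, if G.Adj u x ∧ G.Adj v x then ((codeg G u x : ℝ) + codeg G v x) *
        cost d ((zz G u x + zz G v x) / cc G) else 0) +
    32 * (∑ t ∈ (triangles G).filter (fun t => ¬ (u ∈ t ∧ v ∈ t)),
      cost d (BB G t u v / cc G ^ 2)) +
    (28928 / (cc G * d) * huber d (ww G u v) + 7232 / cc G * rr G u v)

/-- main terms of the `M`-inequality at an edge -/
noncomputable def mMain (G : SimpleGraph (Fin n)) (d : ℝ) (u v : Fin n) : ℝ :=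
  (((triangles G).card : ℝ) - codeg G u v) * huber d (ww G u v) +
    2 * clip d (ww G u v) * (cc G * (4 * (rho G - 1) * (ww G u v + rr G u v) - qq G u v -
      Aw G u v))

lemma M_drift_edge (G : SimpleGraph (Fin n)) (d : ℝ) (hd : 0 < d) (hd1 : d ≤ 1)
    (hc : 1000 ≤ cc G) (hρ : rho G ≤ 2) (u v : Fin n) (huv : G.Adj u v) :
    ∑ t ∈ (triangles G).filter (fun t => ¬ (u ∈ t ∧ v ∈ t)),
      huber d (ww (removeTriangle G t) u v) ≤ mMain G d u v + mErr G d u v := by
  have h1 := sum_cost G d hd hd1 hc hρ u v huv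
  have h2 := dw_bound G hc hρ u v huv
  obtain ⟨DW, hDW⟩ : ∃ DW, DW = ∑ t ∈ (triangles G).filter (fun t => ¬ (u ∈ t ∧ v ∈ t)),
      (ww (removeTriangle G t) u v - ww G u v) := ⟨_, rfl⟩
  rw [← hDW] at h2
  have h3 : ∑ t ∈ (triangles G).filter (fun t => ¬ (u ∈ t ∧ v ∈ t)),
      huber d (ww (removeTriangle G t) u v) ≤
      (((triangles G).card : ℝ) - codeg G u v) * huber d (ww G u v) +
      2 * clip d (ww G u v) * DW +
      ∑ t ∈ (triangles G).filter (fun t => ¬ (u ∈ t ∧ v ∈ t)),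
        cost d (ww (removeTriangle G t) u v - ww G u v) := by
    rw [hDW, ← card_triangles_not_edge G u v huv, Finset.mul_sum, ← nsmul_eq_mul,
      ← Finset.sum_const, ← Finset.sum_add_distrib, ← Finset.sum_add_distrib]
    exact Finset.sum_le_sum fun t _ => huber_cost d _ _ hd
  have h4 : 2 * clip d (ww G u v) * DW ≤ 2 * clip d (ww G u v) *
      (cc G * (4 * (rho G - 1) * (ww G u v + rr G u v) - qq G u v - Aw G u v)) +
      2 * |clip d (ww G u v)| * (7 * |ww G u v| + 9 * rr G u v + 5 * rr G u v ^ 2 +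
        15 * cc G / numEdges G * (qq G u v + |Aw G u v|)) := by
    have h5 : 2 * clip d (ww G u v) * (DW - (cc G * (4 * (rho G - 1) * (ww G u v + rr G u v) -
        qq G u v - Aw G u v))) ≤ 2 * |clip d (ww G u v)| *
        (7 * |ww G u v| + 9 * rr G u v + 5 * rr G u v ^ 2 +
        15 * cc G / numEdges G * (qq G u v + |Aw G u v|)) := by
      calc _ ≤ |2 * clip d (ww G u v) * (DW - (cc G * (4 * (rho G - 1) * (ww G u v + rr G u v) -
        qq G u v - Aw G u v)))| := le_abs_self _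
        _ = 2 * |clip d (ww G u v)| * |DW - (cc G * (4 * (rho G - 1) * (ww G u v + rr G u v) -
        qq G u v - Aw G u v))| := by
            rw [abs_mul, abs_mul, abs_of_pos (by norm_num : (0:ℝ) < 2)]
        _ ≤ _ := mul_le_mul_of_nonneg_left h2 (by positivity)
    linarith only [h5]
  unfold mMain mErr
  linarith

/-- the `M`-inequality -/
theorem M_drift (G : SimpleGraph (Fin n)) (d : ℝ) (hd : 0 < d) (hd1 : d ≤ 1)
    (hc : 1000 ≤ cc G) (hρ : rho G ≤ 2) :
    ∑ t ∈ triangles G, edgeSum (removeTriangle G t)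
      (fun u v => huber d (ww (removeTriangle G t) u v)) ≤
    edgeSum G (mMain G d) + edgeSum G (mErr G d) := by
  rw [sum_edgeSum_remove G (fun t u v => huber d (ww (removeTriangle G t) u v)), ← edgeSum_add]
  exact edgeSum_mono G _ _ fun u v huv => M_drift_edge G d hd hd1 hc hρ u v huv

/-- edge sums against `x`-sums -/
lemma edgeSum_x (G : SimpleGraph (Fin n)) (f : Fin n → Fin n → Fin n → ℝ) :
    edgeSum G (fun u v => ∑ x, if G.Adj u x ∧ G.Adj v x then f u v x else 0) = triSum G f := by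
  unfold edgeSum triSum
  refine Finset.sum_congr rfl fun u _ => Finset.sum_congr rfl fun v _ => ?_
  by_cases h : G.Adj u v
  · rw [if_pos h]
    refine Finset.sum_congr rfl fun x _ => ?_
    by_cases h2 : G.Adj u x ∧ G.Adj v x
    · rw [if_pos h2, if_pos ⟨h, h2⟩]
    · rw [if_neg h2, if_neg (fun h3 => h2 h3.2)]
  · rw [if_neg h]
    symm
    apply Finset.sum_eq_zero
    intro x _
    rw [if_neg (fun h3 => h h3.1)]

lemma edgeSum_mul_x (G : SimpleGraph (Fin n)) (g : Fin n → Fin n → ℝ)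
    (f : Fin n → Fin n → Fin n → ℝ) :
    edgeSum G (fun u v => g u v * ∑ x, if G.Adj u x ∧ G.Adj v x then f u v x else 0) =
      triSum G (fun u v x => g u v * f u v x) := by
  rw [← edgeSum_x]
  congr 1
  funext u v
  rw [Finset.mul_sum]
  refine Finset.sum_congr rfl fun x _ => ?_
  split_ifs <;> ring

lemma edgeSum_clip_Aw (G : SimpleGraph (Fin n)) (hc : 0 < cc G) (d : ℝ) :
    cc G * edgeSum G (fun u v => clip d (ww G u v) * Aw G u v) =
      triSum G (fun u v x => clip d (ww G u v) * (ww G u x + ww G v x)) := by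
  rw [← edgeSum_mul_x, ← edgeSum_mul]
  congr 1
  funext u v
  unfold Aw
  field_simp

lemma edgeSum_clip_qq (G : SimpleGraph (Fin n)) (hc : 0 < cc G) (d : ℝ) :
    cc G * edgeSum G (fun u v => clip d (ww G u v) * qq G u v) =
      triSum G (fun u v x => clip d (ww G u v) * (zz G u x + zz G v x) ^ 2) := by
  rw [← edgeSum_mul_x, ← edgeSum_mul]
  congr 1
  funext u v
  unfold qq
  field_simp

/-- the main terms, summed -/
lemma edgeSum_mMain (G : SimpleGraph (Fin n)) (hc : 0 < cc G) (d : ℝ) :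
    edgeSum G (mMain G d) =
      ((triangles G).card : ℝ) * edgeSum G (fun u v => huber d (ww G u v)) -
      cc G * edgeSum G (fun u v => rr G u v * huber d (ww G u v)) -
      2 * triSum G (fun u v x => clip d (ww G u v) * (ww G u x + ww G v x)) -
      2 * triSum G (fun u v x => clip d (ww G u v) * (zz G u x + zz G v x) ^ 2) +
      8 * cc G * (rho G - 1) * edgeSum G (fun u v => clip d (ww G u v) *
        (ww G u v + rr G u v)) := by
  rw [← edgeSum_clip_Aw G hc, ← edgeSum_clip_qq G hc]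
  have e1 : edgeSum G (mMain G d) = edgeSum G (fun u v =>
      ((((triangles G).card : ℝ) * huber d (ww G u v) +
      (-cc G) * (rr G u v * huber d (ww G u v))) +
      ((-2 * cc G) * (clip d (ww G u v) * Aw G u v) +
      (-2 * cc G) * (clip d (ww G u v) * qq G u v))) +
      (8 * cc G * (rho G - 1)) * (clip d (ww G u v) * (ww G u v + rr G u v))) := by
    congr 1
    funext u v
    unfold mMain
    rw [codeg_eq G hc.ne']
    ring
  rw [e1, edgeSum_add, edgeSum_add, edgeSum_add, edgeSum_add, edgeSum_mul, edgeSum_mul,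
    edgeSum_mul, edgeSum_mul, edgeSum_mul]
  ring

end Vale.Agent.P046.C.K
end
end

section

section

/-!
Early phase: all deviations are uniformly small.
-/

set_option autoImplicit false

open scoped Classical
open Finset

namespace Vale.Agent.P046.C.Ea

open Vale.Agent.P046
open Vale.Agent.P046.OS (triSum triSum_swap12 triSum_swap23 triSum_add triSum_mul triSum_mono
  edgeSum_codeg_mul codeg_comm codeg_real codeg_le)

variable {n : ℕ}

/-- uniform smallness -/
def Sm (G : SimpleGraph (Fin n)) (x : ℝ) : Prop := ∀ u v, u ≠ v → |zz G u v| ≤ x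

lemma Sm.adj {G : SimpleGraph (Fin n)} {x : ℝ} (h : Sm G x) (u v : Fin n) (huv : G.Adj u v) :
    |zz G u v| ≤ x := h u v (G.ne_of_adj huv)

lemma rr_bounds (G : SimpleGraph (Fin n)) (x : ℝ) (h : Sm G x) (u v : Fin n) (huv : u ≠ v) :
    1 - x ≤ rr G u v ∧ rr G u v ≤ 1 + x := by
  have h1 := abs_le.mp (h u v huv)
  unfold zz at h1
  constructor <;> linarith

/-- sums over common neighbours -/
lemma nbr_sum_le (G : SimpleGraph (Fin n)) (x : ℝ) (hc : 0 < cc G) (h : Sm G x) (u v : Fin n)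
    (huv : u ≠ v) (f : Fin n → ℝ) (b : ℝ) (hb : 0 ≤ b)
    (hf : ∀ w, G.Adj u w → G.Adj v w → f w ≤ b) :
    (∑ w, if G.Adj u w ∧ G.Adj v w then f w else 0) ≤ cc G * (1 + x) * b := by
  have h1 : (∑ w, if G.Adj u w ∧ G.Adj v w then f w else 0) ≤
      ∑ w, (if G.Adj u w ∧ G.Adj v w then (1:ℝ) else 0) * b := by
    refine Finset.sum_le_sum fun w _ => ?_
    by_cases h2 : G.Adj u w ∧ G.Adj v w
    · rw [if_pos h2, if_pos h2, one_mul]; exact hf w h2.1 h2.2
    · rw [if_neg h2, if_neg h2, zero_mul]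
  rw [← Finset.sum_mul, ← codeg_real, codeg_eq G hc] at h1
  refine h1.trans ?_
  apply mul_le_mul_of_nonneg_right _ hb
  apply mul_le_mul_of_nonneg_left _ hc.le
  have := (abs_le.mp (h u v huv)).2
  linarith

lemma ww_small (G : SimpleGraph (Fin n)) (x : ℝ) (hc : 0 < cc G) (hx0 : 0 ≤ x) (hx1 : x ≤ 1 / 1000)
    (h : Sm G x) (u v : Fin n) (huv : u ≠ v) : |ww G u v| ≤ 3 * x := by
  have h1 := nbr_sum_le G x hc h u v huv (fun w => zz G u w + zz G v w) (2 * x) (by positivity)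
    (fun w h1 h2 => by
      have a := abs_le.mp (h.adj u w h1)
      have b := abs_le.mp (h.adj v w h2)
      linarith only [a, b])
  have h2 := nbr_sum_le G x hc h u v huv (fun w => -(zz G u w + zz G v w)) (2 * x) (by positivity)
    (fun w h1 h2 => by
      have a := abs_le.mp (h.adj u w h1)
      have b := abs_le.mp (h.adj v w h2)
      linarith only [a, b])
  have e2 : (∑ w, if G.Adj u w ∧ G.Adj v w then -(zz G u w + zz G v w) else 0) =
      -∑ w, if G.Adj u w ∧ G.Adj v w then (zz G u w + zz G v w) else 0 := by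
    rw [← Finset.sum_neg_distrib]
    refine Finset.sum_congr rfl fun w _ => ?_
    split_ifs <;> ring
  rw [e2] at h2
  unfold ww
  obtain ⟨S, hS⟩ : ∃ S, S = ∑ w, if G.Adj u w ∧ G.Adj v w then (zz G u w + zz G v w) else 0 :=
    ⟨_, rfl⟩
  rw [← hS] at h1 h2 ⊢
  rw [abs_div, abs_of_pos hc, div_le_iff₀ hc, abs_le]
  have h3 : cc G * (1 + x) * (2 * x) ≤ 3 * x * cc G := by
    have : 0 ≤ cc G * x := by positivity
    nlinarith only [hx0, hx1, h2, h1]
  constructor <;> linarith only [h2, h3, h1]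

lemma ww_comm (G : SimpleGraph (Fin n)) (u v : Fin n) : ww G u v = ww G v u := by
  unfold ww
  congr 1
  refine Finset.sum_congr rfl fun w _ => ?_
  by_cases h : G.Adj u w ∧ G.Adj v w
  · rw [if_pos h, if_pos ⟨h.2, h.1⟩]; ring
  · rw [if_neg h, if_neg (fun h' => h ⟨h'.2, h'.1⟩)]

lemma clip_eq (d w : ℝ) (h : |w| ≤ d) : clip d w = w := by
  have h' := abs_le.mp h
  unfold clip
  rw [min_eq_left h'.2, max_eq_right h'.1]

lemma huber_eq (d w : ℝ) (h : |w| ≤ d) : huber d w = w ^ 2 := by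
  unfold huber; rw [if_pos h]

/-- squares of `w` -/
noncomputable def W2 (G : SimpleGraph (Fin n)) : ℝ := edgeSum G (fun u v => ww G u v ^ 2)

/-- fourth powers of the deviations -/
noncomputable def Z4 (G : SimpleGraph (Fin n)) : ℝ := edgeSum G (fun u v => zz G u v ^ 4)

lemma W2_nonneg (G : SimpleGraph (Fin n)) : 0 ≤ W2 G :=
  Vale.Agent.P046.edgeSum_nonneg G _ fun _ _ _ => sq_nonneg _

lemma Z4_nonneg (G : SimpleGraph (Fin n)) : 0 ≤ Z4 G :=
  Vale.Agent.P046.edgeSum_nonneg G _ fun _ _ _ => by positivity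

lemma MM_eq (G : SimpleGraph (Fin n)) (x d : ℝ) (hc : 0 < cc G) (hx0 : 0 ≤ x) (hx1 : x ≤ 1 / 1000)
    (h : Sm G x) (hd : 3 * x ≤ d) : MM d G = W2 G := by
  unfold MM W2
  refine Vale.Agent.P046.edgeSum_congr G _ _ fun u v huv => ?_
  exact huber_eq d _ ((ww_small G x hc hx0 hx1 h u v (G.ne_of_adj huv)).trans hd)

/-- triangle sums of a function of the first pair -/
lemma triSum_first (G : SimpleGraph (Fin n)) (x : ℝ) (hc : 0 < cc G) (h : Sm G x)
    (f : Fin n → Fin n → ℝ) (hf : ∀ u v, G.Adj u v → 0 ≤ f u v) :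
    triSum G (fun u v _ => f u v) ≤ cc G * (1 + x) * edgeSum G f := by
  rw [← edgeSum_codeg_mul, ← OS.edgeSum_mul]
  apply OS.edgeSum_mono
  intro u v huv
  apply mul_le_mul_of_nonneg_right _ (hf u v huv)
  rw [codeg_eq G hc]
  apply mul_le_mul_of_nonneg_left _ hc.le
  have := (abs_le.mp (h.adj u v huv)).2
  linarith

/-- the Frobenius bound -/
lemma frob (G : SimpleGraph (Fin n)) (s0 : ℝ) (hn : 0 < n) (hc : 0 < cc G) (hcn : cc G ≤ n)
    (hs0 : 0 < s0) (h4 : (n : ℝ) ^ 3 ≤ s0 ^ 2 * cc G ^ 4) (hG : Good s0 G) :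
    ∑ u, ∑ v, ((codeg G u v : ℝ) - cc G) ^ 2 ≤ (2 * s0 * cc G ^ 2) ^ 2 := by
  have hn0 : (0:ℝ) < n := by exact_mod_cast hn
  have h1 : ∀ u v : Fin n, ((codeg G u v : ℝ) - cc G) ^ 2 ≤
      (s0 ^ 2 * cc G ^ 4) / (n:ℝ) ^ 2 + (if u = v then (n:ℝ) ^ 2 else 0) := by
    intro u v
    by_cases huv : u = v
    · rw [if_pos huv]
      have h2 : 0 ≤ (s0 ^ 2 * cc G ^ 4) / (n:ℝ) ^ 2 := by positivity
      have h3 : (codeg G u v : ℝ) ≤ n := by exact_mod_cast codeg_le G u v
      have h5 : (0:ℝ) ≤ codeg G u v := Nat.cast_nonneg _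
      have h6 : |(codeg G u v : ℝ) - cc G| ≤ n := by
        rw [abs_le]; constructor <;> linarith only [hcn, hc, h3]
      have h7 : ((codeg G u v : ℝ) - cc G) ^ 2 ≤ (n:ℝ) ^ 2 := by
        rw [← sq_abs]
        exact pow_le_pow_left₀ (abs_nonneg _) h6 2
      linarith only [h2, h7]
    · rw [if_neg huv, add_zero]
      have h2 := hG u v huv
      have h3 : (codeg G u v : ℝ) - cc G = cc G * zz G u v := by
        rw [codeg_eq G hc]; ring
      rw [h3, mul_pow]
      have h5 : zz G u v ^ 2 ≤ (s0 * (cc G / n)) ^ 2 := by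
        rw [← sq_abs]
        exact pow_le_pow_left₀ (abs_nonneg _) h2 2
      calc cc G ^ 2 * zz G u v ^ 2 ≤ cc G ^ 2 * (s0 * (cc G / n)) ^ 2 :=
            mul_le_mul_of_nonneg_left h5 (by positivity)
        _ = _ := by field_simp
  refine (Finset.sum_le_sum fun u _ => Finset.sum_le_sum fun v _ => h1 u v).trans ?_
  simp only [Finset.sum_add_distrib, Finset.sum_const, Finset.card_univ, Fintype.card_fin,
    nsmul_eq_mul, Finset.sum_ite_eq, Finset.mem_univ, if_true]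
  have e1 : (n:ℝ) * ((n:ℝ) * (s0 ^ 2 * cc G ^ 4 / (n:ℝ) ^ 2)) = s0 ^ 2 * cc G ^ 4 := by field_simp
  rw [e1]
  have e2 : (n:ℝ) * (n:ℝ) ^ 2 = (n:ℝ) ^ 3 := by ring
  rw [e2]
  have e3 : (2 * s0 * cc G ^ 2) ^ 2 = 4 * (s0 ^ 2 * cc G ^ 4) := by ring
  rw [e3]
  have : 0 ≤ s0 ^ 2 * cc G ^ 4 := by positivity
  linarith only [h4, this]

/-- the quadratic interaction of `w` is almost nonnegative -/
lemma tri_ww (G : SimpleGraph (Fin n)) (s0 : ℝ) (hn : 0 < n) (hE : 0 < numEdges G)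
    (hc : 0 < cc G) (hcn : cc G ≤ n)
    (hs0 : 0 < s0) (h4 : (n : ℝ) ^ 3 ≤ s0 ^ 2 * cc G ^ 4) (hG : Good s0 G) :
    -triSum G (fun u v y => ww G u v * (ww G u y + ww G v y)) ≤
      2 * (√(2 * s0) + 2 * s0) * cc G * W2 G := by
  have hn0 : (0:ℝ) < n := by exact_mod_cast hn
  have hE0 : (0:ℝ) < numEdges G := by exact_mod_cast hE
  have h1 := triSum_ge G (cc G) (2 * s0 * cc G ^ 2) (by positivity) hE
    (frob G s0 hn hc hcn hs0 h4 hG) (ww G)
  have e1 : triSum G (fun u v y => ww G u v * (ww G u y + ww G v y)) =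
      triSum G (fun u v y => ww G u v * ww G u y) + triSum G (fun u v y => ww G u v * ww G v y) := by
    rw [← triSum_add]
    congr 1
    funext u v y
    ring
  have e2 : triSum G (fun u v y => ww G u v * ww G v y) =
      triSum G (fun u v y => ww G u v * ww G u y) := by
    rw [triSum_swap12 G (fun u v y => ww G u v * ww G v y)]
    congr 1
    funext u v y
    rw [ww_comm G v u]
  rw [e1, e2]
  have e3 : √(2 * s0 * cc G ^ 2) = √(2 * s0) * cc G := by
    rw [Real.sqrt_mul (by positivity), Real.sqrt_sq hc.le]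
  have h5 : (n:ℝ) * (2 * s0 * cc G ^ 2) / (2 * numEdges G) ≤ 2 * s0 * cc G := by
    rw [div_le_iff₀ (by positivity)]
    have h6 := numEdges_le G
    have h7 : (n:ℝ) * cc G ≤ 2 * numEdges G := by
      unfold cc
      rw [← mul_div_assoc, div_le_iff₀ (by positivity)]
      have a1 := mul_le_mul_of_nonneg_left h6 (show 0 ≤ 2 * (n:ℝ) * numEdges G by positivity)
      linarith only [a1]
    have h8 := mul_le_mul_of_nonneg_left h7 (show 0 ≤ 2 * s0 * cc G by positivity)
    linarith only [h8]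
  have h9 : (√(2 * s0 * cc G ^ 2) + (n:ℝ) * (2 * s0 * cc G ^ 2) / (2 * numEdges G)) * W2 G ≤
      ((√(2 * s0) + 2 * s0) * cc G) * W2 G := by
    apply mul_le_mul_of_nonneg_right _ (W2_nonneg G)
    rw [e3]; linarith only [h5]
  have h10 : edgeSum G (fun u v => ww G u v ^ 2) = W2 G := rfl
  rw [h10] at h1
  linarith only [h1, h9]

end Vale.Agent.P046.C.Ea
end
end

section

section

/-!
Drift of the sum of `theta` over the edges when one triangle is removed.
-/

set_option autoImplicit false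

open scoped Classical
open Finset

namespace Vale.Agent.P046.C.TD

open Vale.Agent.P046 Vale.Agent.P046.OS Vale.Agent.P046.C

variable {n : ℕ}

lemma two_e_le (G : SimpleGraph (Fin n)) : 2 * (numEdges G : ℝ) ≤ (n:ℝ) ^ 2 := by
  have h1 : numEdges G ≤ n.choose 2 := by
    have h := G.card_edgeFinset_le_card_choose_two
    rw [Fintype.card_fin] at h
    exact h
  have h2 : (numEdges G : ℝ) ≤ (n:ℝ) * ((n:ℝ) - 1) / 2 := by
    have h3 : (numEdges G : ℝ) ≤ ((n.choose 2 : ℕ) : ℝ) := by exact_mod_cast h1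
    rw [Nat.cast_choose_two] at h3
    exact h3
  have h4 : (0:ℝ) ≤ n := Nat.cast_nonneg n
  nlinarith

/-- scale facts -/
lemma scale_real (e N c : ℝ) (hN : 0 < N) (he : 0 < e) (h : 2 * e ≤ N ^ 2)
    (hc : c = 4 * e ^ 2 / N ^ 3) : c ≤ N ∧ c * N ≤ 2 * e := by
  have h1 : c * N ≤ 2 * e := by
    have e1 : c * N = 2 * e * (2 * e / N ^ 2) := by
      rw [hc]; field_simp; ring
    have h2 : 2 * e / N ^ 2 ≤ 1 := by
      rw [div_le_one (by positivity)]; exact h
    rw [e1]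
    have := mul_le_mul_of_nonneg_left h2 (by positivity : 0 ≤ 2 * e)
    linarith only [this]
  refine ⟨?_, h1⟩
  have h3 : c * N ≤ N * N := by
    calc c * N ≤ 2 * e := h1
      _ ≤ N ^ 2 := h
      _ = N * N := by ring
  exact le_of_mul_le_mul_right h3 hN

lemma cc_pos (G : SimpleGraph (Fin n)) (hn : 0 < n) (hE : 0 < numEdges G) : 0 < cc G := by
  unfold cc
  have h1 : (0:ℝ) < n := by exact_mod_cast hn
  have h2 : (0:ℝ) < numEdges G := by exact_mod_cast hE
  positivity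

lemma rr_cc (G : SimpleGraph (Fin n)) (hn : 0 < n) (hE : 0 < numEdges G) (u v : Fin n) :
    cc G * rr G u v = codeg G u v := by
  unfold cc rr
  have h1 : (0:ℝ) < n := by exact_mod_cast hn
  have h2 : (0:ℝ) < numEdges G := by exact_mod_cast hE
  field_simp

lemma KK_eq (G : SimpleGraph (Fin n)) (hn : 0 < n) (hE : 0 < numEdges G) (u v : Fin n) :
    KK G u v = cc G ^ 2 * (ww G u v + 2 * rr G u v) - 2 * (cc G * rr G u v) := by
  have hc := cc_pos G hn hE
  have h1 : cc G * ww G u v =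
      ∑ x, if G.Adj u x ∧ G.Adj v x then (zz G u x + zz G v x) else 0 := by
    unfold ww
    field_simp
  have h2 : KK G u v = ∑ x, ((cc G * (if G.Adj u x ∧ G.Adj v x then (zz G u x + zz G v x) else 0)) +
      (2 * cc G - 2) * (if G.Adj u x ∧ G.Adj v x then (1:ℝ) else 0)) := by
    unfold KK
    refine Finset.sum_congr rfl fun x _ => ?_
    by_cases h : G.Adj u x ∧ G.Adj v x
    · rw [if_pos h, if_pos h, if_pos h, ← rr_cc G hn hE u x, ← rr_cc G hn hE v x]
      unfold zz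
      ring
    · rw [if_neg h, if_neg h, if_neg h]
      ring
  rw [h2, Finset.sum_add_distrib, ← Finset.mul_sum, ← Finset.mul_sum, ← h1, ← codeg_real,
    ← rr_cc G hn hE u v]
  ring

/-- epsilon facts -/
lemma eps_real (e ε : ℝ) (he : 1000 ≤ e) (hε : ε = (e / (e - 3)) ^ 2 - 1) :
    0 ≤ e * ε - 6 ∧ e * (e * ε - 6) ≤ 28 := by
  have he3 : 0 < e - 3 := by linarith only [he]
  have h1 : e * ε - 6 = (27 * e - 54) / (e - 3) ^ 2 := by
    rw [hε]; field_simp; ring
  constructor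
  · rw [h1]
    apply div_nonneg _ (by positivity)
    linarith only [he]
  · rw [h1, mul_div_assoc', div_le_iff₀ (by positivity)]
    nlinarith only [he]

lemma rr_remove (G : SimpleGraph (Fin n)) (t : Finset (Fin n)) (ht : t ∈ triangles G)
    (hn : 0 < n) (hE : 3 < (numEdges G : ℝ)) (u v : Fin n) (huv : ¬ (u ∈ t ∧ v ∈ t)) (ε : ℝ)
    (hε : ε = ((numEdges G : ℝ) / ((numEdges G : ℝ) - 3)) ^ 2 - 1) :
    rr (removeTriangle G t) u v = rr G u v + (ε * rr G u v - (1 + ε) / cc G * kk G t u v) := by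
  have h1 : (numEdges (removeTriangle G t) : ℝ) = (numEdges G : ℝ) - 3 := by
    have := numEdges_removeTriangle G t ht
    have h2 : (numEdges (removeTriangle G t) : ℝ) + 3 = (numEdges G : ℝ) := by exact_mod_cast this
    linarith only [h2]
  have hn' : (0:ℝ) < n := by exact_mod_cast hn
  obtain ⟨e, he⟩ : ∃ e : ℝ, e = (numEdges G : ℝ) := ⟨_, rfl⟩
  unfold rr cc
  rw [h1, codeg_remove G t u v huv, hε, ← he]
  rw [← he] at hE
  have he3 : 0 < e - 3 := by linarith only [hE]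
  have he0 : 0 < e := by linarith only [hE]
  field_simp
  ring

/-- bounds on the small parameters -/
lemma small_real (e c N r Y ε : ℝ) (hc : 2000 ≤ c) (hcN : c ≤ N) (hcNe : c * N ≤ 2 * e)
    (hY : c * r = Y) (hYN : Y ≤ N)
    (hε1 : 0 ≤ e * ε - 6) (hε2 : e * (e * ε - 6) ≤ 28) :
    0 < ε ∧ e * ε ≤ 7 ∧ ε * c ≤ 1/100 ∧ ε ≤ 1/1000 ∧ ε * Y ≤ 1/100 ∧ ε * r * c ≤ 1/100 ∧
      (e * ε - 6) * c ≤ 1/10 := by
  have hN : 2000 ≤ N := by linarith
  have hN0 : 0 < N := by linarith only [hc, hcN]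
  have hc0 : 0 < c := by linarith only [hc]
  have hcc : c * c ≤ 2 * e := by
    have := mul_le_mul_of_nonneg_left hcN hc0.le
    linarith only [hcNe, this]
  have he : 2000000 ≤ e := by nlinarith only [hc, hcc]
  have he0 : 0 < e := by linarith
  have h7 : e * ε ≤ 7 := by
    have : e * ε - 6 ≤ 1 := by
      by_contra hcon
      push Not at hcon
      have h1 : e * 1 < e * (e * ε - 6) := mul_lt_mul_of_pos_left hcon he0
      linarith only [hε2, he, h1]
    linarith
  have hε0 : 0 < ε := by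
    by_contra hcon
    push Not at hcon
    have := mul_nonpos_of_nonneg_of_nonpos he0.le hcon
    linarith
  have hεcN : ε * (c * N) ≤ 14 := by
    have := mul_le_mul_of_nonneg_left hcNe hε0.le
    linarith
  have hεN : ε * N ≤ 1/100 := by
    have h1 : (ε * N) * 2000 ≤ (ε * N) * c := mul_le_mul_of_nonneg_left hc (by positivity)
    linarith only [hεcN, h1]
  have hεc : ε * c ≤ 1/100 := by
    have := mul_le_mul_of_nonneg_left hcN hε0.le
    linarith
  refine ⟨hε0, h7, hεc, ?_, ?_, ?_, ?_⟩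
  · have h1 : ε * 2000 ≤ ε * c := mul_le_mul_of_nonneg_left hc hε0.le
    linarith only [hεc, h1]
  · have := mul_le_mul_of_nonneg_left hYN hε0.le
    linarith only [hεN, this]
  · have : ε * r * c = ε * (c * r) := by ring
    rw [this, hY]
    have := mul_le_mul_of_nonneg_left hYN hε0.le
    linarith only [hεN, this]
  · have h1 : (e * ε - 6) * c ≤ (e * ε - 6) * N := mul_le_mul_of_nonneg_left hcN hε1
    have h2 : (e * ε - 6) * (c * N) ≤ (e * ε - 6) * (2 * e) := mul_le_mul_of_nonneg_left hcNe hε1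
    have h3 : ((e * ε - 6) * N) * 2000 ≤ ((e * ε - 6) * N) * c :=
      mul_le_mul_of_nonneg_left hc (by positivity)
    linarith only [hε2, h1, h2, h3]

/-- bound for the mean displacement -/
lemma mean_real (e c N Y r w ρ ε T K : ℝ) (hc : 2000 ≤ c) (hcN : c ≤ N) (hcNe : c * N ≤ 2 * e)
    (hY : c * r = Y) (hYN : Y ≤ N) (hr : 0 ≤ r) (hρ : |ρ - 1| ≤ 1/2)
    (hε1 : 0 ≤ e * ε - 6) (hε2 : e * (e * ε - 6) ≤ 28)
    (hT : 3 * T = e * c * ρ) (hK : K = c ^ 2 * (w + 2 * r) - 2 * (c * r)) :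
    |ε * r * (T - Y) - (1 + ε) / c * K - c * (2 * (ρ - 1) * r - w)| ≤ 4 * r + |w| := by
  obtain ⟨hε0, h7, hεc, hεs, hεY, hεr, ha⟩ := small_real e c N r Y ε hc hcN hcNe hY hYN hε1 hε2
  have hc0 : 0 < c := by linarith only [hc]
  have hρ' := abs_le.mp hρ
  have e1 : ε * r * (T - Y) - (1 + ε) / c * K - c * (2 * (ρ - 1) * r - w) =
      ((e * ε - 6) * c) * (ρ * r) / 3 - (ε * Y) * r + 2 * r + 2 * (ε * r) - (ε * c) * w
        - 2 * ((ε * c) * r) := by
    have hT' : T = e * c * ρ / 3 := by linarith only [hT]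
    rw [hK, hT']
    field_simp
    ring
  rw [e1]
  obtain ⟨a, hadef⟩ : ∃ a, a = (e * ε - 6) * c := ⟨_, rfl⟩
  obtain ⟨b, hb⟩ : ∃ b, b = ε * Y := ⟨_, rfl⟩
  obtain ⟨d, hd⟩ : ∃ d, d = ε * c := ⟨_, rfl⟩
  rw [← hadef] at ha ⊢
  rw [← hb] at hεY ⊢
  rw [← hd] at hεc ⊢
  have ha0 : 0 ≤ a := by rw [hadef]; positivity
  have hb0 : 0 ≤ b := by rw [hb, ← hY]; positivity
  have hd0 : 0 ≤ d := by rw [hd]; positivity
  have hρr : 0 ≤ ρ * r := mul_nonneg (by linarith only [hρ']) hr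
  have hρr2 : ρ * r ≤ 3/2 * r := mul_le_mul_of_nonneg_right (by linarith only [hρ']) hr
  have t1 : a * (ρ * r) ≤ 1/10 * (3/2 * r) := mul_le_mul ha hρr2 hρr (by norm_num)
  have t1' : 0 ≤ a * (ρ * r) := mul_nonneg ha0 hρr
  have t2 : b * r ≤ 1/100 * r := mul_le_mul_of_nonneg_right hεY hr
  have t2' : 0 ≤ b * r := mul_nonneg hb0 hr
  have t3 : ε * r ≤ 1/1000 * r := mul_le_mul_of_nonneg_right hεs hr
  have t3' : 0 ≤ ε * r := by positivity
  have t4 : d * r ≤ 1/100 * r := mul_le_mul_of_nonneg_right hεc hr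
  have t4' : 0 ≤ d * r := mul_nonneg hd0 hr
  have t5 : |d * w| ≤ |w| := by
    rw [abs_mul, abs_of_nonneg hd0]
    have := mul_le_mul_of_nonneg_right (by linarith only [hεc] : d ≤ 1) (abs_nonneg w)
    linarith only [this]
  have t5' := abs_le.mp t5
  rw [abs_le]
  constructor <;> linarith only [hr, t1', t2, t3', t4, t5'.2, t1, t2', t3, t4', t5'.1]

/-- bound for the second moment -/
lemma second_real (e c N Y r w ρ ε T K : ℝ) (hc : 2000 ≤ c) (hcN : c ≤ N) (hcNe : c * N ≤ 2 * e)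
    (hY : c * r = Y) (hYN : Y ≤ N) (hr : 0 ≤ r) (hρ : |ρ - 1| ≤ 1/2)
    (hε1 : 0 ≤ e * ε - 6) (hε2 : e * (e * ε - 6) ≤ 28)
    (hT : 3 * T = e * c * ρ) (hK : K = c ^ 2 * (w + 2 * r) - 2 * (c * r)) :
    2 * ε ^ 2 * r ^ 2 * (T - Y) + 4 * ((1 + ε) / c) ^ 2 * K ≤ 16 * r + 6 * |w| := by
  obtain ⟨hε0, h7, hεc, hεs, hεY, hεr, ha⟩ := small_real e c N r Y ε hc hcN hcNe hY hYN hε1 hε2
  have hc0 : 0 < c := by linarith only [hc]
  have hρ' := abs_le.mp hρ
  have hY0 : 0 ≤ Y := by rw [← hY]; positivity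
  have e1 : 4 * ((1 + ε) / c) ^ 2 * K = 4 * (1 + ε) ^ 2 * (w + 2 * r) - 8 * (1 + ε) ^ 2 * r / c := by
    rw [hK]
    field_simp
    ring
  have h1 : 4 * ((1 + ε) / c) ^ 2 * K ≤ 5 * |w| + 10 * r := by
    rw [e1]
    have h2 : 0 ≤ 8 * (1 + ε) ^ 2 * r / c := by positivity
    have h3 : (1 + ε) ^ 2 ≤ 5/4 := by nlinarith only [hε0, hεc, hc]
    have h4 : w + 2 * r ≤ |w| + 2 * r := by linarith only [le_abs_self w]
    have h5 : (1 + ε) ^ 2 * (w + 2 * r) ≤ (1 + ε) ^ 2 * (|w| + 2 * r) :=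
      mul_le_mul_of_nonneg_left h4 (by positivity)
    have h6 : (1 + ε) ^ 2 * (|w| + 2 * r) ≤ 5/4 * (|w| + 2 * r) :=
      mul_le_mul_of_nonneg_right h3 (by positivity)
    linarith only [h2, h5, h6]
  have h2 : 2 * ε ^ 2 * r ^ 2 * (T - Y) ≤ r := by
    have h3 : 2 * ε ^ 2 * r ^ 2 * (T - Y) ≤ 2 * ε ^ 2 * r ^ 2 * T :=
      mul_le_mul_of_nonneg_left (by linarith only [hY0]) (by positivity)
    have h4 : 2 * ε ^ 2 * r ^ 2 * T = (2/3 * ρ) * ((e * ε) * ((ε * r * c) * r)) := by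
      have hT' : T = e * c * ρ / 3 := by linarith only [hT]
      rw [hT']; ring
    have h5 : (ε * r * c) * r ≤ 1/100 * r := mul_le_mul_of_nonneg_right hεr hr
    have h50 : 0 ≤ (ε * r * c) * r := by positivity
    have h6 : (e * ε) * ((ε * r * c) * r) ≤ 7 * (1/100 * r) :=
      mul_le_mul h7 h5 h50 (by norm_num)
    have h60 : 0 ≤ (e * ε) * ((ε * r * c) * r) := mul_nonneg (by linarith only [hε1, hε0, hεs]) h50
    have h7' : (2/3 * ρ) * ((e * ε) * ((ε * r * c) * r)) ≤ 1 * ((e * ε) * ((ε * r * c) * r)) :=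
      mul_le_mul_of_nonneg_right (by linarith only [hρ']) h60
    rw [h4] at h3
    linarith only [hr, h3, h6, h7']
  have := abs_nonneg w
  linarith only [hr, h1, h2, this]

/-- displacement is small -/
lemma disp_real (e c N Y r ε k : ℝ) (hc : 2000 ≤ c) (hcN : c ≤ N) (hcNe : c * N ≤ 2 * e)
    (hY : c * r = Y) (hYN : Y ≤ N) (hr : 0 ≤ r)
    (hε1 : 0 ≤ e * ε - 6) (hε2 : e * (e * ε - 6) ≤ 28) (hk0 : 0 ≤ k) (hk2 : k ≤ 2) :
    |ε * r - (1 + ε) / c * k| ≤ 4 / c ∧
      (ε * r - (1 + ε) / c * k) ^ 2 ≤ 2 * ε ^ 2 * r ^ 2 + 4 * ((1 + ε) / c) ^ 2 * k := by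
  obtain ⟨hε0, h7, hεc, hεs, hεY, hεr, ha⟩ := small_real e c N r Y ε hc hcN hcNe hY hYN hε1 hε2
  have hc0 : 0 < c := by linarith only [hc]
  have hr1 : 0 ≤ ε * r := by positivity
  have hr2 : ε * r ≤ 1 / c := by
    rw [le_div_iff₀ hc0]; linarith only [hεr]
  have hk1 : 0 ≤ (1 + ε) / c * k := by positivity
  have hk3 : (1 + ε) / c * k ≤ 3 / c := by
    rw [div_mul_eq_mul_div]
    apply div_le_div_of_nonneg_right _ hc0.le
    nlinarith only [hc, hk2, hk0, hεc]
  have e4 : 1 / c + 3 / c = 4 / c := by ring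
  have e1 : 1 / c ≤ 4 / c := div_le_div_of_nonneg_right (by norm_num) hc0.le
  have e3 : 3 / c ≤ 4 / c := div_le_div_of_nonneg_right (by norm_num) hc0.le
  constructor
  · rw [abs_le]
    constructor <;> linarith only [hr1, hr2, hk3, e4, hk1]
  · have hkk : k ^ 2 ≤ 2 * k := by nlinarith only [hk0, hk2]
    have h1 : ((1 + ε) / c * k) ^ 2 ≤ 2 * (((1 + ε) / c) ^ 2 * k) := by
      calc ((1 + ε) / c * k) ^ 2 = ((1 + ε) / c) ^ 2 * k ^ 2 := by ring
        _ ≤ ((1 + ε) / c) ^ 2 * (2 * k) := mul_le_mul_of_nonneg_left hkk (sq_nonneg _)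
        _ = _ := by ring
    have h2 : (ε * r - (1 + ε) / c * k) ^ 2 ≤ 2 * (ε * r) ^ 2 + 2 * ((1 + ε) / c * k) ^ 2 := by
      nlinarith only [sq_nonneg (ε * r + (1 + ε) / c * k)]
    have e5 : (ε * r) ^ 2 = ε ^ 2 * r ^ 2 := by ring
    rw [e5] at h2
    linarith only [h1, h2]

/-- the coefficient of the quadratic term -/
noncomputable def cof (δ D c r : ℝ) : ℝ :=
  2 * bg δ r + (1 - bg δ r) * (30 / D) * ((r - 1) ^ 2 + 16 / c ^ 2)

lemma cof_nonneg (δ D c r : ℝ) (hD : 0 < D) : 0 ≤ cof δ D c r := by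
  unfold cof
  have h1 := bg_nonneg δ r
  have h2 := bg_le_one δ r
  have h3 : 0 ≤ 1 - bg δ r := by linarith
  positivity

lemma taylor_cof (δ D c r y : ℝ) (hδ : 0 < δ) (hδ1 : δ ≤ 1/2) (hD : 0 < D)
    (hD' : D ≤ 1e-6 * δ ^ 2) (hc : 1000 / δ ≤ c) (hr : 0 ≤ r) (hy : 0 ≤ y)
    (h : |y - r| ≤ 4 / c) :
    theta D y ≤ theta D r + thetad D r * (y - r) + cof δ D c r * (y - r) ^ 2 := by
  have hc1 : 0 < 1000 / δ := by positivity
  have hc0 : 0 < c := by linarith only [hc, hc1]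
  have h4 : 4 / c ≤ δ / 2 := by
    rw [div_le_div_iff₀ hc0 (by norm_num)]
    rw [div_le_iff₀ hδ] at hc
    linarith only [hδ, hδ1, hc]
  rcases bg_cases δ r with ⟨h1, h2⟩ | ⟨h1, h2⟩
  · have h3 := theta_taylor_big δ D r y hr hy hδ hD hD' h1 (by linarith only [h, h4])
    unfold cof
    rw [h2]
    linarith only [h3]
  · have h3 := theta_taylor_small D r y hr hy hD (by linarith only [hδ1, h1])
    unfold cof
    rw [h2]
    have h5 : (y - r) ^ 2 ≤ 16 / c ^ 2 := by
      rw [← sq_abs (y - r)]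
      calc |y - r| ^ 2 ≤ (4 / c) ^ 2 := pow_le_pow_left₀ (abs_nonneg _) h 2
        _ = 16 / c ^ 2 := by rw [div_pow]; norm_num
    have h6 : 30 / D * ((r - 1) ^ 2 + (y - r) ^ 2) * (y - r) ^ 2 ≤
        30 / D * ((r - 1) ^ 2 + 16 / c ^ 2) * (y - r) ^ 2 := by
      apply mul_le_mul_of_nonneg_right _ (sq_nonneg _)
      apply mul_le_mul_of_nonneg_left _ (by positivity)
      linarith only [h5]
    linarith only [h3, h6]

/-- basic facts for a graph with a triangle and a large scale -/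
lemma graph_facts (G : SimpleGraph (Fin n)) (hT : (triangles G).Nonempty) (hc : 2000 ≤ cc G) :
    0 < n ∧ 0 < numEdges G ∧ cc G ≤ n ∧ cc G * n ≤ 2 * (numEdges G : ℝ) ∧
      1000 ≤ (numEdges G : ℝ) ∧
      3 * ((triangles G).card : ℝ) = (numEdges G : ℝ) * cc G * rho G := by
  have hn := n_pos_of_triangle G hT
  have hn' : (0:ℝ) < n := by exact_mod_cast hn
  have hE : 0 < numEdges G := by
    rcases Nat.eq_zero_or_pos (numEdges G) with h | h
    · exfalso
      unfold cc at hc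
      rw [h] at hc
      norm_num at hc
    · exact h
  have hE' : (0:ℝ) < numEdges G := by exact_mod_cast hE
  obtain ⟨h1, h2⟩ := scale_real (numEdges G) n (cc G) hn' hE' (two_e_le G) rfl
  refine ⟨hn, hE, h1, h2, ?_, ?_⟩
  · have : (1:ℝ) ≤ n := by exact_mod_cast hn
    nlinarith only [hc, h1, h2]
  · unfold cc rho
    field_simp

/-- the bound for one edge -/
lemma edge_bound (G : SimpleGraph (Fin n)) (δ D : ℝ) (hδ : 0 < δ) (hδ1 : δ ≤ 1/2) (hD : 0 < D)
    (hD' : D ≤ 1e-6 * δ ^ 2) (hc : 1000 / δ ≤ cc G) (hζ : |rho G - 1| ≤ 1/2)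
    (hT : (triangles G).Nonempty) (u v : Fin n) (huv : G.Adj u v) :
    ∑ t ∈ (triangles G).filter (fun t => ¬ (u ∈ t ∧ v ∈ t)),
      theta D (rr (removeTriangle G t) u v) ≤
    (triangles G).card * theta D (rr G u v) - codeg G u v * theta D (rr G u v) +
      cc G * (thetad D (rr G u v) * (2 * (rho G - 1) * rr G u v - ww G u v)) +
      |thetad D (rr G u v)| * (4 * rr G u v + |ww G u v|) +
      cof δ D (cc G) (rr G u v) * (16 * rr G u v + 6 * |ww G u v|) := by
  have hc2 : 2000 ≤ cc G := by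
    have : 2000 ≤ 1000 / δ := by
      rw [le_div_iff₀ hδ]; linarith only [hδ1]
    linarith only [hc, this]
  obtain ⟨hn, hE, hcN, hcNe, he, hTe⟩ := graph_facts G hT hc2
  obtain ⟨e, hedef⟩ : ∃ e : ℝ, e = (numEdges G : ℝ) := ⟨_, rfl⟩
  rw [← hedef] at hcNe he hTe
  obtain ⟨ε, hε⟩ : ∃ ε : ℝ, ε = (e / (e - 3)) ^ 2 - 1 := ⟨_, rfl⟩
  obtain ⟨hε1, hε2⟩ := eps_real e ε he hε
  have hr := rr_nonneg G u v
  have hY := rr_cc G hn hE u v
  have hYN : (codeg G u v : ℝ) ≤ n := by exact_mod_cast codeg_le G u v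
  have hK := KK_eq G hn hE u v
  have hmean := mean_real e (cc G) n (codeg G u v) (rr G u v) (ww G u v) (rho G) ε
    (triangles G).card (KK G u v) hc2 hcN hcNe hY hYN hr hζ hε1 hε2 hTe hK
  have hsec := second_real e (cc G) n (codeg G u v) (rr G u v) (ww G u v) (rho G) ε
    (triangles G).card (KK G u v) hc2 hcN hcNe hY hYN hr hζ hε1 hε2 hTe hK
  have hcard := card_triangles_not_edge G u v huv
  have hkk := sum_kk G u v huv
  have hcof := cof_nonneg δ D (cc G) (rr G u v) hD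
  obtain ⟨r, hrdef⟩ : ∃ r : ℝ, r = rr G u v := ⟨_, rfl⟩
  rw [← hrdef] at hr hY hK hmean hsec hcof ⊢
  obtain ⟨A, hA⟩ : ∃ A : ℝ, A = cof δ D (cc G) r := ⟨_, rfl⟩
  rw [← hA] at hcof ⊢
  obtain ⟨b, hb⟩ : ∃ b : ℝ, b = (1 + ε) / cc G := ⟨_, rfl⟩
  rw [← hb] at hmean hsec
  have hpt : ∀ t ∈ (triangles G).filter (fun t => ¬ (u ∈ t ∧ v ∈ t)),
      theta D (rr (removeTriangle G t) u v) ≤ (theta D r + thetad D r * (ε * r) +
        A * (2 * ε ^ 2 * r ^ 2)) + (thetad D r * (-b) + A * (4 * b ^ 2)) * kk G t u v := by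
    intro t ht
    rw [Finset.mem_filter] at ht
    have h1 := rr_remove G t ht.1 hn (by rw [← hedef]; linarith only [hδ, hδ1, he]) u v ht.2 ε
      (by rw [← hedef]; exact hε)
    rw [← hrdef, ← hb] at h1
    have hk0 := kk_nonneg G t u v
    have hk2 := kk_le_two G t ht.1 u v ht.2
    obtain ⟨hd1, hd2⟩ := disp_real e (cc G) n (codeg G u v) r ε (kk G t u v) hc2 hcN hcNe hY hYN
      hr hε1 hε2 hk0 hk2
    rw [← hb] at hd1 hd2
    have hy := rr_nonneg (removeTriangle G t) u v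
    have e1 : rr (removeTriangle G t) u v - r = ε * r - b * kk G t u v := by rw [h1]; ring
    have h2 := taylor_cof δ D (cc G) r (rr (removeTriangle G t) u v) hδ hδ1 hD hD' hc hr hy
      (by rw [e1]; exact hd1)
    rw [e1, ← hA] at h2
    have h3 := mul_le_mul_of_nonneg_left hd2 hcof
    linarith only [h2, h3]
  have hsum := Finset.sum_le_sum hpt
  rw [Finset.sum_add_distrib, Finset.sum_const, nsmul_eq_mul, ← Finset.mul_sum, hkk,
    hcard] at hsum
  refine le_trans hsum ?_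
  have h1 : thetad D r * (ε * r * ((triangles G).card - codeg G u v) - b * KK G u v -
      cc G * (2 * (rho G - 1) * r - ww G u v)) ≤ |thetad D r| * (4 * r + |ww G u v|) := by
    refine le_trans (le_abs_self _) ?_
    rw [abs_mul]
    exact mul_le_mul_of_nonneg_left hmean (abs_nonneg _)
  have h2 := mul_le_mul_of_nonneg_left hsec hcof
  linarith only [h1, h2]

end Vale.Agent.P046.C.TD

namespace Vale.Agent.P046.C

open Vale.Agent.P046 Vale.Agent.P046.OS TD

variable {n : ℕ}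

/-- drift of the edge sum of `theta` -/
theorem theta_drift (G : SimpleGraph (Fin n)) (δ D : ℝ) (hδ : 0 < δ) (hδ1 : δ ≤ 1/2) (hD : 0 < D)
    (hD' : D ≤ 1e-6 * δ ^ 2) (hc : 1000 / δ ≤ cc G) (hζ : |rho G - 1| ≤ 1/2)
    (hT : (triangles G).Nonempty) :
    ∑ t ∈ triangles G, edgeSum (removeTriangle G t)
      (fun u v => theta D (rr (removeTriangle G t) u v)) ≤
    (triangles G).card * edgeSum G (fun u v => theta D (rr G u v))
      - edgeSum G (fun u v => codeg G u v * theta D (rr G u v))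
      + cc G * edgeSum G (fun u v => thetad D (rr G u v) *
          (2 * (rho G - 1) * rr G u v - ww G u v))
      + edgeSum G (fun u v => |thetad D (rr G u v)| * (4 * rr G u v + |ww G u v|))
      + edgeSum G (fun u v => (2 * bg δ (rr G u v) + (1 - bg δ (rr G u v)) * (30 / D) *
          ((rr G u v - 1) ^ 2 + 16 / (cc G) ^ 2)) * (16 * rr G u v + 6 * |ww G u v|)) := by
  rw [LB.sum_edgeSum_remove G (fun t u v => theta D (rr (removeTriangle G t) u v))]
  have h1 := edgeSum_mono G _ _ (fun u v huv => edge_bound G δ D hδ hδ1 hD hD' hc hζ hT u v huv)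
  refine le_trans h1 ?_
  rw [edgeSum_add G (fun u v => (triangles G).card * theta D (rr G u v) -
      codeg G u v * theta D (rr G u v) +
      cc G * (thetad D (rr G u v) * (2 * (rho G - 1) * rr G u v - ww G u v)) +
      |thetad D (rr G u v)| * (4 * rr G u v + |ww G u v|))
      (fun u v => cof δ D (cc G) (rr G u v) * (16 * rr G u v + 6 * |ww G u v|)),
    edgeSum_add G (fun u v => (triangles G).card * theta D (rr G u v) -
      codeg G u v * theta D (rr G u v) +
      cc G * (thetad D (rr G u v) * (2 * (rho G - 1) * rr G u v - ww G u v)))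
      (fun u v => |thetad D (rr G u v)| * (4 * rr G u v + |ww G u v|)),
    edgeSum_add G (fun u v => (triangles G).card * theta D (rr G u v) -
      codeg G u v * theta D (rr G u v))
      (fun u v => cc G * (thetad D (rr G u v) * (2 * (rho G - 1) * rr G u v - ww G u v))),
    edgeSum_mul G (cc G)
      (fun u v => thetad D (rr G u v) * (2 * (rho G - 1) * rr G u v - ww G u v))]
  have h2 : edgeSum G (fun u v => (triangles G).card * theta D (rr G u v) -
      codeg G u v * theta D (rr G u v)) =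
      (triangles G).card * edgeSum G (fun u v => theta D (rr G u v)) -
        edgeSum G (fun u v => codeg G u v * theta D (rr G u v)) := by
    have e1 : (fun u v => ((triangles G).card : ℝ) * theta D (rr G u v) -
      codeg G u v * theta D (rr G u v)) =
      (fun u v => ((triangles G).card : ℝ) * theta D (rr G u v) +
        (-1) * (codeg G u v * theta D (rr G u v))) := by
      funext u v; ring
    rw [e1, edgeSum_add, edgeSum_mul G ((triangles G).card : ℝ) (fun u v => theta D (rr G u v)),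
      edgeSum_mul G (-1) (fun u v => codeg G u v * theta D (rr G u v))]
    ring
  rw [h2]
  exact le_refl _

end Vale.Agent.P046.C
end
end

section

section

set_option autoImplicit false

open scoped Classical
open Finset

namespace Vale.Agent.P046.C.K

open Vale.Agent.P046 Vale.Agent.P046.C
open Vale.Agent.P046.OS (triSum triSum_swap12 triSum_swap23 triSum_add triSum_mul triSum_mono
  edgeSum_codeg_mul codeg_comm card_triangles_not_edge codeg_real codeg_le rr_nonneg)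
open Vale.Agent.P046.LB (sum_edgeSum_remove)

variable {n : ℕ}

lemma rr_comm (G : SimpleGraph (Fin n)) (u v : Fin n) : rr G u v = rr G v u := by
  rw [rr_eq_div, rr_eq_div, codeg_comm]

lemma ww_comm (G : SimpleGraph (Fin n)) (u v : Fin n) : ww G u v = ww G v u := by
  unfold ww
  congr 1
  refine Finset.sum_congr rfl fun x _ => ?_
  by_cases h : G.Adj u x ∧ G.Adj v x
  · rw [if_pos h, if_pos h.symm]; ring
  · rw [if_neg h, if_neg (fun h2 => h h2.symm)]

lemma tri_uv (G : SimpleGraph (Fin n)) (hc : cc G ≠ 0) (f : Fin n → Fin n → ℝ) :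
    triSum G (fun u v _ => f u v) = cc G * edgeSum G (fun u v => rr G u v * f u v) := by
  rw [← edgeSum_codeg_mul, ← edgeSum_mul]
  refine edgeSum_congr G _ _ fun u v _ => ?_
  rw [codeg_eq G hc]
  ring

lemma tri_ux (G : SimpleGraph (Fin n)) (hc : cc G ≠ 0) (f : Fin n → Fin n → ℝ) :
    triSum G (fun u _ x => f u x) = cc G * edgeSum G (fun u v => rr G u v * f u v) := by
  rw [triSum_swap23 G (fun u _ x => f u x), tri_uv G hc]

lemma tri_vx (G : SimpleGraph (Fin n)) (hc : cc G ≠ 0) (f : Fin n → Fin n → ℝ) :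
    triSum G (fun _ v x => f v x) = cc G * edgeSum G (fun u v => rr G u v * f u v) := by
  rw [triSum_swap12 G (fun _ v x => f v x), tri_ux G hc]

lemma tri_sym3 (G : SimpleGraph (Fin n)) (g : Fin n → Fin n → Fin n → ℝ) :
    3 * triSum G g = triSum G (fun u v x => g u v x + g u x v + g v x u) := by
  rw [triSum_add, triSum_add]
  have h1 : triSum G (fun u v x => g u x v) = triSum G g := by
    rw [triSum_swap23 G (fun u v x => g u x v)]
  have h2 : triSum G (fun u v x => g v x u) = triSum G g := by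
    rw [triSum_swap12 G (fun u v x => g v x u), h1]
  rw [h1, h2]
  ring

/-- total heavy mass -/
noncomputable def HH (G : SimpleGraph (Fin n)) : ℝ :=
  edgeSum G (fun u v => rr G u v * hv (rr G u v))

/-- mass of big deviations -/
noncomputable def NN (δ : ℝ) (G : SimpleGraph (Fin n)) : ℝ :=
  edgeSum G (fun u v => rr G u v * ((rr G u v - 1) ^ 2 * bg δ (rr G u v)))

/-- quartic mass of small deviations -/
noncomputable def QQ (δ : ℝ) (G : SimpleGraph (Fin n)) : ℝ :=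
  edgeSum G (fun u v => (rr G u v - 1) ^ 4 * (1 - bg δ (rr G u v)))

/-- quadratic mass of small deviations -/
noncomputable def SQ (δ : ℝ) (G : SimpleGraph (Fin n)) : ℝ :=
  edgeSum G (fun u v => (rr G u v - 1) ^ 2 * (1 - bg δ (rr G u v)))

lemma HH_nonneg (G : SimpleGraph (Fin n)) : 0 ≤ HH G :=
  edgeSum_nonneg G _ fun u v _ => mul_nonneg (rr_nonneg G u v) (hv_nonneg _)

lemma NN_nonneg (δ : ℝ) (G : SimpleGraph (Fin n)) : 0 ≤ NN δ G :=
  edgeSum_nonneg G _ fun u v _ => mul_nonneg (rr_nonneg G u v)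
    (mul_nonneg (sq_nonneg _) (bg_nonneg _ _))

lemma QQ_nonneg (δ : ℝ) (G : SimpleGraph (Fin n)) : 0 ≤ QQ δ G := by
  refine edgeSum_nonneg G _ fun u v _ => ?_
  have := bg_le_one δ (rr G u v)
  have h1 : 0 ≤ 1 - bg δ (rr G u v) := by linarith
  positivity

lemma SQ_nonneg (δ : ℝ) (G : SimpleGraph (Fin n)) : 0 ≤ SQ δ G := by
  refine edgeSum_nonneg G _ fun u v _ => ?_
  have := bg_le_one δ (rr G u v)
  have h1 : 0 ≤ 1 - bg δ (rr G u v) := by linarith
  positivity

lemma MM_nonneg (d : ℝ) (hd : 0 < d) (G : SimpleGraph (Fin n)) : 0 ≤ MM d G :=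
  edgeSum_nonneg G _ fun u v _ => huber_nonneg d _ hd

lemma TH_nonneg (D : ℝ) (hD : 0 < D) (G : SimpleGraph (Fin n)) : 0 ≤ TH D G :=
  edgeSum_nonneg G _ fun u v _ => theta_nonneg D _ hD

lemma RF_nonneg (G : SimpleGraph (Fin n)) : 0 ≤ RF G := by
  unfold RF; positivity

lemma abs_N (G : SimpleGraph (Fin n)) (δ D : ℝ) (hδ : 0 < δ) (hD : 0 < D)
    (hD' : D ≤ 1e-6 * δ ^ 2) : NN δ G ≤ 43200 * TH D G + HH G := by
  unfold NN TH HH
  rw [← edgeSum_mul, ← edgeSum_add]
  refine edgeSum_mono G _ _ fun u v _ => ?_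
  obtain ⟨r, hr⟩ : ∃ r, r = rr G u v := ⟨_, rfl⟩
  have hr0 : 0 ≤ r := by rw [hr]; exact rr_nonneg G u v
  rw [← hr]
  have ht := theta_nonneg D r hD
  have hh := hv_nonneg r
  rcases bg_cases δ r with ⟨h1, h2⟩ | ⟨h1, h2⟩
  · rw [h2, mul_one]
    rcases le_or_gt r 12 with h3 | h3
    · have h4 := sq_le_theta δ D r hr0 hδ hD hD' h1
      have h5 : r * (r - 1) ^ 2 ≤ 12 * (r - 1) ^ 2 :=
        mul_le_mul_of_nonneg_right h3 (sq_nonneg _)
      have h6 : 0 ≤ r * hv r := mul_nonneg hr0 hh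
      linarith only [h4, h5, h6]
    · have e : hv r = r ^ 2 := by unfold hv; rw [if_pos h3]
      rw [e]
      have : (r - 1) ^ 2 ≤ r ^ 2 := by linarith only [h3]
      have := mul_le_mul_of_nonneg_left this hr0
      linarith only [ht, this]
  · rw [h2, mul_zero, mul_zero]
    have h6 : 0 ≤ r * hv r := mul_nonneg hr0 hh
    linarith only [ht, h6]

lemma abs_Q (G : SimpleGraph (Fin n)) (δ D : ℝ) (hδ : 0 < δ) (hδ1 : δ ≤ 1 / 2) (hD : 0 < D)
    (hD' : D ≤ 1e-6 * δ ^ 2) : QQ δ G ≤ 4 * δ ^ 2 * TH D G := by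
  unfold QQ TH
  rw [← edgeSum_mul]
  refine edgeSum_mono G _ _ fun u v _ => ?_
  have hr0 := rr_nonneg G u v
  have ht := theta_nonneg D (rr G u v) hD
  rcases bg_cases δ (rr G u v) with ⟨h1, h2⟩ | ⟨h1, h2⟩
  · rw [h2]
    have : 0 ≤ 4 * δ ^ 2 * theta D (rr G u v) := by positivity
    linarith only [this]
  · rw [h2]
    have := quart_le_theta δ D (rr G u v) hr0 hδ hδ1 hD hD' h1
    linarith only [this]

lemma abs_S (G : SimpleGraph (Fin n)) (δ τ : ℝ) (hτ : 0 < τ) (hc : 0 < cc G) :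
    SQ δ G ≤ τ * (cc G * QQ δ G) + 1 / (2 * τ) * ((numEdges G : ℝ) / cc G) := by
  have h1 : edgeSum G (fun u v => (rr G u v - 1) ^ 2 * (1 - bg δ (rr G u v))) ≤
      edgeSum G (fun u v => τ * cc G * ((rr G u v - 1) ^ 4 * (1 - bg δ (rr G u v))) +
        1 / (4 * τ * cc G) * 1) := by
    refine edgeSum_mono G _ _ fun u v _ => ?_
    obtain ⟨z, hz⟩ : ∃ z, z = rr G u v - 1 := ⟨_, rfl⟩
    rw [← hz]
    have h0 : z ^ 2 ≤ τ * cc G * z ^ 4 + 1 / (4 * τ * cc G) := by
      have e : τ * cc G * z ^ 4 + 1 / (4 * τ * cc G) - z ^ 2 =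
          (2 * τ * cc G * z ^ 2 - 1) ^ 2 / (4 * τ * cc G) := by
        field_simp; ring
      have : 0 ≤ (2 * τ * cc G * z ^ 2 - 1) ^ 2 / (4 * τ * cc G) := by positivity
      linarith only [e, this]
    rcases bg_cases δ (rr G u v) with ⟨h1, h2⟩ | ⟨h1, h2⟩
    · rw [h2]
      have : 0 ≤ 1 / (4 * τ * cc G) := by positivity
      linarith only [this]
    · rw [h2]; linarith
  rw [edgeSum_add, edgeSum_mul, edgeSum_mul, edgeSum_one] at h1
  unfold SQ QQ
  refine h1.trans (le_of_eq ?_)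
  field_simp
  ring

/-- pointwise: absolute value of `w` -/
lemma ww_abs_sum (G : SimpleGraph (Fin n)) (hc : 0 < cc G) (u v : Fin n) :
    cc G * |ww G u v| ≤ ∑ x, if G.Adj u x ∧ G.Adj v x then
      (|rr G u x - 1| + |rr G v x - 1|) else 0 := by
  unfold ww
  rw [abs_div, abs_of_pos hc, mul_div_cancel₀ _ hc.ne']
  refine (Finset.abs_sum_le_sum_abs _ _).trans ?_
  refine Finset.sum_le_sum fun x _ => ?_
  unfold zz
  split_ifs
  · exact abs_add_le _ _
  · simp

lemma prod_bg (δ a b : ℝ) :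
    |a - 1| * bg δ a * |b - 1| ≤ (a - 1) ^ 2 * bg δ a + (b - 1) ^ 2 * bg δ b := by
  rcases bg_cases δ a with ⟨h1, h2⟩ | ⟨h1, h2⟩
  · rw [h2, mul_one, mul_one]
    rcases le_total |b - 1| |a - 1| with h | h
    · have h3 : |a - 1| * |b - 1| ≤ |a - 1| * |a - 1| := mul_le_mul_of_nonneg_left h (abs_nonneg _)
      rw [← sq, sq_abs] at h3
      have := mul_nonneg (sq_nonneg (b - 1)) (bg_nonneg δ b)
      linarith
    · have h4 : bg δ b = 1 := by
        unfold bg; rw [if_pos (le_trans h1 h)]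
      rw [h4, mul_one]
      have h3 : |a - 1| * |b - 1| ≤ |b - 1| * |b - 1| := mul_le_mul_of_nonneg_right h (abs_nonneg _)
      rw [← sq, sq_abs] at h3
      have := sq_nonneg (a - 1)
      linarith only [h3, this]
  · rw [h2]
    have := mul_nonneg (sq_nonneg (b - 1)) (bg_nonneg δ b)
    simpa only [mul_zero, zero_mul, zero_add, ge_iff_le] using this

/-- (L1) -/
lemma abs_zbw (G : SimpleGraph (Fin n)) (hc : 0 < cc G) (δ : ℝ) :
    edgeSum G (fun u v => |rr G u v - 1| * bg δ (rr G u v) * |ww G u v|) ≤ 4 * NN δ G := by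
  have h1 : cc G * edgeSum G (fun u v => |rr G u v - 1| * bg δ (rr G u v) * |ww G u v|) ≤
      triSum G (fun u v x => |rr G u v - 1| * bg δ (rr G u v) *
        (|rr G u x - 1| + |rr G v x - 1|)) := by
    rw [← edgeSum_mul, ← edgeSum_mul_x]
    refine edgeSum_mono G _ _ fun u v _ => ?_
    have h2 := ww_abs_sum G hc u v
    have h3 : 0 ≤ |rr G u v - 1| * bg δ (rr G u v) := mul_nonneg (abs_nonneg _) (bg_nonneg _ _)
    have := mul_le_mul_of_nonneg_left h2 h3
    linarith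
  have h2 : triSum G (fun u v x => |rr G u v - 1| * bg δ (rr G u v) *
        (|rr G u x - 1| + |rr G v x - 1|)) ≤
      triSum G (fun u v x => (2 * ((rr G u v - 1) ^ 2 * bg δ (rr G u v)) +
        (rr G u x - 1) ^ 2 * bg δ (rr G u x)) + (rr G v x - 1) ^ 2 * bg δ (rr G v x)) := by
    refine triSum_mono G _ _ fun u v x _ _ _ => ?_
    have a1 := prod_bg δ (rr G u v) (rr G u x)
    have a2 := prod_bg δ (rr G u v) (rr G v x)
    linarith only [a1, a2]
  rw [triSum_add, triSum_add, triSum_mul,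
    tri_uv G hc.ne' (fun u v => (rr G u v - 1) ^ 2 * bg δ (rr G u v)),
    tri_ux G hc.ne' (fun u v => (rr G u v - 1) ^ 2 * bg δ (rr G u v)),
    tri_vx G hc.ne' (fun u v => (rr G u v - 1) ^ 2 * bg δ (rr G u v))] at h2
  unfold NN
  have h3 := h1.trans h2
  by_contra hcon
  push Not at hcon
  have := mul_lt_mul_of_pos_left hcon hc
  linarith only [h1, h2, this]

/-- (L2) the Huber triangle inequality, summed -/
lemma huber_tri_sum (G : SimpleGraph (Fin n)) (hc : 0 < cc G) (d : ℝ) (hd : 0 < d) :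
    -(2 * triSum G (fun u v x => clip d (ww G u v) * (ww G u x + ww G v x))) ≤
      2 * (cc G * edgeSum G (fun u v => rr G u v * huber d (ww G u v))) := by
  have h1 := tri_sym3 G (fun u v x => (-2) * (clip d (ww G u v) * (ww G u x + ww G v x)))
  have h2 : triSum G (fun u v x =>
      (-2) * (clip d (ww G u v) * (ww G u x + ww G v x)) +
      (-2) * (clip d (ww G u x) * (ww G u v + ww G x v)) +
      (-2) * (clip d (ww G v x) * (ww G v u + ww G x u))) ≤
      triSum G (fun u v x => 2 * ((huber d (ww G u v) + huber d (ww G u x)) +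
        huber d (ww G v x))) := by
    refine triSum_mono G _ _ fun u v x _ _ _ => ?_
    have := huber_triangle d (ww G u v) (ww G u x) (ww G v x) hd
    rw [ww_comm G x v, ww_comm G v u, ww_comm G x u]
    linarith
  have h3 : triSum G (fun u v x => 2 * ((huber d (ww G u v) + huber d (ww G u x)) +
        huber d (ww G v x))) =
      6 * (cc G * edgeSum G (fun u v => rr G u v * huber d (ww G u v))) := by
    rw [triSum_mul, triSum_add, triSum_add,
      tri_uv G hc.ne' (fun u v => huber d (ww G u v)),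
      tri_ux G hc.ne' (fun u v => huber d (ww G u v)),
      tri_vx G hc.ne' (fun u v => huber d (ww G u v))]
    ring
  rw [h3, ← h1, triSum_mul] at h2
  linarith only [h2]

/-- (A1) -/
lemma abs_A1 (G : SimpleGraph (Fin n)) (hc : 0 < cc G) (d δ : ℝ) (hd : 0 < d) (hδ : 0 < δ) :
    -(cc G * edgeSum G (fun u v => rr G u v * huber d (ww G u v))) -
      2 * triSum G (fun u v x => clip d (ww G u v) * (ww G u x + ww G v x)) ≤
      (1 + δ) * (cc G * MM d G) + 8 * d * (cc G * NN δ G) := by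
  have h1 := huber_tri_sum G hc d hd
  have h2 : edgeSum G (fun u v => rr G u v * huber d (ww G u v)) ≤
      edgeSum G (fun u v => (1 + δ) * huber d (ww G u v) +
        2 * d * (|rr G u v - 1| * bg δ (rr G u v) * |ww G u v|)) := by
    refine edgeSum_mono G _ _ fun u v _ => ?_
    have hm := huber_nonneg d (ww G u v) hd
    rcases bg_cases δ (rr G u v) with ⟨h3, h4⟩ | ⟨h3, h4⟩
    · rw [h4]
      have h5 := huber_le_lin d (ww G u v) hd
      have h6 : (rr G u v - 1) * huber d (ww G u v) ≤ |rr G u v - 1| * (2 * d * |ww G u v|) := by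
        calc (rr G u v - 1) * huber d (ww G u v) ≤ |rr G u v - 1| * huber d (ww G u v) :=
              mul_le_mul_of_nonneg_right (le_abs_self _) hm
          _ ≤ _ := mul_le_mul_of_nonneg_left h5 (abs_nonneg _)
      have h7 : 0 ≤ δ * huber d (ww G u v) := by positivity
      linarith
    · rw [h4]
      have h5 : (rr G u v - 1) * huber d (ww G u v) ≤ δ * huber d (ww G u v) :=
        mul_le_mul_of_nonneg_right ((le_abs_self _).trans h3.le) hm
      linarith
  have h3 := abs_zbw G hc δ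
  rw [edgeSum_add, edgeSum_mul, edgeSum_mul] at h2
  have h4 := mul_le_mul_of_nonneg_left h2 hc.le
  have h5 := mul_le_mul_of_nonneg_left h3 (by positivity : 0 ≤ cc G * (2 * d))
  unfold MM
  linarith

end Vale.Agent.P046.C.K
end
end

section

section

set_option autoImplicit false

open scoped Classical
open Finset

namespace Vale.Agent.P046.C.K

open Vale.Agent.P046 Vale.Agent.P046.C
open Vale.Agent.P046.OS (triSum rr_nonneg)

variable {n : ℕ}

/-- the final linear combination, with abstract quantities -/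
lemma late_arith (M T R N Q S H c V W sM sT sR TT : ℝ)
    (hc : 1e100 ≤ c) (hM : 0 ≤ M) (hT : 0 ≤ T) (hR : 0 ≤ R) (hN : 0 ≤ N) (hQ : 0 ≤ Q)
    (hH : 0 ≤ H) (hV : 0 ≤ V) (hW : 0 ≤ W)
    (h1 : sM ≤ TT * M + (1 + 1e-20 + 8 * 1e-30 + 1 / 1000 + 1 / 8000) * (c * M) +
      (131096 * 1e-23) * (c * N) + 128000 * (c * Q) + 9216000 * (c * R) +
      (70000 * 1e-23 + 1e-30 * 1e-23) * (c * H) + (15 + 28928 / (c * 1e-23)) * M + 140000 * N +
      80000 * H + 6144 * S + 12 * 10 ^ 9 * V + 65536 * W)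
    (h2 : sT ≤ TT * T + (1 + 1 / 400 + 9 / 90000 + 36 * (1 / 180000)) * (c * T) -
      1 / 800 * (c * H) + (90000 + 3 * 1e-20 / 1e-23) * (c * M) + 16 / (1 / 180000) * (c * R) +
      6 * 1e-30 / 1e-20 * (c * N) + (1 + 3 * 1e-20 / 1e-23 + 360 / (1e-46 * 1e-23)) * M + 9 * T +
      (12 / 1e-20 + 12 + 32 / (1e-20) ^ 2 + 48 / 1e-20) * N + 1140 / 1e-46 * S +
      (64 / (1 / 180000) + 37 / 1e-46) * V)
    (h3 : sR ≤ TT * R - 8 / 10 * (c * R) + 80 * (c * Q) + 14400 * 1e-30 * (c * T) + N + 3480 * V)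
    (hN' : N ≤ 43200 * T + H) (hQ' : Q ≤ 4 * (1e-20) ^ 2 * T)
    (hS' : S ≤ 1e-14 * (c * Q) + 1 / (2 * 1e-14) * V) :
    sM + 1e-9 * sT + 1e7 * sR ≤ (TT + (1 + 1 / 200) * c) * (M + 1e-9 * T + 1e7 * R) +
      1e60 * (V + W) := by
  have hc0 : 0 < c := by linarith only [hc]
  -- small multiples
  have k1 : 28928 / (c * 1e-23) * M ≤ 1 * M := by
    apply mul_le_mul_of_nonneg_right _ hM
    rw [div_le_one (by positivity)]
    linarith only [hc]
  have cM : 1e100 * M ≤ c * M := mul_le_mul_of_nonneg_right hc hM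
  have cT : 1e100 * T ≤ c * T := mul_le_mul_of_nonneg_right hc hT
  have cH : 1e100 * H ≤ c * H := mul_le_mul_of_nonneg_right hc hH
  have cN : c * N ≤ 43200 * (c * T) + c * H := by
    have := mul_le_mul_of_nonneg_left hN' hc0.le
    linarith only [this]
  have cQ : c * Q ≤ 4e-40 * (c * T) := by
    have := mul_le_mul_of_nonneg_left hQ' hc0.le
    have e : c * (4 * (1e-20) ^ 2 * T) = 4e-40 * (c * T) := by ring
    linarith only [this]
  have cR : 0 ≤ c * R := by positivity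
  have cM0 : 0 ≤ c * M := by positivity
  have cT0 : 0 ≤ c * T := by positivity
  have cH0 : 0 ≤ c * H := by positivity
  obtain ⟨x1, hx1⟩ : ∃ x, x = c * M := ⟨_, rfl⟩
  obtain ⟨x2, hx2⟩ : ∃ x, x = c * T := ⟨_, rfl⟩
  obtain ⟨x3, hx3⟩ : ∃ x, x = c * H := ⟨_, rfl⟩
  obtain ⟨x4, hx4⟩ : ∃ x, x = c * N := ⟨_, rfl⟩
  obtain ⟨x5, hx5⟩ : ∃ x, x = c * Q := ⟨_, rfl⟩
  obtain ⟨x6, hx6⟩ : ∃ x, x = c * R := ⟨_, rfl⟩
  have e1 : (TT + (1 + 1 / 200) * c) * (M + 1e-9 * T + 1e7 * R) =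
      TT * M + 1e-9 * (TT * T) + 1e7 * (TT * R) + (1 + 1 / 200) * (c * M) +
      (1 + 1 / 200) * 1e-9 * (c * T) + (1 + 1 / 200) * 1e7 * (c * R) := by ring
  rw [e1]
  rw [← hx1] at *
  rw [← hx2] at *
  rw [← hx3] at *
  rw [← hx4] at *
  rw [← hx5] at *
  rw [← hx6] at *
  norm_num at h1 h2 h3 hS' cM cT cH cN cQ ⊢
  linarith

end Vale.Agent.P046.C.K
end
end

section

section

set_option autoImplicit false

open scoped Classical
open Finset

namespace Vale.Agent.P046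


end Vale.Agent.P046
end
end

section

section

set_option autoImplicit false

open scoped Classical
open Finset

namespace Vale.Agent.P046.C

open Vale.Agent.P046 Vale.Agent.P046.OS

lemma FHyp.mono {n : ℕ} {F : SimpleGraph (Fin n) → ℝ} {C K0 K0' κ κL s0 η : ℝ}
    (h : FHyp F C K0 κ κL s0 η) (hK : K0 ≤ K0') : FHyp F C K0' κ κL s0 η where
  nonneg := h.nonneg
  late := fun G hc hζ => h.late G (hK.trans hc) hζ
  early := fun G hc h4 hG => h.early G (hK.trans hc) h4 hG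
  bad := h.bad
  low := h.low
  top := h.top

/-- the numerical hypotheses hold for large `n` -/
lemma NHyp_of (n : ℕ) (A B C K0 κ κL s0 η Es M0 p K1 : ℝ) (hη : η ≤ 1 / 10000) (hA : 0 < A) (hAκ : 1 ≤ A * κ)
    (hB : 0 < B) (hC : 0 ≤ C) (hκL : 0 ≤ κL) (hK0 : 10000 ≤ K0)
    (hκ : 65536 * B * κL ≤ (1 / 1000) * K0) (hCB : 4 * C ≤ B)
    (hs0 : 0 < s0) (hs1 : s0 ≤ 1 / 10000) (hK1 : 1 ≤ K1) (hK1' : K0 ≤ 4 * K1 ^ 2)
    (hp : 2 ≤ p) (hN : (n : ℝ) = p ^ 1200) (hE1 : K1 * p ^ 1800 ≤ Es)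
    (hE2 : Es ≤ 2 * K1 * p ^ 1800) (hM : A * C * ((n : ℝ) ^ 3) ^ 2 / Es ^ 2 ≤ M0)
    (hAC : A * C ≤ p) (hs : 2 * 10 ^ 13 / s0 ^ 8 ≤ p) (hpK : 2 * K1 + 3 ≤ p) :
    NHyp n A B C (A * C) K0 κ κL s0 η Es M0 (p ^ 15) ∧ (n : ℝ) ^ 2 / p ^ 15 / Es ≤ p ^ 600 := by
  have hp0 : 0 < p := by linarith only [hK1, hpK]
  have hp1 : 1 ≤ p := by linarith only [hK1, hpK]
  have hEs1 : p ^ 1800 ≤ Es := by
    have : 1 * p ^ 1800 ≤ K1 * p ^ 1800 := mul_le_mul_of_nonneg_right hK1 (by positivity)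
    linarith only [hE1, this]
  have hEs0 : 0 < Es := lt_of_lt_of_le (by positivity) hEs1
  have h2p : ∀ k : ℕ, (2:ℝ) ^ k ≤ p ^ k := fun k => pow_le_pow_left₀ (by norm_num) hp k
  have hn0 : (0:ℝ) < n := by rw [hN]; positivity
  have hP : (n : ℝ) ^ 2 / p ^ 15 / Es ≤ p ^ 600 := by
    rw [div_div, div_le_iff₀ (by positivity), hN]
    calc (p ^ 1200) ^ 2 = p ^ 2400 := by ring
      _ ≤ p ^ 2415 := pow_le_pow_right₀ hp1 (by norm_num)
      _ = p ^ 600 * (p ^ 15 * p ^ 1800) := by ring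
      _ ≤ p ^ 600 * (p ^ 15 * Es) := by
          apply mul_le_mul_of_nonneg_left _ (by positivity)
          exact mul_le_mul_of_nonneg_left hEs1 (by positivity)
  refine ⟨?_, hP⟩
  refine ⟨hη, ?_, hA, hAκ, hB, hC, hκL, hK0, hκ, le_refl _, hCB, ?_, ?_, ?_, one_le_pow₀ hp1, hs0, hs1,
    hM, ?_, ?_⟩
  · rw [hN]
    calc (2000:ℝ) ≤ 2 ^ 11 := by norm_num
      _ ≤ p ^ 11 := h2p 11
      _ ≤ p ^ 1200 := pow_le_pow_right₀ hp1 (by norm_num)
  · calc (100000:ℝ) ≤ 2 ^ 17 := by norm_num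
      _ ≤ p ^ 17 := h2p 17
      _ ≤ p ^ 1800 := pow_le_pow_right₀ hp1 (by norm_num)
      _ ≤ Es := hEs1
  · refine hK1'.trans ?_
    rw [le_div_iff₀ (by positivity), hN]
    have h1 : (K1 * p ^ 1800) ^ 2 ≤ Es ^ 2 := pow_le_pow_left₀ (by positivity) hE1 2
    have e1 : 4 * K1 ^ 2 * (p ^ 1200) ^ 3 = 4 * (K1 * p ^ 1800) ^ 2 := by ring
    rw [e1]
    linarith only [h1]
  · rw [le_div_iff₀ (by positivity), hN]
    have h1 : (1:ℝ) ≤ p ^ 1800 := one_le_pow₀ hp1
    have h2 : Es + 3 ≤ (2 * K1 + 3) * p ^ 1800 := by linarith only [hE2, h1]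
    have h3 : (2 * K1 + 3) * p ^ 1800 ≤ p * p ^ 1800 := mul_le_mul_of_nonneg_right hpK (by positivity)
    calc (Es + 3) * p ^ 15 ≤ (p * p ^ 1800) * p ^ 15 :=
          mul_le_mul_of_nonneg_right (h2.trans h3) (by positivity)
      _ = p ^ 1816 := by ring
      _ ≤ p ^ 2400 := pow_le_pow_right₀ hp1 (by norm_num)
      _ = (p ^ 1200) ^ 2 := by ring
  · have e1 : s0 ^ 2 * (4 * (n:ℝ) / (p ^ 15) ^ 2) ^ 4 = 256 * s0 ^ 2 * ((n:ℝ) ^ 4 / p ^ 120) := by
      field_simp; norm_num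
    rw [e1]
    have h1 : s0 ^ 8 ≤ s0 ^ 2 := pow_le_pow_of_le_one hs0.le (by linarith only [hs0, hs1]) (by norm_num)
    have h2 : 2 * 10 ^ 13 ≤ p * s0 ^ 8 := by
      rw [div_le_iff₀ (by positivity)] at hs; exact hs
    have h3 : 1 ≤ p * s0 ^ 2 := by
      have := mul_le_mul_of_nonneg_left h1 hp0.le
      linarith only [h2, this]
    have e2 : (n:ℝ) ^ 4 / p ^ 120 = (n:ℝ) ^ 3 * p ^ 1080 := by
      rw [hN, div_eq_iff (by positivity)]; ring
    rw [e2]
    have h4 : p ≤ p ^ 1080 := le_self_pow₀ hp1 (by norm_num)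
    have h5 : s0 ^ 2 * p ≤ s0 ^ 2 * p ^ 1080 := mul_le_mul_of_nonneg_left h4 (by positivity)
    have h6 : 1 ≤ 256 * s0 ^ 2 * p ^ 1080 := by linarith only [h3, h5]
    calc (n:ℝ) ^ 3 = (n:ℝ) ^ 3 * 1 := by ring
      _ ≤ (n:ℝ) ^ 3 * (256 * s0 ^ 2 * p ^ 1080) := mul_le_mul_of_nonneg_left h6 (by positivity)
      _ = _ := by ring
  · intro e c he heN hc
    exact hconst_of_large A C s0 Es p n hA hC hs0 hp1 hN hEs0 hP hAC hs e c he heN hc

/-- parameters and the induction, second moment version -/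
lemma sq_large (n : ℕ) (F : SimpleGraph (Fin n) → ℝ) (A B C K0 κ κL s0 η p K1 : ℝ)
    (hF : FHyp F C K0 κ κL s0 η) (hη : η ≤ 1 / 10000) (hA : 0 < A) (hAκ : 1 ≤ A * κ)
    (hB : 0 < B) (hC : 0 ≤ C) (hκL : 0 ≤ κL) (hK0 : 10000 ≤ K0)
    (hκ : 65536 * B * κL ≤ (1 / 1000) * K0) (hCB : 4 * C ≤ B)
    (hs0 : 0 < s0) (hs1 : s0 ≤ 1 / 10000) (hK1 : 1 ≤ K1) (hK1' : K0 ≤ 4 * K1 ^ 2)
    (hn : 2 ≤ n) (hp : 2 ≤ p) (hN : (n : ℝ) = p ^ 1200)
    (hAC : A * C ≤ p) (hs : 2 * 10 ^ 13 / s0 ^ 8 ≤ p) (hpK : 2 * K1 + 3 ≤ p)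
    (k : ℕ) (hk : numEdges (⊤ : SimpleGraph (Fin n)) ≤ k) :
    V (fun H => (numEdges H : ℝ) ^ 2) k (⊤ : SimpleGraph (Fin n)) ≤
      (3 * A * C + 256 * A * B + 2 + K1 ^ 2) * (n : ℝ) ^ 3 := by
  have hp0 : 0 < p := by linarith only [hK1, hpK]
  have hp1 : 1 ≤ p := by linarith only [hK1, hpK]
  obtain ⟨Es, hEs⟩ : ∃ Es, Es = K1 * p ^ 1800 := ⟨_, rfl⟩
  have hEs1 : p ^ 1800 ≤ Es := by
    have : 1 * p ^ 1800 ≤ K1 * p ^ 1800 := mul_le_mul_of_nonneg_right hK1 (by positivity)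
    linarith only [hEs, this]
  have hEs5 : 100000 ≤ Es := by
    calc (100000:ℝ) ≤ 2 ^ 17 := by norm_num
      _ ≤ p ^ 17 := pow_le_pow_left₀ (by norm_num) hp 17
      _ ≤ p ^ 1800 := pow_le_pow_right₀ hp1 (by norm_num)
      _ ≤ Es := hEs1
  have hEs0 : 0 < Es := by linarith only [hs0, hs1, hEs5]
  have hE2 : Es ≤ 2 * K1 * p ^ 1800 := by
    have : 0 ≤ K1 * p ^ 1800 := by positivity
    rw [hEs]; linarith only [hEs, hEs5]
  have hn0 : (0:ℝ) < n := by rw [hN]; positivity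
  have hEsn : Es ^ 2 = K1 ^ 2 * (n:ℝ) ^ 3 := by rw [hEs, hN]; ring
  obtain ⟨M0, hM0⟩ : ∃ M0, M0 = A * C * ((n : ℝ) ^ 3) ^ 2 / (Es * (Es - 3)) + Es ^ 2 := ⟨_, rfl⟩
  have hMle : A * C * ((n : ℝ) ^ 3) ^ 2 / Es ^ 2 ≤ M0 := by
    rw [hM0]
    have h1 : A * C * ((n : ℝ) ^ 3) ^ 2 / Es ^ 2 ≤ A * C * ((n : ℝ) ^ 3) ^ 2 / (Es * (Es - 3)) := by
      apply div_le_div_of_nonneg_left (by positivity)
      · have : 0 < Es - 3 := by linarith only [hs0, hs1, hEs5]
        positivity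
      · linarith only [hs0, hs1, hEs5]
    have : 0 ≤ Es ^ 2 := by positivity
    linarith only [h1, this]
  obtain ⟨hNH, hP⟩ := NHyp_of n A B C K0 κ κL s0 η Es M0 p K1 hη hA hAκ hB hC hκL hK0 hκ hCB hs0 hs1
    hK1 hK1' hp hN (by rw [hEs]) hE2 hMle hAC hs hpK
  have hsup := super_sq (Phi F A B (A * C) Es M0 s0 (p ^ 15)) Es hEs0 (by
    intro G h1 h2
    have h3 : (numEdges G : ℝ) < (n:ℝ) ^ 2 / p ^ 15 := by linarith only [h2, hNH.hEq]
    have h4 : Phi F A B (A * C) Es M0 s0 (p ^ 15) G = PhiL F A B (A * C) Es M0 G := by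
      unfold Phi; rw [if_pos h3]
    rw [h4]
    have h5 : 0 < (numEdges G : ℝ) := by linarith only [hs0, hs1, hEs5, h1]
    have h6 := a1L_nonneg A Es (numEdges G) hA.le hEs0 h5.le
    have h7 : 0 ≤ a1L A Es (numEdges G) * F G := mul_nonneg h6 (hF.nonneg G)
    have h8 : 0 ≤ B * a1L A Es (numEdges G) / cc G ^ 4 * wheels G := by
      have := wheels_nonneg G
      have : 0 ≤ cc G := by unfold cc; positivity
      positivity
    have h9 : Es ^ 2 ≤ a3L (A * C) M0 ((n:ℝ) ^ 3) Es (numEdges G) := by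
      unfold a3L
      rw [hM0]
      have : A * C * ((n : ℝ) ^ 3) ^ 2 / (Es * (numEdges G : ℝ)) ≤
          A * C * ((n : ℝ) ^ 3) ^ 2 / (Es * (Es - 3)) := by
        apply div_le_div_of_nonneg_left (by positivity)
        · have : 0 < Es - 3 := by linarith only [hs0, hs1, hEs5]
          positivity
        · exact mul_le_mul_of_nonneg_left h1 hEs0.le
      linarith only [this]
    unfold PhiL
    linarith only [h7, h8, h9]) (fun G hG => Phi_step F A B C (A * C) K0 κ κL s0 η Es M0 (p ^ 15) hF hNH G hG)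
    k ⊤ hk
  have hMbound : M0 ≤ (2 * A * C + K1 ^ 2) * (n:ℝ) ^ 3 := by
    rw [hM0, hEsn]
    have h1 : A * C * ((n : ℝ) ^ 3) ^ 2 / (Es * (Es - 3)) ≤ 2 * A * C * (n:ℝ) ^ 3 := by
      have h2 : 0 < Es * (Es - 3) := by
        have : 0 < Es - 3 := by linarith only [hs0, hs1, hEs5]
        positivity
      rw [div_le_iff₀ h2]
      have h3 : (n:ℝ) ^ 3 ≤ 2 * (Es * (Es - 3)) := by
        have h4 : 1 * (n:ℝ) ^ 3 ≤ K1 ^ 2 * (n:ℝ) ^ 3 :=
          mul_le_mul_of_nonneg_right (one_le_pow₀ hK1) (by positivity)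
        nlinarith only [hEs5, hEsn, h4]
      calc A * C * ((n : ℝ) ^ 3) ^ 2 = (A * C * (n:ℝ) ^ 3) * (n:ℝ) ^ 3 := by ring
        _ ≤ (A * C * (n:ℝ) ^ 3) * (2 * (Es * (Es - 3))) :=
            mul_le_mul_of_nonneg_left h3 (by positivity)
        _ = _ := by ring
    linarith only [h1]
  have hnp : (n : ℝ) ^ 3 / p ^ 2 ≤ (n:ℝ) ^ 3 := by
    apply div_le_self (by positivity)
    exact one_le_pow₀ hp1
  rcases lt_or_ge (numEdges (⊤ : SimpleGraph (Fin n)) : ℝ) Es with h | h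
  · refine (hsup.1 h).trans ?_
    rw [hEsn]
    have : 0 ≤ (3 * A * C + 256 * A * B + 2) * (n:ℝ) ^ 3 := by positivity
    linarith only [this]
  · refine (hsup.2 h).trans ?_
    have htop := Phi_top n F A B C (A * C) K0 κ κL s0 η Es M0 p hF hn hA hB hC hs0 hp hN hEs0 hP hs
    refine htop.trans ?_
    have h1 : (A * C + 256 * A * B + 2) * (n : ℝ) ^ 3 / p ^ 2 ≤
        (A * C + 256 * A * B + 2) * (n : ℝ) ^ 3 := by
      rw [mul_div_assoc]
      exact mul_le_mul_of_nonneg_left hnp (by positivity)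
    linarith only [hMbound, h1]

end Vale.Agent.P046.C
end
end

section

section

set_option autoImplicit false

open scoped Classical
open Finset

namespace Vale.Agent.P046.C

open Vale.Agent.P046 Vale.Agent.P046.OS

/-- indicator of the complement of the good event at level `e1` -/
noncomputable def levBad {n : ℕ} (F : SimpleGraph (Fin n) → ℝ) (e1 : ℕ) (lam : ℝ)
    (G : SimpleGraph (Fin n)) : ℝ :=
  if numEdges G = e1 ∧ F G ≤ lam then 0 else 1

lemma levBad_le_one {n : ℕ} (F : SimpleGraph (Fin n) → ℝ) (e1 : ℕ) (lam : ℝ)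
    (G : SimpleGraph (Fin n)) : levBad F e1 lam G ≤ 1 := by
  unfold levBad
  split_ifs <;> norm_num

/-- parameters and the induction, level version -/
lemma level_large (n : ℕ) (F : SimpleGraph (Fin n) → ℝ) (A B C K0 κ κL s0 η p K1 Es : ℝ)
    (hF : FHyp F C K0 κ κL s0 η) (hη : η ≤ 1 / 10000) (hA : 0 < A) (hAκ : 1 ≤ A * κ)
    (hB : 0 < B) (hC : 0 < C) (hκL : 0 ≤ κL) (hK0 : 10000 ≤ K0)
    (hκ : 65536 * B * κL ≤ (1 / 1000) * K0) (hCB : 4 * C ≤ B)
    (hs0 : 0 < s0) (hs1 : s0 ≤ 1 / 10000) (hK1 : 1 ≤ K1) (hK1' : K0 ≤ 4 * K1 ^ 2)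
    (hK2 : A * (64 * C) ≤ 16 * K1 ^ 4)
    (hn : 2 ≤ n) (hp : 2 ≤ p) (hN : (n : ℝ) = p ^ 1200)
    (hAC : A * C ≤ p) (hs : 2 * 10 ^ 13 / s0 ^ 8 ≤ p) (hpK : 2 * K1 + 3 ≤ p)
    (hpR : (A * C + 256 * A * B + 2) * K1 ^ 2 * 4 ≤ A * C * p)
    (e1 k1 : ℕ) (hEs : Es = e1) (hE1 : K1 * p ^ 1800 ≤ Es) (hE2 : Es ≤ 2 * K1 * p ^ 1800)
    (hk : n.choose 2 = e1 + 3 * k1) :
    V (levBad F e1 (64 * C * Es / (4 * Es ^ 2 / (n:ℝ) ^ 3) ^ 2)) k1 (⊤ : SimpleGraph (Fin n)) ≤
      1 / 2 := by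
  have hp0 : 0 < p := by linarith only [hK1, hpK]
  have hp1 : 1 ≤ p := by linarith only [hs0, hs1, hK1, hpK]
  have hEs1 : p ^ 1800 ≤ Es := by
    have : 1 * p ^ 1800 ≤ K1 * p ^ 1800 := mul_le_mul_of_nonneg_right hK1 (by positivity)
    linarith only [hE1, this]
  have hEs5 : 100000 ≤ Es := by
    calc (100000:ℝ) ≤ 2 ^ 17 := by norm_num
      _ ≤ p ^ 17 := pow_le_pow_left₀ (by norm_num) hp 17
      _ ≤ p ^ 1800 := pow_le_pow_right₀ hp1 (by norm_num)
      _ ≤ Es := hEs1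
  have hEs0 : 0 < Es := by linarith only [hs0, hs1, hEs5]
  have hn0 : (0:ℝ) < n := by rw [hN]; positivity
  have hEsn : K1 ^ 2 * (n:ℝ) ^ 3 ≤ Es ^ 2 := by
    have h1 := pow_le_pow_left₀ (by positivity) hE1 2
    calc K1 ^ 2 * (n:ℝ) ^ 3 = (K1 * p ^ 1800) ^ 2 := by rw [hN]; ring
      _ ≤ _ := h1
  have hEsn2 : Es ^ 2 ≤ 4 * K1 ^ 2 * (n:ℝ) ^ 3 := by
    have h1 := pow_le_pow_left₀ hEs0.le hE2 2
    calc Es ^ 2 ≤ (2 * K1 * p ^ 1800) ^ 2 := h1
      _ = 4 * K1 ^ 2 * (n:ℝ) ^ 3 := by rw [hN]; ring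
  obtain ⟨M0, hM0⟩ : ∃ M0, M0 = A * C * ((n : ℝ) ^ 3) ^ 2 / Es ^ 2 := ⟨_, rfl⟩
  obtain ⟨hNH, hP⟩ := NHyp_of n A B C K0 κ κL s0 η Es M0 p K1 hη hA hAκ hB hC.le hκL hK0 hκ hCB hs0 hs1
    hK1 hK1' hp hN hE1 hE2 hM0.ge hAC hs hpK
  obtain ⟨lam, hlam⟩ : ∃ lam, lam = 64 * C * Es / (4 * Es ^ 2 / (n:ℝ) ^ 3) ^ 2 := ⟨_, rfl⟩
  rw [← hlam]
  have hlam0 : 0 < lam := by rw [hlam]; positivity
  have hAlam : A * lam * Es = 4 * (A * C * ((n : ℝ) ^ 3) ^ 2 / Es ^ 2) := by
    rw [hlam]; field_simp; ring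
  have hAlam2 : A * lam ≤ Es := by
    have h1 : A * lam * Es ≤ Es * Es := by
      rw [hAlam, ← mul_div_assoc, div_le_iff₀ (by positivity)]
      have h2 : 4 * (A * C) * ((n:ℝ) ^ 3) ^ 2 ≤ (K1 ^ 2 * (n:ℝ) ^ 3) ^ 2 := by
        have h3 : 4 * (A * C) ≤ K1 ^ 4 := by linarith only [hK2]
        calc 4 * (A * C) * ((n:ℝ) ^ 3) ^ 2 ≤ K1 ^ 4 * ((n:ℝ) ^ 3) ^ 2 :=
              mul_le_mul_of_nonneg_right h3 (by positivity)
          _ = _ := by ring
      have h4 : (K1 ^ 2 * (n:ℝ) ^ 3) ^ 2 ≤ (Es ^ 2) ^ 2 := pow_le_pow_left₀ (by positivity) hEsn 2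
      calc 4 * (A * C * ((n : ℝ) ^ 3) ^ 2) = 4 * (A * C) * ((n:ℝ) ^ 3) ^ 2 := by ring
        _ ≤ (Es ^ 2) ^ 2 := h2.trans h4
        _ = Es * Es * Es ^ 2 := by ring
    exact le_of_mul_le_mul_right h1 hEs0
  have hden : 0 < A * lam * Es := by positivity
  have hsup := super_level (fun G => Phi F A B (A * C) Es M0 s0 (p ^ 15) G / (A * lam * Es))
    (levBad F e1 lam) e1 (levBad_le_one F e1 lam) (by
      intro G hG
      have h3 : (numEdges G : ℝ) = Es := by rw [hG, hEs]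
      have h4 : Phi F A B (A * C) Es M0 s0 (p ^ 15) G = PhiL F A B (A * C) Es M0 G := by
        unfold Phi; rw [if_pos (by rw [h3]; linarith only [hNH.hEq])]
      show levBad F e1 lam G ≤ Phi F A B (A * C) Es M0 s0 (p ^ 15) G / (A * lam * Es)
      rw [h4]
      have h5 : 0 ≤ B * a1L A Es (numEdges G) / cc G ^ 4 * wheels G := by
        have := wheels_nonneg G
        have : 0 ≤ cc G := by unfold cc; positivity
        have := a1L_nonneg A Es (numEdges G) hA.le hEs0 (by positivity)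
        positivity
      have h6 : 0 ≤ a3L (A * C) M0 ((n:ℝ) ^ 3) Es (numEdges G) :=
        a3L_nonneg (A * C) M0 _ Es _ (by positivity) hEs0 h3.ge hM0.ge
      have h7 : a1L A Es (numEdges G) = A * Es := by
        unfold a1L
        rw [h3, div_self hEs0.ne', Real.one_rpow, mul_one]
      unfold levBad
      split_ifs with h8
      · unfold PhiL
        have := hF.nonneg G
        rw [h7]
        rw [h7] at h5
        have h9 : 0 ≤ A * Es * F G := by positivity
        apply div_nonneg _ hden.le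
        linarith only [h5, h6, h9]
      · have h9 : lam < F G := by
          by_contra hneg
          push Not at hneg
          exact h8 ⟨hG, hneg⟩
        rw [le_div_iff₀ hden, one_mul]
        unfold PhiL
        rw [h7]
        rw [h7] at h5
        have h10 : A * Es * lam ≤ A * Es * F G := mul_le_mul_of_nonneg_left h9.le (by positivity)
        linarith only [h5, h6, h10]) (by
      intro G hG
      have h3 : Es ≤ (numEdges G : ℝ) := by
        rw [hEs]; exact_mod_cast hG.le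
      rcases Phi_step F A B C (A * C) K0 κ κL s0 η Es M0 (p ^ 15) hF hNH G h3 with h4 | ⟨h4, h5⟩
      · left
        show 1 ≤ Phi F A B (A * C) Es M0 s0 (p ^ 15) G / (A * lam * Es)
        rw [le_div_iff₀ hden, one_mul]
        refine le_trans ?_ h4
        calc A * lam * Es ≤ Es * Es := mul_le_mul_of_nonneg_right hAlam2 hEs0.le
          _ = Es ^ 2 := by ring
          _ ≤ (numEdges G : ℝ) ^ 2 := pow_le_pow_left₀ hEs0.le h3 2
      · right
        refine ⟨h4, ?_⟩
        show ∑ t ∈ triangles G, Phi F A B (A * C) Es M0 s0 (p ^ 15) (removeTriangle G t) /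
          (A * lam * Es) ≤ _ * (Phi F A B (A * C) Es M0 s0 (p ^ 15) G / (A * lam * Es))
        rw [← Finset.sum_div, ← mul_div_assoc]
        exact div_le_div_of_nonneg_right h5 hden.le) k1 (⊤ : SimpleGraph (Fin n))
      (by rw [numEdges_top]; exact hk)
  refine hsup.trans ?_
  show Phi F A B (A * C) Es M0 s0 (p ^ 15) ⊤ / (A * lam * Es) ≤ 1 / 2
  rw [div_le_iff₀ hden]
  have htop := Phi_top n F A B C (A * C) K0 κ κL s0 η Es M0 p hF hn hA hB hC.le hs0 hp hN hEs0 hP hs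
  refine htop.trans ?_
  have e1 : 1 / 2 * (A * lam * Es) = M0 + M0 := by rw [hAlam, ← hM0]; ring
  rw [e1]
  have h1 : (A * C + 256 * A * B + 2) * (n : ℝ) ^ 3 / p ^ 2 ≤ M0 := by
    rw [hM0, div_le_div_iff₀ (by positivity) (by positivity)]
    calc (A * C + 256 * A * B + 2) * (n : ℝ) ^ 3 * Es ^ 2
        ≤ (A * C + 256 * A * B + 2) * (n : ℝ) ^ 3 * (4 * K1 ^ 2 * (n:ℝ) ^ 3) :=
          mul_le_mul_of_nonneg_left hEsn2 (by positivity)
      _ = ((A * C + 256 * A * B + 2) * K1 ^ 2 * 4) * ((n:ℝ) ^ 3) ^ 2 := by ring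
      _ ≤ (A * C * p) * ((n:ℝ) ^ 3) ^ 2 := mul_le_mul_of_nonneg_right hpR (by positivity)
      _ = A * C * ((n:ℝ) ^ 3) ^ 2 * p := by ring
      _ ≤ A * C * ((n:ℝ) ^ 3) ^ 2 * p ^ 2 := by
          apply mul_le_mul_of_nonneg_left _ (by positivity)
          exact le_self_pow₀ hp1 (by norm_num)
  linarith only [h1]

end Vale.Agent.P046.C
end
end

section

/-!
Sparse sets, part 2: the process with memory, and survival of a fixed set of edges along the
whole grid of levels.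
-/

set_option autoImplicit false

open scoped Classical
open Finset

namespace Vale.Agent.P046.M2

open Vale.Agent.P046 Vale.Agent.P046.OS Vale.Agent.P046.C Vale.Agent.P046.LB

variable {n : ℕ}

/-- edges with too few triangles -/
noncomputable def light (κ : ℝ) (G : SimpleGraph (Fin n)) : Finset (Sym2 (Fin n)) :=
  G.edgeFinset.filter (fun x => (cdeg G x : ℝ) < (1 - κ) * cc G)

/-- the process with memory -/
noncomputable def W (m e : ℕ → ℕ) (κ : ℝ)
    (f : SimpleGraph (Fin n) → Finset (Sym2 (Fin n)) → Prop → ℝ) :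
    ℕ → SimpleGraph (Fin n) → Finset (Sym2 (Fin n)) → Prop → ℝ
  | 0, G, L, ok => f G L ok
  | i + 1, G, L, ok => V (fun G' => W m e κ f i G' (L ∪ light κ G')
      (ok ∧ numEdges G' = e i ∧ |rho G' - 1| ≤ κ)) (m i) G

section W
variable (m e : ℕ → ℕ) (κ : ℝ)

lemma W_mono (f g : SimpleGraph (Fin n) → Finset (Sym2 (Fin n)) → Prop → ℝ)
    (h : ∀ G L ok, f G L ok ≤ g G L ok) (i : ℕ) (G : SimpleGraph (Fin n))
    (L : Finset (Sym2 (Fin n))) (ok : Prop) : W m e κ f i G L ok ≤ W m e κ g i G L ok := by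
  induction i generalizing G L ok with
  | zero => exact h G L ok
  | succ i ih =>
    unfold W
    exact V_mono _ _ (fun G' => ih _ _ _) _ _

lemma W_add (f g : SimpleGraph (Fin n) → Finset (Sym2 (Fin n)) → Prop → ℝ)
    (i : ℕ) (G : SimpleGraph (Fin n)) (L : Finset (Sym2 (Fin n))) (ok : Prop) :
    W m e κ (fun G L ok => f G L ok + g G L ok) i G L ok =
      W m e κ f i G L ok + W m e κ g i G L ok := by
  induction i generalizing G L ok with
  | zero => rfl
  | succ i ih =>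
    unfold W
    rw [← V_add_fun]
    congr 1
    funext G'
    exact ih _ _ _

lemma W_mul (c : ℝ) (f : SimpleGraph (Fin n) → Finset (Sym2 (Fin n)) → Prop → ℝ)
    (i : ℕ) (G : SimpleGraph (Fin n)) (L : Finset (Sym2 (Fin n))) (ok : Prop) :
    W m e κ (fun G L ok => c * f G L ok) i G L ok = c * W m e κ f i G L ok := by
  induction i generalizing G L ok with
  | zero => rfl
  | succ i ih =>
    unfold W
    rw [← V_mul_fun]
    congr 1
    funext G'
    exact ih _ _ _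

lemma W_zero (i : ℕ) (G : SimpleGraph (Fin n)) (L : Finset (Sym2 (Fin n))) (ok : Prop) :
    W m e κ (fun _ _ _ => 0) i G L ok = 0 := by
  have h := W_mul m e κ 0 (fun _ _ _ => 0) i G L ok
  rw [zero_mul] at h
  simpa using h

lemma W_sum {ι : Type*} (S : Finset ι)
    (f : ι → SimpleGraph (Fin n) → Finset (Sym2 (Fin n)) → Prop → ℝ)
    (i : ℕ) (G : SimpleGraph (Fin n)) (L : Finset (Sym2 (Fin n))) (ok : Prop) :
    W m e κ (fun G L ok => ∑ x ∈ S, f x G L ok) i G L ok = ∑ x ∈ S, W m e κ (f x) i G L ok := by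
  induction S using Finset.induction_on with
  | empty =>
    simp only [Finset.sum_empty]
    exact W_zero m e κ i G L ok
  | insert x S hx ih =>
    rw [Finset.sum_insert hx, ← ih, ← W_add]
    congr 1
    funext G L ok
    rw [Finset.sum_insert hx]

lemma W_forget (h : SimpleGraph (Fin n) → ℝ) (i : ℕ) (G : SimpleGraph (Fin n))
    (L : Finset (Sym2 (Fin n))) (ok : Prop) :
    W m e κ (fun G _ _ => h G) i G L ok = V h (∑ j ∈ Finset.range i, m j) G := by
  induction i generalizing G L ok with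
  | zero =>
    rw [Finset.sum_range_zero, V_zero]
    rfl
  | succ i ih =>
    unfold W
    rw [Finset.sum_range_succ, add_comm, V_add_steps]
    congr 1
    funext G'
    exact ih _ _ _

end W

/-- `M` has survived and has never been tainted, and all levels were regular -/
noncomputable def gM (M : Finset (Sym2 (Fin n))) (G : SimpleGraph (Fin n))
    (L : Finset (Sym2 (Fin n))) (ok : Prop) : ℝ :=
  if ok ∧ Disjoint M L ∧ M ⊆ G.edgeFinset then 1 else 0

lemma gM_nonneg (M : Finset (Sym2 (Fin n))) (G : SimpleGraph (Fin n))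
    (L : Finset (Sym2 (Fin n))) (ok : Prop) : 0 ≤ gM M G L ok := by
  unfold gM
  split_ifs <;> norm_num

lemma gM_le_one (M : Finset (Sym2 (Fin n))) (G : SimpleGraph (Fin n))
    (L : Finset (Sym2 (Fin n))) (ok : Prop) : gM M G L ok ≤ 1 := by
  unfold gM
  split_ifs <;> norm_num

/-- once dead, always dead -/
lemma W_gM_dead (m e : ℕ → ℕ) (κ : ℝ) (M : Finset (Sym2 (Fin n))) (i : ℕ)
    (G : SimpleGraph (Fin n)) (L : Finset (Sym2 (Fin n))) (ok : Prop)
    (h : ¬ (ok ∧ Disjoint M L ∧ M ⊆ G.edgeFinset)) : W m e κ (gM M) i G L ok = 0 := by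
  induction i generalizing G L ok with
  | zero =>
    show gM M G L ok = 0
    unfold gM
    rw [if_neg h]
  | succ i ih =>
    unfold W
    by_cases hMG : M ⊆ G.edgeFinset
    · have hz : (fun G' : SimpleGraph (Fin n) => W m e κ (gM M) i G' (L ∪ light κ G')
          (ok ∧ numEdges G' = e i ∧ |rho G' - 1| ≤ κ)) = fun _ => 0 := by
        funext G'
        apply ih
        rintro ⟨h1, h2, h3⟩
        apply h
        refine ⟨h1.1, ?_, hMG⟩
        exact Disjoint.mono_right Finset.subset_union_left h2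
      rw [hz]
      exact V_const 0 _ _
    · exact V_eq_zero (fun G => ¬ (M ⊆ G.edgeFinset))
        (fun G t h h2 => h (h2.trans (edgeFinset_remove_subset G t))) _
        (fun G' hG' => ih _ _ _ fun h3 => hG' h3.2.2) _ _ hMG

/-- the fixed set `M` survives the whole grid with small probability -/
lemma W_gM_le (m e : ℕ → ℕ) (κ : ℝ) (M : Finset (Sym2 (Fin n))) (hM : M.Nonempty)
    (y T : ℕ → ℝ) (a : ℝ) (ha : 1 ≤ a) (J : ℕ) (he : ∀ i, i ≤ J → 3 ≤ e i)
    (hem : ∀ i, i < J → e (i + 1) = e i + 3 * m i)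
    (hT0 : ∀ i, i ≤ J → 0 < T i)
    (hy : ∀ i, i < J → ∀ G : SimpleGraph (Fin n), numEdges G = e i → (1 - κ) * cc G = y i)
    (hT : ∀ i, i ≤ J → ∀ G : SimpleGraph (Fin n), numEdges G = e i → |rho G - 1| ≤ κ →
      ((triangles G).card : ℝ) ≤ T i)
    (hx : ∀ i, i < J → 3 * a * T (i + 1) ≤ (M.card * y i - (M.card : ℝ) ^ 2) * e i)
    (i : ℕ) (hi : i ≤ J) (G : SimpleGraph (Fin n)) (hG : numEdges G = e i)
    (L : Finset (Sym2 (Fin n))) (ok : Prop) (hok : ok → |rho G - 1| ≤ κ) :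
    W m e κ (gM M) i G L ok ≤ ((e 0 : ℝ) / (e i : ℝ)) ^ a := by
  induction i generalizing G L ok with
  | zero =>
    have h0 : (0 : ℝ) < e 0 := by
      have := he 0 hi
      exact_mod_cast (by omega : 0 < e 0)
    rw [div_self h0.ne', Real.one_rpow]
    exact gM_le_one M G L ok
  | succ i ih =>
    have hei : (0 : ℝ) < e i := by
      have := he i (by omega)
      exact_mod_cast (by omega : 0 < e i)
    have hei1 : (0 : ℝ) < e (i + 1) := by
      have := he (i + 1) hi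
      exact_mod_cast (by omega : 0 < e (i + 1))
    have he0 : (0 : ℝ) < e 0 := by
      have := he 0 (by omega)
      exact_mod_cast (by omega : 0 < e 0)
    by_cases hk : ok
    · unfold W
      have key : ∀ G' : SimpleGraph (Fin n), W m e κ (gM M) i G' (L ∪ light κ G')
          (ok ∧ numEdges G' = e i ∧ |rho G' - 1| ≤ κ) ≤
            ((e 0 : ℝ) / (e i : ℝ)) ^ a * surv M (y i) G' := by
        intro G'
        by_cases h1 : (ok ∧ numEdges G' = e i ∧ |rho G' - 1| ≤ κ) ∧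
            Disjoint M (L ∪ light κ G') ∧ M ⊆ G'.edgeFinset
        · have h2 : surv M (y i) G' = 1 := by
            unfold surv
            rw [if_pos]
            refine ⟨h1.2.2, fun x hx => ?_⟩
            by_contra hneg
            push Not at hneg
            have h3 : x ∈ light κ G' := by
              unfold light
              rw [Finset.mem_filter]
              refine ⟨h1.2.2 hx, ?_⟩
              rw [hy i (by omega) G' h1.1.2.1]
              exact hneg
            exact (Finset.disjoint_left.mp h1.2.1) hx (Finset.mem_union_right _ h3)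
          rw [h2, mul_one]
          exact ih (by omega) G' h1.1.2.1 _ _ fun h => h.2.2
        · rw [W_gM_dead m e κ M i G' _ _ h1]
          have h3 : 0 ≤ surv M (y i) G' := by
            unfold surv
            split_ifs <;> norm_num
          have h4 : 0 ≤ ((e 0 : ℝ) / (e i : ℝ)) ^ a := Real.rpow_nonneg (by positivity) _
          positivity
      refine (V_mono _ _ key (m i) G).trans ?_
      rw [V_mul_fun]
      have hb := block M hM (y i) (T (i + 1)) a (e i) (he i (by omega)) ha (hT0 (i + 1) hi)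
        (hx i (by omega)) (m i) G (by rw [hG]; exact hem i (by omega)) (hT (i + 1) hi G hG (hok hk))
      calc ((e 0 : ℝ) / (e i : ℝ)) ^ a * V (surv M (y i)) (m i) G
          ≤ ((e 0 : ℝ) / (e i : ℝ)) ^ a * ((e i : ℝ) / (numEdges G : ℝ)) ^ a :=
            mul_le_mul_of_nonneg_left hb (Real.rpow_nonneg (by positivity) _)
        _ = ((e 0 : ℝ) / (e (i + 1) : ℝ)) ^ a := by
            rw [← Real.mul_rpow (by positivity) (by positivity), hG]
            congr 1
            field_simp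
    · rw [W_gM_dead m e κ M (i + 1) G L ok (fun h => hk h.1)]
      exact Real.rpow_nonneg (by positivity) _

end Vale.Agent.P046.M2
end

section

/-!
Sparse sets, part 3: the potential pays for the light edges and the irregular levels.
-/

set_option autoImplicit false

open scoped Classical
open Finset

namespace Vale.Agent.P046.M2

open Vale.Agent.P046 Vale.Agent.P046.OS Vale.Agent.P046.C Vale.Agent.P046.LB

variable {n : ℕ}

/-- penalty -/
noncomputable def pen (ok : Prop) : ℝ := if ok then 0 else 1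

lemma pen_nonneg (ok : Prop) : 0 ≤ pen ok := by
  unfold pen
  split_ifs <;> norm_num

lemma pen_true (ok : Prop) (h : ok) : pen ok = 0 := by
  unfold pen
  rw [if_pos h]

lemma pen_false (ok : Prop) (h : ¬ ok) : pen ok = 1 := by
  unfold pen
  rw [if_neg h]

/-- truncated cost of the memory -/
noncomputable def f0 (D1 : ℝ) (_ : SimpleGraph (Fin n)) (L : Finset (Sym2 (Fin n)))
    (ok : Prop) : ℝ :=
  min 1 ((L.card : ℝ) / D1 + pen ok)

lemma W_f0_le_one (m e : ℕ → ℕ) (κ D1 : ℝ) (i : ℕ) (G : SimpleGraph (Fin n))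
    (L : Finset (Sym2 (Fin n))) (ok : Prop) : W m e κ (f0 D1) i G L ok ≤ 1 := by
  have h := W_mono m e κ (f0 D1) (fun _ _ _ => 1) (fun _ _ _ => min_le_left _ _) i G L ok
  rw [W_forget m e κ (fun _ => (1:ℝ)) i G L ok, V_const] at h
  exact h

lemma level_mono (m e : ℕ → ℕ) (J : ℕ) (hem : ∀ i, i < J → e (i + 1) = e i + 3 * m i) (i : ℕ)
    (hi : i ≤ J) : e 0 ≤ e i := by
  induction i with
  | zero => exact le_refl _
  | succ i ih =>
    rw [hem i (by omega)]
    have := ih (by omega)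
    omega

lemma W_pot (m e : ℕ → ℕ) (κ D1 : ℝ) (hD1 : 0 < D1) (Ψ : SimpleGraph (Fin n) → ℝ) (J : ℕ)
    (ε : ℕ → ℝ) (hε : ∀ i, 0 ≤ ε i)
    (hem : ∀ i, i < J → e (i + 1) = e i + 3 * m i)
    (hX : ∀ i, i < J → ∀ G : SimpleGraph (Fin n), numEdges G = e i →
      ((light κ G).card : ℝ) / D1 + pen (|rho G - 1| ≤ κ) ≤ ε i * Ψ G)
    (h0 : ∀ G : SimpleGraph (Fin n), e 0 ≤ numEdges G → 0 ≤ Ψ G)
    (hstep : ∀ G : SimpleGraph (Fin n), e 0 < numEdges G → (1 ≤ Ψ G ∨ ((triangles G).Nonempty ∧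
      ∑ t ∈ triangles G, Ψ (removeTriangle G t) ≤ (triangles G).card * Ψ G)))
    (i : ℕ) (hi : i ≤ J) (G : SimpleGraph (Fin n)) (hG : numEdges G = e i)
    (L : Finset (Sym2 (Fin n))) (ok : Prop) :
    W m e κ (f0 D1) i G L ok ≤ ((L.card : ℝ) / D1 + pen ok) +
      (1 + ∑ j ∈ Finset.range i, ε j) * Ψ G := by
  induction i generalizing G L ok with
  | zero =>
    rw [Finset.sum_range_zero, add_zero, one_mul]
    have h1 : W m e κ (f0 D1) 0 G L ok ≤ ((L.card : ℝ) / D1 + pen ok) :=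
      min_le_right _ _
    have h2 := h0 G (by omega)
    linarith only [h1, h2]
  | succ i ih =>
    have hsum : ∑ j ∈ Finset.range (i + 1), ε j = ∑ j ∈ Finset.range i, ε j + ε i :=
      Finset.sum_range_succ _ _
    obtain ⟨S, hS⟩ : ∃ S, S = ∑ j ∈ Finset.range i, ε j := ⟨_, rfl⟩
    have hS0 : 0 ≤ S := by rw [hS]; exact Finset.sum_nonneg fun j _ => hε j
    rw [hsum, ← hS]
    obtain ⟨c, hc⟩ : ∃ c : ℝ, c = (L.card : ℝ) / D1 + pen ok := ⟨_, rfl⟩
    have hc0 : 0 ≤ c := by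
      rw [hc]
      have := pen_nonneg ok
      (clear * - hD1 this; positivity)
    rw [← hc]
    have hmono := level_mono m e J hem
    have hεi := hε i
    unfold W
    refine super_level (fun G => c + (1 + (S + ε i)) * Ψ G) _ (e i)
      (fun H => W_f0_le_one m e κ D1 i H _ _) ?_ ?_ (m i) G (by rw [hG]; exact hem i (by omega))
    · intro G' hG'
      have h1 := ih (by omega) G' hG' (L ∪ light κ G')
        (ok ∧ numEdges G' = e i ∧ |rho G' - 1| ≤ κ)
      rw [← hS] at h1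
      refine h1.trans ?_
      have h2 := hX i (by omega) G' hG'
      have h3 : (((L ∪ light κ G').card : ℕ) : ℝ) / D1 ≤ (L.card : ℝ) / D1 +
          ((light κ G').card : ℝ) / D1 := by
        rw [← add_div]
        apply div_le_div_of_nonneg_right _ hD1.le
        exact_mod_cast Finset.card_union_le _ _
      have h4 : pen (ok ∧ numEdges G' = e i ∧ |rho G' - 1| ≤ κ) ≤
          pen ok + pen (|rho G' - 1| ≤ κ) := by
        by_cases a1 : ok
        · by_cases a2 : |rho G' - 1| ≤ κ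
          · rw [pen_true _ ⟨a1, hG', a2⟩, pen_true _ a1, pen_true _ a2]; norm_num
          · rw [pen_false _ (fun h => a2 h.2.2), pen_true _ a1, pen_false _ a2]; norm_num
        · rw [pen_false _ (fun h => a1 h.1), pen_false _ a1]
          have := pen_nonneg (|rho G' - 1| ≤ κ)
          linarith only [this]
      have e1 : c + (1 + (S + ε i)) * Ψ G' = c + (1 + S) * Ψ G' + ε i * Ψ G' := by ring
      rw [e1, hc]
      linarith only [h2, h3, h4]
    · intro H hH
      have h1 := hmono i (by omega)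
      rcases hstep H (by omega) with h2 | ⟨h2, h3⟩
      · left
        have : 1 * 1 ≤ (1 + (S + ε i)) * Ψ H := mul_le_mul (by linarith only [hS0, hεi]) h2 (by norm_num)
          (by linarith only [hS0, hεi])
        linarith only [hc0, this]
      · right
        refine ⟨h2, ?_⟩
        rw [Finset.sum_add_distrib, Finset.sum_const, nsmul_eq_mul, ← Finset.mul_sum]
        have h4 := mul_le_mul_of_nonneg_left h3 (by linarith only [hS0, hεi] : 0 ≤ 1 + (S + ε i))
        have e1 : ((triangles H).card : ℝ) * (c + (1 + (S + ε i)) * Ψ H) =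
          (triangles H).card * c + (1 + (S + ε i)) * ((triangles H).card * Ψ H) := by ring
        rw [e1]
        linarith only [h4]

/-- light edges are counted by `lowCount` -/
lemma light_card_le (κ : ℝ) (G : SimpleGraph (Fin n)) (hn : 0 < n) (hE : 0 < numEdges G) :
    ((light κ G).card : ℝ) ≤ lowCount G κ := by
  have hc := cc_pos G hn hE
  have h1 : light κ G ⊆ ((univ : Finset (Fin n × Fin n)).filter
      (fun x => G.Adj x.1 x.2 ∧ rr G x.1 x.2 < 1 - κ)).image (fun x => s(x.1, x.2)) := by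
    intro x hx
    unfold light at hx
    rw [Finset.mem_filter] at hx
    induction x with
    | _ u v =>
      obtain ⟨h1, h2⟩ := hx
      rw [SimpleGraph.mem_edgeFinset, SimpleGraph.mem_edgeSet] at h1
      rw [cdeg_mk G u v h1] at h2
      rw [Finset.mem_image]
      refine ⟨(u, v), ?_, rfl⟩
      rw [Finset.mem_filter]
      refine ⟨Finset.mem_univ _, h1, ?_⟩
      show rr G u v < 1 - κ
      have e1 : rr G u v = (codeg G u v : ℝ) / cc G := by
        unfold rr cc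
        rw [div_div_eq_mul_div]
      rw [e1, div_lt_iff₀ hc]
      exact h2
  have h2 := (Finset.card_le_card h1).trans Finset.card_image_le
  have h3 : (((univ : Finset (Fin n × Fin n)).filter
      (fun x => G.Adj x.1 x.2 ∧ rr G x.1 x.2 < 1 - κ)).card : ℝ) = lowCount G κ := by
    unfold lowCount edgeSum
    rw [Finset.card_filter]
    push_cast
    rw [← Finset.univ_product_univ, Finset.sum_product]
    refine Finset.sum_congr rfl fun u _ => Finset.sum_congr rfl fun v _ => ?_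
    by_cases a1 : G.Adj u v
    · by_cases a2 : rr G u v < 1 - κ
      · simp [a1, a2]
      · simp [a1, a2]
    · simp [a1]
  rw [← h3]
  exact_mod_cast h2

/-- the functional -/
noncomputable def FC (G : SimpleGraph (Fin n)) : ℝ := FF 1e-23 1e-9 1e-46 1e7 G

/-- cost of a light edge -/
noncomputable def clow (κ : ℝ) : ℝ := min (κ ^ 2 / 3 / 2) ((κ ^ 2 / 3) ^ 2 / (2 * 1e-46))

lemma clow_pos (κ : ℝ) (hκ : 0 < κ) : 0 < clow κ := lt_min (by positivity) (by positivity)

lemma lowCount_le (κ : ℝ) (hκ : 0 < κ) (G : SimpleGraph (Fin n)) :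
    lowCount G κ ≤ (1 / (clow κ * 1e-9)) * FC G := by
  have hcl := clow_pos κ hκ
  have h1 : 0 ≤ MM 1e-23 G := MM_nonneg 1e-23 (by norm_num) G
  have h3 := RF_nonneg G
  have h4 : clow κ * lowCount G κ ≤ TH 1e-46 G := by
    unfold lowCount TH
    rw [← OS.edgeSum_mul]
    apply OS.edgeSum_mono
    intro u v _
    have hr := Vale.Agent.P046.rr_nonneg G u v
    by_cases h : rr G u v < 1 - κ
    · rw [if_pos h, mul_one]
      have h5 : κ ^ 2 / 3 ≤ hh (rr G u v) := by
        unfold hh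
        rw [if_pos (by linarith only [hκ, h])]
        have a1 : κ ^ 2 ≤ (1 - rr G u v) ^ 2 := pow_le_pow_left₀ hκ.le (by linarith only [h]) 2
        have a2 : (1 - rr G u v) ^ 2 * 1 ≤ (1 - rr G u v) ^ 2 * (1 + 2 * rr G u v) :=
          mul_le_mul_of_nonneg_left (by linarith only [hr]) (sq_nonneg _)
        linarith only [a1, a2]
      have hs : 0 < κ ^ 2 / 3 := by positivity
      unfold theta
      rcases le_or_gt (hh (rr G u v)) 1e-46 with h6 | h6
      · have e : Lam 1e-46 (hh (rr G u v)) = (hh (rr G u v)) ^ 2 / (2 * 1e-46) := by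
          unfold Lam; rw [if_pos h6]
        rw [e]
        refine (min_le_right _ _).trans ?_
        apply div_le_div_of_nonneg_right _ (by norm_num)
        exact pow_le_pow_left₀ hs.le h5 2
      · have h7 := Lam_ge_half 1e-46 (hh (rr G u v)) (by norm_num) h6.le
        refine (min_le_left _ _).trans ?_
        linarith only [h5, h7]
    · rw [if_neg h, mul_zero]
      exact theta_nonneg _ (rr G u v) (by norm_num)
  have h5 : 1e-9 * TH 1e-46 G ≤ FC G := by
    unfold FC FF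
    have : 0 ≤ 1e7 * RF G := by positivity
    linarith only [h1, h3]
  rw [div_mul_eq_mul_div, one_mul, le_div_iff₀ (by positivity)]
  calc lowCount G κ * (clow κ * 1e-9) = 1e-9 * (clow κ * lowCount G κ) := by ring
    _ ≤ 1e-9 * TH 1e-46 G := mul_le_mul_of_nonneg_left h4 (by norm_num)
    _ ≤ FC G := h5

lemma irr_le (κ : ℝ) (hκ : 0 < κ) (G : SimpleGraph (Fin n)) (hE : 0 < numEdges G) :
    pen (|rho G - 1| ≤ κ) ≤ 1 / (1e7 * κ ^ 2 * numEdges G) * FC G := by
  have hE0 : (0:ℝ) < numEdges G := by exact_mod_cast hE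
  have h1 : 0 ≤ MM 1e-23 G := MM_nonneg 1e-23 (by norm_num) G
  have h2 : 0 ≤ TH 1e-46 G := TH_nonneg _ (by norm_num) G
  have h3 := RF_nonneg G
  have h5 : 1e7 * RF G ≤ FC G := by
    unfold FC FF
    have : 0 ≤ 1e-9 * TH 1e-46 G := by (clear * - h2; positivity)
    linarith only [h1, h2]
  have hnn : 0 ≤ FC G := by
    have : 0 ≤ 1e7 * RF G := by positivity
    linarith only [h3, h5]
  by_cases h : |rho G - 1| ≤ κ
  · rw [pen_true _ h]
    positivity
  · rw [pen_false _ h]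
    push Not at h
    rw [div_mul_eq_mul_div, one_mul, le_div_iff₀ (by positivity), one_mul]
    refine le_trans ?_ h5
    unfold RF
    have h4 : κ ^ 2 ≤ (rho G - 1) ^ 2 := by
      rw [← sq_abs (rho G - 1)]
      exact pow_le_pow_left₀ hκ.le h.le 2
    have h6 := mul_le_mul_of_nonneg_left h4 hE0.le
    calc 1e7 * κ ^ 2 * (numEdges G : ℝ) = 1e7 * ((numEdges G : ℝ) * κ ^ 2) := by ring
      _ ≤ _ := mul_le_mul_of_nonneg_left h6 (by norm_num)

/-- the potential dominates the functional -/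
lemma F_le_Phi (F : SimpleGraph (Fin n) → ℝ) (hF : ∀ G, 0 ≤ F G) (A B D Es M0 s0 q : ℝ)
    (hA : 0 < A) (hB : 0 < B) (hD : 0 ≤ D) (hEs : 0 < Es) (hM : D * ((n : ℝ) ^ 3) ^ 2 / Es ^ 2 ≤ M0)
    (hn : 0 < n) (hq : 0 < q) (hs0 : 0 < s0) (hEq : Es ≤ (n : ℝ) ^ 2 / q)
    (G : SimpleGraph (Fin n)) (he : Es ≤ (numEdges G : ℝ)) :
    A * √(Es * numEdges G) * F G ≤ Phi F A B D Es M0 s0 q G := by
  have hn0 : (0:ℝ) < n := by exact_mod_cast hn
  obtain ⟨e, hedef⟩ : ∃ e : ℝ, e = numEdges G := ⟨_, rfl⟩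
  have he' := he
  rw [← hedef] at he'
  have he0 : 0 < e := by linarith only [hEs, he, hedef]
  have hFG := hF G
  have hw := wheels_nonneg G
  have hcc : 0 ≤ cc G := by unfold cc; (clear * - hn; positivity)
  unfold Phi
  split_ifs with h
  · unfold PhiL
    have h3 := a3L_nonneg D M0 ((n:ℝ)^3) Es (numEdges G) hD hEs he hM
    have h4 : 0 ≤ a1L A Es (numEdges G) := a1L_nonneg A Es _ hA.le hEs (by (clear * -; positivity))
    have h5 : A * √(Es * numEdges G) ≤ a1L A Es (numEdges G) := by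
      rw [← hedef]
      unfold a1L
      have h6 : √(Es * e) ≤ e := by
        rw [Real.sqrt_le_left he0.le]
        nlinarith only [he, hedef]
      have h7 : 1 ≤ (e / Es) ^ (1 / 150 : ℝ) := by
        apply Real.one_le_rpow _ (by norm_num)
        rw [le_div_iff₀ hEs]; linarith only [he, hedef]
      calc A * √(Es * e) ≤ A * e := mul_le_mul_of_nonneg_left h6 hA.le
        _ = A * e * 1 := by ring
        _ ≤ _ := mul_le_mul_of_nonneg_left h7 (by positivity)
    have h8 := mul_le_mul_of_nonneg_right h5 hFG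
    have h9 : 0 ≤ B * a1L A Es (numEdges G) / cc G ^ 4 * wheels G := by (clear * - hB h4 hw; positivity)
    linarith only [h3, h8, h9]
  · push Not at h
    unfold PhiE
    obtain ⟨E0, hE0⟩ : ∃ E0 : ℝ, E0 = (n:ℝ) ^ 2 / q := ⟨_, rfl⟩
    rw [← hE0] at h hEq ⊢
    have hE00 : 0 < E0 := by linarith only [hEs, hEq]
    rw [← hedef] at h
    have hb0 : 0 ≤ bE ((n : ℝ) ^ 4 * q ^ 16 / s0 ^ 8) E0 (numEdges G) := by
      unfold bE; (clear * - hn hq hs0; positivity)
    have hA1 : A * E0 ≤ a1L A Es E0 := by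
      unfold a1L
      have h7 : 1 ≤ (E0 / Es) ^ (1 / 150 : ℝ) := by
        apply Real.one_le_rpow _ (by norm_num)
        rw [le_div_iff₀ hEs]; linarith only [hEq]
      calc A * E0 = A * E0 * 1 := by ring
        _ ≤ _ := mul_le_mul_of_nonneg_left h7 (by positivity)
    have h5 : A * √(Es * numEdges G) ≤ a1E (a1L A Es E0) E0 (numEdges G) := by
      rw [← hedef]
      unfold a1E
      have h6 : √(e / E0) ≤ (e / E0) ^ (3 / 5 : ℝ) := by
        rw [Real.sqrt_eq_rpow]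
        apply Real.rpow_le_rpow_of_exponent_le _ (by norm_num)
        rw [le_div_iff₀ hE00]; linarith only [h]
      have h7 : √(Es * e) ≤ E0 * √(e / E0) := by
        have e1 : E0 * √(e / E0) = √(E0 * e) := by
          have : E0 * e = E0 ^ 2 * (e / E0) := by field_simp
          rw [this, Real.sqrt_mul (by positivity), Real.sqrt_sq hE00.le]
        rw [e1]
        apply Real.sqrt_le_sqrt
        exact mul_le_mul_of_nonneg_right hEq he0.le
      calc A * √(Es * e) ≤ A * (E0 * √(e / E0)) := mul_le_mul_of_nonneg_left h7 hA.le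
        _ = (A * E0) * √(e / E0) := by ring
        _ ≤ a1L A Es E0 * (e / E0) ^ (3 / 5 : ℝ) :=
            mul_le_mul hA1 h6 (Real.sqrt_nonneg _) (le_trans (by positivity) hA1)
    have h8 := mul_le_mul_of_nonneg_right h5 hFG
    have h9 : 0 ≤ B * a1E (a1L A Es E0) E0 (numEdges G) / cc G ^ 4 * wheels G := by
      have : 0 ≤ a1E (a1L A Es E0) E0 (numEdges G) := le_trans (by (clear * - hA; positivity)) h5
      (clear * - hB this hw; positivity)
    have h10 := Phi8_nonneg G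
    have h11 := Z8_nonneg G
    have h12 : 0 ≤ M0 := le_trans (by (clear * - hD hn hEs; positivity)) hM
    have h13 : 0 ≤ 4 * q ^ 2 * bE ((n : ℝ) ^ 4 * q ^ 16 / s0 ^ 8) E0 (numEdges G) * Phi8 G := by
      (clear * - hq hb0 h10; positivity)
    have h14 : 0 ≤ bE ((n : ℝ) ^ 4 * q ^ 16 / s0 ^ 8) E0 (numEdges G) * Z8 G := by (clear * - hb0 h11; positivity)
    have h15 : 0 ≤ (n:ℝ) / q ^ 8 * (numEdges G : ℝ) := by (clear * - hn hq; positivity)
    linarith only [h8, h9, h12, h13, h14, h15]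

end Vale.Agent.P046.M2
end

section

/-!
Sparse sets, part 5: from the fixed sets to the sparsity statement.
-/

set_option autoImplicit false

open scoped Classical
open Finset

namespace Vale.Agent.P046.M2

open Vale.Agent.P046 Vale.Agent.P046.OS Vale.Agent.P046.C Vale.Agent.P046.LB

variable {n : ℕ}

/-- `(2,3)`-sparsity up to `K` vertices -/
def Sparse (K : ℕ) (S : Finset (Sym2 (Fin n))) : Prop :=
  ∀ X : Finset (Fin n), X.card ≤ K → ∀ M, M ⊆ S → M.Nonempty → M ⊆ X.sym2 →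
    M.card + 3 ≤ 2 * X.card

/-- indicator that there is no small set of edges whose removal makes `G` sparse -/
noncomputable def notSparse (K : ℕ) (D : ℝ) (G : SimpleGraph (Fin n)) : ℝ :=
  if ∃ B, B ⊆ G.edgeFinset ∧ (B.card : ℝ) ≤ D ∧ Sparse K (G.edgeFinset \ B) then 0 else 1

lemma notSparse_le_one (K : ℕ) (D : ℝ) (G : SimpleGraph (Fin n)) : notSparse K D G ≤ 1 := by
  unfold notSparse
  split_ifs <;> norm_num

lemma Sparse.mono {K : ℕ} {S S' : Finset (Sym2 (Fin n))} (h : Sparse K S) (hs : S' ⊆ S) :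
    Sparse K S' := fun X hX M hM hne hMX => h X hX M (hM.trans hs) hne hMX

/-- number of surviving dense sets -/
noncomputable def SM (K : ℕ) (G : SimpleGraph (Fin n)) (L : Finset (Sym2 (Fin n)))
    (ok : Prop) : ℝ :=
  ∑ v ∈ Finset.Icc 2 K, ∑ X ∈ Finset.powersetCard v (univ : Finset (Fin n)),
    ∑ M ∈ Finset.powersetCard (2 * v - 2) X.sym2, gM M G L ok

lemma card_biUnion_le_real {ι α : Type*} [DecidableEq α] (S : Finset ι) (t : ι → Finset α)
    (c : ι → ℝ) (h : ∀ i ∈ S, ((t i).card : ℝ) ≤ c i) :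
    ((S.biUnion t).card : ℝ) ≤ ∑ i ∈ S, c i := by
  refine le_trans ?_ (Finset.sum_le_sum h)
  exact_mod_cast Finset.card_biUnion_le

lemma notSparse_le (K : ℕ) (D : ℝ) (hD : 0 < D) (G : SimpleGraph (Fin n))
    (L : Finset (Sym2 (Fin n))) (ok : Prop) :
    notSparse K D G ≤ f0 D G L ok + (2 * K / D) * SM K G L ok := by
  have hSM0 : 0 ≤ SM K G L ok := by
    unfold SM
    exact Finset.sum_nonneg fun v _ => Finset.sum_nonneg fun X _ => Finset.sum_nonneg fun M _ =>
      gM_nonneg M G L ok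
  have hf0 : 0 ≤ f0 D G L ok := by
    unfold f0
    have := pen_nonneg ok
    exact le_min (by norm_num) (by positivity)
  have hb : 0 ≤ (2 * K / D) * SM K G L ok := by positivity
  by_cases hns : ∃ B, B ⊆ G.edgeFinset ∧ (B.card : ℝ) ≤ D ∧ Sparse K (G.edgeFinset \ B)
  · unfold notSparse
    rw [if_pos hns]
    linarith
  · have hle := notSparse_le_one K D G
    by_cases hok : ok
    · -- the exceptional set
      obtain ⟨Z, hZ⟩ : ∃ Z : ℕ → Finset (Fin n) → Finset (Sym2 (Fin n)) → Finset (Sym2 (Fin n)),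
        Z = fun _ _ M => if Disjoint M L ∧ M ⊆ G.edgeFinset then M else ∅ := ⟨_, rfl⟩
      obtain ⟨U, hU⟩ : ∃ U : Finset (Sym2 (Fin n)), U = (Finset.Icc 2 K).biUnion fun v =>
        (Finset.powersetCard v (univ : Finset (Fin n))).biUnion fun X =>
          (Finset.powersetCard (2 * v - 2) X.sym2).biUnion fun M => Z v X M := ⟨_, rfl⟩
      obtain ⟨B, hB⟩ : ∃ B, B = (L ∩ G.edgeFinset) ∪ U := ⟨_, rfl⟩
      have hUc : (U.card : ℝ) ≤ 2 * K * SM K G L ok := by
        rw [hU]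
        unfold SM
        rw [Finset.mul_sum]
        apply card_biUnion_le_real
        intro v hv
        rw [Finset.mul_sum]
        apply card_biUnion_le_real
        intro X hX
        rw [Finset.mul_sum]
        apply card_biUnion_le_real
        intro M hM
        rw [Finset.mem_powersetCard] at hM
        rw [hZ]
        show (((if Disjoint M L ∧ M ⊆ G.edgeFinset then M else ∅) : Finset (Sym2 (Fin n))).card : ℝ)
          ≤ _
        by_cases h1 : Disjoint M L ∧ M ⊆ G.edgeFinset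
        · rw [if_pos h1]
          unfold gM
          rw [if_pos ⟨hok, h1⟩, mul_one, hM.2]
          rw [Finset.mem_Icc] at hv
          have : 2 * v - 2 ≤ 2 * K := by omega
          exact_mod_cast this
        · rw [if_neg h1]
          have := gM_nonneg M G L ok
          simp only [Finset.card_empty, Nat.cast_zero]
          positivity
      have hUG : U ⊆ G.edgeFinset := by
        intro x hx
        rw [hU, hZ] at hx
        simp only [Finset.mem_biUnion] at hx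
        obtain ⟨v, _, X, _, M, _, hx⟩ := hx
        split_ifs at hx with h1
        · exact h1.2 hx
        · simp at hx
      have hBG : B ⊆ G.edgeFinset := by
        rw [hB]
        exact Finset.union_subset Finset.inter_subset_right hUG
      have hBS : Sparse K (G.edgeFinset \ B) := by
        intro X hX M hM hne hMX
        by_contra hneg
        push Not at hneg
        have hMG : M ⊆ G.edgeFinset := hM.trans Finset.sdiff_subset
        have hMB : Disjoint M B := by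
          rw [Finset.disjoint_left]
          intro x hx hxB
          exact (Finset.mem_sdiff.mp (hM hx)).2 hxB
        -- X has at least two points
        have hX2 : 2 ≤ X.card := by
          obtain ⟨x, hx⟩ := hne
          have hxG := hMG hx
          have hxX := hMX hx
          induction x with
          | _ a b =>
            rw [SimpleGraph.mem_edgeFinset, SimpleGraph.mem_edgeSet] at hxG
            rw [Finset.mk_mem_sym2_iff] at hxX
            have : 1 < X.card := Finset.one_lt_card.mpr ⟨a, hxX.1, b, hxX.2, G.ne_of_adj hxG⟩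
            omega
        obtain ⟨M', hM'sub, hM'card⟩ := Finset.exists_subset_card_eq
          (show 2 * X.card - 2 ≤ M.card by omega)
        have hM'B : M' ⊆ B := by
          rw [hB, hU]
          intro x hx
          apply Finset.mem_union_right
          simp only [Finset.mem_biUnion]
          refine ⟨X.card, Finset.mem_Icc.mpr ⟨hX2, hX⟩, X,
            Finset.mem_powersetCard.mpr ⟨Finset.subset_univ _, rfl⟩, M',
            Finset.mem_powersetCard.mpr ⟨hM'sub.trans hMX, hM'card⟩, ?_⟩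
          rw [hZ]
          show x ∈ if Disjoint M' L ∧ M' ⊆ G.edgeFinset then M' else ∅
          rw [if_pos]
          · exact hx
          · refine ⟨?_, hM'sub.trans hMG⟩
            rw [Finset.disjoint_left]
            intro z hz hzL
            have hzB : z ∈ B := by
              rw [hB]
              exact Finset.mem_union_left _ (Finset.mem_inter.mpr ⟨hzL, hMG (hM'sub hz)⟩)
            exact (Finset.disjoint_left.mp hMB) (hM'sub hz) hzB
        have hM'ne : M'.Nonempty := by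
          rw [← Finset.card_pos, hM'card]
          omega
        obtain ⟨x, hx⟩ := hM'ne
        exact (Finset.disjoint_left.mp hMB) (hM'sub hx) (hM'B hx)
      have hBD : D < (B.card : ℝ) := by
        by_contra hneg
        push Not at hneg
        exact hns ⟨B, hBG, hneg, hBS⟩
      have hBc : (B.card : ℝ) ≤ (L.card : ℝ) + 2 * K * SM K G L ok := by
        have h1 : B.card ≤ (L ∩ G.edgeFinset).card + U.card := by
          rw [hB]; exact Finset.card_union_le _ _
        have h2 : (L ∩ G.edgeFinset).card ≤ L.card := Finset.card_le_card Finset.inter_subset_left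
        have h3 : (B.card : ℝ) ≤ (L.card : ℝ) + U.card := by
          exact_mod_cast h1.trans (by omega)
        linarith
      have hf : f0 D G L ok = min 1 ((L.card : ℝ) / D) := by
        unfold f0
        rw [pen_true _ hok, add_zero]
      rw [hf]
      have h4 : 1 ≤ (L.card : ℝ) / D + 2 * K / D * SM K G L ok := by
        have e1 : (L.card : ℝ) / D + 2 * K / D * SM K G L ok =
            ((L.card : ℝ) + 2 * K * SM K G L ok) / D := by
          field_simp
        rw [e1, le_div_iff₀ hD]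
        linarith
      rcases le_total 1 ((L.card : ℝ) / D) with h5 | h5
      · rw [min_eq_left h5]
        linarith
      · rw [min_eq_right h5]
        linarith
    · have hf : f0 D G L ok = 1 := by
        unfold f0
        rw [pen_false _ hok]
        apply min_eq_left
        have : 0 ≤ (L.card : ℝ) / D := by positivity
        linarith
      rw [hf]
      linarith

/-- the sparsity statement from a grid -/
theorem sparse_of_grid (K : ℕ) (κ D : ℝ) (hD : 0 < D) (m e : ℕ → ℕ) (J : ℕ)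
    (Ψ : SimpleGraph (Fin n) → ℝ) (ε : ℕ → ℝ) (hε : ∀ i, 0 ≤ ε i)
    (he : ∀ i, i ≤ J → 3 ≤ e i)
    (hem : ∀ i, i < J → e (i + 1) = e i + 3 * m i)
    (hX : ∀ i, i < J → ∀ G : SimpleGraph (Fin n), numEdges G = e i →
      ((light κ G).card : ℝ) / D + pen (|rho G - 1| ≤ κ) ≤ ε i * Ψ G)
    (h0 : ∀ G : SimpleGraph (Fin n), e 0 ≤ numEdges G → 0 ≤ Ψ G)
    (hstep : ∀ G : SimpleGraph (Fin n), e 0 < numEdges G → (1 ≤ Ψ G ∨ ((triangles G).Nonempty ∧
      ∑ t ∈ triangles G, Ψ (removeTriangle G t) ≤ (triangles G).card * Ψ G)))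
    (y T : ℕ → ℝ) (hT0 : ∀ i, i ≤ J → 0 < T i)
    (hy : ∀ i, i < J → ∀ G : SimpleGraph (Fin n), numEdges G = e i → (1 - κ) * cc G = y i)
    (hT : ∀ i, i ≤ J → ∀ G : SimpleGraph (Fin n), numEdges G = e i → |rho G - 1| ≤ κ →
      ((triangles G).card : ℝ) ≤ T i)
    (hx : ∀ v, 2 ≤ v → v ≤ K → ∀ i, i < J → 3 * (((2 * v - 2 : ℕ) : ℝ) - 1 / 2) * T (i + 1) ≤
      (((2 * v - 2 : ℕ) : ℝ) * y i - (((2 * v - 2 : ℕ) : ℝ)) ^ 2) * e i)
    (htop : numEdges (⊤ : SimpleGraph (Fin n)) = e J)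
    (hrho : |rho (⊤ : SimpleGraph (Fin n)) - 1| ≤ κ) :
    V (notSparse K D) (∑ j ∈ Finset.range J, m j) (⊤ : SimpleGraph (Fin n)) ≤
      (1 + ∑ j ∈ Finset.range J, ε j) * Ψ ⊤ + (2 * K / D) *
        ∑ v ∈ Finset.Icc 2 K, (n : ℝ) ^ v * (2 ^ ((v + 1) * v) *
          ((e 0 : ℝ) / e J) ^ (((2 * v - 2 : ℕ) : ℝ) - 1 / 2)) := by
  have h1 := W_forget m e κ (notSparse K D) J (⊤ : SimpleGraph (Fin n)) ∅ True
  rw [← h1]
  have h2 := W_mono m e κ (fun G _ _ => notSparse K D G)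
    (fun G L ok => f0 D G L ok + (2 * K / D) * SM K G L ok)
    (fun G L ok => notSparse_le K D hD G L ok) J (⊤ : SimpleGraph (Fin n)) ∅ True
  refine h2.trans ?_
  rw [W_add m e κ (f0 D) (fun G L ok => (2 * K / D) * SM K G L ok), W_mul m e κ (2 * K / D) (SM K)]
  have h3 := W_pot m e κ D hD Ψ J ε hε hem hX h0 hstep J le_rfl ⊤ htop ∅ True
  rw [pen_true _ trivial, Finset.card_empty, Nat.cast_zero, zero_div, zero_add, zero_add] at h3
  refine add_le_add h3 ?_
  apply mul_le_mul_of_nonneg_left _ (by positivity)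
  have e1 : W m e κ (SM K) J (⊤ : SimpleGraph (Fin n)) ∅ True =
      ∑ v ∈ Finset.Icc 2 K, ∑ X ∈ Finset.powersetCard v (univ : Finset (Fin n)),
        ∑ M ∈ Finset.powersetCard (2 * v - 2) X.sym2, W m e κ (gM M) J ⊤ ∅ True := by
    have a1 : (SM K : SimpleGraph (Fin n) → Finset (Sym2 (Fin n)) → Prop → ℝ) = fun G L ok =>
      ∑ v ∈ Finset.Icc 2 K, ∑ X ∈ Finset.powersetCard v (univ : Finset (Fin n)),
        ∑ M ∈ Finset.powersetCard (2 * v - 2) X.sym2, gM M G L ok := rfl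
    rw [a1, W_sum m e κ (Finset.Icc 2 K) (fun v G L ok =>
      ∑ X ∈ Finset.powersetCard v (univ : Finset (Fin n)),
        ∑ M ∈ Finset.powersetCard (2 * v - 2) X.sym2, gM M G L ok)]
    refine Finset.sum_congr rfl fun v _ => ?_
    rw [W_sum m e κ (Finset.powersetCard v (univ : Finset (Fin n))) (fun X G L ok =>
        ∑ M ∈ Finset.powersetCard (2 * v - 2) X.sym2, gM M G L ok)]
    refine Finset.sum_congr rfl fun X _ => ?_
    rw [W_sum m e κ (Finset.powersetCard (2 * v - 2) X.sym2) (fun M G L ok => gM M G L ok)]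
  rw [e1]
  have he0 : (0:ℝ) < e 0 := by
    have := he 0 (by omega)
    exact_mod_cast (by omega : 0 < e 0)
  have heJ : (0:ℝ) < e J := by
    have := he J (by omega)
    exact_mod_cast (by omega : 0 < e J)
  refine Finset.sum_le_sum fun v hv => ?_
  rw [Finset.mem_Icc] at hv
  obtain ⟨Q, hQ⟩ : ∃ Q : ℝ, Q = ((e 0 : ℝ) / e J) ^ (((2 * v - 2 : ℕ) : ℝ) - 1 / 2) := ⟨_, rfl⟩
  have hQ0 : 0 ≤ Q := by rw [hQ]; exact Real.rpow_nonneg (by positivity) _
  rw [← hQ]
  have hin : ∀ X ∈ Finset.powersetCard v (univ : Finset (Fin n)),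
      ∑ M ∈ Finset.powersetCard (2 * v - 2) X.sym2, W m e κ (gM M) J ⊤ ∅ True ≤
        2 ^ ((v + 1) * v) * Q := by
    intro X hX
    rw [Finset.mem_powersetCard] at hX
    have h5 : ∀ M ∈ Finset.powersetCard (2 * v - 2) X.sym2,
        W m e κ (gM M) J (⊤ : SimpleGraph (Fin n)) ∅ True ≤ Q := by
      intro M hM
      rw [Finset.mem_powersetCard] at hM
      have hMne : M.Nonempty := by
        rw [← Finset.card_pos, hM.2]
        omega
      rw [hQ]
      refine W_gM_le m e κ M hMne y T (((2 * v - 2 : ℕ) : ℝ) - 1 / 2) ?_ J he hem hT0 hy hT ?_ J le_rfl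
        ⊤ htop ∅ True (fun _ => hrho)
      · have : (2:ℝ) ≤ ((2 * v - 2 : ℕ) : ℝ) := by exact_mod_cast (by omega : 2 ≤ 2 * v - 2)
        linarith
      · intro i hi
        rw [hM.2]
        exact hx v hv.1 hv.2 i hi
    refine (Finset.sum_le_sum h5).trans ?_
    rw [Finset.sum_const, nsmul_eq_mul]
    apply mul_le_mul_of_nonneg_right _ hQ0
    have h6 : (Finset.powersetCard (2 * v - 2) X.sym2).card ≤ 2 ^ ((v + 1) * v) := by
      have h7 : (Finset.powersetCard (2 * v - 2) X.sym2).card ≤ 2 ^ X.sym2.card := by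
        rw [← Finset.card_powerset]
        exact Finset.card_le_card (fun s hs => Finset.mem_powerset.mpr
          (Finset.mem_powersetCard.mp hs).1)
      refine h7.trans ?_
      apply Nat.pow_le_pow_right (by norm_num)
      rw [Finset.card_sym2, hX.2, Nat.choose_two_right]
      simp only [Nat.add_sub_cancel]
      exact Nat.div_le_self _ _
    exact_mod_cast h6
  refine (Finset.sum_le_sum hin).trans ?_
  rw [Finset.sum_const, nsmul_eq_mul, Finset.card_powersetCard, Finset.card_univ, Fintype.card_fin]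
  apply mul_le_mul_of_nonneg_right _ (by positivity)
  exact_mod_cast Nat.choose_le_pow n v

end Vale.Agent.P046.M2
end
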