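import Mathlib
import Vale.Agent.P046.Bdl.B1
import Vale.Agent.P046.Bdl.B2

set_option linter.all false

section

section

set_option autoImplicit false

open scoped Classical
open Finset

namespace Vale.Agent.P046.LB

open Vale.Agent.P046.OS (triSum triSum_mono edgeSum_codeg_mul codeg_comm triSum_mul)

variable {n : ℕ}

lemma codeg_pos_of_adj (G : SimpleGraph (Fin n)) (u v w : Fin n) (h2 : G.Adj u w)
    (h3 : G.Adj v w) : 0 < codeg G u v := by
  unfold codeg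
  rw [Finset.card_pos]
  exact ⟨w, by simp only [mem_filter, mem_univ, h2, h3, and_self]⟩

/-- isolated triangles consist of edges of codegree one -/
lemma iso_le_edgeSum (G : SimpleGraph (Fin n)) :
    6 * ((isoSet G).card : ℝ) ≤ edgeSum G (fun u v => if codeg G u v = 1 then 1 else 0) := by
  have h1 : edgeSum G (fun u v => if codeg G u v = 1 then (1:ℝ) else 0) =
      triSum G (fun u v _ => if codeg G u v = 1 then (1:ℝ) else 0) := by
    rw [← edgeSum_codeg_mul]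
    apply edgeSum_congr
    intro u v _
    by_cases h : codeg G u v = 1
    · rw [if_pos h, h]; simp only [Nat.cast_one, mul_one]
    · rw [if_neg h]; simp
  have h2 := triSum_sym G (fun u v => if codeg G u v = 1 then (1:ℝ) else 0)
    (fun u v => by rw [codeg_comm])
  have h3 := triSum_tri G (fun t => 3 * (if t ∈ isoSet G then (1:ℝ) else 0))
  have h4 : triSum G (fun u v w => 3 * (if ({u, v, w} : Finset (Fin n)) ∈ isoSet G
      then (1:ℝ) else 0)) ≤
      triSum G (fun u v w => (if codeg G u v = 1 then (1:ℝ) else 0) +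
        (if codeg G u w = 1 then (1:ℝ) else 0) + (if codeg G v w = 1 then (1:ℝ) else 0)) := by
    apply triSum_mono
    intro u v w huv huw hvw
    by_cases hI : ({u, v, w} : Finset (Fin n)) ∈ isoSet G
    · rw [if_pos hI]
      unfold isoSet at hI
      rw [Finset.mem_filter] at hI
      have h5 := card_nb G u v w huv huw hvw
      rw [hI.2, Finset.card_empty, Nat.cast_zero] at h5
      have p1 := codeg_pos_of_adj G u v w huw hvw
      have p2 := codeg_pos_of_adj G u w v huv hvw.symm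
      have p3 := codeg_pos_of_adj G v w u huv.symm huw.symm
      have h6 : codeg G u v + codeg G u w + codeg G v w = 3 := by
        have : (codeg G u v : ℝ) + codeg G u w + codeg G v w = 3 := by linarith only [h5]
        exact_mod_cast this
      rw [if_pos (show codeg G u v = 1 by omega), if_pos (show codeg G u w = 1 by omega),
        if_pos (show codeg G v w = 1 by omega)]
      norm_num
    · rw [if_neg hI]
      have hnn : ∀ c : ℕ, (0:ℝ) ≤ if c = 1 then (1:ℝ) else 0 := by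
        intro c
        split_ifs <;> norm_num
      have c1 := hnn (codeg G u v)
      have c2 := hnn (codeg G u w)
      have c3 := hnn (codeg G v w)
      linarith only [c1, c2, c3]
  rw [h2, h3] at h4
  have h7 : ∑ t ∈ triangles G, 3 * (if t ∈ isoSet G then (1:ℝ) else 0) =
      3 * ((isoSet G).card : ℝ) := by
    rw [← Finset.mul_sum, ← Finset.sum_filter, Finset.sum_const, nsmul_eq_mul, mul_one]
    congr 3
    ext t
    rw [Finset.mem_filter]
    constructor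
    · exact fun h => h.2
    · intro h
      refine ⟨?_, h⟩
      unfold isoSet at h
      exact (Finset.mem_filter.mp h).1
  rw [h7] at h4
  rw [h1]
  linarith

lemma hfun_ge_small (x : ℝ) (hx0 : 0 ≤ x) (hx : x ≤ 1 / 8) : 1 / 4 ≤ hfun x := by
  unfold hfun
  rw [if_pos (by linarith)]
  have h1 : (49:ℝ) / 64 ≤ (1 - x) ^ 2 := by nlinarith only [hx]
  have h2 : (1:ℝ) ≤ 1 + 2 * x := by linarith only [hx0]
  have h3 : (49:ℝ) / 64 * 1 ≤ (1 - x) ^ 2 * (1 + 2 * x) :=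
    mul_le_mul h1 h2 (by norm_num) (sq_nonneg _)
  linarith only [h3]

lemma sq_le_hfun (x : ℝ) (hx0 : 0 ≤ x) : x ^ 2 ≤ 18 + 400 * hfun x := by
  rcases le_or_gt x 3 with h | h
  · have := hfun_nonneg x hx0
    nlinarith
  · unfold hfun
    rw [if_neg (by linarith only [h]), max_eq_left (by linarith)]
    have h1 : 0 ≤ (x - 1) ^ 2 / x := by positivity
    linarith only [h1, sq_nonneg (x - 6)]

/-- number of isolated triangles bounded by the potential -/
lemma iso_le_Psi (G : SimpleGraph (Fin n)) (hn : 0 < n)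
    (hE : 2 * (n : ℝ) ^ 3 ≤ (numEdges G : ℝ) ^ 2) :
    ((isoSet G).card : ℝ) * (numEdges G : ℝ) ≤ 4 / 3 * Psi G := by
  have hn0 : (0:ℝ) < n := by exact_mod_cast hn
  have hn3 : (0:ℝ) < (n:ℝ)^3 := by positivity
  have hE2 : (0:ℝ) < (numEdges G : ℝ) ^ 2 := by linarith only [hE, hn3]
  have hE0 : (0:ℝ) ≤ (numEdges G : ℝ) := Nat.cast_nonneg _
  have h1 : edgeSum G (fun u v => (1/4 : ℝ) * (if codeg G u v = 1 then (1:ℝ) else 0)) ≤
      edgeSum G (fun u v => hfun (rr G u v)) := by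
    apply edgeSum_mono
    intro u v _
    by_cases h : codeg G u v = 1
    · rw [if_pos h, mul_one]
      apply hfun_ge_small _ (rr_nonneg G u v)
      unfold rr
      rw [h, div_le_iff₀ (by positivity)]
      push_cast
      linarith only [hE]
    · rw [if_neg h, mul_zero]
      exact hfun_nonneg _ (rr_nonneg G u v)
  rw [edgeSum_mul] at h1
  have h2 := iso_le_edgeSum G
  unfold Psi
  have h3 : 3 / 2 * ((isoSet G).card : ℝ) ≤ edgeSum G (fun u v => hfun (rr G u v)) := by linarith only [h1, h2]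
  have h4 := mul_le_mul_of_nonneg_left h3 hE0
  linarith only [h4]

/-- second moment of codegrees bounded by the potential -/
lemma M2_le_Psi (G : SimpleGraph (Fin n)) (hn : 0 < n) (hE : 0 < numEdges G) :
    M2 G * (numEdges G : ℝ) ≤ (4 * (numEdges G : ℝ) ^ 2 / (n:ℝ) ^ 3) ^ 2 *
      (18 * (numEdges G : ℝ) ^ 2 + 400 * Psi G) := by
  have hn0 : (0:ℝ) < n := by exact_mod_cast hn
  have hE0 : (0:ℝ) < (numEdges G : ℝ) := by exact_mod_cast hE
  obtain ⟨yb, hyb⟩ : ∃ yb : ℝ, yb = 4 * (numEdges G : ℝ) ^ 2 / (n:ℝ) ^ 3 := ⟨_, rfl⟩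
  have hyb0 : 0 < yb := by rw [hyb]; positivity
  have h1 : edgeSum G (fun u v => (codeg G u v : ℝ) ^ 2) ≤
      edgeSum G (fun u v => yb ^ 2 * 18 * 1 + (yb ^ 2 * 400) * hfun (rr G u v)) := by
    apply edgeSum_mono
    intro u v _
    have h2 : (codeg G u v : ℝ) = yb * rr G u v := by
      unfold rr
      rw [hyb]
      field_simp
    have h3 := sq_le_hfun (rr G u v) (rr_nonneg G u v)
    have h4 := mul_le_mul_of_nonneg_left h3 (sq_nonneg yb)
    rw [h2]
    calc (yb * rr G u v) ^ 2 = yb ^ 2 * (rr G u v) ^ 2 := by ring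
      _ ≤ yb ^ 2 * (18 + 400 * hfun (rr G u v)) := h4
      _ = _ := by ring
  rw [edgeSum_add, edgeSum_mul, edgeSum_mul, edgeSum_one] at h1
  have h5 : M2 G ≤ yb ^ 2 * (18 * (numEdges G : ℝ) +
      400 * (edgeSum G (fun u v => hfun (rr G u v)) / 2)) := by
    unfold M2
    linarith only [h1]
  have h6 := mul_le_mul_of_nonneg_right h5 hE0.le
  rw [← hyb]
  refine h6.trans (le_of_eq ?_)
  unfold Psi
  ring

end Vale.Agent.P046.LB
end
end

section

section

set_option autoImplicit false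

open scoped Classical
open Finset

namespace Vale.Agent.P046.LB

variable {n : ℕ}

/-- arithmetic: bound for the number of triangles at a good level -/
lemma tri_le_of_rho (G : SimpleGraph (Fin n)) (hn : 0 < n) (hE : 0 < numEdges G) (r : ℝ)
    (hr : rho G ≤ r) :
    ((triangles G).card : ℝ) * (3 * (n:ℝ) ^ 3) ≤ r * (4 * (numEdges G : ℝ) ^ 3) := by
  have hn0 : (0:ℝ) < n := by exact_mod_cast hn
  have hE0 : (0:ℝ) < numEdges G := by exact_mod_cast hE
  unfold rho at hr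
  rw [div_le_iff₀ (by positivity)] at hr
  linarith only [hr]

/-- pure arithmetic for the final step of the lower bound -/
lemma arith_final (s y x e l K1 L B J : ℝ) (hs : 300 ≤ s) (hl : 1 ≤ l) (hK1 : 1 ≤ K1)
    (hL : L = 10 ^ 9 * K1 ^ 5 * l ^ 5) (hy1 : s / 4 ≤ y) (hy2 : y ≤ s / 4 + 3)
    (hx : x * s ^ 2 ≤ 1.334 * y ^ 3) (he : e ≤ 2 * K1 * s * l)
    (hB : B ≤ s / 64) (hJ : J ≤ 214528 * K1 ^ 5 * l ^ 5 * s) :
    s / 100 ≤ -B - 27 / L * J - 36 / L * e + y / 3 - x := by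
  have hs0 : 0 < s := by linarith only [hs]
  have hl0 : 0 < l := by linarith only [hl]
  have hK0 : 0 < K1 := by linarith only [hK1]
  have hP0 : 0 < K1 ^ 5 * l ^ 5 := by positivity
  have hL0 : 0 < L := by rw [hL]; positivity
  have h1 : 27 / L * J ≤ s / 64 := by
    rw [div_mul_eq_mul_div, div_le_iff₀ hL0, hL]
    have : 0 ≤ K1 ^ 5 * l ^ 5 * s := by positivity
    linarith only [hJ, this]
  have h2 : 36 / L * e ≤ s / 64 := by
    rw [div_mul_eq_mul_div, div_le_iff₀ hL0, hL]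
    have a1 : K1 ≤ K1 ^ 5 := by
      have := one_le_pow₀ (n := 4) hK1
      calc K1 = K1 * 1 := (mul_one _).symm
        _ ≤ K1 * K1 ^ 4 := mul_le_mul_of_nonneg_left this hK0.le
        _ = K1 ^ 5 := by ring
    have a2 : l ≤ l ^ 5 := by
      have := one_le_pow₀ (n := 4) hl
      calc l = l * 1 := (mul_one _).symm
        _ ≤ l * l ^ 4 := mul_le_mul_of_nonneg_left this hl0.le
        _ = l ^ 5 := by ring
    have a3 : K1 * l ≤ K1 ^ 5 * l ^ 5 := mul_le_mul a1 a2 hl0.le (by positivity)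
    have a4 : K1 * l * s ≤ K1 ^ 5 * l ^ 5 * s := mul_le_mul_of_nonneg_right a3 hs0.le
    have a5 : 0 ≤ K1 * l * s := by positivity
    linarith only [he, a4, a5]
  have hy3 : y ≤ 0.26 * s := by linarith only [hs, hy2]
  have hy0 : 0 < y := by linarith only [hs, hy1]
  have h3 : x ≤ 0.0902 * y := by
    have b1 : y ^ 2 ≤ (0.26 * s) ^ 2 := pow_le_pow_left₀ hy0.le hy3 2
    have b2 : 1.334 * y ^ 3 ≤ 0.0902 * y * s ^ 2 := by
      have b3 : y * y ^ 2 ≤ y * (0.26 * s) ^ 2 := mul_le_mul_of_nonneg_left b1 hy0.le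
      have b4 : 0 ≤ y * s ^ 2 := by positivity
      calc 1.334 * y ^ 3 = 1.334 * (y * y ^ 2) := by ring
        _ ≤ 1.334 * (y * (0.26 * s) ^ 2) := by linarith only [b3]
        _ = 0.0901784 * (y * s ^ 2) := by ring
        _ ≤ 0.0902 * (y * s ^ 2) := by linarith only [b4]
        _ = _ := by ring
    have b5 : x * s ^ 2 ≤ (0.0902 * y) * s ^ 2 := hx.trans b2
    exact le_of_mul_le_mul_right b5 (by positivity)
  linarith

/-- isolated triangles at a good level -/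
lemma good_iso (K' K1 s l : ℝ) (hn : 0 < n) (hs2 : s ^ 2 = (n:ℝ) ^ 3)
    (hs0 : 0 < s) (hl0 : 0 < l) (hK0 : 0 < K1) (hKK : 86 * K' ≤ K1)
    (G : SimpleGraph (Fin n)) (e : ℝ) (hEr : (numEdges G : ℝ) = e)
    (hP : Psi G ≤ K' * (n:ℝ) ^ 3 * l) (he1 : K1 * s * l ≤ e) (hsl : 2 * s ≤ e) :
    ((isoSet G).card : ℝ) ≤ s / 64 := by
  have h1 := iso_le_Psi G hn (by
    rw [hEr, ← hs2]
    have : (2 * s) ^ 2 ≤ e ^ 2 := pow_le_pow_left₀ (by positivity) hsl 2
    nlinarith only [this])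
  rw [hEr] at h1
  have h2 : ((isoSet G).card : ℝ) * (K1 * s * l) ≤ ((isoSet G).card : ℝ) * e :=
    mul_le_mul_of_nonneg_left he1 (Nat.cast_nonneg _)
  have h3 : ((isoSet G).card : ℝ) * (K1 * s * l) ≤ 4 / 3 * (K' * s ^ 2 * l) := by
    rw [hs2]; linarith only [hP, h1, h2]
  have h4 : 4 / 3 * (K' * s ^ 2 * l) ≤ (s / 64) * (K1 * s * l) := by
    have h5 : K' * (s ^ 2 * l) ≤ K1 / 86 * (s ^ 2 * l) :=
      mul_le_mul_of_nonneg_right (by linarith only [hKK]) (by positivity)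
    have h6 : 0 ≤ K1 * (s ^ 2 * l) := by positivity
    have e1 : 4 / 3 * (K' * s ^ 2 * l) = 4 / 3 * (K' * (s ^ 2 * l)) := by ring
    have e2 : (s / 64) * (K1 * s * l) = 1 / 64 * (K1 * (s ^ 2 * l)) := by ring
    rw [e1, e2]
    linarith only [h5, h6]
  exact le_of_mul_le_mul_right (h3.trans h4) (by positivity)

/-- the potential is at most the square of the number of edges -/
lemma good_Psi_sq (K' K1 s l P e N : ℝ) (hs2 : s ^ 2 = N)
    (hs0 : 0 < s) (hl : 1 ≤ l) (hK1 : 2 ≤ K1) (hK' : 0 ≤ K') (hKK : 86 * K' ≤ K1)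
    (hP : P ≤ K' * N * l) (he1 : K1 * s * l ≤ e) : P ≤ e ^ 2 := by
  have hl0 : 0 < l := by linarith only [hl]
  have h1 : (K1 * s * l) ^ 2 ≤ e ^ 2 := pow_le_pow_left₀ (by positivity) he1 2
  have h3 : K' ≤ K1 ^ 2 := by nlinarith only [hK1, hKK]
  have h4 : K' * s ^ 2 * l ≤ K1 ^ 2 * s ^ 2 * l := by
    apply mul_le_mul_of_nonneg_right _ hl0.le
    exact mul_le_mul_of_nonneg_right h3 (by positivity)
  have h6 : l ≤ l ^ 2 := by nlinarith only [hl]
  have h5 : K1 ^ 2 * s ^ 2 * l ≤ K1 ^ 2 * s ^ 2 * l ^ 2 :=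
    mul_le_mul_of_nonneg_left h6 (by positivity)
  have e1 : K1 ^ 2 * s ^ 2 * l ^ 2 = (K1 * s * l) ^ 2 := by ring
  rw [e1] at h5
  rw [← hs2] at hP
  linarith only [hP, h1, h4, h5]

/-- second moment functional at a good level -/
lemma good_J (s : ℝ) (hn : 0 < n) (hs2 : s ^ 2 = (n:ℝ) ^ 3)
    (hs0 : 0 < s) (G : SimpleGraph (Fin n)) (e : ℝ) (hEr : (numEdges G : ℝ) = e)
    (hE : 0 < numEdges G) (hse : s ≤ e) (hPe : Psi G ≤ e ^ 2)
    (hT : ((triangles G).card : ℝ) * (3 * s ^ 2) ≤ 1.0001 * (4 * e ^ 3)) :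
    J G ≤ 6704 * (e ^ 5 / s ^ 4) := by
  have he0 : 0 < e := by linarith only [hs0, hse]
  have hM := M2_le_Psi G hn hE
  rw [hEr, ← hs2] at hM
  have hM2 : M2 G ≤ 6688 * (e ^ 5 / s ^ 4) := by
    have h1 : (4 * e ^ 2 / s ^ 2) ^ 2 * (18 * e ^ 2 + 400 * Psi G) ≤
        (4 * e ^ 2 / s ^ 2) ^ 2 * (418 * e ^ 2) := by
      apply mul_le_mul_of_nonneg_left _ (sq_nonneg _)
      linarith only [hPe]
    have h2 : (4 * e ^ 2 / s ^ 2) ^ 2 * (418 * e ^ 2) =
        (6688 * (e ^ 5 / s ^ 4)) * e := by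
      field_simp
      ring
    rw [h2] at h1
    exact le_of_mul_le_mul_right (hM.trans h1) he0
  have hT2 : ((triangles G).card : ℝ) ≤ 2 * (e ^ 3 / s ^ 2) := by
    rw [← mul_div_assoc, le_div_iff₀ (by positivity)]
    have : 0 ≤ e ^ 3 := by positivity
    linarith only [hT, this]
  have hT3 : e ^ 3 / s ^ 2 ≤ e ^ 5 / s ^ 4 := by
    rw [div_le_div_iff₀ (by positivity) (by positivity)]
    have h1 : s ^ 2 ≤ e ^ 2 := pow_le_pow_left₀ hs0.le (by linarith only [hse]) 2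
    calc e ^ 3 * s ^ 4 = (e ^ 3 * s ^ 2) * s ^ 2 := by ring
      _ ≤ (e ^ 3 * s ^ 2) * e ^ 2 := mul_le_mul_of_nonneg_left h1 (by positivity)
      _ = e ^ 5 * s ^ 2 := by ring
  unfold J
  linarith only [hM2, hT2, hT3]

lemma good_J2 (s e K1 l : ℝ) (hs0 : 0 < s) (he0 : 0 < e) (he2 : e ≤ 2 * K1 * s * l) :
    6704 * (e ^ 5 / s ^ 4) ≤ 214528 * K1 ^ 5 * l ^ 5 * s := by
  have h2 : e ^ 5 / s ^ 4 ≤ 32 * K1 ^ 5 * l ^ 5 * s := by
    rw [div_le_iff₀ (by positivity)]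
    have : e ^ 5 ≤ (2 * K1 * s * l) ^ 5 := pow_le_pow_left₀ he0.le he2 5
    calc e ^ 5 ≤ (2 * K1 * s * l) ^ 5 := this
      _ = _ := by ring
  linarith only [h2]

/-- the expected value of `T - E/3` at the lower level -/
lemma good_x (s x xG T y e : ℝ) (hs0 : 0 < s) (he0 : 0 < e) (hy0 : 0 < y)
    (hT : T * (3 * s ^ 2) ≤ 1.0001 * (4 * e ^ 3)) (hxT : xG ≤ T)
    (hx : e ^ 3 * x ≤ y ^ 3 * xG) : x * s ^ 2 ≤ 1.334 * y ^ 3 := by
  have h2 : y ^ 3 * xG ≤ y ^ 3 * T := mul_le_mul_of_nonneg_left hxT (by positivity)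
  have h3 : e ^ 3 * x ≤ y ^ 3 * T := hx.trans h2
  have h4 := mul_le_mul_of_nonneg_left hT (show 0 ≤ y ^ 3 / 3 by positivity)
  have h5 := mul_le_mul_of_nonneg_right h3 (sq_nonneg s)
  have h6 : e ^ 3 * (x * s ^ 2) ≤ e ^ 3 * (1.334 * y ^ 3) := by
    have e5 : y ^ 3 / 3 * (T * (3 * s ^ 2)) = y ^ 3 * T * s ^ 2 := by ring
    rw [e5] at h4
    have e6 : y ^ 3 / 3 * (1.0001 * (4 * e ^ 3)) = (1.0001 * 4 / 3) * (y ^ 3 * e ^ 3) := by ring
    rw [e6] at h4
    have h7 : 0 ≤ y ^ 3 * e ^ 3 := by positivity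
    have h8 : (1.0001 * 4 / 3) * (y ^ 3 * e ^ 3) ≤ 1.334 * (y ^ 3 * e ^ 3) :=
      mul_le_mul_of_nonneg_right (by norm_num) h7
    linarith only [h4, h5, h7]
  exact le_of_mul_le_mul_left h6 (by positivity)

/-- choice of the number of steps -/
lemma exists_k (s : ℝ) (e1 : ℕ) (hs0 : 0 < s) (hsl : 2 * s ≤ (e1 : ℝ)) :
    ∃ k : ℕ, 3 * k ≤ e1 ∧ s / 4 ≤ (e1 : ℝ) - 3 * k ∧ (e1 : ℝ) - 3 * k ≤ s / 4 + 3 := by
  obtain ⟨k, hk⟩ : ∃ k : ℕ, k = ⌊((e1 : ℝ) - s / 4) / 3⌋₊ := ⟨_, rfl⟩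
  have hq0 : 0 ≤ ((e1 : ℝ) - s / 4) / 3 := by linarith only [hsl]
  have hk1 : (k : ℝ) ≤ ((e1 : ℝ) - s / 4) / 3 := by rw [hk]; exact Nat.floor_le hq0
  have hk2 : ((e1 : ℝ) - s / 4) / 3 < k + 1 := by rw [hk]; exact Nat.lt_floor_add_one _
  refine ⟨k, ?_, by linarith only [hk1], by linarith only [hk2]⟩
  have : 3 * (k : ℝ) ≤ e1 := by linarith only [hs0, hk1]
  exact_mod_cast this

lemma final_div (s L v : ℝ) (hL : 108 ≤ L) (hv : 0 ≤ v) (h : s / 100 ≤ (L + 1) * v) :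
    s / (200 * L) ≤ v := by
  have h2 : (L + 1) * v ≤ (2 * L) * v := mul_le_mul_of_nonneg_right (by linarith only [hL]) hv
  rw [div_le_iff₀ (by linarith only [hL])]
  linarith only [h, h2]

lemma VF_nonneg (m : ℕ) (G : SimpleGraph (Fin n)) :
    0 ≤ V (fun H => (numEdges H : ℝ)) m G := by
  have := V_mono (n := n) (fun _ => (0:ℝ)) (fun H => (numEdges H : ℝ))
    (fun H => Nat.cast_nonneg _) m G
  rw [V_const] at this
  exact this

/-- lower bound for the expected number of final edges from a good graph -/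
lemma good_lower (K' K1 η s l : ℝ) (hη : η ≤ 1 / 10000) (hn : 0 < n)
    (hs2 : s ^ 2 = (n:ℝ) ^ 3)
    (hs : 300 ≤ s) (hl : 1 ≤ l) (hK1 : 2 ≤ K1) (hK' : 0 ≤ K') (hKK : 86 * K' ≤ K1)
    (G : SimpleGraph (Fin n)) (e1 m : ℕ) (hG : Good e1 η (K' * (n:ℝ) ^ 3 * l) G)
    (he1 : K1 * s * l ≤ e1) (he2 : (e1 : ℝ) ≤ 2 * K1 * s * l) (hm : e1 ≤ m) :
    s / (200 * (10 ^ 9 * K1 ^ 5 * l ^ 5)) ≤ V (fun H => (numEdges H : ℝ)) m G := by
  obtain ⟨hE, hr, hP⟩ := hG
  have hs0 : 0 < s := by linarith only [hs]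
  have hl0 : 0 < l := by linarith only [hl]
  have hK0 : 0 < K1 := by linarith only [hK1]
  have hsl : 2 * s ≤ (e1 : ℝ) := by
    have h1 : 2 * s ≤ K1 * s := mul_le_mul_of_nonneg_right hK1 hs0.le
    have h2 : K1 * s * 1 ≤ K1 * s * l := mul_le_mul_of_nonneg_left hl (by positivity)
    linarith only [he1, h1, h2]
  have he0 : (0:ℝ) < e1 := by linarith only [hs, hsl]
  have he0' : 0 < e1 := by exact_mod_cast he0
  have hEpos : 0 < numEdges G := by omega
  have hEr : (numEdges G : ℝ) = e1 := by rw [hE]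
  have hB := good_iso K' K1 s l hn hs2 hs0 hl0 hK0 hKK G e1 hEr hP he1 hsl
  have hPe := good_Psi_sq K' K1 s l (Psi G) e1 ((n:ℝ)^3) hs2 hs0 hl hK1 hK' hKK hP he1
  have hrho : rho G ≤ 1.0001 := by
    have h1 := (abs_le.mp hr).2
    norm_num at hη ⊢
    linarith only [h1, hη]
  have hT := tri_le_of_rho G hn hEpos _ hrho
  rw [hEr, ← hs2] at hT
  have hJ := (good_J s hn hs2 hs0 G e1 hEr hEpos (by linarith only [hs, hsl]) hPe hT).trans
    (good_J2 s e1 K1 l hs0 he0 he2)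
  obtain ⟨k, h3k, hy1, hy2⟩ := exists_k s e1 hs0 hsl
  obtain ⟨L, hL⟩ : ∃ L : ℝ, L = 10 ^ 9 * K1 ^ 5 * l ^ 5 := ⟨_, rfl⟩
  have hP1 : 1 ≤ K1 ^ 5 * l ^ 5 := by
    have a := one_le_pow₀ (n := 5) (show 1 ≤ K1 by linarith only [hK1])
    have b := one_le_pow₀ (n := 5) hl
    calc (1:ℝ) = 1 * 1 := by ring
      _ ≤ K1 ^ 5 * l ^ 5 := mul_le_mul a b (by norm_num) (by positivity)
  have hL108 : 108 ≤ L := by rw [hL]; linarith only [hP1]
  have hdet := lower_det L hL108 G m k (by omega) (by omega)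
  have hx := V_x_le k G (by omega)
  rw [hEr] at hdet hx
  have hxT : xf G ≤ ((triangles G).card : ℝ) := by
    unfold xf
    have : (0:ℝ) ≤ (numEdges G : ℝ) := Nat.cast_nonneg _
    linarith only [hEr]
  have hx2 := good_x s (V xf k G) (xf G) ((triangles G).card : ℝ) ((e1 : ℝ) - 3 * k) e1 hs0 he0
    (by linarith only [hs, hy1]) hT hxT hx
  have hfin := arith_final s ((e1 : ℝ) - 3 * k) (V xf k G) e1 l K1 L ((isoSet G).card : ℝ) (J G)
    hs hl (by linarith only [hK1]) hL hy1 hy2 hx2 he2 hB hJ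
  rw [← hL]
  exact final_div s L _ hL108 (VF_nonneg m G) (hfin.trans hdet)

end Vale.Agent.P046.LB
end
end

section

section

set_option autoImplicit false

open scoped Classical
open Finset

namespace Vale.Agent.P046.LB

/-- from a bound on the probability of a bad graph at level `≈ K1 s l` to the lower bound -/
lemma lower_of_bad (K' K1 η s l p : ℝ) (n : ℕ) (hη : η ≤ 1 / 10000) (hn : 0 < n)
    (hs2 : s ^ 2 = (n:ℝ) ^ 3)
    (hs : 300 ≤ s) (hl : 1 ≤ l) (hK1 : 2 ≤ K1) (hK' : 0 ≤ K') (hKK : 86 * K' ≤ K1)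
    (hp : p ≤ 1 / 2) (e1 k1 : ℕ) (hN : n.choose 2 = e1 + 3 * k1)
    (he1 : K1 * s * l ≤ e1) (he2 : (e1 : ℝ) ≤ 2 * K1 * s * l)
    (hbad : V (bad e1 η (K' * (n:ℝ) ^ 3 * l)) k1 (⊤ : SimpleGraph (Fin n)) ≤ p) :
    s / (400 * (10 ^ 9 * K1 ^ 5 * l ^ 5)) ≤
      expect (finalGraph n) (fun G => (numEdges G : ℝ)) := by
  have hs0 : 0 < s := by linarith only [hs]
  have hl0 : 0 < l := by linarith only [hl]
  have hK0 : 0 < K1 := by linarith only [hK1]
  obtain ⟨c, hc⟩ : ∃ c : ℝ, c = s / (200 * (10 ^ 9 * K1 ^ 5 * l ^ 5)) := ⟨_, rfl⟩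
  have hc0 : 0 ≤ c := by rw [hc]; positivity
  have h1 := lower_of_good c p hc0 e1 k1 (n.choose 2 - k1) η (K' * (n:ℝ) ^ 3 * l)
    (⊤ : SimpleGraph (Fin n)) (fun H hH => by
      rw [hc]
      exact good_lower K' K1 η s l hη hn hs2 hs hl hK1 hK' hKK H e1 _ hH he1 he2 (by omega)) hbad
  have e1' : k1 + (n.choose 2 - k1) = n.choose 2 := by omega
  rw [e1'] at h1
  have h2 : expect (finalGraph n) (fun G => (numEdges G : ℝ)) =
      V (fun H => (numEdges H : ℝ)) (n.choose 2) (⊤ : SimpleGraph (Fin n)) := rfl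
  rw [h2]
  have h3 : s / (400 * (10 ^ 9 * K1 ^ 5 * l ^ 5)) = c * (1 / 2) := by
    rw [hc]
    field_simp
    norm_num
  rw [h3]
  have h4 : c * (1 / 2) ≤ c * (1 - p) := mul_le_mul_of_nonneg_left (by linarith only [hp]) hc0
  exact h4.trans h1

/-- choice of the level -/
lemma exists_level (N : ℕ) (x : ℝ) (hx : 3 ≤ x) (hxN : x ≤ N) :
    ∃ e1 k1 : ℕ, N = e1 + 3 * k1 ∧ x ≤ e1 ∧ (e1 : ℝ) ≤ 2 * x := by
  have ha : ⌈x⌉₊ ≤ N := Nat.ceil_le.mpr hxN
  refine ⟨N - 3 * ((N - ⌈x⌉₊) / 3), (N - ⌈x⌉₊) / 3, by omega, ?_, ?_⟩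
  · have h1 : ⌈x⌉₊ ≤ N - 3 * ((N - ⌈x⌉₊) / 3) := by omega
    have h2 : ((⌈x⌉₊ : ℕ) : ℝ) ≤ ((N - 3 * ((N - ⌈x⌉₊) / 3) : ℕ) : ℝ) := by exact_mod_cast h1
    exact (Nat.le_ceil x).trans h2
  · have h1 : N - 3 * ((N - ⌈x⌉₊) / 3) ≤ ⌈x⌉₊ + 2 := by omega
    have h2 : ((N - 3 * ((N - ⌈x⌉₊) / 3) : ℕ) : ℝ) ≤ ((⌈x⌉₊ : ℕ) : ℝ) + 2 := by exact_mod_cast h1
    have h3 := Nat.ceil_lt_add_one (show 0 ≤ x by linarith only [hx])
    linarith only [hx, h2, h3]



end Vale.Agent.P046.LB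
end
end

section

/-!
The triangle hypergraph of a graph: degrees and neighbourhood averages.
-/

set_option autoImplicit false

open scoped Classical
open Finset

namespace Vale.Agent.P046.Lv

open Vale.Agent.P046 Vale.Agent.P046.C
open Vale.Agent.P046.K (Hyp hedge deg zd wd)

variable {n : ℕ}

lemma mem_hedge' (t : Finset (Fin n)) (x y : Fin n) :
    s(x, y) ∈ hedge t ↔ x ∈ t ∧ y ∈ t ∧ x ≠ y := by
  unfold hedge
  rw [Finset.mem_filter, Finset.mk_mem_sym2_iff, Sym2.mk_isDiag_iff]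
  tauto

lemma hedge_triple (u v w : Fin n) (huv : u ≠ v) (huw : u ≠ w) (hvw : v ≠ w) :
    hedge {u, v, w} = {s(u, v), s(u, w), s(v, w)} := by
  ext e
  induction e using Sym2.ind with
  | _ x y =>
    rw [mem_hedge']
    simp only [Finset.mem_insert, Finset.mem_singleton, Sym2.eq_iff]
    constructor
    · rintro ⟨h1, h2, h3⟩
      rcases h1 with h1 | h1 | h1 <;> rcases h2 with h2 | h2 | h2 <;> subst h1 <;> subst h2 <;> simp_all
    · rintro ((⟨h1, h2⟩ | ⟨h1, h2⟩) | (⟨h1, h2⟩ | ⟨h1, h2⟩) | (⟨h1, h2⟩ | ⟨h1, h2⟩)) <;>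
        subst h1 <;> subst h2 <;> simp_all [eq_comm]

lemma third' {t : Finset (Fin n)} (ht : t.card = 3) {x y : Fin n} (hx : x ∈ t) (hy : y ∈ t)
    (hxy : x ≠ y) : ∃ z, z ≠ x ∧ z ≠ y ∧ t = {x, y, z} := by
  have h1 : ((t.erase x).erase y).card = 1 := by
    rw [Finset.card_erase_of_mem (Finset.mem_erase.mpr ⟨hxy.symm, hy⟩),
      Finset.card_erase_of_mem hx, ht]
  obtain ⟨z, hz⟩ := Finset.card_eq_one.mp h1
  have hz1 : z ∈ (t.erase x).erase y := by rw [hz]; exact Finset.mem_singleton_self z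
  rw [Finset.mem_erase, Finset.mem_erase] at hz1
  refine ⟨z, hz1.2.1, hz1.1, ?_⟩
  ext w
  simp only [Finset.mem_insert, Finset.mem_singleton]
  constructor
  · intro hw
    by_cases hwx : w = x
    · exact Or.inl hwx
    · by_cases hwy : w = y
      · exact Or.inr (Or.inl hwy)
      · right; right
        have : w ∈ (t.erase x).erase y := by
          rw [Finset.mem_erase, Finset.mem_erase]
          exact ⟨hwy, hwx, hw⟩
        rw [hz] at this
        exact Finset.mem_singleton.mp this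
  · rintro (h | h | h)
    · rw [h]; exact hx
    · rw [h]; exact hy
    · rw [h]; exact hz1.2.2

lemma mem_tri (G : SimpleGraph (Fin n)) (u v w : Fin n) (huv : G.Adj u v) (huw : G.Adj u w)
    (hvw : G.Adj v w) : ({u, v, w} : Finset (Fin n)) ∈ triangles G := by
  unfold triangles
  rw [SimpleGraph.mem_cliqueFinset_iff, SimpleGraph.is3Clique_triple_iff]
  exact ⟨huv, huw, hvw⟩

/-- the hyperedges at an edge -/
lemma star_eq (G : SimpleGraph (Fin n)) (u v : Fin n) (huv : G.Adj u v) :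
    K.star (K.TH G) s(u, v) =
      (univ.filter fun w => G.Adj u w ∧ G.Adj v w).image (fun w => hedge {u, v, w}) := by
  ext h
  unfold K.star K.TH
  simp only [Finset.mem_filter, Finset.mem_image, Finset.mem_univ, true_and]
  constructor
  · rintro ⟨⟨t, ht, rfl⟩, h2⟩
    rw [mem_hedge'] at h2
    have h3 := ht
    unfold triangles at h3
    rw [SimpleGraph.mem_cliqueFinset_iff] at h3
    obtain ⟨z, hz1, hz2, hz3⟩ := third' h3.card_eq h2.1 h2.2.1 h2.2.2
    refine ⟨z, ?_, by rw [hz3]⟩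
    rw [hz3] at h3
    rw [SimpleGraph.is3Clique_triple_iff] at h3
    exact ⟨h3.2.1, h3.2.2⟩
  · rintro ⟨w, ⟨h1, h2⟩, rfl⟩
    refine ⟨⟨{u, v, w}, mem_tri G u v w huv h1 h2, rfl⟩, ?_⟩
    rw [mem_hedge']
    simp [huv.ne]

lemma hedge_inj (G : SimpleGraph (Fin n)) (u v : Fin n) :
    Set.InjOn (fun w => hedge ({u, v, w} : Finset (Fin n)))
      (univ.filter fun w => G.Adj u w ∧ G.Adj v w : Finset (Fin n)) := by
  intro w hw w' hw' h
  simp only [Finset.coe_filter, Finset.mem_univ, true_and, Set.mem_ofPred_eq] at hw hw'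
  have h1 : s(u, w) ∈ hedge ({u, v, w} : Finset (Fin n)) := by
    rw [mem_hedge']
    simp [hw.1.ne]
  simp only at h
  rw [h, mem_hedge'] at h1
  have h2 := h1.2.1
  simp only [Finset.mem_insert, Finset.mem_singleton] at h2
  rcases h2 with h2 | h2 | h2
  · exact absurd h2.symm hw.1.ne
  · exact absurd h2.symm hw.2.ne
  · exact h2

/-- sums over the hyperedges at an edge -/
lemma sum_star_TH (G : SimpleGraph (Fin n)) (u v : Fin n) (huv : G.Adj u v)
    (F : Finset (Sym2 (Fin n)) → ℝ) :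
    ∑ h ∈ K.star (K.TH G) s(u, v), F h =
      ∑ w, if G.Adj u w ∧ G.Adj v w then F (hedge {u, v, w}) else 0 := by
  rw [star_eq G u v huv, Finset.sum_image (hedge_inj G u v), Finset.sum_filter]

/-- degrees are codegrees -/
lemma deg_TH (G : SimpleGraph (Fin n)) (u v : Fin n) (huv : G.Adj u v) :
    deg (K.TH G) s(u, v) = codeg G u v := by
  unfold deg
  rw [star_eq G u v huv, Finset.card_image_of_injOn (hedge_inj G u v)]
  rfl

lemma zd_TH (G : SimpleGraph (Fin n)) (u v : Fin n) (huv : G.Adj u v) :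
    zd (K.TH G) (cc G) s(u, v) = zz G u v := by
  unfold zd zz rr cc
  rw [deg_TH G u v huv, div_div_eq_mul_div]

lemma sum_erase_triple {β : Type*} [DecidableEq β] (a b c : β) (h : Finset β) (hab : a ≠ b)
    (hac : a ≠ c) (hbc : b ≠ c) (hh : ∀ x, x ∈ h ↔ x = a ∨ x = b ∨ x = c) (φ : β → ℝ) :
    ∑ x ∈ h.erase a, φ x = φ b + φ c := by
  have h1 : h.erase a = {b, c} := by
    ext x
    rw [Finset.mem_erase, hh]
    simp only [Finset.mem_insert, Finset.mem_singleton]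
    constructor
    · rintro ⟨h1, h2⟩
      rcases h2 with h2 | h2
      · exact absurd h2 h1
      · exact h2
    · intro h2
      refine ⟨?_, Or.inr h2⟩
      rcases h2 with h2 | h2
      · rw [h2]; exact hab.symm
      · rw [h2]; exact hac.symm
  rw [h1, Finset.sum_pair hbc]

lemma sym2_ne1 (u v w : Fin n) (h : v ≠ w) : s(u, v) ≠ s(u, w) := by
  intro h1
  rw [Sym2.eq_iff] at h1
  rcases h1 with h1 | h1
  · exact h h1.2
  · exact h (h1.2.trans h1.1)

lemma wd_TH (G : SimpleGraph (Fin n)) (u v : Fin n) (huv : G.Adj u v) :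
    wd (K.TH G) (cc G) s(u, v) = ww G u v := by
  unfold wd ww
  rw [sum_star_TH G u v huv]
  congr 1
  refine Finset.sum_congr rfl fun w _ => ?_
  by_cases h : G.Adj u w ∧ G.Adj v w
  · rw [if_pos h, if_pos h, @sum_erase_triple _ (fun a b => Classical.propDecidable (a = b))
      s(u, v) s(u, w) s(v, w) (hedge {u, v, w})
      (sym2_ne1 u v w h.2.ne)
      (by rw [Sym2.eq_swap (a := u)]; exact sym2_ne1 v u w h.1.ne)
      (by rw [Sym2.eq_swap (a := u), Sym2.eq_swap (a := v)]; exact sym2_ne1 w u v huv.ne)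
      (fun x => by
        rw [hedge_triple u v w huv.ne h.1.ne h.2.ne]
        simp only [Finset.mem_insert, Finset.mem_singleton]),
      zd_TH G u w h.1, zd_TH G v w h.2]
  · rw [if_neg h, if_neg h]

/-- sums over ordered pairs -/
lemma edgeSum_eq (G : SimpleGraph (Fin n)) (φ : Sym2 (Fin n) → ℝ) :
    edgeSum G (fun u v => φ s(u, v)) = 2 * ∑ e ∈ G.edgeFinset, φ e := by
  have h1 : edgeSum G (fun u v => φ s(u, v)) =
      ∑ p ∈ univ.filter (fun p : Fin n × Fin n => G.Adj p.1 p.2), φ s(p.1, p.2) := by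
    unfold edgeSum
    rw [Finset.sum_filter, ← Finset.univ_product_univ, Finset.sum_product]
  rw [h1, ← Finset.sum_fiberwise_of_maps_to (s := univ.filter (fun p : Fin n × Fin n => G.Adj p.1 p.2))
    (t := G.edgeFinset) (g := fun p => s(p.1, p.2)) (by
      intro p hp
      rw [SimpleGraph.mem_edgeFinset, SimpleGraph.mem_edgeSet]
      exact (Finset.mem_filter.mp hp).2), Finset.mul_sum]
  refine Finset.sum_congr rfl fun e he => ?_
  rw [SimpleGraph.mem_edgeFinset] at he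
  induction e using Sym2.ind with
  | _ a b =>
    rw [SimpleGraph.mem_edgeSet] at he
    have h2 : ((univ.filter (fun p : Fin n × Fin n => G.Adj p.1 p.2)).filter
        fun p => s(p.1, p.2) = s(a, b)) = {(a, b), (b, a)} := by
      ext p
      simp only [Finset.mem_filter, Finset.mem_univ, true_and, Sym2.eq_iff, Finset.mem_insert,
        Finset.mem_singleton, Prod.ext_iff]
      constructor
      · rintro ⟨_, h⟩
        exact h
      · intro h
        refine ⟨?_, h⟩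
        rcases h with h | h
        · rw [h.1, h.2]; exact he
        · rw [h.1, h.2]; exact he.symm
    rw [h2, Finset.sum_pair (by simp [Prod.ext_iff, he.ne]), Sym2.eq_swap (a := b) (b := a)]
    ring

/-- the triangle hypergraph is a linear 3-uniform hypergraph on the edge set -/
lemma hyp_TH (G : SimpleGraph (Fin n)) : Hyp G.edgeFinset (K.TH G) where
  sub := by
    intro h hh
    unfold K.TH at hh
    rw [Finset.mem_image] at hh
    obtain ⟨t, ht, rfl⟩ := hh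
    unfold triangles at ht
    rw [SimpleGraph.mem_cliqueFinset_iff] at ht
    intro e
    induction e using Sym2.ind with
    | _ a b =>
      intro he
      rw [mem_hedge'] at he
      rw [SimpleGraph.mem_edgeFinset, SimpleGraph.mem_edgeSet]
      exact ht.isClique he.1 he.2.1 he.2.2
  card := by
    intro h hh
    unfold K.TH at hh
    rw [Finset.mem_image] at hh
    obtain ⟨t, ht, rfl⟩ := hh
    unfold triangles at ht
    rw [SimpleGraph.mem_cliqueFinset_iff, SimpleGraph.is3Clique_iff] at ht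
    obtain ⟨a, b, c, hab, hac, hbc, rfl⟩ := ht
    rw [hedge_triple a b c hab.ne hac.ne hbc.ne]
    rw [Finset.card_eq_three]
    have h1 := hab.ne
    have h2 := hac.ne
    have h3 := hbc.ne
    refine ⟨s(a, b), s(a, c), s(b, c), ?_, ?_, ?_, rfl⟩ <;>
      · simp only [ne_eq, Sym2.eq_iff, not_or]
        constructor <;> simp_all
  lin := by
    intro h hh h' hh' hne
    unfold K.TH at hh hh'
    rw [Finset.mem_image] at hh hh'
    obtain ⟨t, ht, rfl⟩ := hh
    obtain ⟨t', ht', rfl⟩ := hh'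
    unfold triangles at ht ht'
    rw [SimpleGraph.mem_cliqueFinset_iff] at ht ht'
    by_contra hcon
    push Not at hcon
    have h2 : 1 < (hedge (t ∩ t')).card := by
      refine lt_of_lt_of_le hcon (Finset.card_le_card ?_)
      intro e
      induction e using Sym2.ind with
      | _ a b =>
        intro he
        have he := (@Finset.mem_inter _ (fun a b => Classical.propDecidable (a = b)) _ _ _).mp he
        rw [mem_hedge', mem_hedge'] at he
        rw [mem_hedge', Finset.mem_inter, Finset.mem_inter]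
        exact ⟨⟨he.1.1, he.2.1⟩, ⟨he.1.2.1, he.2.2.1⟩, he.1.2.2⟩
    have h3 : (t ∩ t').card ≤ 2 := by
      by_contra h4
      push Not at h4
      have h5 : t ∩ t' = t := Finset.eq_of_subset_of_card_le Finset.inter_subset_left
        (by rw [ht.card_eq]; omega)
      have h6 : t ∩ t' = t' := Finset.eq_of_subset_of_card_le Finset.inter_subset_right
        (by rw [ht'.card_eq]; omega)
      exact hne (by rw [← h5, h6])
    have h7 : (hedge (t ∩ t')).card ≤ 1 := by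
      rw [Finset.card_le_one]
      intro e he e' he'
      induction e using Sym2.ind with
      | _ a b =>
        induction e' using Sym2.ind with
        | _ a' b' =>
          rw [mem_hedge'] at he he'
          have h8 : ({a, b} : Finset (Fin n)) = t ∩ t' := by
            apply Finset.eq_of_subset_of_card_le
            · intro x hx
              simp only [Finset.mem_insert, Finset.mem_singleton] at hx
              rcases hx with hx | hx
              · rw [hx]; exact he.1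
              · rw [hx]; exact he.2.1
            · rw [Finset.card_pair he.2.2]; exact h3
          have ha : a' ∈ ({a, b} : Finset (Fin n)) := by rw [h8]; exact he'.1
          have hb : b' ∈ ({a, b} : Finset (Fin n)) := by rw [h8]; exact he'.2.1
          simp only [Finset.mem_insert, Finset.mem_singleton] at ha hb
          have h9 := he'.2.2
          rw [Sym2.eq_iff]
          rcases ha with ha | ha <;> rcases hb with hb | hb
          · exact absurd (ha.trans hb.symm) h9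
          · left; exact ⟨ha.symm, hb.symm⟩
          · right; exact ⟨hb.symm, ha.symm⟩
          · exact absurd (ha.trans hb.symm) h9
    omega

end Vale.Agent.P046.Lv
end

section

/-!
Energy method, part 1: the three variable inequality and the estimate for one hyperedge.
-/

set_option autoImplicit false

open scoped Classical
open Finset

namespace Vale.Agent.P046.K

/-- two variable case of the key inequality -/
lemma key2 (x c : ℝ) (hx : 0 ≤ x) (hc : 0 ≤ c) :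
    0 ≤ 2 * x ^ 2 + c ^ 2 - 8 * x - 4 * c + 9 + 2 * x ^ 2 * c * (2 * x + c - 3) := by
  rcases le_total x 2 with h | h
  · have h1 : 0 ≤ -((x - 1) ^ 2 * (4 * x ^ 4 - 4 * x ^ 3 - 7 * x ^ 2 - 2 * x - 5)) := by
      have : 4 * x ^ 4 - 4 * x ^ 3 - 7 * x ^ 2 - 2 * x - 5 ≤ 0 := by
        have e : 4 * x ^ 4 - 4 * x ^ 3 - 7 * x ^ 2 - 2 * x - 5 =
          (x - 2) * (4 * x ^ 3 + 4 * x ^ 2 + x) - 5 := by ring
        rw [e]
        have : 0 ≤ 4 * x ^ 3 + 4 * x ^ 2 + x := by (clear * - hx; positivity)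
        nlinarith only [h, this]
      nlinarith only [this]
    have h2 : 0 ≤ (1 + 2 * x ^ 2) *
        (2 * x ^ 2 + c ^ 2 - 8 * x - 4 * c + 9 + 2 * x ^ 2 * c * (2 * x + c - 3)) := by
      have e : (1 + 2 * x ^ 2) *
        (2 * x ^ 2 + c ^ 2 - 8 * x - 4 * c + 9 + 2 * x ^ 2 * c * (2 * x + c - 3)) =
        ((1 + 2 * x ^ 2) * c + (2 * x ^ 3 - 3 * x ^ 2 - 2)) ^ 2 +
          -((x - 1) ^ 2 * (4 * x ^ 4 - 4 * x ^ 3 - 7 * x ^ 2 - 2 * x - 5)) := by ring
      rw [e]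
      (clear * - h1; positivity)
    exact nonneg_of_mul_nonneg_right h2 (by positivity)
  · have h1 : 0 ≤ x ^ 2 * (2 * x - 3) - 2 := by nlinarith only [h, hx]
    have e : 2 * x ^ 2 + c ^ 2 - 8 * x - 4 * c + 9 + 2 * x ^ 2 * c * (2 * x + c - 3) =
      (1 + 2 * x ^ 2) * c ^ 2 + 2 * c * (x ^ 2 * (2 * x - 3) - 2) + (2 * (x - 2) ^ 2 + 1) := by ring
    rw [e]
    positivity

/-- the key inequality -/
lemma key (a b c : ℝ) (ha : 0 ≤ a) (hb : 0 ≤ b) (hc : 0 ≤ c) :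
    (a ^ 2 - 1) + (b ^ 2 - 1) + (c ^ 2 - 1) - 2 * (a * b * c) * (a + b + c - 3) ≤
      2 * ((a - 1) ^ 2 + (b - 1) ^ 2 + (c - 1) ^ 2) := by
  have h2 := key2 ((a + b) / 2) c (by positivity) hc
  rcases le_total 0 (-1 + c * (a + b + c - 3)) with h | h
  · linarith only [ha, hb, h, sq_nonneg (a + b - 2), sq_nonneg (c - 2), mul_nonneg (mul_nonneg ha hb) h]
  · linarith only [h2, h, mul_nonneg (sq_nonneg (a - b)) (neg_nonneg.mpr h)]

lemma amgm3 (a b c : ℝ) (ha : 0 ≤ a) (hb : 0 ≤ b) (hc : 0 ≤ c) (h : a + b + c ≤ 3) :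
    a * b * c ≤ 1 := by
  have h1 : 27 * (a * b * c) ≤ (a + b + c) ^ 3 := by
    linarith only [ha, hb, hc, mul_nonneg ha (sq_nonneg (b - c)), mul_nonneg hb (sq_nonneg (a - c)), mul_nonneg hc (sq_nonneg (a - b)), mul_nonneg ha (sq_nonneg (a - b)), mul_nonneg ha (sq_nonneg (a - c)), mul_nonneg hb (sq_nonneg (b - a)), mul_nonneg hb (sq_nonneg (b - c)), mul_nonneg hc (sq_nonneg (c - a)), mul_nonneg hc (sq_nonneg (c - b))]
  have h2 : (a + b + c) ^ 3 ≤ 3 ^ 3 := pow_le_pow_left₀ (by positivity) h 3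
  linarith

/-- estimate for one hyperedge, three real variables -/
lemma est3 (a b c κ c1 c2 ξ B : ℝ) (ha : 0 ≤ a) (hb : 0 ≤ b) (hc : 0 ≤ c) (haB : a ≤ B)
    (hbB : b ≤ B) (hcB : c ≤ B) (hc1 : 0 ≤ c1) (hc2 : 0 ≤ c2) (hξ : 0 ≤ ξ)
    (h1 : 1 - ξ ≤ κ) (h2 : κ ≤ 1 + (c1 + c2)) :
    -2 * κ * (a * b * c) * (a + b + c - 3) ≤
      2 * ((a - 1) ^ 2 + (b - 1) ^ 2 + (c - 1) ^ 2) - ((a ^ 2 - 1) + (b ^ 2 - 1) + (c ^ 2 - 1)) +
      2 * c1 * (|a - 1| + |b - 1| + |c - 1|) + 6 * c2 + 6 * ξ * B ^ 4 := by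
  have hk := key a b c ha hb hc
  have hB : 0 ≤ B := ha.trans haB
  have hY : 0 ≤ a * b * c := by positivity
  have hs1 : 0 ≤ |a - 1| + |b - 1| + |c - 1| := by (clear * -; positivity)
  have hs2 : 3 - (a + b + c) ≤ |a - 1| + |b - 1| + |c - 1| := by
    have := neg_abs_le (a - 1)
    have := neg_abs_le (b - 1)
    have := neg_abs_le (c - 1)
    linarith
  suffices hS : -2 * (κ - 1) * (a * b * c) * (a + b + c - 3) ≤
      2 * c1 * (|a - 1| + |b - 1| + |c - 1|) + 6 * c2 + 6 * ξ * B ^ 4 by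
    have e : -2 * κ * (a * b * c) * (a + b + c - 3) =
      -2 * (a * b * c) * (a + b + c - 3) + -2 * (κ - 1) * (a * b * c) * (a + b + c - 3) := by ring
    rw [e]
    linarith only [hk, hS]
  have t1 : 0 ≤ 2 * c1 * (|a - 1| + |b - 1| + |c - 1|) := by (clear * - hc1; positivity)
  have t3 : 0 ≤ 6 * ξ * B ^ 4 := by positivity
  rcases le_total (a + b + c) 3 with h | h
  · have hY1 := amgm3 a b c ha hb hc h
    obtain ⟨Y, hYd⟩ : ∃ Y, Y = a * b * c := ⟨_, rfl⟩
    obtain ⟨s, hsd⟩ : ∃ s, s = 3 - (a + b + c) := ⟨_, rfl⟩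
    obtain ⟨m, hm⟩ : ∃ m, m = |a - 1| + |b - 1| + |c - 1| := ⟨_, rfl⟩
    have e : -2 * (κ - 1) * (a * b * c) * (a + b + c - 3) = 2 * (κ - 1) * (Y * s) := by
      rw [hYd, hsd]; ring
    rw [e, ← hm]
    rw [← hm] at hs2 hs1 t1
    rw [← hYd] at hY hY1
    rw [← hsd] at hs2
    have hs0 : 0 ≤ s := by rw [hsd]; linarith only [h]
    have hs3 : s ≤ 3 := by rw [hsd]; linarith only [ha, hb, hc]
    have hYs : 0 ≤ Y * s := by (clear * - hY hs0; positivity)
    have hYs1 : Y * s ≤ m := by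
      calc Y * s ≤ 1 * s := mul_le_mul_of_nonneg_right hY1 hs0
        _ ≤ m := by linarith only [hs2]
    have hYs3 : Y * s ≤ 3 := by
      calc Y * s ≤ 1 * s := mul_le_mul_of_nonneg_right hY1 hs0
        _ ≤ 3 := by linarith only [ha, hb, hc, hsd]
    have q1 : 2 * (κ - 1) * (Y * s) ≤ 2 * (c1 + c2) * (Y * s) :=
      mul_le_mul_of_nonneg_right (by linarith only [h2]) hYs
    have q2 : 2 * c1 * (Y * s) ≤ 2 * c1 * m := mul_le_mul_of_nonneg_left hYs1 (by (clear * - hc1; positivity))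
    have q3 : 2 * c2 * (Y * s) ≤ 2 * c2 * 3 := mul_le_mul_of_nonneg_left hYs3 (by positivity)
    linarith only [t3, q1, q2, q3]
  · have hY1 : a * b * c * (a + b + c - 3) ≤ 3 * B ^ 4 := by
      have e1 : a * b * c ≤ B * B * B := by gcongr
      have e2 : a + b + c - 3 ≤ 3 * B := by linarith
      calc a * b * c * (a + b + c - 3) ≤ (B * B * B) * (3 * B) :=
            mul_le_mul e1 e2 (by linarith) (by positivity)
        _ = 3 * B ^ 4 := by ring
    have hY0 : 0 ≤ a * b * c * (a + b + c - 3) := mul_nonneg hY (by linarith)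
    have q1 : -2 * (κ - 1) * (a * b * c) * (a + b + c - 3) ≤
        2 * ξ * (a * b * c * (a + b + c - 3)) := by
      have : (2 * ξ + 2 * (κ - 1)) * (a * b * c * (a + b + c - 3)) ≥ 0 :=
        mul_nonneg (by linarith) hY0
      linarith only [this]
    have q2 : 2 * ξ * (a * b * c * (a + b + c - 3)) ≤ 2 * ξ * (3 * B ^ 4) :=
      mul_le_mul_of_nonneg_left hY1 (by positivity)
    linarith

variable {α : Type*}

/-- estimate for one hyperedge -/
lemma est_h (h : Finset α) (hc : h.card = 3) (y : α → ℝ) (κ c1 c2 ξ B : ℝ)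
    (hy : ∀ i ∈ h, 0 ≤ y i) (hB : ∀ i ∈ h, y i ≤ B) (hc1 : 0 ≤ c1) (hc2 : 0 ≤ c2) (hξ : 0 ≤ ξ)
    (h1 : 1 - ξ ≤ κ) (h2 : κ ≤ 1 + (c1 + c2)) :
    -2 * κ * (∏ i ∈ h, y i) * ((∑ i ∈ h, y i) - 3) ≤
      ∑ i ∈ h, (2 * (y i - 1) ^ 2 - (y i ^ 2 - 1) + 2 * c1 * |y i - 1| + 2 * c2 + 2 * ξ * B ^ 4) := by
  obtain ⟨a, b, c, hab, hac, hbc, rfl⟩ := Finset.card_eq_three.mp hc
  have e1 : ∀ f : α → ℝ, ∑ i ∈ ({a, b, c} : Finset α), f i = f a + f b + f c := by
    intro f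
    rw [Finset.sum_insert (by simp [hab, hac]), Finset.sum_insert (by simp [hbc]),
      Finset.sum_singleton]
    ring
  have e2 : ∏ i ∈ ({a, b, c} : Finset α), y i = y a * y b * y c := by
    rw [Finset.prod_insert (by simp [hab, hac]), Finset.prod_insert (by simp [hbc]),
      Finset.prod_singleton]
    ring
  rw [e1, e2, e1]
  have := est3 (y a) (y b) (y c) κ c1 c2 ξ B (hy a (by simp)) (hy b (by simp)) (hy c (by simp))
    (hB a (by simp)) (hB b (by simp)) (hB c (by simp)) hc1 hc2 hξ h1 h2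
  refine this.trans (le_of_eq ?_)
  ring

/-- double counting -/
lemma swap (V : Finset α) (H : Finset (Finset α)) (hV : ∀ h ∈ H, h ⊆ V)
    (F : Finset α → α → ℝ) :
    ∑ h ∈ H, ∑ i ∈ h, F h i = ∑ i ∈ V, ∑ h ∈ star H i, F h i := by
  have e1 : ∀ h ∈ H, ∑ i ∈ h, F h i = ∑ i ∈ V, if i ∈ h then F h i else 0 := by
    intro h hh
    rw [← Finset.sum_filter]
    congr 1
    ext i
    simp only [Finset.mem_filter]
    exact ⟨fun hi => ⟨hV h hh hi, hi⟩, fun hi => hi.2⟩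
  rw [Finset.sum_congr rfl e1, Finset.sum_comm]
  refine Finset.sum_congr rfl fun i _ => ?_
  unfold star
  rw [Finset.sum_filter]

end Vale.Agent.P046.K
end

section

/-!
Energy method, part 2: the static inequality (fixed time).
-/

set_option autoImplicit false

open scoped Classical
open Finset

namespace Vale.Agent.P046.K

variable {α : Type*}

/-- clipped degree deviation -/
noncomputable def zh (H : Finset (Finset α)) (D k : ℝ) (v : α) : ℝ :=
  max (-k) (min k (zd H D v))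

/-- reference profile -/
noncomputable def qh (H : Finset (Finset α)) (D k σ : ℝ) (v : α) : ℝ :=
  Real.exp (-(1 + zh H D k v) * σ)

/-- weight of a hyperedge -/
noncomputable def Ph (H : Finset (Finset α)) (D k σ : ℝ) (h : Finset α) : ℝ :=
  Real.exp (-σ) * Real.exp (-(σ * ∑ i ∈ h, zh H D k i)) / D

/-- weighted degree -/
noncomputable def Rh (H : Finset (Finset α)) (D k σ : ℝ) (v : α) : ℝ :=
  (∑ h ∈ star H v, Real.exp (-(σ * ∑ u ∈ h.erase v, zh H D k u))) / D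

lemma abs_zh (H : Finset (Finset α)) (D k : ℝ) (hk : 0 ≤ k) (v : α) : |zh H D k v| ≤ k := by
  unfold zh
  rw [abs_le]
  constructor
  · exact le_max_left _ _
  · exact max_le (by linarith) (min_le_left _ _)

lemma zh_eq (H : Finset (Finset α)) (D k : ℝ) (v : α) (h : |zd H D v| ≤ k) :
    zh H D k v = zd H D v := by
  unfold zh
  rw [abs_le] at h
  rw [min_eq_right h.2, max_eq_right h.1]

lemma qh_pos (H : Finset (Finset α)) (D k σ : ℝ) (v : α) : 0 < qh H D k σ v := Real.exp_pos _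

lemma Ph_pos (H : Finset (Finset α)) (D k σ : ℝ) (hD : 0 < D) (h : Finset α) :
    0 < Ph H D k σ h := by
  unfold Ph; positivity

lemma Ph_eq (H : Finset (Finset α)) (D k σ : ℝ) (h : Finset α) (i : α) (hi : i ∈ h) :
    Ph H D k σ h = qh H D k σ i * (Real.exp (-(σ * ∑ u ∈ h.erase i, zh H D k u)) / D) := by
  unfold Ph qh
  rw [← Finset.add_sum_erase h _ hi, ← mul_div_assoc, ← Real.exp_add, ← Real.exp_add]
  congr 2
  ring

lemma sum_Ph (V : Finset α) (H : Finset (Finset α)) (hV : ∀ h ∈ H, h ⊆ V) (D k σ : ℝ)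
    (f : α → ℝ) :
    ∑ h ∈ H, Ph H D k σ h * ∑ i ∈ h, f i = ∑ i ∈ V, qh H D k σ i * (Rh H D k σ i * f i) := by
  have e1 : ∀ h ∈ H, Ph H D k σ h * ∑ i ∈ h, f i =
      ∑ i ∈ h, qh H D k σ i * (Real.exp (-(σ * ∑ u ∈ h.erase i, zh H D k u)) / D) * f i := by
    intro h _
    rw [Finset.mul_sum]
    refine Finset.sum_congr rfl fun i hi => ?_
    rw [Ph_eq H D k σ h i hi]
  rw [Finset.sum_congr rfl e1, swap V H hV]
  refine Finset.sum_congr rfl fun i _ => ?_
  unfold Rh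
  rw [Finset.sum_div, Finset.sum_mul, Finset.mul_sum]
  refine Finset.sum_congr rfl fun h _ => ?_
  ring

/-- normalised degree is `1 + zd` -/
lemma deg_div (H : Finset (Finset α)) (D : ℝ) (v : α) :
    ((star H v).card : ℝ) / D = 1 + zd H D v := by
  unfold zd deg; ring

lemma abs_sum_zh (H : Finset (Finset α)) (D k : ℝ) (hk : 0 ≤ k) (h : Finset α) (hc : h.card = 3)
    (v : α) (hv : v ∈ h) : |∑ u ∈ h.erase v, zh H D k u| ≤ 2 * k := by
  refine (Finset.abs_sum_le_sum_abs _ _).trans ?_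
  calc ∑ u ∈ h.erase v, |zh H D k u| ≤ ∑ _u ∈ h.erase v, k :=
        Finset.sum_le_sum fun u _ => abs_zh H D k hk u
    _ = 2 * k := by
        rw [Finset.sum_const, Finset.card_erase_of_mem hv, hc]
        simp

lemma exp_small (x : ℝ) (hx : |x| ≤ 1 / 50) : |Real.exp x - 1| ≤ 203 / 10000 := by
  have h1 := Real.abs_exp_sub_one_sub_id_le (x := x) (by linarith)
  have h2 : |x| ^ 2 ≤ (1 / 50) ^ 2 := pow_le_pow_left₀ (abs_nonneg x) hx 2
  have h3 : x ^ 2 ≤ (1 / 50) ^ 2 := by rw [← sq_abs]; exact h2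
  have h4 : |Real.exp x - 1| ≤ |Real.exp x - 1 - x| + |x| := by
    have := abs_add_le (Real.exp x - 1 - x) x
    simpa using this
  -- refine the quadratic error
  have h5 : |Real.exp x - 1 - x| ≤ 3 / 10000 + 1 / 10000 := h1.trans (by linarith)
  have h6 : Real.exp x ≤ 1 + 203 / 10000 := by
    have : Real.exp x ≤ Real.exp (1 / 50) := Real.exp_le_exp.mpr ((le_abs_self x).trans hx)
    refine this.trans ?_
    have h7 := Real.exp_bound' (x := 1 / 50) (n := 3) (by norm_num) (by norm_num) (by norm_num)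
    refine h7.trans ?_
    norm_num [Finset.sum_range_succ, Nat.factorial]
  have h8 : 1 - 203 / 10000 ≤ Real.exp x := by
    have : 1 + x ≤ Real.exp x := by linarith [Real.add_one_le_exp x]
    have := (abs_le.mp hx).1
    linarith
  rw [abs_le]
  constructor <;> linarith

lemma Rh_bounds (H : Finset (Finset α)) (hcard : ∀ h ∈ H, h.card = 3) (D k σ : ℝ) (hD : 0 < D)
    (hk : 0 ≤ k) (hσ : 0 ≤ σ) (hkσ : k * σ ≤ 1 / 100) (v : α) :
    0 ≤ Rh H D k σ v ∧ Rh H D k σ v ≤ (10203 / 10000) * (1 + zd H D v) ∧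
      |1 + zd H D v - Rh H D k σ v| ≤ (203 / 10000) * (1 + zd H D v) := by
  have hmem : ∀ h ∈ star H v, h ∈ H ∧ v ∈ h := by
    intro h hh
    unfold star at hh
    exact Finset.mem_filter.mp hh
  have hx : ∀ h ∈ star H v, |Real.exp (-(σ * ∑ u ∈ h.erase v, zh H D k u)) - 1| ≤ 203 / 10000 := by
    intro h hh
    apply exp_small
    rw [abs_neg, abs_mul, abs_of_nonneg hσ]
    have h1 := abs_sum_zh H D k hk h (hcard h (hmem h hh).1) v (hmem h hh).2
    calc σ * |∑ u ∈ h.erase v, zh H D k u| ≤ σ * (2 * k) := mul_le_mul_of_nonneg_left h1 hσ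
      _ ≤ 1 / 50 := by linarith only [hkσ]
  have hdeg := deg_div H D v
  have hdiff : |1 + zd H D v - Rh H D k σ v| ≤ (203 / 10000) * (1 + zd H D v) := by
    rw [← hdeg]
    unfold Rh
    rw [← sub_div, abs_div, abs_of_pos hD, ← mul_div_assoc]
    apply div_le_div_of_nonneg_right _ hD.le
    have e1 : ((star H v).card : ℝ) - ∑ h ∈ star H v, Real.exp (-(σ * ∑ u ∈ h.erase v, zh H D k u)) =
        ∑ h ∈ star H v, (1 - Real.exp (-(σ * ∑ u ∈ h.erase v, zh H D k u))) := by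
      rw [Finset.sum_sub_distrib]; simp only [sum_const, nsmul_eq_mul, mul_one]
    rw [e1]
    refine (Finset.abs_sum_le_sum_abs _ _).trans ?_
    calc ∑ h ∈ star H v, |1 - Real.exp (-(σ * ∑ u ∈ h.erase v, zh H D k u))|
        ≤ ∑ _h ∈ star H v, (203 / 10000 : ℝ) := by
          refine Finset.sum_le_sum fun h hh => ?_
          rw [abs_sub_comm]
          exact hx h hh
      _ = (203 / 10000) * ((star H v).card : ℝ) := by
          rw [Finset.sum_const, nsmul_eq_mul]; ring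
  refine ⟨?_, ?_, hdiff⟩
  · unfold Rh; (clear * - hD; positivity)
  · have := (abs_le.mp hdiff).1
    have h0 : 0 ≤ 1 + zd H D v := by rw [← hdeg]; (clear * - hD; positivity)
    linarith

/-- regular vertex -/
lemma vert_reg (y R g c1 W X : ℝ) (_hy : 0 ≤ y) (_hR0 : 0 ≤ R) (hR : R ≤ 104 / 100)
    (hg : |g| ≤ 21 / 1000) (hc1 : 0 ≤ c1) (hW : 0 ≤ W) (hX : 0 ≤ X) :
    R * (2 * (y - 1) ^ 2 - (y ^ 2 - 1) + 2 * c1 * |y - 1| + 6 * W + 2 * X) + (R + g) * (y ^ 2 - 1) ≤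
      (214 / 100) * (y - 1) ^ 2 + (100 * g ^ 2 + 120 * c1 ^ 2 + 7 * W + 3 * X) := by
  obtain ⟨a, ha⟩ : ∃ a, a = |y - 1| := ⟨_, rfl⟩
  have ha0 : 0 ≤ a := by rw [ha]; exact abs_nonneg _
  have ha2 : a ^ 2 = (y - 1) ^ 2 := by rw [ha, sq_abs]
  have hga : g * (y - 1) ≤ |g| * a := by
    rw [ha, ← abs_mul]; exact le_abs_self _
  have hg2 : |g| ^ 2 = g ^ 2 := sq_abs g
  have hg0 := abs_nonneg g
  rw [← ha]
  have q1 : 2 * (|g| * a) ≤ (1 / 100) * a ^ 2 + 100 * g ^ 2 := by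
    rw [← hg2]
    linarith only [sq_nonneg (a / 10 - 10 * |g|)]
  have q2 : R * (2 * c1 * a) ≤ (1 / 100) * a ^ 2 + 120 * c1 ^ 2 := by
    have h1 : R * (2 * c1 * a) ≤ (104 / 100) * (2 * c1 * a) :=
      mul_le_mul_of_nonneg_right hR (by (clear * - hc1 ha0; positivity))
    nlinarith only [h1, sq_nonneg (a / 10 - (104 / 10) * c1)]
  have q3 : g * (y ^ 2 - 1) ≤ (21 / 1000) * a ^ 2 + ((1 / 100) * a ^ 2 + 100 * g ^ 2) := by
    have e : g * (y ^ 2 - 1) = g * (y - 1) ^ 2 + 2 * (g * (y - 1)) := by ring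
    rw [e, ← ha2]
    have h1 : g * a ^ 2 ≤ (21 / 1000) * a ^ 2 :=
      mul_le_mul_of_nonneg_right ((le_abs_self g).trans hg) (sq_nonneg a)
    linarith only [hga, q1, h1]
  have q4 : R * (2 * (y - 1) ^ 2) ≤ (208 / 100) * a ^ 2 := by
    rw [← ha2]
    have : R * (2 * a ^ 2) ≤ (104 / 100) * (2 * a ^ 2) :=
      mul_le_mul_of_nonneg_right hR (by (clear * -; positivity))
    linarith only [this]
  have q5 : R * (6 * W) ≤ 7 * W := by nlinarith only [hW, hR]
  have q6 : R * (2 * X) ≤ 3 * X := by nlinarith only [hX, hR]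
  rw [← ha2]
  rw [← ha2] at q4
  have e : R * (2 * a ^ 2 - (y ^ 2 - 1) + 2 * c1 * a + 6 * W + 2 * X) + (R + g) * (y ^ 2 - 1) =
      R * (2 * a ^ 2) + R * (2 * c1 * a) + R * (6 * W) + R * (2 * X) + g * (y ^ 2 - 1) := by ring
  rw [e]
  have := sq_nonneg a
  linarith

/-- irregular vertex -/
lemma vert_irr (y R r z Q c1 W X E : ℝ) (hy : 0 ≤ y) (hR0 : 0 ≤ R) (hr : 0 ≤ r)
    (hR : R ≤ (103 / 100) * r) (hz : |z| ≤ 1 / 100) (hQ : 0 < Q) (hQ1 : Q ≤ 1)
    (_hc1 : 0 ≤ c1) (hc1' : c1 ≤ 1) (hW : 0 ≤ W) (_hX : 0 ≤ X) (hX1 : X ≤ 1) (hE : 1 ≤ E)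
    (hQy : Q * y ^ 2 ≤ E) (hQW : Q * W ≤ E) :
    Q * (R * (2 * (y - 1) ^ 2 - (y ^ 2 - 1) + 2 * c1 * |y - 1| + 6 * W + 2 * X) +
      (1 + z) * (y ^ 2 - 1)) ≤ 25 * E * (1 + r) := by
  have h1 : |y - 1| ≤ y + 1 := by
    rw [abs_le]; constructor <;> linarith only [hy]
  have h2 : 2 * c1 * |y - 1| ≤ y ^ 2 + 3 := by
    have : 2 * c1 * |y - 1| ≤ 2 * 1 * (y + 1) := by
      apply mul_le_mul (by linarith only [hc1']) h1 (abs_nonneg _) (by norm_num)
    linarith only [this, sq_nonneg (y - 1)]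
  obtain ⟨br, hbr⟩ : ∃ br, br = 2 * (y - 1) ^ 2 - (y ^ 2 - 1) + 2 * c1 * |y - 1| + 6 * W + 2 * X :=
    ⟨_, rfl⟩
  have h3 : br ≤ 2 * y ^ 2 + 8 + 6 * W := by
    rw [hbr]; linarith only [hy, hX1, h2]
  rw [← hbr]
  have h4 : R * br ≤ (103 / 100) * r * (2 * y ^ 2 + 8 + 6 * W) := by
    have h5 : R * br ≤ R * (2 * y ^ 2 + 8 + 6 * W) := mul_le_mul_of_nonneg_left h3 hR0
    have h6 : R * (2 * y ^ 2 + 8 + 6 * W) ≤ (103 / 100) * r * (2 * y ^ 2 + 8 + 6 * W) :=
      mul_le_mul_of_nonneg_right hR (by (clear * - hW; positivity))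
    linarith
  have hz' := abs_le.mp hz
  have h7 : (1 + z) * (y ^ 2 - 1) ≤ (101 / 100) * y ^ 2 := by
    nlinarith only [hz']
  have h8 : Q * (R * br + (1 + z) * (y ^ 2 - 1)) ≤
      Q * ((103 / 100) * r * (2 * y ^ 2 + 8 + 6 * W) + (101 / 100) * y ^ 2) :=
    mul_le_mul_of_nonneg_left (by linarith only [h4, h7]) hQ.le
  refine h8.trans ?_
  have e : Q * ((103 / 100) * r * (2 * y ^ 2 + 8 + 6 * W) + (101 / 100) * y ^ 2) =
      (103 / 100) * r * (2 * (Q * y ^ 2) + 8 * Q + 6 * (Q * W)) + (101 / 100) * (Q * y ^ 2) := by ring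
  rw [e]
  have h9 : 2 * (Q * y ^ 2) + 8 * Q + 6 * (Q * W) ≤ 16 * E := by linarith only [hQ1, hE, hQy, hQW]
  have h10 : (103 / 100) * r * (2 * (Q * y ^ 2) + 8 * Q + 6 * (Q * W)) ≤ (103 / 100) * r * (16 * E) :=
    mul_le_mul_of_nonneg_left h9 (by positivity)
  have : 0 ≤ r * E := by positivity
  linarith only [hE, hQy, h10, this]

/-- `d(energy)/dσ` as a function of the normalised survival probabilities `y` -/
noncomputable def Edot (V : Finset α) (H : Finset (Finset α)) (D k σ : ℝ) (κ : Finset α → ℝ)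
    (y : α → ℝ) : ℝ :=
  ∑ h ∈ H, Ph H D k σ h * (-2 * κ h * (∏ i ∈ h, y i) * ((∑ i ∈ h, y i) - 3)) +
    ∑ v ∈ V, (1 + zh H D k v) * qh H D k σ v * (y v ^ 2 - 1)

/-- regular vertices -/
noncomputable def reg (V : Finset α) (H : Finset (Finset α)) (D k : ℝ) : Finset α :=
  V.filter fun v => |zd H D v| ≤ k

/-- irregular vertices -/
noncomputable def irr (V : Finset α) (H : Finset (Finset α)) (D k : ℝ) : Finset α :=
  V.filter fun v => ¬ |zd H D v| ≤ k

lemma sum_reg_irr (V : Finset α) (H : Finset (Finset α)) (D k : ℝ) (f : α → ℝ) :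
    ∑ v ∈ V, f v = ∑ v ∈ reg V H D k, f v + ∑ v ∈ irr V H D k, f v :=
  (Finset.sum_filter_add_sum_filter_not V _ f).symm

theorem static (V : Finset α) (H : Finset (Finset α)) (hH : Hyp V H) (D k σ : ℝ)
    (κ : Finset α → ℝ) (y Z : α → ℝ) (c1 cZ ξ B E : ℝ) (hD : 0 < D) (hk : 0 ≤ k)
    (hk1 : k ≤ 1 / 100) (hσ : 0 ≤ σ) (hkσ : k * σ ≤ 1 / 100)
    (hy : ∀ v ∈ V, 0 ≤ y v) (hyB : ∀ v ∈ V, y v ≤ B) (hE : 1 ≤ E)
    (hyE : ∀ v ∈ V, qh H D k σ v * y v ^ 2 ≤ E)
    (hZ : ∀ v ∈ V, 0 ≤ Z v) (hZE : ∀ v ∈ V, qh H D k σ v * (cZ * Z v) ≤ E)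
    (hc1 : 0 ≤ c1) (hc1' : c1 ≤ 1) (hcZ : 0 ≤ cZ) (hξ : 0 ≤ ξ) (hξB : ξ * B ^ 4 ≤ 1)
    (hκ1 : ∀ h ∈ H, 1 - ξ ≤ κ h) (hκ2 : ∀ h ∈ H, κ h ≤ 1 + (c1 + cZ * ∑ i ∈ h, Z i)) :
    Edot V H D k σ κ y ≤ (214 / 100) * ∑ v ∈ V, qh H D k σ v * (y v - 1) ^ 2 +
      ∑ v ∈ reg V H D k, qh H D k σ v * (100 * (1 + zd H D v - Rh H D k σ v) ^ 2 + 120 * c1 ^ 2 +
        7 * (cZ * Z v) + 3 * (ξ * B ^ 4)) +
      25 * E * ∑ v ∈ irr V H D k, (1 + (1 + zd H D v)) := by
  have hX : 0 ≤ ξ * B ^ 4 := by (clear * - hξ; positivity)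
  have s1 : ∑ h ∈ H, Ph H D k σ h * (-2 * κ h * (∏ i ∈ h, y i) * ((∑ i ∈ h, y i) - 3)) ≤
      ∑ h ∈ H, Ph H D k σ h * ∑ i ∈ h, (2 * (y i - 1) ^ 2 - (y i ^ 2 - 1) + 2 * c1 * |y i - 1| +
        6 * (cZ * Z i) + 2 * (ξ * B ^ 4)) := by
    refine Finset.sum_le_sum fun h hh => ?_
    apply mul_le_mul_of_nonneg_left _ (Ph_pos H D k σ hD h).le
    have hsub := hH.sub h hh
    have hc2 : 0 ≤ cZ * ∑ i ∈ h, Z i :=
      mul_nonneg hcZ (Finset.sum_nonneg fun i hi => hZ i (hsub hi))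
    have h1 := est_h h (hH.card h hh) y (κ h) c1 (cZ * ∑ i ∈ h, Z i) ξ B
      (fun i hi => hy i (hsub hi)) (fun i hi => hyB i (hsub hi)) hc1 hc2 hξ (hκ1 h hh) (hκ2 h hh)
    refine h1.trans (le_of_eq ?_)
    have e0 : (h.card : ℝ) = 3 := by rw [hH.card h hh]; norm_num
    simp only [Finset.sum_add_distrib, Finset.sum_const, nsmul_eq_mul, ← Finset.mul_sum, e0]
    ring
  rw [sum_Ph V H hH.sub] at s1
  unfold Edot
  have s2 : ∑ i ∈ V, qh H D k σ i * (Rh H D k σ i * (2 * (y i - 1) ^ 2 - (y i ^ 2 - 1) +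
        2 * c1 * |y i - 1| + 6 * (cZ * Z i) + 2 * (ξ * B ^ 4))) +
      ∑ v ∈ V, (1 + zh H D k v) * qh H D k σ v * (y v ^ 2 - 1) =
      ∑ v ∈ V, qh H D k σ v * (Rh H D k σ v * (2 * (y v - 1) ^ 2 - (y v ^ 2 - 1) +
        2 * c1 * |y v - 1| + 6 * (cZ * Z v) + 2 * (ξ * B ^ 4)) +
        (1 + zh H D k v) * (y v ^ 2 - 1)) := by
    rw [← Finset.sum_add_distrib]
    refine Finset.sum_congr rfl fun v _ => ?_
    ring
  have s3 : ∑ v ∈ reg V H D k, qh H D k σ v * (Rh H D k σ v * (2 * (y v - 1) ^ 2 - (y v ^ 2 - 1) +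
        2 * c1 * |y v - 1| + 6 * (cZ * Z v) + 2 * (ξ * B ^ 4)) +
        (1 + zh H D k v) * (y v ^ 2 - 1)) ≤
      ∑ v ∈ reg V H D k, ((214 / 100) * (qh H D k σ v * (y v - 1) ^ 2) +
        qh H D k σ v * (100 * (1 + zd H D v - Rh H D k σ v) ^ 2 + 120 * c1 ^ 2 +
        7 * (cZ * Z v) + 3 * (ξ * B ^ 4))) := by
    refine Finset.sum_le_sum fun v hv => ?_
    obtain ⟨hvV, hvk⟩ := Finset.mem_filter.mp hv
    obtain ⟨hR0, hR1, hR2⟩ := Rh_bounds H hH.card D k σ hD hk hσ hkσ v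
    have hz := abs_le.mp hvk
    have h1 := vert_reg (y v) (Rh H D k σ v) (1 + zd H D v - Rh H D k σ v) c1 (cZ * Z v)
      (ξ * B ^ 4) (hy v hvV) hR0 (by linarith) (hR2.trans (by linarith only [hk1, hz])) hc1
      (mul_nonneg hcZ (hZ v hvV)) hX
    have e1 : Rh H D k σ v + (1 + zd H D v - Rh H D k σ v) = 1 + zh H D k v := by
      rw [zh_eq H D k v hvk]; ring
    rw [e1] at h1
    have h2 := mul_le_mul_of_nonneg_left h1 (qh_pos H D k σ v).le
    refine h2.trans (le_of_eq ?_)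
    ring
  have s4 : ∑ v ∈ irr V H D k, qh H D k σ v * (Rh H D k σ v * (2 * (y v - 1) ^ 2 - (y v ^ 2 - 1) +
        2 * c1 * |y v - 1| + 6 * (cZ * Z v) + 2 * (ξ * B ^ 4)) +
        (1 + zh H D k v) * (y v ^ 2 - 1)) ≤
      ∑ v ∈ irr V H D k, 25 * E * (1 + (1 + zd H D v)) := by
    refine Finset.sum_le_sum fun v hv => ?_
    obtain ⟨hvV, hvk⟩ := Finset.mem_filter.mp hv
    obtain ⟨hR0, hR1, hR2⟩ := Rh_bounds H hH.card D k σ hD hk hσ hkσ v
    have hz := abs_zh H D k hk v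
    have hr : 0 ≤ 1 + zd H D v := by rw [← deg_div]; (clear * - hD; positivity)
    have hq1 : qh H D k σ v ≤ 1 := by
      unfold qh
      rw [Real.exp_le_one_iff]
      have := (abs_le.mp hz).1
      nlinarith only [hσ, hk1, this]
    exact vert_irr (y v) (Rh H D k σ v) (1 + zd H D v) (zh H D k v) (qh H D k σ v) c1 (cZ * Z v)
      (ξ * B ^ 4) E (hy v hvV) hR0 hr (by linarith only [hR0, hR1]) (hz.trans hk1) (qh_pos H D k σ v) hq1 hc1 hc1'
      (mul_nonneg hcZ (hZ v hvV)) hX hξB hE (hyE v hvV) (hZE v hvV)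
  have s5 := sum_reg_irr V H D k (fun v => qh H D k σ v * (Rh H D k σ v *
    (2 * (y v - 1) ^ 2 - (y v ^ 2 - 1) + 2 * c1 * |y v - 1| + 6 * (cZ * Z v) + 2 * (ξ * B ^ 4)) +
        (1 + zh H D k v) * (y v ^ 2 - 1)))
  have s6 : ∑ v ∈ reg V H D k, qh H D k σ v * (y v - 1) ^ 2 ≤
      ∑ v ∈ V, qh H D k σ v * (y v - 1) ^ 2 :=
    Finset.sum_le_sum_of_subset_of_nonneg (Finset.filter_subset _ _) fun v _ _ =>
      mul_nonneg (qh_pos H D k σ v).le (sq_nonneg _)
  rw [Finset.sum_add_distrib, ← Finset.mul_sum] at s3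
  rw [← Finset.mul_sum] at s4
  linarith

end Vale.Agent.P046.K
end

section

/-!
Energy method, part 4: bounds for `κ` and for the auxiliary integrals `Z`.
-/

set_option autoImplicit false

open scoped Classical
open Finset

namespace Vale.Agent.P046.K

lemma prim_cont (g : ℝ → ℝ) (T : ℝ) (hT : 0 ≤ T) (hg : ContinuousOn g (Set.Icc 0 T)) :
    ContinuousOn (fun t => ∫ s in (0:ℝ)..t, g s) (Set.Icc 0 T) := by
  have h1 : IntervalIntegrable g MeasureTheory.volume 0 T := by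
    apply ContinuousOn.intervalIntegrable
    rw [Set.uIcc_of_le hT]; exact hg
  have h2 := intervalIntegral.continuousOn_primitive_interval' h1 (a := 0)
    (by rw [Set.uIcc_of_le hT]; exact ⟨le_refl 0, hT⟩)
  rw [Set.uIcc_of_le hT] at h2
  exact h2

lemma prim_deriv (g : ℝ → ℝ) (T : ℝ) (hg : ContinuousOn g (Set.Icc 0 T)) (t : ℝ)
    (ht : t ∈ Set.Ioo 0 T) : HasDerivAt (fun t => ∫ s in (0:ℝ)..t, g s) (g t) t := by
  have h1 : IntervalIntegrable g MeasureTheory.volume 0 t := by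
    apply ContinuousOn.intervalIntegrable
    rw [Set.uIcc_of_le ht.1.le]
    exact hg.mono (Set.Icc_subset_Icc_right ht.2.le)
  have h2 : StronglyMeasurableAtFilter g (nhds t) MeasureTheory.volume :=
    ContinuousOn.stronglyMeasurableAtFilter isOpen_Ioo (hg.mono Set.Ioo_subset_Icc_self) t ht
  exact intervalIntegral.integral_hasDerivAt_right h1 h2
    (hg.continuousAt (Icc_mem_nhds ht.1 ht.2))

lemma prim_nonneg (g : ℝ → ℝ) (T : ℝ) (hg : ∀ s ∈ Set.Icc 0 T, 0 ≤ g s) (t : ℝ)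
    (ht : t ∈ Set.Icc 0 T) : 0 ≤ ∫ s in (0:ℝ)..t, g s :=
  intervalIntegral.integral_nonneg ht.1 fun s hs => hg s ⟨hs.1, hs.2.trans ht.2⟩

variable {α : Type*}

/-- `κ` -/
noncomputable def kap (q : α → ℝ → ℝ) (p : Finset α → ℝ → ℝ) (h : Finset α) (t : ℝ) : ℝ :=
  Real.exp t * p h t / ∏ i ∈ h, q i t

/-- `log κ` -/
noncomputable def lk (q : α → ℝ → ℝ) (p : Finset α → ℝ → ℝ) (h : Finset α) (t : ℝ) : ℝ :=
  t + Real.log (p h t) - ∑ i ∈ h, Real.log (q i t)

/-- normalised survival probability -/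
noncomputable def yn (H : Finset (Finset α)) (D k : ℝ) (q : α → ℝ → ℝ) (v : α) (t : ℝ) : ℝ :=
  q v t / qh H D k (sg D t) v

/-- auxiliary integral -/
noncomputable def Zf (H : Finset (Finset α)) (D k : ℝ) (q : α → ℝ → ℝ) (v : α) (t : ℝ) : ℝ :=
  ∫ s in (0:ℝ)..t, sp D s * (yn H D k q v s - 1) ^ 2

section sys

variable {V : Finset α} {H : Finset (Finset α)} {T ξ : ℝ} {q : α → ℝ → ℝ} {p : Finset α → ℝ → ℝ}

lemma exp_lk (hH : Hyp V H) (hS : Sys V H T ξ q p) (h : Finset α) (hh : h ∈ H) (t : ℝ)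
    (ht : t ∈ Set.Icc 0 T) : Real.exp (lk q p h t) = kap q p h t := by
  unfold lk kap
  have hp := hS.ppos h hh t ht
  have hq : ∀ i ∈ h, 0 < q i t := fun i hi => hS.qpos i (hH.sub h hh hi) t ht
  rw [Real.exp_sub, Real.exp_add, Real.exp_log hp, Real.exp_sum]
  congr 1
  exact Finset.prod_congr rfl fun i hi => Real.exp_log (hq i hi)

lemma lk_zero (hH : Hyp V H) (hS : Sys V H T ξ q p) (h : Finset α) (hh : h ∈ H) :
    lk q p h 0 = 0 := by
  unfold lk
  rw [hS.p0 h hh, Real.log_one]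
  have : ∑ i ∈ h, Real.log (q i 0) = 0 :=
    Finset.sum_eq_zero fun i hi => by rw [hS.q0 i (hH.sub h hh hi), Real.log_one]
  rw [this]; ring

lemma lk_deriv (hH : Hyp V H) (hS : Sys V H T ξ q p) (h : Finset α) (hh : h ∈ H) (t : ℝ)
    (ht : t ∈ Set.Icc 0 T) :
    ∃ e, |e| ≤ ξ ∧ HasDerivAt (lk q p h) ((∑ i ∈ h, p h t / q i t) - e) t := by
  obtain ⟨e, he1, he2⟩ := hS.dp h hh t ht
  refine ⟨e, he1, ?_⟩
  have hp := hS.ppos h hh t ht
  have hq : ∀ i ∈ h, 0 < q i t := fun i hi => hS.qpos i (hH.sub h hh hi) t ht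
  have h1 : HasDerivAt (fun t => ∑ i ∈ h, Real.log (q i t))
      (∑ i ∈ h, (-(∑ h' ∈ star H i, p h' t)) / q i t) t := by
    apply HasDerivAt.fun_sum
    intro i hi
    exact (hS.dq i (hH.sub h hh hi) t ht).log (hq i hi).ne'
  have h2 := ((hasDerivAt_id t).add (he2.log hp.ne')).sub h1
  refine h2.congr_deriv ?_
  have e2 : -(p h t) * (1 + (∑ i ∈ h, ((∑ h' ∈ star H i, p h' t) - p h t) / q i t) + e) / p h t =
      -(1 + (∑ i ∈ h, ((∑ h' ∈ star H i, p h' t) - p h t) / q i t) + e) := by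
    field_simp
  rw [e2]
  have e3 : ∑ i ∈ h, ((∑ h' ∈ star H i, p h' t) - p h t) / q i t =
      ∑ i ∈ h, (∑ h' ∈ star H i, p h' t) / q i t - ∑ i ∈ h, p h t / q i t := by
    rw [← Finset.sum_sub_distrib]
    exact Finset.sum_congr rfl fun i _ => by ring
  have e4 : ∑ i ∈ h, (-(∑ h' ∈ star H i, p h' t)) / q i t =
      -∑ i ∈ h, (∑ h' ∈ star H i, p h' t) / q i t := by
    rw [← Finset.sum_neg_distrib]
    exact Finset.sum_congr rfl fun i _ => by ring
  rw [e3, e4]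
  ring

lemma lk_cont (hH : Hyp V H) (hS : Sys V H T ξ q p) (h : Finset α) (hh : h ∈ H) :
    ContinuousOn (lk q p h) (Set.Icc 0 T) := by
  intro t ht
  obtain ⟨e, _, he⟩ := lk_deriv hH hS h hh t ht
  exact he.continuousAt.continuousWithinAt

/-- lower bound for `κ` -/
lemma kap_ge (hH : Hyp V H) (hS : Sys V H T ξ q p) (hξ0 : 0 ≤ ξ)
    (h : Finset α) (hh : h ∈ H) (t : ℝ) (ht : t ∈ Set.Icc 0 T) : 1 - ξ * T ≤ kap q p h t := by
  have key := le_of_deriv (fun s => lk q p h s + ξ * s) T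
    ((lk_cont hH hS h hh).add (by fun_prop))
    (fun s hs => by
      have hs' : s ∈ Set.Icc 0 T := ⟨hs.1.le, hs.2.le⟩
      obtain ⟨e, he1, he2⟩ := lk_deriv hH hS h hh s hs'
      refine ⟨_, ?_, he2.add ((hasDerivAt_id s).const_mul ξ)⟩
      have h1 : 0 ≤ ∑ i ∈ h, p h s / q i s := Finset.sum_nonneg fun i hi =>
        div_nonneg (hS.ppos h hh s hs').le (hS.qpos i (hH.sub h hh hi) s hs').le
      have := (abs_le.mp he1).2
      linarith) t ht
  simp only [lk_zero hH hS h hh, mul_zero, add_zero] at key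
  rw [← exp_lk hH hS h hh t ht]
  have h1 := Real.add_one_le_exp (lk q p h t)
  have h2 : ξ * t ≤ ξ * T := mul_le_mul_of_nonneg_left ht.2 hξ0
  linarith

/-- upper bound for `κ` -/
lemma kap_le (hH : Hyp V H) (hS : Sys V H T ξ q p) (hξ0 : 0 ≤ ξ) (hξ : ξ * Real.exp T ≤ 1 / 2)
    (h : Finset α) (hh : h ∈ H) (t : ℝ) (ht : t ∈ Set.Icc 0 T) :
    kap q p h t ≤ Real.exp (7 * T) := by
  have hT0 : 0 ≤ T := ht.1.trans ht.2
  have hξ1 : ξ ≤ 1 / 2 := by
    have : 1 ≤ Real.exp T := Real.one_le_exp hT0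
    nlinarith only [hξ, this]
  have key := le_of_deriv (fun s => 7 * s - lk q p h s) T
    (ContinuousOn.sub (by fun_prop) (lk_cont hH hS h hh))
    (fun s hs => by
      have hs' : s ∈ Set.Icc 0 T := ⟨hs.1.le, hs.2.le⟩
      obtain ⟨e, he1, he2⟩ := lk_deriv hH hS h hh s hs'
      refine ⟨_, ?_, ((hasDerivAt_id s).const_mul 7).sub he2⟩
      have h1 : ∑ i ∈ h, p h s / q i s ≤ ∑ _i ∈ h, (2:ℝ) := Finset.sum_le_sum fun i hi => by
        rw [div_le_iff₀ (hS.qpos i (hH.sub h hh hi) s hs')]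
        exact p_le_two_q hH hS hξ0 hξ h hh i hi s hs'
      rw [Finset.sum_const, hH.card h hh] at h1
      have := (abs_le.mp he1).1
      norm_num at h1
      linarith only [hξ1, this, h1]) t ht
  simp only [lk_zero hH hS h hh, mul_zero, sub_zero] at key
  rw [← exp_lk hH hS h hh t ht]
  apply Real.exp_le_exp.mpr
  linarith only [key, ht, ht.2]

lemma yn_pos (hS : Sys V H T ξ q p) (D k : ℝ) (v : α) (hv : v ∈ V) (t : ℝ)
    (ht : t ∈ Set.Icc 0 T) : 0 < yn H D k q v t :=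
  div_pos (hS.qpos v hv t ht) (qh_pos _ _ _ _ _)

lemma qh_ge (H : Finset (Finset α)) (D k σ : ℝ) (hk : 0 ≤ k) (hσ : 0 ≤ σ) (v : α) :
    Real.exp (-((1 + k) * σ)) ≤ qh H D k σ v := by
  unfold qh
  apply Real.exp_le_exp.mpr
  have := (abs_le.mp (abs_zh H D k hk v)).2
  nlinarith

lemma yn_le (hS : Sys V H T ξ q p) (D k : ℝ) (hD : 0 < D) (hk : 0 ≤ k) (v : α) (hv : v ∈ V) (t : ℝ)
    (ht : t ∈ Set.Icc 0 T) : yn H D k q v t ≤ Real.exp ((1 + k) * sg D t) := by
  unfold yn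
  have h1 := qh_ge H D k (sg D t) hk (sg_nonneg D t hD ht.1) v
  rw [div_le_iff₀ (qh_pos _ _ _ _ _)]
  calc q v t ≤ 1 := q_le_one hS v hv t ht
    _ = Real.exp ((1 + k) * sg D t) * Real.exp (-((1 + k) * sg D t)) := by
        rw [← Real.exp_add]; simp
    _ ≤ _ := mul_le_mul_of_nonneg_left h1 (Real.exp_pos _).le

lemma qh_hasDeriv (H : Finset (Finset α)) (D k : ℝ) (hD : 0 < D) (v : α) (t : ℝ) (ht : 0 ≤ t) :
    HasDerivAt (fun s => qh H D k (sg D s) v)
      (-(1 + zh H D k v) * sp D t * qh H D k (sg D t) v) t := by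
  unfold qh
  have h1 := ((hasDerivAt_sg D t hD ht).const_mul (-(1 + zh H D k v))).exp
  refine h1.congr_deriv ?_
  ring

lemma yn_cont (hS : Sys V H T ξ q p) (D k : ℝ) (hD : 0 < D) (v : α) (hv : v ∈ V) :
    ContinuousOn (yn H D k q v) (Set.Icc 0 T) := by
  intro t ht
  exact ((hS.dq v hv t ht).continuousAt.div (qh_hasDeriv H D k hD v t ht.1).continuousAt
    (qh_pos _ _ _ _ _).ne').continuousWithinAt

lemma sp_cont (D T : ℝ) (hD : 0 < D) : ContinuousOn (sp D) (Set.Icc 0 T) := by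
  intro t ht
  have h := Sf_ge D t hD ht.1
  apply ContinuousAt.continuousWithinAt
  unfold sp
  exact ContinuousAt.div (by fun_prop) (hasDerivAt_Sf D t).continuousAt (by linarith)

lemma Zint_cont (hS : Sys V H T ξ q p) (D k : ℝ) (hD : 0 < D) (v : α) (hv : v ∈ V) :
    ContinuousOn (fun s => sp D s * (yn H D k q v s - 1) ^ 2) (Set.Icc 0 T) :=
  (sp_cont D T hD).mul (((yn_cont hS D k hD v hv).sub continuousOn_const).pow 2)

lemma Zf_cont (hS : Sys V H T ξ q p) (D k : ℝ) (hD : 0 < D) (hT : 0 ≤ T) (v : α) (hv : v ∈ V) :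
    ContinuousOn (Zf H D k q v) (Set.Icc 0 T) :=
  prim_cont _ T hT (Zint_cont hS D k hD v hv)

lemma Zf_deriv (hS : Sys V H T ξ q p) (D k : ℝ) (hD : 0 < D) (v : α) (hv : v ∈ V) (t : ℝ)
    (ht : t ∈ Set.Ioo 0 T) :
    HasDerivAt (Zf H D k q v) (sp D t * (yn H D k q v t - 1) ^ 2) t :=
  prim_deriv _ T (Zint_cont hS D k hD v hv) t ht

lemma Zf_nonneg (D k : ℝ) (hD : 0 < D) (v : α) (t : ℝ) (ht : 0 ≤ t) : 0 ≤ Zf H D k q v t :=
  prim_nonneg _ t (fun s hs => mul_nonneg (sp_pos D s hD hs.1).le (sq_nonneg _)) t ⟨ht, le_refl t⟩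

lemma Zf_zero (D k : ℝ) (v : α) : Zf H D k q v 0 = 0 := by
  unfold Zf; simp

/-- crude bound for `Z` -/
lemma Zf_le (hS : Sys V H T ξ q p) (D k : ℝ) (hD : 0 < D) (hk : 0 ≤ k) (v : α)
    (hv : v ∈ V) (t : ℝ) (ht : t ∈ Set.Icc 0 T) :
    Zf H D k q v t ≤ 2 * (sg D t * Real.exp (2 * ((1 + k) * sg D t))) := by
  have hT0 : 0 ≤ T := ht.1.trans ht.2
  have hE : ∀ s ∈ Set.Icc 0 T, HasDerivAt (fun s => 2 * (sg D s * Real.exp (2 * ((1 + k) * sg D s))))
      (2 * (sp D s * Real.exp (2 * ((1 + k) * sg D s)) + sg D s *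
        (Real.exp (2 * ((1 + k) * sg D s)) * (2 * ((1 + k) * sp D s))))) s := by
    intro s hs
    have h1 := hasDerivAt_sg D s hD hs.1
    exact (h1.mul (((h1.const_mul (1 + k)).const_mul 2).exp)).const_mul 2
  have key := le_of_deriv
    (fun s => 2 * (sg D s * Real.exp (2 * ((1 + k) * sg D s))) - Zf H D k q v s) T
    (ContinuousOn.sub (fun s hs => (hE s hs).continuousAt.continuousWithinAt)
      (Zf_cont hS D k hD hT0 v hv))
    (fun s hs => by
      have hs' : s ∈ Set.Icc 0 T := ⟨hs.1.le, hs.2.le⟩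
      refine ⟨_, ?_, (hE s hs').sub (Zf_deriv hS D k hD v hv s hs)⟩
      have hy0 := yn_pos hS D k v hv s hs'
      have hy1 := yn_le hS D k hD hk v hv s hs'
      have hsp := sp_pos D s hD hs.1.le
      have hsg := sg_nonneg D s hD hs.1.le
      obtain ⟨X, hX⟩ : ∃ X, X = Real.exp ((1 + k) * sg D s) := ⟨_, rfl⟩
      have hX2 : Real.exp (2 * ((1 + k) * sg D s)) = X ^ 2 := by
        rw [hX, two_mul, Real.exp_add]; ring
      have hX1 : 1 ≤ X := by
        rw [hX]; exact Real.one_le_exp (by (clear * - hk hsg; positivity))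
      rw [hX2]
      rw [← hX] at hy1
      have h1 : (yn H D k q v s - 1) ^ 2 ≤ 2 * X ^ 2 := by nlinarith only [hy0, hX1, hy1]
      have h2 : sp D s * (yn H D k q v s - 1) ^ 2 ≤ sp D s * (2 * X ^ 2) :=
        mul_le_mul_of_nonneg_left h1 hsp.le
      have h3 : 0 ≤ sg D s * (X ^ 2 * (2 * ((1 + k) * sp D s))) := by (clear * - hsg hX1 hk hsp; positivity)
      linarith) t ht
  simp only [Zf_zero, sg_zero, zero_mul, mul_zero, sub_zero] at key
  linarith

/-- bound for the derivative of `log κ` -/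
lemma sum_p_div_le (hH : Hyp V H) (hS : Sys V H T ξ q p) (D k : ℝ) (hD : 0 < D) (hk : 0 ≤ k)
    (hξ0 : 0 ≤ ξ) (hξ : ξ * Real.exp T ≤ 1 / 2)
    (h : Finset α) (hh : h ∈ H) (t : ℝ) (ht : t ∈ Set.Icc 0 T) (hkσ : k * sg D t ≤ 1 / 100) :
    ∑ i ∈ h, p h t / q i t ≤
      Real.exp (7 * T) * (sp D t / D) * (7 + 3 * ∑ i ∈ h, (yn H D k q i t - 1) ^ 2) := by
  have hκ := kap_le hH hS hξ0 hξ h hh t ht
  have hq : ∀ i ∈ h, 0 < q i t := fun i hi => hS.qpos i (hH.sub h hh hi) t ht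
  have hp := hS.ppos h hh t ht
  have hpq : p h t = Real.exp (-t) * kap q p h t * ∏ i ∈ h, q i t := by
    unfold kap
    have h1 : 0 < ∏ i ∈ h, q i t := Finset.prod_pos hq
    rw [Real.exp_neg]
    have := Real.exp_pos t
    field_simp
  have hκ0 : 0 < kap q p h t := by
    unfold kap
    have h1 : 0 < ∏ i ∈ h, q i t := Finset.prod_pos hq
    positivity
  have hqy : ∀ i ∈ h, q i t = qh H D k (sg D t) i * yn H D k q i t := by
    intro i _
    unfold yn
    have := qh_pos H D k (sg D t) i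
    field_simp
  have hpair : ∀ i ∈ h, ∀ j ∈ h, qh H D k (sg D t) i * qh H D k (sg D t) j ≤
      (10203 / 10000) * Real.exp (-(2 * sg D t)) := by
    intro i _ j _
    unfold qh
    rw [← Real.exp_add]
    have hzi := abs_le.mp (abs_zh H D k hk i)
    have hzj := abs_le.mp (abs_zh H D k hk j)
    have hσ := sg_nonneg D t hD ht.1
    have h1 : -(1 + zh H D k i) * sg D t + -(1 + zh H D k j) * sg D t ≤
        1 / 50 + -(2 * sg D t) := by
      nlinarith only [hkσ, hzi, hσ, hzj]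
    have h2 := exp_small (1 / 50) (by rw [abs_of_pos (by norm_num)])
    have h3 := (abs_le.mp h2).2
    calc Real.exp (-(1 + zh H D k i) * sg D t + -(1 + zh H D k j) * sg D t)
        ≤ Real.exp (1 / 50 + -(2 * sg D t)) := Real.exp_le_exp.mpr h1
      _ = Real.exp (1 / 50) * Real.exp (-(2 * sg D t)) := Real.exp_add _ _
      _ ≤ _ := mul_le_mul_of_nonneg_right (by linarith only [h3]) (Real.exp_pos _).le
  have hy : ∀ i ∈ h, 0 < yn H D k q i t := fun i hi => yn_pos hS D k i (hH.sub h hh hi) t ht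
  have hexp : Real.exp (-t) * Real.exp (-(2 * sg D t)) = sp D t / D := by
    rw [exp_neg_eq D t hD ht.1, mul_assoc, ← Real.exp_add]
    simp
  have hsp : 0 < sp D t / D := div_pos (sp_pos D t hD ht.1) hD
  obtain ⟨a, b, c, hab, hac, hbc, habc⟩ := Finset.card_eq_three.mp (hH.card h hh)
  have ha : a ∈ h := by rw [habc]; simp
  have hb : b ∈ h := by rw [habc]; simp
  have hc : c ∈ h := by rw [habc]; simp
  have e1 : ∀ f : α → ℝ, ∑ i ∈ h, f i = f a + f b + f c := by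
    intro f
    rw [habc, Finset.sum_insert (by simp [hab, hac]), Finset.sum_insert (by simp [hbc]),
      Finset.sum_singleton]
    ring
  have e2 : ∏ i ∈ h, q i t = q a t * q b t * q c t := by
    rw [habc, Finset.prod_insert (by simp [hab, hac]), Finset.prod_insert (by simp [hbc]),
      Finset.prod_singleton]
    ring
  rw [e1, e1]
  rw [e2] at hpq
  have hqa := hq a ha
  have hqb := hq b hb
  have hqc := hq c hc
  have f1 : p h t / q a t = Real.exp (-t) * kap q p h t * (q b t * q c t) := by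
    rw [hpq]; field_simp
  have f2 : p h t / q b t = Real.exp (-t) * kap q p h t * (q a t * q c t) := by
    rw [hpq]; field_simp
  have f3 : p h t / q c t = Real.exp (-t) * kap q p h t * (q a t * q b t) := by
    rw [hpq]; field_simp
  have gen : ∀ i ∈ h, ∀ j ∈ h, Real.exp (-t) * kap q p h t * (q i t * q j t) ≤
      Real.exp (7 * T) * (sp D t / D) * ((10203 / 10000) * (yn H D k q i t * yn H D k q j t)) := by
    intro i hi j hj
    rw [hqy i hi, hqy j hj]
    have g1 := hpair i hi j hj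
    have hyij : 0 ≤ yn H D k q i t * yn H D k q j t := (mul_pos (hy i hi) (hy j hj)).le
    calc Real.exp (-t) * kap q p h t * (qh H D k (sg D t) i * yn H D k q i t *
          (qh H D k (sg D t) j * yn H D k q j t))
        = Real.exp (-t) * kap q p h t * ((qh H D k (sg D t) i * qh H D k (sg D t) j) *
          (yn H D k q i t * yn H D k q j t)) := by ring
      _ ≤ Real.exp (-t) * Real.exp (7 * T) * (((10203 / 10000) * Real.exp (-(2 * sg D t))) *
          (yn H D k q i t * yn H D k q j t)) := by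
          apply mul_le_mul
          · exact mul_le_mul_of_nonneg_left hκ (Real.exp_pos _).le
          · exact mul_le_mul_of_nonneg_right g1 hyij
          · exact mul_nonneg (mul_pos (qh_pos _ _ _ _ _) (qh_pos _ _ _ _ _)).le hyij
          · positivity
      _ = Real.exp (7 * T) * (Real.exp (-t) * Real.exp (-(2 * sg D t))) * ((10203 / 10000) *
          (yn H D k q i t * yn H D k q j t)) := by ring
      _ = _ := by rw [hexp]
  rw [f1, f2, f3]
  have g1 := gen b hb c hc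
  have g2 := gen a ha c hc
  have g3 := gen a ha b hb
  obtain ⟨M, hM⟩ : ∃ M, M = Real.exp (7 * T) * (sp D t / D) := ⟨_, rfl⟩
  rw [← hM] at g1 g2 g3 ⊢
  have hM0 : 0 < M := by rw [hM]; (clear * - hsp; positivity)
  obtain ⟨x, hx⟩ : ∃ x, x = yn H D k q a t := ⟨_, rfl⟩
  obtain ⟨y, hyy⟩ : ∃ y, y = yn H D k q b t := ⟨_, rfl⟩
  obtain ⟨z, hz⟩ : ∃ z, z = yn H D k q c t := ⟨_, rfl⟩
  rw [← hx, ← hyy, ← hz]
  rw [← hyy, ← hz] at g1
  rw [← hx, ← hz] at g2
  rw [← hx, ← hyy] at g3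
  have hpoly : (10203 / 10000) * (y * z) + (10203 / 10000) * (x * z) + (10203 / 10000) * (x * y) ≤
      7 + 3 * ((x - 1) ^ 2 + (y - 1) ^ 2 + (z - 1) ^ 2) := by
    nlinarith only [sq_nonneg (x - y), sq_nonneg (x - z), sq_nonneg (y - z), sq_nonneg (x - 3/2), sq_nonneg (y - 3/2), sq_nonneg (z - 3/2)]
  have h5 := mul_le_mul_of_nonneg_left hpoly hM0.le
  linarith only [g3, g2, g1, h5]

/-- refined upper bound for `log κ` -/
lemma lk_le (hH : Hyp V H) (hS : Sys V H T ξ q p) (D k : ℝ) (hD : 0 < D) (hk : 0 ≤ k)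
    (hξ0 : 0 ≤ ξ) (hξ : ξ * Real.exp T ≤ 1 / 2) (hkσ : ∀ t ∈ Set.Icc 0 T, k * sg D t ≤ 1 / 100)
    (h : Finset α) (hh : h ∈ H) (t : ℝ) (ht : t ∈ Set.Icc 0 T) :
    lk q p h t ≤ (Real.exp (7 * T) / D) * (7 * sg D t + 3 * ∑ i ∈ h, Zf H D k q i t) + ξ * t := by
  have hT0 : 0 ≤ T := ht.1.trans ht.2
  have key := le_of_deriv
    (fun s => (Real.exp (7 * T) / D) * (7 * sg D s + 3 * ∑ i ∈ h, Zf H D k q i s) + ξ * s -
      lk q p h s) T
    (by
      apply ContinuousOn.sub _ (lk_cont hH hS h hh)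
      apply ContinuousOn.add _ (by fun_prop)
      apply ContinuousOn.mul continuousOn_const
      apply ContinuousOn.add
      · apply ContinuousOn.mul continuousOn_const
        exact fun s hs => (hasDerivAt_sg D s hD hs.1).continuousAt.continuousWithinAt
      · apply ContinuousOn.mul continuousOn_const
        exact continuousOn_finsetSum _ fun i hi => Zf_cont hS D k hD hT0 i (hH.sub h hh hi))
    (fun s hs => by
      have hs' : s ∈ Set.Icc 0 T := ⟨hs.1.le, hs.2.le⟩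
      obtain ⟨e, he1, he2⟩ := lk_deriv hH hS h hh s hs'
      have d1 : HasDerivAt (fun s => ∑ i ∈ h, Zf H D k q i s)
          (∑ i ∈ h, sp D s * (yn H D k q i s - 1) ^ 2) s :=
        HasDerivAt.fun_sum fun i hi => Zf_deriv hS D k hD i (hH.sub h hh hi) s hs
      have d2 := ((((hasDerivAt_sg D s hD hs.1.le).const_mul 7).add (d1.const_mul 3)).const_mul
        (Real.exp (7 * T) / D)).add ((hasDerivAt_id s).const_mul ξ)
      refine ⟨_, ?_, d2.sub he2⟩
      have h1 := sum_p_div_le hH hS D k hD hk hξ0 hξ h hh s hs' (hkσ s hs')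
      have h2 := (abs_le.mp he1).1
      rw [← Finset.mul_sum]
      have e3 : Real.exp (7 * T) / D * (7 * sp D s + 3 * (sp D s * ∑ i ∈ h, (yn H D k q i s - 1) ^ 2)) =
          Real.exp (7 * T) * (sp D s / D) * (7 + 3 * ∑ i ∈ h, (yn H D k q i s - 1) ^ 2) := by
        field_simp
      rw [e3]
      linarith only [h1, h2]) t ht
  simp only [sg_zero, Zf_zero, lk_zero hH hS h hh, Finset.sum_const_zero, mul_zero, add_zero,
    sub_zero] at key
  linarith only [key]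

/-- refined upper bound for `κ` -/
lemma kap_le' (hH : Hyp V H) (hS : Sys V H T ξ q p) (D k : ℝ) (hD : 0 < D) (hk : 0 ≤ k)
    (hξ0 : 0 ≤ ξ) (hξ : ξ * Real.exp T ≤ 1 / 2) (hkσ : ∀ t ∈ Set.Icc 0 T, k * sg D t ≤ 1 / 100)
    (h : Finset α) (hh : h ∈ H) (t : ℝ) (ht : t ∈ Set.Icc 0 T) :
    kap q p h t ≤ 1 + (Real.exp (7 * T) * ((Real.exp (7 * T) / D) * (7 * sg D t) + ξ * T) +
      (3 * Real.exp (7 * T) ^ 2 / D) * ∑ i ∈ h, Zf H D k q i t) := by
  obtain ⟨K, hK⟩ : ∃ K, K = Real.exp (7 * T) := ⟨_, rfl⟩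
  have hK0 : 0 < K := by rw [hK]; exact Real.exp_pos _
  have h1 := lk_le hH hS D k hD hk hξ0 hξ hkσ h hh t ht
  have h2 := kap_le hH hS hξ0 hξ h hh t ht
  rw [← exp_lk hH hS h hh t ht] at h2 ⊢
  rw [← hK] at h1 h2 ⊢
  obtain ⟨x, hx⟩ : ∃ x, x = lk q p h t := ⟨_, rfl⟩
  rw [← hx] at h1 h2 ⊢
  have hZ : 0 ≤ ∑ i ∈ h, Zf H D k q i t := Finset.sum_nonneg fun i _ => Zf_nonneg D k hD i t ht.1
  have hσ := sg_nonneg D t hD ht.1
  have h3 : ξ * t ≤ ξ * T := mul_le_mul_of_nonneg_left ht.2 hξ0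
  have hT0 : 0 ≤ T := ht.1.trans ht.2
  obtain ⟨b, hb⟩ : ∃ b, b = K / D * (7 * sg D t + 3 * ∑ i ∈ h, Zf H D k q i t) + ξ * T := ⟨_, rfl⟩
  have hb0 : 0 ≤ b := by rw [hb]; positivity
  have hxb : x ≤ b := by rw [hb]; linarith
  have h4 : Real.exp x ≤ 1 + K * b := by
    rcases le_total x 0 with hx0 | hx0
    · have : Real.exp x ≤ 1 := Real.exp_le_one_iff.mpr hx0
      have : 0 ≤ K * b := by positivity
      linarith
    · have h5 := Real.add_one_le_exp (-x)
      have h6 : Real.exp x * (1 - x) ≤ 1 := by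
        calc Real.exp x * (1 - x) ≤ Real.exp x * Real.exp (-x) :=
              mul_le_mul_of_nonneg_left (by linarith) (Real.exp_pos _).le
          _ = 1 := by rw [← Real.exp_add]; simp
      have h7 : Real.exp x * x ≤ K * b := mul_le_mul h2 hxb hx0 hK0.le
      linarith
  refine h4.trans (le_of_eq ?_)
  rw [hb]
  field_simp
  ring

end sys

end Vale.Agent.P046.K
end

section

/-!
Energy method, part 5: derivative of the energy and the Gronwall argument.
-/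

set_option autoImplicit false

open scoped Classical
open Finset

namespace Vale.Agent.P046.K

variable {α : Type*}

/-- the chi-square energy -/
noncomputable def EE (V : Finset α) (H : Finset (Finset α)) (D k : ℝ) (q : α → ℝ → ℝ) (t : ℝ) : ℝ :=
  ∑ v ∈ V, (q v t - qh H D k (sg D t) v) ^ 2 / qh H D k (sg D t) v

/-- the auxiliary functional -/
noncomputable def WW (V : Finset α) (H : Finset (Finset α)) (D k : ℝ) (q : α → ℝ → ℝ) (t : ℝ) : ℝ :=
  ∑ v ∈ reg V H D k, Real.exp (-(sg D t)) * Zf H D k q v t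

lemma qh_zero (H : Finset (Finset α)) (D k : ℝ) (v : α) : qh H D k (sg D 0) v = 1 := by
  unfold qh; rw [sg_zero]; simp

lemma EE_eq (V : Finset α) (H : Finset (Finset α)) (D k : ℝ) (q : α → ℝ → ℝ) (t : ℝ) :
    EE V H D k q t = ∑ v ∈ V, qh H D k (sg D t) v * (yn H D k q v t - 1) ^ 2 := by
  unfold EE
  refine Finset.sum_congr rfl fun v _ => ?_
  unfold yn
  have := qh_pos H D k (sg D t) v
  field_simp

lemma qh_yn (H : Finset (Finset α)) (D k : ℝ) (q : α → ℝ → ℝ) (v : α) (t : ℝ) :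
    qh H D k (sg D t) v * yn H D k q v t = q v t := by
  unfold yn
  have := qh_pos H D k (sg D t) v
  field_simp

section sys

variable {V : Finset α} {H : Finset (Finset α)} {T ξ : ℝ} {q : α → ℝ → ℝ} {p : Finset α → ℝ → ℝ}

lemma EE_zero (hS : Sys V H T ξ q p) (D k : ℝ) : EE V H D k q 0 = 0 := by
  unfold EE
  refine Finset.sum_eq_zero fun v hv => ?_
  rw [hS.q0 v hv, qh_zero]; simp

lemma WW_zero (D k : ℝ) : WW V H D k q 0 = 0 := by
  unfold WW
  refine Finset.sum_eq_zero fun v _ => ?_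
  rw [Zf_zero]; simp

lemma p_eq (hH : Hyp V H) (hS : Sys V H T ξ q p) (D k : ℝ) (hD : 0 < D)
    (h : Finset α) (hh : h ∈ H) (t : ℝ) (ht : t ∈ Set.Icc 0 T) :
    p h t = sp D t * (Ph H D k (sg D t) h * (kap q p h t * ∏ i ∈ h, yn H D k q i t)) := by
  have hq : ∀ i ∈ h, 0 < q i t := fun i hi => hS.qpos i (hH.sub h hh hi) t ht
  have hq1 : 0 < ∏ i ∈ h, q i t := Finset.prod_pos hq
  have hQ : ∏ i ∈ h, qh H D k (sg D t) i =
      Real.exp (-(3 * sg D t)) * Real.exp (-(sg D t * ∑ i ∈ h, zh H D k i)) := by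
    unfold qh
    rw [← Real.exp_sum, ← Real.exp_add]
    congr 1
    rw [← Finset.sum_mul, Finset.sum_neg_distrib, Finset.sum_add_distrib]
    have e0 : (h.card : ℝ) = 3 := by rw [hH.card h hh]; norm_num
    simp only [Finset.sum_const, nsmul_eq_mul, e0]
    ring
  have hy : ∏ i ∈ h, yn H D k q i t = (∏ i ∈ h, q i t) / ∏ i ∈ h, qh H D k (sg D t) i := by
    unfold yn
    rw [Finset.prod_div_distrib]
  rw [hy, hQ]
  unfold kap Ph
  have e1 := exp_neg_eq D t hD ht.1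
  have e2 : Real.exp t * Real.exp (-t) = 1 := by rw [← Real.exp_add]; simp
  have e3 : Real.exp (-sg D t) = Real.exp (-(3 * sg D t)) * Real.exp (2 * sg D t) := by
    rw [← Real.exp_add]; congr 1; ring
  rw [e3]
  obtain ⟨A, hA⟩ : ∃ A, A = Real.exp (-(3 * sg D t)) := ⟨_, rfl⟩
  obtain ⟨B, hB⟩ : ∃ B, B = Real.exp (-(sg D t * ∑ i ∈ h, zh H D k i)) := ⟨_, rfl⟩
  obtain ⟨C, hC⟩ : ∃ C, C = Real.exp (2 * sg D t) := ⟨_, rfl⟩
  have hA0 : 0 < A := by rw [hA]; exact Real.exp_pos _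
  have hB0 : 0 < B := by rw [hB]; exact Real.exp_pos _
  rw [← hA, ← hB, ← hC]
  rw [← hC] at e1
  have e4 : sp D t * (A * C * B / D * (Real.exp t * p h t / (∏ i ∈ h, q i t) *
      ((∏ i ∈ h, q i t) / (A * B)))) = p h t * (Real.exp t * (sp D t / D * C)) := by
    field_simp
  rw [e4, ← e1, e2, mul_one]

/-- derivative of the energy -/
lemma EE_deriv (hH : Hyp V H) (hS : Sys V H T ξ q p) (D k : ℝ) (hD : 0 < D) (t : ℝ)
    (ht : t ∈ Set.Icc 0 T) :
    HasDerivAt (EE V H D k q)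
      (sp D t * Edot V H D k (sg D t) (fun h => kap q p h t) (fun v => yn H D k q v t)) t := by
  have h1 : HasDerivAt (EE V H D k q)
      (∑ v ∈ V, (-(2 * (yn H D k q v t - 1)) * (∑ h ∈ star H v, p h t) +
        (1 + zh H D k v) * sp D t * qh H D k (sg D t) v * (yn H D k q v t ^ 2 - 1))) t := by
    unfold EE
    apply HasDerivAt.fun_sum
    intro v hv
    have hQ := qh_pos H D k (sg D t) v
    have d1 := hS.dq v hv t ht
    have d2 := qh_hasDeriv H D k hD v t ht.1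
    have d3 := ((d1.sub d2).pow 2).div d2 hQ.ne'
    refine d3.congr_deriv ?_
    have e1 : q v t = qh H D k (sg D t) v * yn H D k q v t := (qh_yn H D k q v t).symm
    simp only [Pi.sub_apply, Pi.pow_apply]
    rw [e1]
    field_simp
    ring
  refine h1.congr_deriv ?_
  rw [Finset.sum_add_distrib]
  have e2 : ∑ v ∈ V, -(2 * (yn H D k q v t - 1)) * (∑ h ∈ star H v, p h t) =
      ∑ h ∈ H, ∑ i ∈ h, -(2 * (yn H D k q i t - 1)) * p h t := by
    rw [swap V H hH.sub]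
    refine Finset.sum_congr rfl fun v _ => ?_
    rw [Finset.mul_sum]
  rw [e2]
  unfold Edot
  rw [mul_add, Finset.mul_sum, Finset.mul_sum]
  congr 1
  · refine Finset.sum_congr rfl fun h hh => ?_
    have e3 := p_eq hH hS D k hD h hh t ht
    rw [← Finset.sum_mul]
    have e0 : (h.card : ℝ) = 3 := by rw [hH.card h hh]; norm_num
    have e4 : ∑ i ∈ h, -(2 * (yn H D k q i t - 1)) = -2 * ((∑ i ∈ h, yn H D k q i t) - 3) := by
      rw [Finset.sum_neg_distrib, ← Finset.mul_sum, Finset.sum_sub_distrib]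
      simp only [Finset.sum_const, nsmul_eq_mul, e0]
      ring
    rw [e4, e3]
    ring
  · refine Finset.sum_congr rfl fun v _ => ?_
    ring

lemma WW_deriv (hS : Sys V H T ξ q p) (D k : ℝ) (hD : 0 < D) (t : ℝ)
    (ht : t ∈ Set.Ioo 0 T) :
    HasDerivAt (WW V H D k q)
      (∑ v ∈ reg V H D k, (-(sp D t) * (Real.exp (-(sg D t)) * Zf H D k q v t) +
        Real.exp (-(sg D t)) * (sp D t * (yn H D k q v t - 1) ^ 2))) t := by
  unfold WW
  apply HasDerivAt.fun_sum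
  intro v hv
  have hvV : v ∈ V := (Finset.mem_filter.mp hv).1
  have d1 := (hasDerivAt_sg D t hD ht.1.le).neg.exp
  have d2 := Zf_deriv hS D k hD v hvV t ht
  refine (d1.mul d2).congr_deriv ?_
  simp only [Pi.neg_apply]
  ring

lemma WW_cont (hS : Sys V H T ξ q p) (D k : ℝ) (hD : 0 < D) (hT : 0 ≤ T) :
    ContinuousOn (WW V H D k q) (Set.Icc 0 T) := by
  unfold WW
  refine continuousOn_finsetSum _ fun v hv => ?_
  apply ContinuousOn.mul _ (Zf_cont hS D k hD hT v (Finset.mem_filter.mp hv).1)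
  exact fun s hs => (hasDerivAt_sg D s hD hs.1).neg.exp.continuousAt.continuousWithinAt

lemma WW_nonneg (D k : ℝ) (hD : 0 < D) (t : ℝ) (ht : 0 ≤ t) : 0 ≤ WW V H D k q t :=
  Finset.sum_nonneg fun v _ => mul_nonneg (Real.exp_pos _).le (Zf_nonneg D k hD v t ht)

lemma EE_nonneg (D k : ℝ) (t : ℝ) : 0 ≤ EE V H D k q t :=
  Finset.sum_nonneg fun v _ => div_nonneg (sq_nonneg _) (qh_pos _ _ _ _ _).le

lemma qh_le_one (H : Finset (Finset α)) (D k σ : ℝ) (hk : 0 ≤ k) (hk1 : k ≤ 1) (hσ : 0 ≤ σ) (v : α) :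
    qh H D k σ v ≤ 1 := by
  unfold qh
  rw [Real.exp_le_one_iff]
  have := (abs_le.mp (abs_zh H D k hk v)).1
  nlinarith

lemma qh_compare (H : Finset (Finset α)) (D k σ : ℝ) (hk : 0 ≤ k) (hσ : 0 ≤ σ)
    (hkσ : k * σ ≤ 1 / 100) (v : α) :
    Real.exp (-σ) ≤ (103 / 100) * qh H D k σ v ∧ qh H D k σ v ≤ (103 / 100) * Real.exp (-σ) := by
  have hz := abs_le.mp (abs_zh H D k hk v)
  have h2 := exp_small (1 / 50) (by rw [abs_of_pos (by norm_num)])
  have h3 := (abs_le.mp h2).2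
  unfold qh
  constructor
  · calc Real.exp (-σ) ≤ Real.exp (1 / 50 + -(1 + zh H D k v) * σ) := by
          apply Real.exp_le_exp.mpr; nlinarith
      _ = Real.exp (1 / 50) * Real.exp (-(1 + zh H D k v) * σ) := Real.exp_add _ _
      _ ≤ _ := mul_le_mul_of_nonneg_right (by linarith only [h3]) (Real.exp_pos _).le
  · calc Real.exp (-(1 + zh H D k v) * σ) ≤ Real.exp (1 / 50 + -σ) := by
          apply Real.exp_le_exp.mpr; nlinarith only [hkσ, hσ, hz]
      _ = Real.exp (1 / 50) * Real.exp (-σ) := Real.exp_add _ _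
      _ ≤ _ := mul_le_mul_of_nonneg_right (by linarith only [h3]) (Real.exp_pos _).le

/-- abstract Gronwall argument -/
lemma gronwall_aux (D T S0 : ℝ) (F : ℝ → ℝ) (hD : 0 < D) (hS0 : 0 ≤ S0)
    (hF : ContinuousOn F (Set.Icc 0 T)) (hF0 : F 0 = 0)
    (hd : ∀ s ∈ Set.Ioo 0 T, ∃ d, HasDerivAt F d s ∧
      d ≤ sp D s * ((22 / 10) * F s + S0 * Real.exp (11 / 10 * sg D s)))
    (t : ℝ) (ht : t ∈ Set.Icc 0 T) : F t ≤ S0 * Real.exp (22 / 10 * sg D t) := by
  have E1 : ∀ c : ℝ, ∀ s ∈ Set.Icc 0 T, HasDerivAt (fun s => Real.exp (-(c * sg D s)))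
      (Real.exp (-(c * sg D s)) * (-(c * sp D s))) s := fun c s hs =>
    ((hasDerivAt_sg D s hD hs.1).const_mul c).neg.exp
  have key := le_of_deriv (fun s => -((10 / 11) * S0 * Real.exp (-(11 / 10 * sg D s))) -
      Real.exp (-(22 / 10 * sg D s)) * F s) T
    (by
      apply ContinuousOn.sub
      · apply ContinuousOn.neg
        apply ContinuousOn.mul continuousOn_const
        exact fun s hs => (E1 (11 / 10) s hs).continuousAt.continuousWithinAt
      · apply ContinuousOn.mul _ hF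
        exact fun s hs => (E1 (22 / 10) s hs).continuousAt.continuousWithinAt)
    (fun s hs => by
      have hs' : s ∈ Set.Icc 0 T := ⟨hs.1.le, hs.2.le⟩
      obtain ⟨d, hd1, hd2⟩ := hd s hs
      refine ⟨_, ?_, (((E1 (11 / 10) s hs').const_mul ((10 / 11) * S0)).neg).sub
        ((E1 (22 / 10) s hs').mul hd1)⟩
      have e9 : Real.exp (-(11 / 10 * sg D s)) =
          Real.exp (-(22 / 10 * sg D s)) * Real.exp (11 / 10 * sg D s) := by
        rw [← Real.exp_add]; congr 1; ring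
      have hexp := Real.exp_pos (-(22 / 10 * sg D s))
      have t3 := mul_le_mul_of_nonneg_left hd2 hexp.le
      rw [e9]
      have e10 : -((10 / 11) * S0 * (Real.exp (-(22 / 10 * sg D s)) * Real.exp (11 / 10 * sg D s) *
          (-(11 / 10 * sp D s)))) = Real.exp (-(22 / 10 * sg D s)) *
            (sp D s * (S0 * Real.exp (11 / 10 * sg D s))) := by ring
      rw [e10]
      linarith only [t3]) t ht
  simp only [sg_zero, mul_zero, neg_zero, Real.exp_zero, hF0, mul_one, sub_zero] at key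
  have h1 : 0 ≤ (10 / 11) * S0 * Real.exp (-(11 / 10 * sg D t)) := by positivity
  have h2 : Real.exp (-(22 / 10 * sg D t)) * F t ≤ S0 := by linarith
  have e : F t = (Real.exp (-(22 / 10 * sg D t)) * F t) * Real.exp (22 / 10 * sg D t) := by
    rw [mul_comm (Real.exp (-(22 / 10 * sg D t))), mul_assoc, ← Real.exp_add]; simp
  rw [e]
  exact mul_le_mul_of_nonneg_right h2 (Real.exp_pos _).le

/-- bound for the weighted `Z` -/
lemma qZ_le (hS : Sys V H T ξ q p) (D k cZ : ℝ) (hD : 0 < D) (hk : 0 ≤ k)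
    (hcz0 : 0 ≤ cZ) (s : ℝ) (hs' : s ∈ Set.Icc 0 T) (hkσs : k * sg D s ≤ 1 / 100)
    (h3 : cZ * (22 / 10 * sg D s) ≤ 1) (v : α) (hv : v ∈ V) :
    qh H D k (sg D s) v * (cZ * Zf H D k q v s) ≤ Real.exp ((1 + k) * sg D s) := by
  have hσ := sg_nonneg D s hD hs'.1
  have h1 := Zf_le hS D k hD hk v hv s hs'
  have h2 := (qh_compare H D k (sg D s) hk hσ hkσs v).2
  have hz0 : 0 ≤ Zf H D k q v s := Zf_nonneg D k hD v s hs'.1
  have e1 : Real.exp (-sg D s) * Real.exp (2 * ((1 + k) * sg D s)) =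
      Real.exp (k * sg D s) * Real.exp ((1 + k) * sg D s) := by
    rw [← Real.exp_add, ← Real.exp_add]; congr 1; ring
  have h4 : Real.exp (k * sg D s) ≤ 10203 / 10000 := by
    have := exp_small (k * sg D s) (by
      rw [abs_of_nonneg (by (clear * - hk hσ; positivity))]; linarith only [hkσs])
    have := (abs_le.mp this).2
    linarith only [this]
  have h5 := Real.exp_pos ((1 + k) * sg D s)
  have h6 := Real.exp_pos (-sg D s)
  calc qh H D k (sg D s) v * (cZ * Zf H D k q v s)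
      ≤ ((103 / 100) * Real.exp (-sg D s)) * (cZ *
        (2 * (sg D s * Real.exp (2 * ((1 + k) * sg D s))))) := by
        apply mul_le_mul h2 _ (by positivity) (by positivity)
        exact mul_le_mul_of_nonneg_left h1 hcz0
    _ = (103 / 100) * (cZ * (2 * sg D s)) *
        (Real.exp (-sg D s) * Real.exp (2 * ((1 + k) * sg D s))) := by ring
    _ = (cZ * (22 / 10 * sg D s)) * ((103 / 100) * (20 / 22) *
        Real.exp (k * sg D s)) * Real.exp ((1 + k) * sg D s) := by rw [e1]; ring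
    _ ≤ 1 * 1 * Real.exp ((1 + k) * sg D s) := by
        apply mul_le_mul_of_nonneg_right _ h5.le
        apply mul_le_mul h3 (by linarith only [h4]) (by positivity) (by norm_num)
    _ = _ := by ring

/-- the derivative of the auxiliary functional -/
lemma WW_deriv_le (D k : ℝ) (hD : 0 < D) (hk : 0 ≤ k) (s : ℝ) (hs0 : 0 ≤ s)
    (hkσs : k * sg D s ≤ 1 / 100) :
    ∑ v ∈ reg V H D k, (-(sp D s) * (Real.exp (-(sg D s)) * Zf H D k q v s) +
        Real.exp (-(sg D s)) * (sp D s * (yn H D k q v s - 1) ^ 2)) ≤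
      sp D s * ((103 / 100) * EE V H D k q s) := by
  have hspos := sp_pos D s hD hs0
  have hσ := sg_nonneg D s hD hs0
  rw [EE_eq]
  have w2 : ∑ v ∈ reg V H D k, (-(sp D s) * (Real.exp (-(sg D s)) * Zf H D k q v s) +
      Real.exp (-(sg D s)) * (sp D s * (yn H D k q v s - 1) ^ 2)) ≤
      ∑ v ∈ reg V H D k, sp D s * ((103 / 100) *
        (qh H D k (sg D s) v * (yn H D k q v s - 1) ^ 2)) := by
    refine Finset.sum_le_sum fun v _ => ?_
    have z0 : 0 ≤ Zf H D k q v s := Zf_nonneg D k hD v s hs0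
    have q2 := (qh_compare H D k (sg D s) hk hσ hkσs v).1
    have a1 : 0 ≤ sp D s * (Real.exp (-(sg D s)) * Zf H D k q v s) := by positivity
    have a2 : Real.exp (-(sg D s)) * (sp D s * (yn H D k q v s - 1) ^ 2) ≤
        ((103 / 100) * qh H D k (sg D s) v) * (sp D s * (yn H D k q v s - 1) ^ 2) :=
      mul_le_mul_of_nonneg_right q2 (by positivity)
    have e : ((103 / 100) * qh H D k (sg D s) v) * (sp D s * (yn H D k q v s - 1) ^ 2) =
      sp D s * ((103 / 100) * (qh H D k (sg D s) v * (yn H D k q v s - 1) ^ 2)) := by ring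
    linarith only [a1, a2]
  refine w2.trans ?_
  rw [← Finset.mul_sum, ← Finset.mul_sum]
  apply mul_le_mul_of_nonneg_left _ hspos.le
  apply mul_le_mul_of_nonneg_left _ (by norm_num)
  exact Finset.sum_le_sum_of_subset_of_nonneg (Finset.filter_subset _ _) fun v _ _ =>
    mul_nonneg (qh_pos H D k _ v).le (sq_nonneg _)

/-- the regular sum -/
lemma reg_sum_le (D k a c G2 : ℝ) (hD : 0 < D) (hk : 0 ≤ k) (hk1 : k ≤ 1) (s : ℝ) (hs0 : 0 ≤ s)
    (hkσs : k * sg D s ≤ 1 / 100) (ha : 0 ≤ a) (hc : 0 ≤ c)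
    (hg : ∑ v ∈ reg V H D k, (1 + zd H D v - Rh H D k (sg D s) v) ^ 2 ≤ G2) :
    ∑ v ∈ reg V H D k, qh H D k (sg D s) v *
        (100 * (1 + zd H D v - Rh H D k (sg D s) v) ^ 2 + a + c * Zf H D k q v s) ≤
      100 * G2 + V.card * a + (103 / 100) * c * WW V H D k q s := by
  have hσ := sg_nonneg D s hD hs0
  have r1 : ∑ v ∈ reg V H D k, qh H D k (sg D s) v *
        (100 * (1 + zd H D v - Rh H D k (sg D s) v) ^ 2 + a + c * Zf H D k q v s) ≤
      ∑ v ∈ reg V H D k, ((100 * (1 + zd H D v - Rh H D k (sg D s) v) ^ 2 + a) +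
        ((103 / 100) * c) * (Real.exp (-sg D s) * Zf H D k q v s)) := by
    refine Finset.sum_le_sum fun v _ => ?_
    have q1 := qh_le_one H D k (sg D s) hk hk1 hσ v
    have q0 := (qh_pos H D k (sg D s) v).le
    have q2 := (qh_compare H D k (sg D s) hk hσ hkσs v).2
    have z0 : 0 ≤ Zf H D k q v s := Zf_nonneg D k hD v s hs0
    have a1 : qh H D k (sg D s) v * (100 * (1 + zd H D v - Rh H D k (sg D s) v) ^ 2 + a) ≤
        1 * (100 * (1 + zd H D v - Rh H D k (sg D s) v) ^ 2 + a) :=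
      mul_le_mul_of_nonneg_right q1 (by (clear * - ha; positivity))
    have a2 : qh H D k (sg D s) v * (c * Zf H D k q v s) ≤
        ((103 / 100) * Real.exp (-sg D s)) * (c * Zf H D k q v s) :=
      mul_le_mul_of_nonneg_right q2 (by positivity)
    have e : qh H D k (sg D s) v *
      (100 * (1 + zd H D v - Rh H D k (sg D s) v) ^ 2 + a + c * Zf H D k q v s) =
      qh H D k (sg D s) v * (100 * (1 + zd H D v - Rh H D k (sg D s) v) ^ 2 + a) +
      qh H D k (sg D s) v * (c * Zf H D k q v s) := by ring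
    rw [e]
    have e2 : (103 / 100) * Real.exp (-sg D s) * (c * Zf H D k q v s) =
      ((103 / 100) * c) * (Real.exp (-sg D s) * Zf H D k q v s) := by ring
    linarith only [a1, a2]
  rw [Finset.sum_add_distrib, Finset.sum_add_distrib, ← Finset.mul_sum, ← Finset.mul_sum,
    Finset.sum_const, nsmul_eq_mul] at r1
  have r2 : ((reg V H D k).card : ℝ) ≤ V.card := by
    exact_mod_cast Finset.card_le_card (Finset.filter_subset _ _)
  have r3 : ((reg V H D k).card : ℝ) * a ≤ (V.card : ℝ) * a :=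
    mul_le_mul_of_nonneg_right r2 ha
  have r5 : (∑ v ∈ reg V H D k, Real.exp (-sg D s) * Zf H D k q v s) = WW V H D k q s := rfl
  rw [r5] at r1
  linarith only [hg, r1, r3]

/-- the static inequality along the solution -/
lemma Edot_le (hH : Hyp V H) (hS : Sys V H T ξ q p) (D k G2 c1 B : ℝ) (hD : 0 < D)
    (hT : 0 ≤ T) (hk : 0 ≤ k) (hk1 : k ≤ 1 / 100) (hξ0 : 0 ≤ ξ) (hξ : ξ * Real.exp T ≤ 1 / 2)
    (hkσ : ∀ t ∈ Set.Icc 0 T, k * sg D t ≤ 1 / 100)
    (s : ℝ) (hs' : s ∈ Set.Icc 0 T)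
    (hg : ∑ v ∈ reg V H D k, (1 + zd H D v - Rh H D k (sg D s) v) ^ 2 ≤ G2)
    (hc1 : Real.exp (7 * T) * ((Real.exp (7 * T) / D) * (7 * sg D s) + ξ * T) ≤ c1) (hc1' : c1 ≤ 1)
    (hcZ2 : 3 * Real.exp (7 * T) ^ 2 / D * (22 / 10 * sg D s) ≤ 1)
    (hB : Real.exp ((1 + k) * sg D s) ≤ B) (hξB : ξ * T * B ^ 4 ≤ 1) :
    Edot V H D k (sg D s) (fun h => kap q p h s) (fun v => yn H D k q v s) ≤
      (214 / 100) * EE V H D k q s + (100 * G2 + (V.card : ℝ) * (120 * c1 ^ 2 + 3 * (ξ * T * B ^ 4)) +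
        (103 / 100) * (7 * (3 * Real.exp (7 * T) ^ 2 / D)) * WW V H D k q s) +
      25 * Real.exp ((1 + k) * sg D s) * ∑ v ∈ irr V H D k, (1 + (1 + zd H D v)) := by
  have hσ := sg_nonneg D s hD hs'.1
  have hkσs := hkσ s hs'
  have hc10 : 0 ≤ c1 := by
    refine le_trans ?_ hc1
    (clear * - hD hσ hξ0 hT; positivity)
  have hB0 : 0 < B := lt_of_lt_of_le (Real.exp_pos _) hB
  have hstat := static V H hH D k (sg D s) (fun h => kap q p h s) (fun v => yn H D k q v s)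
    (fun v => Zf H D k q v s) c1 (3 * Real.exp (7 * T) ^ 2 / D) (ξ * T) B
    (Real.exp ((1 + k) * sg D s)) hD hk hk1
    hσ hkσs (fun v hv => (yn_pos hS D k v hv s hs').le)
    (fun v hv => (yn_le hS D k hD hk v hv s hs').trans hB)
    (Real.one_le_exp (by (clear * - hk hσ; positivity)))
    (fun v hv => by
      have e : qh H D k (sg D s) v * yn H D k q v s ^ 2 = q v s * yn H D k q v s := by
        rw [← qh_yn H D k q v s]; ring
      rw [e]
      have h1 := q_le_one hS v hv s hs'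
      have h2 := yn_pos hS D k v hv s hs'
      have h3 := yn_le hS D k hD hk v hv s hs'
      nlinarith only [h3, h1, h2])
    (fun v _ => Zf_nonneg D k hD v s hs'.1)
    (fun v hv => qZ_le hS D k _ hD hk (by positivity) s hs' hkσs hcZ2 v hv)
    hc10 hc1' (by positivity) (by positivity) hξB
    (fun h hh => kap_ge hH hS hξ0 h hh s hs')
    (fun h hh => by
      have h1 := kap_le' hH hS D k hD hk hξ0 hξ hkσ h hh s hs'
      linarith only [hc1, h1])
  rw [← EE_eq V H D k q s] at hstat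
  have hr := reg_sum_le (V := V) (H := H) (q := q) D k (120 * c1 ^ 2 + 3 * (ξ * T * B ^ 4))
    (7 * (3 * Real.exp (7 * T) ^ 2 / D)) G2 hD hk (by linarith only [hk1]) s hs'.1 hkσs (by (clear * - hξ0 hT hB0; positivity))
    (by positivity) hg
  have e : ∑ v ∈ reg V H D k, qh H D k (sg D s) v * (100 * (1 + zd H D v - Rh H D k (sg D s) v) ^ 2 +
      120 * c1 ^ 2 + 7 * (3 * Real.exp (7 * T) ^ 2 / D * Zf H D k q v s) + 3 * (ξ * T * B ^ 4)) =
      ∑ v ∈ reg V H D k, qh H D k (sg D s) v * (100 * (1 + zd H D v - Rh H D k (sg D s) v) ^ 2 +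
      (120 * c1 ^ 2 + 3 * (ξ * T * B ^ 4)) + (7 * (3 * Real.exp (7 * T) ^ 2 / D)) * Zf H D k q v s) := by
    refine Finset.sum_congr rfl fun v _ => ?_
    ring
  rw [e] at hstat
  linarith only [hstat, hr]

/-- the energy estimate -/
theorem energy_bound (hH : Hyp V H) (hS : Sys V H T ξ q p) (D k G2 c1 B S0 : ℝ) (hD : 0 < D)
    (hT : 0 ≤ T) (hk : 0 ≤ k) (hk1 : k ≤ 1 / 100) (hξ0 : 0 ≤ ξ) (hξ : ξ * Real.exp T ≤ 1 / 2)
    (hkσ : ∀ t ∈ Set.Icc 0 T, k * sg D t ≤ 1 / 100)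
    (hg : ∀ t ∈ Set.Icc 0 T, ∑ v ∈ reg V H D k, (1 + zd H D v - Rh H D k (sg D t) v) ^ 2 ≤ G2)
    (hc1 : ∀ t ∈ Set.Icc 0 T,
      Real.exp (7 * T) * ((Real.exp (7 * T) / D) * (7 * sg D t) + ξ * T) ≤ c1) (hc1' : c1 ≤ 1)
    (hcZ : 3 * Real.exp (7 * T) ^ 2 / D ≤ 1 / 100000)
    (hcZ2 : ∀ t ∈ Set.Icc 0 T, 3 * Real.exp (7 * T) ^ 2 / D * (22 / 10 * sg D t) ≤ 1)
    (hB : ∀ t ∈ Set.Icc 0 T, Real.exp ((1 + k) * sg D t) ≤ B) (hξB : ξ * T * B ^ 4 ≤ 1)
    (hS0 : 100 * G2 + (V.card : ℝ) * (120 * c1 ^ 2 + 3 * (ξ * T * B ^ 4)) +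
      25 * ∑ v ∈ irr V H D k, (1 + (1 + zd H D v)) ≤ S0) (t : ℝ) (ht : t ∈ Set.Icc 0 T) :
    EE V H D k q t ≤ S0 * Real.exp (22 / 10 * sg D t) := by
  have hG2 : 0 ≤ G2 := le_trans (Finset.sum_nonneg fun _ _ => sq_nonneg _) (hg 0 ⟨le_refl 0, hT⟩)
  have hI : 0 ≤ ∑ v ∈ irr V H D k, (1 + (1 + zd H D v)) := Finset.sum_nonneg fun v _ => by
    rw [← deg_div]; (clear * - hD; positivity)
  have hB0 : 0 < B := lt_of_lt_of_le (Real.exp_pos _) (hB 0 ⟨le_refl 0, hT⟩)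
  have hS00 : 0 ≤ S0 := le_trans (by (clear * - hG2 hξ0 hT hB0 hI; positivity)) hS0
  have key := gronwall_aux D T S0 (fun s => EE V H D k q s + (1 / 100) * WW V H D k q s) hD hS00
    (by
      apply ContinuousOn.add
      · exact fun s hs => (EE_deriv hH hS D k hD s hs).continuousAt.continuousWithinAt
      · exact continuousOn_const.mul (WW_cont hS D k hD hT))
    (by rw [EE_zero hS, WW_zero]; ring)
    (fun s hs => by
      have hs' : s ∈ Set.Icc 0 T := ⟨hs.1.le, hs.2.le⟩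
      refine ⟨_, (EE_deriv hH hS D k hD s hs').add
        ((WW_deriv (V := V) (H := H) hS D k hD s hs).const_mul (1 / 100)), ?_⟩
      have hspos := sp_pos D s hD hs.1.le
      have hσ := sg_nonneg D s hD hs.1.le
      have hE := Edot_le hH hS D k G2 c1 B hD hT hk hk1 hξ0 hξ hkσ s hs' (hg s hs') (hc1 s hs')
        hc1' (hcZ2 s hs') (hB s hs') hξB
      have hW := WW_deriv_le (V := V) (H := H) (q := q) D k hD hk s hs.1.le (hkσ s hs')
      obtain ⟨Ed, hEd⟩ : ∃ Ed, Ed = Edot V H D k (sg D s) (fun h => kap q p h s)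
        (fun v => yn H D k q v s) := ⟨_, rfl⟩
      obtain ⟨Wd, hWd⟩ : ∃ Wd, Wd = ∑ v ∈ reg V H D k,
        (-(sp D s) * (Real.exp (-(sg D s)) * Zf H D k q v s) +
        Real.exp (-(sg D s)) * (sp D s * (yn H D k q v s - 1) ^ 2)) := ⟨_, rfl⟩
      rw [← hEd] at hE ⊢
      rw [← hWd] at hW ⊢
      have hEE := EE_nonneg (V := V) (H := H) (q := q) D k s
      have hWW := WW_nonneg (V := V) (H := H) (q := q) D k hD s hs.1.le
      obtain ⟨e, he⟩ : ∃ e, e = EE V H D k q s := ⟨_, rfl⟩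
      obtain ⟨w, hw⟩ : ∃ w, w = WW V H D k q s := ⟨_, rfl⟩
      obtain ⟨I, hId⟩ : ∃ I, I = ∑ v ∈ irr V H D k, (1 + (1 + zd H D v)) := ⟨_, rfl⟩
      rw [← he, ← hw, ← hId] at hE
      rw [← he] at hW hEE
      rw [← hw] at hWW
      rw [← hId] at hS0 hI
      rw [← he, ← hw]
      have x1 : Real.exp ((1 + k) * sg D s) ≤ Real.exp (11 / 10 * sg D s) := by
        apply Real.exp_le_exp.mpr
        nlinarith only [hσ, hk1]
      have x2 : 1 ≤ Real.exp (11 / 10 * sg D s) := Real.one_le_exp (by (clear * - hσ; positivity))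
      obtain ⟨X, hX⟩ : ∃ X, X = Real.exp (11 / 10 * sg D s) := ⟨_, rfl⟩
      rw [← hX] at x1 x2 ⊢
      have y1 : 25 * Real.exp ((1 + k) * sg D s) * I ≤ 25 * X * I := by
        apply mul_le_mul_of_nonneg_right _ hI
        linarith only [x1]
      have y2 : 100 * G2 + (V.card : ℝ) * (120 * c1 ^ 2 + 3 * (ξ * T * B ^ 4)) ≤
          (100 * G2 + (V.card : ℝ) * (120 * c1 ^ 2 + 3 * (ξ * T * B ^ 4))) * X := by
        have : 0 ≤ 100 * G2 + (V.card : ℝ) * (120 * c1 ^ 2 + 3 * (ξ * T * B ^ 4)) := by (clear * - hG2 hξ0 hT hB0; positivity)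
        nlinarith only [x2, this]
      have y3 : (100 * G2 + (V.card : ℝ) * (120 * c1 ^ 2 + 3 * (ξ * T * B ^ 4)) + 25 * I) * X ≤
          S0 * X := mul_le_mul_of_nonneg_right hS0 (by linarith only [x2])
      have y4 : (103 / 100) * (7 * (3 * Real.exp (7 * T) ^ 2 / D)) * w ≤ (1 / 10000) * w := by
        apply mul_le_mul_of_nonneg_right _ hWW
        linarith only [hcZ]
      have t1 : Ed ≤ (214 / 100) * e + (1 / 10000) * w + S0 * X := by linarith only [hE, y1, y2, y3, y4]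
      have t2 := mul_le_mul_of_nonneg_left t1 hspos.le
      nlinarith only [hW, t2, hspos, hEE, hWW]) t ht
  have hWW := WW_nonneg (V := V) (H := H) (q := q) D k hD t ht.1
  linarith only [key, hWW]

end sys

end Vale.Agent.P046.K
end

section

/-!
Energy method, part 6: bounds for the sources in terms of the deviation functional.
-/

set_option autoImplicit false

open scoped Classical
open Finset

namespace Vale.Agent.P046.K

variable {α : Type*}

/-- small deviation functions -/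
noncomputable def mz (z : ℝ) : ℝ := min (z ^ 4) (z ^ 2)

noncomputable def mw (w : ℝ) : ℝ := min (w ^ 2) |w|

lemma mz_nonneg (z : ℝ) : 0 ≤ mz z := le_min (by positivity) (sq_nonneg z)

lemma mw_nonneg (w : ℝ) : 0 ≤ mw w := le_min (sq_nonneg w) (abs_nonneg w)

lemma mz_eq (z : ℝ) (h : |z| ≤ 1) : mz z = z ^ 4 := by
  unfold mz
  apply min_eq_left
  have h1 : z ^ 2 ≤ 1 := by rw [← sq_abs]; nlinarith only [h, abs_nonneg z]
  nlinarith only [h1, sq_nonneg z]

lemma mz_eq' (z : ℝ) (h : 1 ≤ |z|) : mz z = z ^ 2 := by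
  unfold mz
  apply min_eq_right
  have h1 : 1 ≤ z ^ 2 := by rw [← sq_abs]; nlinarith only [h]
  nlinarith only [h1]

/-- irregular vertices are paid by `mz` -/
lemma irr_pay (z k : ℝ) (hk : 0 < k) (hk1 : k ≤ 1) (h : ¬ |z| ≤ k) :
    k ^ 4 * (1 + (1 + z)) ≤ 3 * mz z ∧ k ^ 4 * ((1 + z) * |z|) ≤ 2 * mz z := by
  push Not at h
  have hz := le_abs_self z
  have hk4 : k ^ 4 ≤ 1 := pow_le_one₀ hk.le hk1
  have hk40 : 0 < k ^ 4 := by positivity
  obtain ⟨a, ha⟩ : ∃ a, a = |z| := ⟨_, rfl⟩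
  rw [← ha] at h hz ⊢
  have ha0 : 0 < a := by linarith
  have h2 : z ^ 2 = a ^ 2 := by rw [ha, sq_abs]
  have h4 : z ^ 4 = a ^ 4 := by rw [show z ^ 4 = (z ^ 2) ^ 2 by ring, h2]; ring
  rcases le_total a 1 with h1 | h1
  · rw [mz_eq z (by rw [← ha]; exact h1), h4]
    have hka : k ^ 4 ≤ a ^ 4 := pow_le_pow_left₀ hk.le h.le 4
    constructor
    · calc k ^ 4 * (1 + (1 + z)) ≤ k ^ 4 * 3 := mul_le_mul_of_nonneg_left (by linarith) hk40.le
        _ ≤ 3 * a ^ 4 := by linarith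
    · calc k ^ 4 * ((1 + z) * a) ≤ k ^ 4 * (2 * 1) := by
            apply mul_le_mul_of_nonneg_left _ hk40.le
            have : (1 + z) * a ≤ 2 * a := mul_le_mul_of_nonneg_right (by linarith) ha0.le
            linarith
        _ ≤ 2 * a ^ 4 := by linarith
  · rw [mz_eq' z (by rw [← ha]; exact h1), h2]
    constructor
    · have h5 : 1 + (1 + z) ≤ 3 * a ^ 2 := by nlinarith only [hz, h1]
      have h6 : k ^ 4 * (1 + (1 + z)) ≤ k ^ 4 * (3 * a ^ 2) :=
        mul_le_mul_of_nonneg_left h5 hk40.le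
      have h7 : k ^ 4 * (3 * a ^ 2) ≤ 1 * (3 * a ^ 2) :=
        mul_le_mul_of_nonneg_right hk4 (by positivity)
      linarith
    · have h5 : (1 + z) * a ≤ 2 * a ^ 2 := by nlinarith only [h1, hz]
      have h6 : k ^ 4 * ((1 + z) * a) ≤ k ^ 4 * (2 * a ^ 2) :=
        mul_le_mul_of_nonneg_left h5 hk40.le
      have h7 : k ^ 4 * (2 * a ^ 2) ≤ 1 * (2 * a ^ 2) :=
        mul_le_mul_of_nonneg_right hk4 (by positivity)
      linarith

/-- double counting over pairs -/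
lemma pair_swap (V : Finset α) (H : Finset (Finset α)) (hH : Hyp V H) (f : α → ℝ) :
    ∑ v ∈ V, ∑ h ∈ star H v, ∑ u ∈ h.erase v, f u = 2 * ∑ u ∈ V, (deg H u : ℝ) * f u := by
  rw [← swap V H hH.sub (fun h v => ∑ u ∈ h.erase v, f u)]
  have e1 : ∀ h ∈ H, ∑ v ∈ h, ∑ u ∈ h.erase v, f u = ∑ u ∈ h, 2 * f u := by
    intro h hh
    have e0 : (h.card : ℝ) = 3 := by rw [hH.card h hh]; norm_num
    have e2 : ∀ v ∈ h, ∑ u ∈ h.erase v, f u = (∑ u ∈ h, f u) - f v := by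
      intro v hv
      rw [← Finset.add_sum_erase h f hv]; ring
    rw [Finset.sum_congr rfl e2, Finset.sum_sub_distrib, Finset.sum_const, nsmul_eq_mul, e0,
      ← Finset.mul_sum]
    ring
  rw [Finset.sum_congr rfl e1, swap V H hH.sub (fun _ u => 2 * f u), Finset.mul_sum]
  refine Finset.sum_congr rfl fun u _ => ?_
  rw [Finset.sum_const, nsmul_eq_mul]
  unfold deg
  ring

lemma irr_sum (V : Finset α) (H : Finset (Finset α)) (D k : ℝ) (hk : 0 < k) (hk1 : k ≤ 1) :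
    k ^ 4 * ∑ v ∈ irr V H D k, (1 + (1 + zd H D v)) ≤ 3 * ∑ v ∈ V, mz (zd H D v) := by
  rw [Finset.mul_sum]
  calc ∑ v ∈ irr V H D k, k ^ 4 * (1 + (1 + zd H D v))
      ≤ ∑ v ∈ irr V H D k, 3 * mz (zd H D v) :=
        Finset.sum_le_sum fun v hv => (irr_pay _ k hk hk1 (Finset.mem_filter.mp hv).2).1
    _ ≤ ∑ v ∈ V, 3 * mz (zd H D v) :=
        Finset.sum_le_sum_of_subset_of_nonneg (Finset.filter_subset _ _) fun v _ _ =>
          mul_nonneg (by norm_num) (mz_nonneg _)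
    _ = _ := by rw [Finset.mul_sum]

/-- clipped neighbourhood average -/
noncomputable def wh (H : Finset (Finset α)) (D k : ℝ) (v : α) : ℝ :=
  (∑ h ∈ star H v, ∑ u ∈ h.erase v, zh H D k u) / D

/-- clipping error -/
noncomputable def dh (H : Finset (Finset α)) (D k : ℝ) (v : α) : ℝ :=
  (∑ h ∈ star H v, ∑ u ∈ h.erase v, |zd H D u - zh H D k u|) / D

lemma wd_sub_wh (H : Finset (Finset α)) (D k : ℝ) (hD : 0 < D) (v : α) :
    |wd H D v - wh H D k v| ≤ dh H D k v := by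
  unfold wd wh dh
  rw [← sub_div, abs_div, abs_of_pos hD]
  apply div_le_div_of_nonneg_right _ hD.le
  rw [← Finset.sum_sub_distrib]
  refine (Finset.abs_sum_le_sum_abs _ _).trans (Finset.sum_le_sum fun h _ => ?_)
  rw [← Finset.sum_sub_distrib]
  exact Finset.abs_sum_le_sum_abs _ _

lemma sq_le_mw (w x d : ℝ) (hx : |x| ≤ 1) (hd : |w - x| ≤ d) : x ^ 2 ≤ 2 * mw w + 2 * d := by
  have hx2 : x ^ 2 ≤ 1 := by rw [← sq_abs]; nlinarith only [hx, abs_nonneg x]
  have hd0 : 0 ≤ d := (abs_nonneg _).trans hd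
  rcases le_total |w| 1 with hw | hw
  · have e : mw w = w ^ 2 := by
      unfold mw
      apply min_eq_left
      rw [← sq_abs]; nlinarith only [hw, abs_nonneg w]
    rw [e]
    rcases le_total d 1 with hd1 | hd1
    · have h1 : (w - x) ^ 2 ≤ d ^ 2 := by
        rw [← sq_abs (w - x)]; exact pow_le_pow_left₀ (abs_nonneg _) hd 2
      nlinarith only [h1, hd0, hd1, sq_nonneg (w + (w - x))]
    · linarith only [hx2, hd1, sq_nonneg w]
  · have e : mw w = |w| := by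
      unfold mw
      apply min_eq_right
      rw [← sq_abs]; nlinarith only [hw, abs_nonneg w]
    rw [e]
    linarith

lemma sum_dh (V : Finset α) (H : Finset (Finset α)) (hH : Hyp V H) (D k : ℝ) (hD : 0 < D)
    (hk : 0 < k) (hk1 : k ≤ 1) :
    k ^ 4 * ∑ v ∈ V, dh H D k v ≤ 4 * ∑ v ∈ V, mz (zd H D v) := by
  have e1 : ∑ v ∈ V, dh H D k v =
      2 * ∑ u ∈ V, (1 + zd H D u) * |zd H D u - zh H D k u| := by
    unfold dh
    rw [← Finset.sum_div, pair_swap V H hH, mul_div_assoc, Finset.sum_div]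
    congr 1
    refine Finset.sum_congr rfl fun u _ => ?_
    rw [← deg_div]; unfold deg; ring
  rw [e1, Finset.mul_sum, Finset.mul_sum, Finset.mul_sum]
  refine Finset.sum_le_sum fun u _ => ?_
  have hr : 0 ≤ 1 + zd H D u := by rw [← deg_div]; (clear * - hD; positivity)
  by_cases h : |zd H D u| ≤ k
  · rw [zh_eq H D k u h]
    simp only [sub_self, abs_zero, mul_zero]
    have := mz_nonneg (zd H D u)
    linarith
  · have h1 := (irr_pay _ k hk hk1 h).2
    have h2 : |zd H D u - zh H D k u| ≤ |zd H D u| := by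
      push Not at h
      unfold zh
      rcases le_total 0 (zd H D u) with h3 | h3
      · rw [abs_of_nonneg h3] at h
        rw [min_eq_left h.le, max_eq_right (by linarith only [hk]), abs_of_nonneg (by linarith),
          abs_of_nonneg h3]
        linarith
      · rw [abs_of_nonpos h3] at h
        rw [min_eq_right (by linarith only [hk, h]), max_eq_left (by linarith), abs_of_nonpos (by linarith),
          abs_of_nonpos h3]
        linarith
    have h3 : (1 + zd H D u) * |zd H D u - zh H D k u| ≤ (1 + zd H D u) * |zd H D u| :=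
      mul_le_mul_of_nonneg_left h2 hr
    have hk4 : 0 ≤ k ^ 4 := by positivity
    have h4 := mul_le_mul_of_nonneg_left h3 hk4
    linarith

lemma sum4_le (s : Finset α) (hs : s.card = 2) (f : α → ℝ) :
    (∑ u ∈ s, f u) ^ 4 ≤ 8 * ∑ u ∈ s, f u ^ 4 := by
  have h1 := sq_sum_le_card_mul_sum_sq (s := s) (f := f)
  have h2 := sq_sum_le_card_mul_sum_sq (s := s) (f := fun u => f u ^ 2)
  rw [hs] at h1 h2
  have h3 : ∑ u ∈ s, (f u ^ 2) ^ 2 = ∑ u ∈ s, f u ^ 4 :=
    Finset.sum_congr rfl fun u _ => by ring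
  rw [h3] at h2
  push_cast at h1 h2
  have h4 : (∑ u ∈ s, f u) ^ 4 = ((∑ u ∈ s, f u) ^ 2) ^ 2 := by ring
  rw [h4]
  have h5 : ((∑ u ∈ s, f u) ^ 2) ^ 2 ≤ (2 * ∑ u ∈ s, f u ^ 2) ^ 2 :=
    pow_le_pow_left₀ (sq_nonneg _) h1 2
  linarith only [h2, h5]

lemma vert_g (H : Finset (Finset α)) (hcard : ∀ h ∈ H, h.card = 3) (D k σ : ℝ)
    (hD : 0 < D) (hk : 0 < k) (hk1 : k ≤ 1 / 100) (hσ : 0 ≤ σ) (hkσ : k * σ ≤ 1 / 100) (v : α)
    (hv : |zd H D v| ≤ k) :
    (1 + zd H D v - Rh H D k σ v) ^ 2 ≤ 4 * σ ^ 2 * (mw (wd H D v) + dh H D k v) +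
      17 * σ ^ 4 * ((∑ h ∈ star H v, ∑ u ∈ h.erase v, zh H D k u ^ 4) / D) := by
  have hmem : ∀ h ∈ star H v, h ∈ H ∧ v ∈ h := by
    intro h hh
    unfold star at hh
    exact Finset.mem_filter.mp hh
  have hr := abs_le.mp hv
  have hdeg := deg_div H D v
  obtain ⟨x, hx⟩ : ∃ x : Finset α → ℝ, x = fun h => σ * ∑ u ∈ h.erase v, zh H D k u := ⟨_, rfl⟩
  have hxs : ∀ h ∈ star H v, |x h| ≤ 1 / 50 := by
    intro h hh
    rw [hx]
    simp only
    rw [abs_mul, abs_of_nonneg hσ]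
    have h1 := abs_sum_zh H D k hk.le h (hcard h (hmem h hh).1) v (hmem h hh).2
    calc σ * |∑ u ∈ h.erase v, zh H D k u| ≤ σ * (2 * k) := mul_le_mul_of_nonneg_left h1 hσ
      _ ≤ 1 / 50 := by linarith only [hkσ]
  -- first order
  have e1 : 1 + zd H D v - Rh H D k σ v = (∑ h ∈ star H v, (1 - Real.exp (-(x h)))) / D := by
    rw [← hdeg, hx]
    unfold Rh
    rw [← sub_div]
    congr 1
    rw [Finset.sum_sub_distrib]; simp only [sum_const, nsmul_eq_mul, mul_one]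
  have e2 : σ * wh H D k v = (∑ h ∈ star H v, x h) / D := by
    rw [hx]
    unfold wh
    rw [← mul_div_assoc, Finset.mul_sum]
  have h1 : |(1 + zd H D v - Rh H D k σ v) - σ * wh H D k v| ≤ (∑ h ∈ star H v, x h ^ 2) / D := by
    rw [e1, e2, ← sub_div, abs_div, abs_of_pos hD]
    apply div_le_div_of_nonneg_right _ hD.le
    rw [← Finset.sum_sub_distrib]
    refine (Finset.abs_sum_le_sum_abs _ _).trans (Finset.sum_le_sum fun h hh => ?_)
    have h2 := Real.abs_exp_sub_one_sub_id_le (x := -(x h)) (by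
      rw [abs_neg]; linarith only [hh, hxs h hh])
    have e3 : 1 - Real.exp (-(x h)) - x h = -(Real.exp (-(x h)) - 1 - -(x h)) := by ring
    rw [e3, abs_neg]
    calc |Real.exp (-(x h)) - 1 - -(x h)| ≤ (-(x h)) ^ 2 := h2
      _ = x h ^ 2 := by ring
  -- quadratic error
  have h2 : ((∑ h ∈ star H v, x h ^ 2) / D) ^ 2 ≤
      (101 / 100) * (8 * σ ^ 4 * ((∑ h ∈ star H v, ∑ u ∈ h.erase v, zh H D k u ^ 4) / D)) := by
    have h3 := sq_sum_le_card_mul_sum_sq (s := star H v) (f := fun h => x h ^ 2)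
    have h4 : ∑ h ∈ star H v, (x h ^ 2) ^ 2 ≤
        ∑ h ∈ star H v, 8 * σ ^ 4 * ∑ u ∈ h.erase v, zh H D k u ^ 4 := by
      refine Finset.sum_le_sum fun h hh => ?_
      have hc2 : (h.erase v).card = 2 := by
        rw [Finset.card_erase_of_mem (hmem h hh).2, hcard h (hmem h hh).1]
      have h5 := sum4_le (h.erase v) hc2 (fun u => zh H D k u)
      rw [hx]
      simp only
      calc ((σ * ∑ u ∈ h.erase v, zh H D k u) ^ 2) ^ 2 =
            σ ^ 4 * (∑ u ∈ h.erase v, zh H D k u) ^ 4 := by ring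
        _ ≤ σ ^ 4 * (8 * ∑ u ∈ h.erase v, zh H D k u ^ 4) :=
            mul_le_mul_of_nonneg_left h5 (by (clear * -; positivity))
        _ = _ := by ring
    rw [← Finset.mul_sum] at h4
    obtain ⟨Q, hQ⟩ : ∃ Q, Q = ∑ h ∈ star H v, ∑ u ∈ h.erase v, zh H D k u ^ 4 := ⟨_, rfl⟩
    rw [← hQ] at h4 ⊢
    have hQ0 : 0 ≤ Q := by
      rw [hQ]
      exact Finset.sum_nonneg fun h _ => Finset.sum_nonneg fun u _ => by (clear * -; positivity)
    have h6 : ((star H v).card : ℝ) / D ≤ 101 / 100 := by rw [hdeg]; linarith only [hk1, hr]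
    calc ((∑ h ∈ star H v, x h ^ 2) / D) ^ 2 = (∑ h ∈ star H v, x h ^ 2) ^ 2 / D / D := by
          field_simp
      _ ≤ (((star H v).card : ℝ) * (8 * σ ^ 4 * Q)) / D / D := by
          apply div_le_div_of_nonneg_right _ hD.le
          apply div_le_div_of_nonneg_right _ hD.le
          exact h3.trans (mul_le_mul_of_nonneg_left h4 (by (clear * -; positivity)))
      _ = (((star H v).card : ℝ) / D) * (8 * σ ^ 4 * (Q / D)) := by field_simp
      _ ≤ (101 / 100) * (8 * σ ^ 4 * (Q / D)) :=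
          mul_le_mul_of_nonneg_right h6 (by (clear * - hQ0 hD; positivity))
  -- linear term
  have hwh : |wh H D k v| ≤ 1 := by
    unfold wh
    rw [abs_div, abs_of_pos hD, div_le_iff₀ hD]
    refine (Finset.abs_sum_le_sum_abs _ _).trans ?_
    calc ∑ h ∈ star H v, |∑ u ∈ h.erase v, zh H D k u| ≤ ∑ _h ∈ star H v, 2 * k :=
          Finset.sum_le_sum fun h hh =>
            abs_sum_zh H D k hk.le h (hcard h (hmem h hh).1) v (hmem h hh).2
      _ = (((star H v).card : ℝ) / D) * (2 * k) * D := by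
          rw [Finset.sum_const, nsmul_eq_mul]
          field_simp
      _ ≤ 1 * D := by
          apply mul_le_mul_of_nonneg_right _ hD.le
          rw [hdeg]
          nlinarith only [hk1, hr]
  have h7 := sq_le_mw (wd H D v) (wh H D k v) (dh H D k v) hwh (wd_sub_wh H D k hD v)
  obtain ⟨X, hX⟩ : ∃ X, X = 1 + zd H D v - Rh H D k σ v := ⟨_, rfl⟩
  obtain ⟨Y, hY⟩ : ∃ Y, Y = (∑ h ∈ star H v, x h ^ 2) / D := ⟨_, rfl⟩
  rw [← hX] at h1 ⊢
  rw [← hY] at h1 h2
  have h8 : (X - σ * wh H D k v) ^ 2 ≤ Y ^ 2 := by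
    rw [← sq_abs]; exact pow_le_pow_left₀ (abs_nonneg _) h1 2
  have h9 : X ^ 2 ≤ 2 * (σ * wh H D k v) ^ 2 + 2 * Y ^ 2 := by
    linarith only [h8, sq_nonneg (X - 2 * (σ * wh H D k v))]
  have h10 : (σ * wh H D k v) ^ 2 ≤ σ ^ 2 * (2 * mw (wd H D v) + 2 * dh H D k v) := by
    rw [mul_pow]
    exact mul_le_mul_of_nonneg_left h7 (sq_nonneg σ)
  have hQ0 : 0 ≤ σ ^ 4 * ((∑ h ∈ star H v, ∑ u ∈ h.erase v, zh H D k u ^ 4) / D) := by
    apply mul_nonneg (by positivity)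
    apply div_nonneg _ hD.le
    exact Finset.sum_nonneg fun h _ => Finset.sum_nonneg fun u _ => by positivity
  nlinarith only [h2, h9, h10]

lemma sum_zh4 (V : Finset α) (H : Finset (Finset α)) (hH : Hyp V H) (D k : ℝ) (hD : 0 < D)
    (hk : 0 < k) (hk1 : k ≤ 1 / 100) :
    ∑ v ∈ V, ((∑ h ∈ star H v, ∑ u ∈ h.erase v, zh H D k u ^ 4) / D) ≤
      6 * ∑ v ∈ V, mz (zd H D v) := by
  rw [← Finset.sum_div, pair_swap V H hH, mul_div_assoc, Finset.sum_div]
  have h1 : ∑ u ∈ V, (deg H u : ℝ) * zh H D k u ^ 4 / D ≤ ∑ u ∈ V, 3 * mz (zd H D u) := by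
    refine Finset.sum_le_sum fun u _ => ?_
    have e : (deg H u : ℝ) * zh H D k u ^ 4 / D = (1 + zd H D u) * zh H D k u ^ 4 := by
      rw [← deg_div]; unfold deg; ring
    rw [e]
    have hr : 0 ≤ 1 + zd H D u := by rw [← deg_div]; (clear * - hD; positivity)
    by_cases h : |zd H D u| ≤ k
    · have h' := abs_le.mp h
      rw [zh_eq H D k u h, mz_eq _ (by linarith)]
      have : 0 ≤ zd H D u ^ 4 := by positivity
      nlinarith only [this, hk1, h']
    · have h1 := (irr_pay _ k hk (by linarith) h).1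
      have h2 : zh H D k u ^ 4 ≤ k ^ 4 := by
        have := pow_le_pow_left₀ (abs_nonneg _) (abs_zh H D k hk.le u) 4
        have e2 : |zh H D k u| ^ 4 = zh H D k u ^ 4 := by
          rw [show |zh H D k u| ^ 4 = (|zh H D k u| ^ 2) ^ 2 by ring, sq_abs]; ring
        rw [← e2]; exact this
      have h3 : (1 + zd H D u) * zh H D k u ^ 4 ≤ (1 + zd H D u) * k ^ 4 :=
        mul_le_mul_of_nonneg_left h2 hr
      have h4 : 0 < k ^ 4 := by positivity
      linarith only [h1, h3, h4]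
  rw [← Finset.mul_sum] at h1
  linarith only [h1]

/-- total bound for the regular sources -/
lemma sum_g (V : Finset α) (H : Finset (Finset α)) (hH : Hyp V H) (D k σ σm : ℝ)
    (hD : 0 < D) (hk : 0 < k) (hk1 : k ≤ 1 / 100) (hσ : 0 ≤ σ) (hσm : σ ≤ σm)
    (hkσ : k * σ ≤ 1 / 100) :
    k ^ 4 * ∑ v ∈ reg V H D k, (1 + zd H D v - Rh H D k σ v) ^ 2 ≤
      130 * (1 + σm) ^ 4 * ∑ v ∈ V, (mz (zd H D v) + mw (wd H D v)) := by
  have h1 : ∑ v ∈ reg V H D k, (1 + zd H D v - Rh H D k σ v) ^ 2 ≤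
      ∑ v ∈ V, (4 * σ ^ 2 * (mw (wd H D v) + dh H D k v) +
      17 * σ ^ 4 * ((∑ h ∈ star H v, ∑ u ∈ h.erase v, zh H D k u ^ 4) / D)) := by
    refine (Finset.sum_le_sum fun v hv => vert_g H hH.card D k σ hD hk hk1 hσ hkσ v
      (Finset.mem_filter.mp hv).2).trans ?_
    apply Finset.sum_le_sum_of_subset_of_nonneg (Finset.filter_subset _ _)
    intro v _ _
    have q1 := mw_nonneg (wd H D v)
    have q2 : 0 ≤ dh H D k v := (abs_nonneg _).trans (wd_sub_wh H D k hD v)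
    have q3 : 0 ≤ (∑ h ∈ star H v, ∑ u ∈ h.erase v, zh H D k u ^ 4) / D := by
      apply div_nonneg _ hD.le
      exact Finset.sum_nonneg fun h _ => Finset.sum_nonneg fun u _ => by positivity
    have q4 : 0 ≤ 4 * σ ^ 2 * (mw (wd H D v) + dh H D k v) :=
      mul_nonneg (by positivity) (add_nonneg q1 q2)
    exact add_nonneg q4 (mul_nonneg (by positivity) q3)
  rw [Finset.sum_add_distrib, ← Finset.mul_sum, ← Finset.mul_sum, Finset.sum_add_distrib] at h1
  have h2 := sum_zh4 V H hH D k hD hk hk1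
  have h3 := sum_dh V H hH D k hD hk (by linarith only [hk, hk1])
  rw [Finset.sum_add_distrib]
  obtain ⟨Mz, hMz⟩ : ∃ Mz, Mz = ∑ v ∈ V, mz (zd H D v) := ⟨_, rfl⟩
  obtain ⟨Mw, hMw⟩ : ∃ Mw, Mw = ∑ v ∈ V, mw (wd H D v) := ⟨_, rfl⟩
  obtain ⟨Dh, hDh⟩ : ∃ Dh, Dh = ∑ v ∈ V, dh H D k v := ⟨_, rfl⟩
  obtain ⟨Q, hQ⟩ : ∃ Q, Q = ∑ v ∈ V, ((∑ h ∈ star H v, ∑ u ∈ h.erase v, zh H D k u ^ 4) / D) :=
    ⟨_, rfl⟩
  obtain ⟨X, hX⟩ : ∃ X, X = ∑ v ∈ reg V H D k, (1 + zd H D v - Rh H D k σ v) ^ 2 := ⟨_, rfl⟩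
  have hMz0 : 0 ≤ Mz := by rw [hMz]; exact Finset.sum_nonneg fun v _ => mz_nonneg _
  have hMw0 : 0 ≤ Mw := by rw [hMw]; exact Finset.sum_nonneg fun v _ => mw_nonneg _
  rw [← hMz] at h2 h3 ⊢
  rw [← hMw] at h1 ⊢
  rw [← hDh] at h1 h3
  rw [← hQ] at h1 h2
  rw [← hX] at h1 ⊢
  have hσm0 : 0 ≤ σm := hσ.trans hσm
  have hs2 : σ ^ 2 ≤ (1 + σm) ^ 4 := by
    have a1 : σ ^ 2 ≤ (1 + σm) ^ 2 := pow_le_pow_left₀ hσ (by linarith only [hk1, hσm]) 2
    have a2 : (1 + σm) ^ 2 ≤ (1 + σm) ^ 4 := pow_le_pow_right₀ (by linarith only [hσ, hσm]) (by norm_num)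
    linarith only [a1, a2]
  have hs4 : σ ^ 4 ≤ (1 + σm) ^ 4 := pow_le_pow_left₀ hσ (by linarith only [hσm]) 4
  obtain ⟨S, hS⟩ : ∃ S, S = (1 + σm) ^ 4 := ⟨_, rfl⟩
  rw [← hS] at hs2 hs4 ⊢
  have hS0 : 0 ≤ S := by rw [hS]; (clear * - hσm0; positivity)
  have hk4 : k ^ 4 ≤ 1 := pow_le_one₀ hk.le (by linarith only [hk, hk1])
  have hk40 : 0 < k ^ 4 := by positivity
  have b1 : k ^ 4 * X ≤ k ^ 4 * (4 * σ ^ 2 * (Mw + Dh) + 17 * σ ^ 4 * Q) :=
    mul_le_mul_of_nonneg_left h1 hk40.le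
  have b2 : k ^ 4 * (4 * σ ^ 2 * Mw) ≤ 4 * S * Mw := by
    have : k ^ 4 * (4 * σ ^ 2 * Mw) ≤ 1 * (4 * S * Mw) := by
      apply mul_le_mul hk4 _ (by (clear * - hMw0; positivity)) (by norm_num)
      apply mul_le_mul_of_nonneg_right _ hMw0
      linarith only [hs2]
    linarith only [this]
  have b3 : k ^ 4 * (4 * σ ^ 2 * Dh) ≤ 16 * S * Mz := by
    calc k ^ 4 * (4 * σ ^ 2 * Dh) = 4 * σ ^ 2 * (k ^ 4 * Dh) := by ring
      _ ≤ 4 * σ ^ 2 * (4 * Mz) := mul_le_mul_of_nonneg_left h3 (by (clear * -; positivity))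
      _ = 16 * σ ^ 2 * Mz := by ring
      _ ≤ 16 * S * Mz := by
          apply mul_le_mul_of_nonneg_right _ hMz0
          linarith only [hs2]
  have b4 : k ^ 4 * (17 * σ ^ 4 * Q) ≤ 102 * S * Mz := by
    calc k ^ 4 * (17 * σ ^ 4 * Q) ≤ k ^ 4 * (17 * σ ^ 4 * (6 * Mz)) := by
          apply mul_le_mul_of_nonneg_left _ hk40.le
          exact mul_le_mul_of_nonneg_left h2 (by (clear * -; positivity))
      _ ≤ 1 * (17 * S * (6 * Mz)) := by
          apply mul_le_mul hk4 _ (by (clear * - hMz0; positivity)) (by norm_num)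
          apply mul_le_mul_of_nonneg_right _ (by positivity)
          linarith only [hs4]
      _ = _ := by ring
  have b5 : 0 ≤ S * Mz := by (clear * - hS0 hMz0; positivity)
  have b6 : 0 ≤ S * Mw := by positivity
  linarith only [b1, b2, b3, b4, b5, b6]

end Vale.Agent.P046.K
end

section

/-!
Energy method, part 7: conclusion.
-/

set_option autoImplicit false

open scoped Classical
open Finset

namespace Vale.Agent.P046.K

variable {α : Type*}

lemma exp_neg_sg (D t : ℝ) (hD : 0 < D) (ht : 0 ≤ t) :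
    Real.exp (-(sg D t)) = 1 / √(Sf D t) := by
  have h1 := exp_two_sg D t hD ht
  have h2 : √(Sf D t) = Real.exp (sg D t) := by
    rw [← h1, two_mul, Real.exp_add]
    exact Real.sqrt_mul_self (Real.exp_pos _).le
  rw [h2, Real.exp_neg, one_div]

lemma abs_exp_sub_one (x : ℝ) (hx : |x| ≤ 1) : |Real.exp x - 1| ≤ 2 * |x| := by
  have h1 := Real.abs_exp_sub_one_sub_id_le hx
  have h2 : x ^ 2 ≤ |x| := by rw [← sq_abs]; nlinarith [abs_nonneg x]
  have h3 : |Real.exp x - 1| ≤ |Real.exp x - 1 - x| + |x| := by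
    have := abs_add_le (Real.exp x - 1 - x) x
    simpa using this
  linarith

/-- the conclusion for fixed parameters -/
theorem final_core {V : Finset α} {H : Finset (Finset α)} {T ξ : ℝ} {q : α → ℝ → ℝ}
    {p : Finset α → ℝ → ℝ} (hH : Hyp V H) (hS : Sys V H T ξ q p) (D k c1 Λ A η σm : ℝ)
    (hD : 0 < D) (hT : 0 ≤ T) (hk : 0 < k) (hk1 : k ≤ 1 / 100) (hξ0 : 0 ≤ ξ)
    (hξ : ξ * Real.exp T ≤ 1 / 2) (hσm : σm = Real.log (1 + 2 * D) / 2)
    (hkσ : k * σm ≤ 1 / 100) (hkη : k * σm ≤ η / 4) (hη : 0 < η)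
    (hc1 : Real.exp (7 * T) * ((Real.exp (7 * T) / D) * (7 * σm) + ξ * T) ≤ c1) (hc1' : c1 ≤ 1)
    (hcZ : 3 * Real.exp (7 * T) ^ 2 / D ≤ 1 / 100000)
    (hcZ2 : 3 * Real.exp (7 * T) ^ 2 / D * (22 / 10 * σm) ≤ 1)
    (hξB : ξ * T * (1 + 2 * D) ^ 4 ≤ 1) (hΛ0 : 0 ≤ Λ)
    (hΛ : ∑ v ∈ V, (mz (zd H D v) + mw (wd H D v)) ≤ V.card * Λ)
    (hA : 13075 * (1 + σm) ^ 4 * Λ / k ^ 4 + 120 * c1 ^ 2 + 3 * (ξ * T * (1 + 2 * D) ^ 4) ≤ A)
    (hAη : (103 / 100) * A * (1 + 2 * D) ^ (8 / 5 : ℝ) ≤ (η / 2) ^ 2)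
    (t : ℝ) (ht : t ∈ Set.Icc 0 T) :
    |∑ v ∈ V, q v t - V.card / √(Sf D t)| ≤ η * (V.card / √(Sf D t)) := by
  have hσm0 : 0 ≤ σm := by
    rw [hσm]
    have := Real.log_nonneg (show (1:ℝ) ≤ 1 + 2 * D by linarith only [hD])
    linarith only [this]
  have hsgm : ∀ t ∈ Set.Icc 0 T, sg D t ≤ σm := fun t ht => by
    rw [hσm]; exact sg_le D t hD ht.1
  have hk4 : 0 < k ^ 4 := by positivity
  have hkσ' : ∀ t ∈ Set.Icc 0 T, k * sg D t ≤ 1 / 100 := fun t ht =>
    (mul_le_mul_of_nonneg_left (hsgm t ht) hk.le).trans hkσ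
  have hN : (0:ℝ) ≤ V.card := Nat.cast_nonneg _
  have hc10 : 0 ≤ c1 := le_trans (by (clear * - hD hσm0 hξ0 hT; positivity)) hc1
  have hXi : 0 ≤ ξ * T * (1 + 2 * D) ^ 4 := by (clear * - hξ0 hT hD; positivity)
  have hA0 : 0 ≤ A := le_trans (by (clear * - hσm0 hΛ0 hk hξ0 hT hD; positivity)) hA
  -- energy bound
  have hE := energy_bound hH hS D k (130 * (1 + σm) ^ 4 * (V.card * Λ) / k ^ 4) c1 (1 + 2 * D)
    (V.card * A) hD hT hk.le hk1 hξ0 hξ hkσ'
    (fun s hs => by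
      rw [le_div_iff₀ hk4, mul_comm]
      refine (sum_g V H hH D k (sg D s) σm hD hk hk1 (sg_nonneg D s hD hs.1) (hsgm s hs)
        (hkσ' s hs)).trans ?_
      exact mul_le_mul_of_nonneg_left hΛ (by positivity))
    (fun s hs => by
      refine le_trans ?_ hc1
      apply mul_le_mul_of_nonneg_left _ (Real.exp_pos _).le
      have : Real.exp (7 * T) / D * (7 * sg D s) ≤ Real.exp (7 * T) / D * (7 * σm) := by
        apply mul_le_mul_of_nonneg_left _ (by positivity)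
        linarith only [hsgm, hs, hsgm s hs]
      linarith only [this])
    hc1' hcZ
    (fun s hs => by
      refine le_trans ?_ hcZ2
      apply mul_le_mul_of_nonneg_left _ (by positivity)
      linarith only [hsgm s hs])
    (fun s hs => by
      have h1 := hsgm s hs
      have h0 := sg_nonneg D s hD hs.1
      have h2 : (1 + k) * sg D s ≤ 2 * σm := by nlinarith only [hσm0, h1, hk, hk1]
      calc Real.exp ((1 + k) * sg D s) ≤ Real.exp (2 * σm) := Real.exp_le_exp.mpr h2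
        _ = 1 + 2 * D := by
            rw [hσm, mul_div_cancel₀ _ (by norm_num : (2:ℝ) ≠ 0),
              Real.exp_log (by linarith only [hD, hk, hk1])])
    hξB
    (by
      have h1 := irr_sum V H D k hk (by linarith only [hk, hk1])
      have h2 : ∑ v ∈ V, mz (zd H D v) ≤ V.card * Λ := by
        refine le_trans (Finset.sum_le_sum fun v _ => ?_) hΛ
        linarith only [mw_nonneg (wd H D v)]
      have h3 : ∑ v ∈ irr V H D k, (1 + (1 + zd H D v)) ≤ 3 * (V.card * Λ) / k ^ 4 := by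
        rw [le_div_iff₀ hk4, mul_comm]
        linarith only [h1, h2]
      have h4 : 1 ≤ (1 + σm) ^ 4 := one_le_pow₀ (by linarith only [hσm0])
      have h5 : 0 ≤ V.card * Λ / k ^ 4 := by (clear * - hΛ0 hk; positivity)
      have h6 : V.card * Λ / k ^ 4 ≤ (1 + σm) ^ 4 * (V.card * Λ / k ^ 4) := by nlinarith only [h4, h5]
      have h7 := mul_le_mul_of_nonneg_left hA hN
      have e1 : 130 * (1 + σm) ^ 4 * (V.card * Λ) / k ^ 4 =
        130 * ((1 + σm) ^ 4 * (V.card * Λ / k ^ 4)) := by ring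
      have e2 : 3 * (V.card * Λ) / k ^ 4 = 3 * (V.card * Λ / k ^ 4) := by ring
      have e3 : (V.card : ℝ) * (13075 * (1 + σm) ^ 4 * Λ / k ^ 4 + 120 * c1 ^ 2 +
          3 * (ξ * T * (1 + 2 * D) ^ 4)) = 13075 * ((1 + σm) ^ 4 * (V.card * Λ / k ^ 4)) +
          V.card * (120 * c1 ^ 2 + 3 * (ξ * T * (1 + 2 * D) ^ 4)) := by ring
      rw [e2] at h3
      rw [e3] at h7
      rw [e1]
      linarith only [h3, h6, h7])
    t ht
  have ht0 := ht.1
  have hσ0 := sg_nonneg D t hD ht0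
  obtain ⟨σ, hσ⟩ : ∃ σ, σ = sg D t := ⟨_, rfl⟩
  rw [div_eq_mul_one_div, ← exp_neg_sg D t hD ht0]
  have hkσt := hkσ' t ht
  rw [← hσ] at hE hσ0 hkσt ⊢
  have hexp := Real.exp_pos (-σ)
  -- reference sum
  have hQ : ∑ v ∈ V, qh H D k σ v ≤ (103 / 100) * (V.card * Real.exp (-σ)) := by
    calc ∑ v ∈ V, qh H D k σ v ≤ ∑ _v ∈ V, (103 / 100) * Real.exp (-σ) :=
          Finset.sum_le_sum fun v _ => (qh_compare H D k σ hk.le hσ0 hkσt v).2
      _ = _ := by rw [Finset.sum_const, nsmul_eq_mul]; ring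
  have hQ2 : |∑ v ∈ V, qh H D k σ v - V.card * Real.exp (-σ)| ≤
      (η / 2) * (V.card * Real.exp (-σ)) := by
    have e1 : ∑ v ∈ V, qh H D k σ v - V.card * Real.exp (-σ) =
        ∑ v ∈ V, (qh H D k σ v - Real.exp (-σ)) := by
      rw [Finset.sum_sub_distrib]; simp
    rw [e1]
    refine (Finset.abs_sum_le_sum_abs _ _).trans ?_
    calc ∑ v ∈ V, |qh H D k σ v - Real.exp (-σ)| ≤ ∑ _v ∈ V, (η / 2) * Real.exp (-σ) := by
          refine Finset.sum_le_sum fun v _ => ?_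
          have hz := abs_zh H D k hk.le v
          have e2 : qh H D k σ v - Real.exp (-σ) =
              Real.exp (-σ) * (Real.exp (-(zh H D k v * σ)) - 1) := by
            unfold qh
            rw [mul_sub, ← Real.exp_add, mul_one]
            congr 2
            ring
          have h1 : |-(zh H D k v * σ)| ≤ k * σ := by
            rw [abs_neg, abs_mul, abs_of_nonneg hσ0]
            exact mul_le_mul_of_nonneg_right hz hσ0
          have h2 := abs_exp_sub_one (-(zh H D k v * σ)) (by linarith only [hkσt, h1])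
          have h3 : k * σ ≤ k * σm := mul_le_mul_of_nonneg_left (by rw [hσ]; exact hsgm t ht) hk.le
          rw [e2, abs_mul, abs_of_pos hexp, mul_comm]
          apply mul_le_mul_of_nonneg_right _ hexp.le
          linarith only [hkη, h1, h2, h3]
      _ = _ := by rw [Finset.sum_const, nsmul_eq_mul]; ring
  -- Cauchy-Schwarz
  have hCS : (∑ v ∈ V, (q v t - qh H D k σ v)) ^ 2 ≤
      (∑ v ∈ V, qh H D k σ v) * ∑ v ∈ V, (q v t - qh H D k σ v) ^ 2 / qh H D k σ v := by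
    apply Finset.sum_sq_le_sum_mul_sum_of_sq_le_mul
    · exact fun v _ => (qh_pos H D k σ v).le
    · exact fun v _ => div_nonneg (sq_nonneg _) (qh_pos H D k σ v).le
    · intro v _
      have := qh_pos H D k σ v
      apply le_of_eq
      field_simp
  have hEE : ∑ v ∈ V, (q v t - qh H D k σ v) ^ 2 / qh H D k σ v = EE V H D k q t := by
    unfold EE; rw [hσ]
  rw [hEE] at hCS
  have hEE0 := EE_nonneg (V := V) (H := H) (q := q) D k t
  have hSf : Real.exp (32 / 10 * σ) ≤ (1 + 2 * D) ^ (8 / 5 : ℝ) := by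
    have h1 : Real.exp (32 / 10 * σ) = (Sf D t) ^ (8 / 5 : ℝ) := by
      rw [← exp_two_sg D t hD ht0, ← Real.exp_mul, ← hσ]
      congr 1; ring
    rw [h1]
    exact Real.rpow_le_rpow (by linarith only [hk, hk1, hD, ht0, Sf_ge D t hD ht0]) (Sf_le D t hD) (by norm_num)
  have hmain : (∑ v ∈ V, (q v t - qh H D k σ v)) ^ 2 ≤ ((η / 2) * (V.card * Real.exp (-σ))) ^ 2 := by
    have e3 : Real.exp (22 / 10 * σ) = Real.exp (-σ) * Real.exp (32 / 10 * σ) := by
      rw [← Real.exp_add]; congr 1; ring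
    calc (∑ v ∈ V, (q v t - qh H D k σ v)) ^ 2
        ≤ ((103 / 100) * (V.card * Real.exp (-σ))) * (V.card * A * Real.exp (22 / 10 * σ)) :=
          hCS.trans (mul_le_mul hQ hE hEE0 (by (clear * -; positivity)))
      _ = ((103 / 100) * A * Real.exp (32 / 10 * σ)) * (V.card * Real.exp (-σ)) ^ 2 := by
          rw [e3]; ring
      _ ≤ ((103 / 100) * A * (1 + 2 * D) ^ (8 / 5 : ℝ)) * (V.card * Real.exp (-σ)) ^ 2 := by
          apply mul_le_mul_of_nonneg_right _ (sq_nonneg _)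
          exact mul_le_mul_of_nonneg_left hSf (by positivity)
      _ ≤ (η / 2) ^ 2 * (V.card * Real.exp (-σ)) ^ 2 :=
          mul_le_mul_of_nonneg_right hAη (sq_nonneg _)
      _ = _ := by ring
  have habs := abs_le_of_sq_le_sq hmain (by (clear * - hη; positivity))
  rw [Finset.sum_sub_distrib] at habs
  have hab := abs_le.mp habs
  have hq2 := abs_le.mp hQ2
  rw [abs_le]
  constructor <;> linarith only [hab.1, hq2.1, hab.2, hq2.2]

end Vale.Agent.P046.K
end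

section

/-!
Energy method, part 8: choice of the parameters.
-/

set_option autoImplicit false

open scoped Classical
open Finset

namespace Vale.Agent.P046.K

lemma div_small (A b : ℝ) (hb : 0 < b) (hA : 0 ≤ A) (s : ℝ) (hs : A / b + 1 ≤ s) : A / s ≤ b := by
  have hs0 : 0 < s := by
    have : 0 ≤ A / b := by positivity
    linarith
  rw [div_le_iff₀ hs0]
  have h1 : A ≤ b * (A / b) := by field_simp; exact le_refl _
  have h2 : b * (A / b) ≤ b * s := mul_le_mul_of_nonneg_left (by linarith) hb.le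
  linarith

lemma pow_div_le (A s : ℝ) (hA : 0 ≤ A) (hs : 1 ≤ s) (j : ℕ) (hj : 1 ≤ j) : A / s ^ j ≤ A / s := by
  apply div_le_div_of_nonneg_left hA (by linarith)
  calc s = s ^ 1 := (pow_one s).symm
    _ ≤ s ^ j := pow_le_pow_right₀ hs hj

lemma log_bound (s D : ℝ) (hs : 1 ≤ s) (hD : D = s ^ 100) :
    Real.log (1 + 2 * D) / 2 ≤ 150 * s := by
  have hD1 : 1 ≤ D := by rw [hD]; exact one_le_pow₀ hs
  have h1 : 1 + 2 * D ≤ 3 * D := by linarith
  have h2 : Real.log (1 + 2 * D) ≤ Real.log (3 * D) := Real.log_le_log (by linarith) h1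
  have h3 : Real.log (3 * D) = Real.log 3 + 100 * Real.log s := by
    rw [Real.log_mul (by norm_num) (by linarith), hD, Real.log_pow]; norm_num
  have h4 : Real.log s ≤ s - 1 := by
    have := Real.log_le_sub_one_of_pos (show 0 < s by linarith)
    linarith
  have h5 : Real.log 3 ≤ 2 := by
    have := Real.log_le_sub_one_of_pos (show (0:ℝ) < 3 by norm_num)
    linarith
  linarith

lemma S2_bound (s D : ℝ) (hs : 1 ≤ s) (hD : D = s ^ 100) :
    (1 + 2 * D) ^ (8 / 5 : ℝ) ≤ 9 * s ^ 160 := by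
  have hspos : 0 < s := by linarith
  have hD1 : 1 ≤ D := by rw [hD]; exact one_le_pow₀ hs
  have h1 : (1 + 2 * D) ^ (8 / 5 : ℝ) ≤ (3 * D) ^ (8 / 5 : ℝ) := by
    apply Real.rpow_le_rpow (by positivity) _ (by norm_num)
    linarith
  refine h1.trans ?_
  rw [Real.mul_rpow (by norm_num) (by linarith only [hD1])]
  have h2 : D ^ (8 / 5 : ℝ) = s ^ 160 := by
    rw [hD, ← Real.rpow_natCast, ← Real.rpow_natCast, ← Real.rpow_mul hspos.le]
    norm_num
  have h3 : (3:ℝ) ^ (8 / 5 : ℝ) ≤ 9 := by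
    calc (3:ℝ) ^ (8 / 5 : ℝ) ≤ (3:ℝ) ^ (2 : ℝ) :=
          Real.rpow_le_rpow_of_exponent_le (by norm_num) (by norm_num)
      _ = 9 := by norm_num
  rw [h2]
  exact mul_le_mul_of_nonneg_right h3 (by positivity)

lemma S3_bound (D D1 : ℝ) (hD : 0 < D) (hD1 : D ≤ D1) :
    (1 + 2 * D) ^ (8 / 5 : ℝ) ≤ (1 + 2 * D1) ^ 2 := by
  calc (1 + 2 * D) ^ (8 / 5 : ℝ) ≤ (1 + 2 * D) ^ (2 : ℝ) :=
        Real.rpow_le_rpow_of_exponent_le (by linarith) (by norm_num)
    _ = (1 + 2 * D) ^ 2 := by norm_num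
    _ ≤ _ := pow_le_pow_left₀ (by positivity) (by linarith) 2

lemma term_bound (s P X e : ℝ) (i j l : ℕ) (hs : 1 ≤ s) (hP : P ≤ 9 * s ^ i) (hX : 0 ≤ X)
    (hj : j = i + (l + 1)) (he : (103 / 100) * 9 * X / s ≤ e) :
    (103 / 100) * (X / s ^ j) * P ≤ e := by
  have hspos : 0 < s := by linarith only [hs]
  calc (103 / 100) * (X / s ^ j) * P ≤ (103 / 100) * (X / s ^ j) * (9 * s ^ i) :=
        mul_le_mul_of_nonneg_left hP (by positivity)
    _ = ((103 / 100) * 9 * X) / s ^ (l + 1) := by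
        rw [hj, pow_add]
        field_simp
    _ ≤ ((103 / 100) * 9 * X) / s := pow_div_le _ s (by positivity) hs (l + 1) (by omega)
    _ ≤ e := he

lemma g1_bound (s σm X : ℝ) (hs : 1 ≤ s) (hσ0 : 0 ≤ σm) (hσ : σm ≤ 150 * s) (hX : 0 ≤ X) :
    X * (1 + σm) ^ 4 * (1 / s ^ 190) / (1 / s ^ 2) ^ 4 ≤ X * 151 ^ 4 / s ^ 178 := by
  have hspos : 0 < s := by linarith
  have h1 : (1 + σm) ^ 4 ≤ (151 * s) ^ 4 := pow_le_pow_left₀ (by positivity) (by linarith) 4
  calc X * (1 + σm) ^ 4 * (1 / s ^ 190) / (1 / s ^ 2) ^ 4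
      ≤ X * (151 * s) ^ 4 * (1 / s ^ 190) / (1 / s ^ 2) ^ 4 := by
        apply div_le_div_of_nonneg_right _ (by positivity)
        apply mul_le_mul_of_nonneg_right _ (by positivity)
        exact mul_le_mul_of_nonneg_left h1 hX
    _ = X * 151 ^ 4 / s ^ 178 := by
        field_simp

lemma g2_bound (s a K T ξ X : ℝ) (hs : 1 ≤ s) (ha0 : 0 ≤ a) (ha : a ≤ X / s ^ 99) (hξ0 : 0 ≤ ξ)
    (hξ1 : ξ ≤ 1) : 120 * (a + K * T * ξ) ^ 2 ≤ 240 * X ^ 2 / s ^ 198 + 240 * K ^ 2 * T ^ 2 * ξ := by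
  have hspos : 0 < s := by linarith
  have h2 : a ^ 2 ≤ (X / s ^ 99) ^ 2 := pow_le_pow_left₀ ha0 ha 2
  have h3 : (X / s ^ 99) ^ 2 = X ^ 2 / s ^ 198 := by
    rw [div_pow]; congr 1; ring
  have h4 : (K * T * ξ) ^ 2 ≤ K ^ 2 * T ^ 2 * ξ := by
    have : (K * T * ξ) ^ 2 = K ^ 2 * T ^ 2 * (ξ * ξ) := by ring
    rw [this]
    apply mul_le_mul_of_nonneg_left _ (by (clear * -; positivity))
    nlinarith only [hξ0, hξ1]
  rw [h3] at h2
  have h5 : 240 * X ^ 2 / s ^ 198 = 240 * (X ^ 2 / s ^ 198) := by ring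
  rw [h5]
  linarith only [h2, h4, sq_nonneg (a - K * T * ξ)]

lemma xi_bound (D D1 K T ξ P η : ℝ) (hD : 0 < D) (hD1 : D ≤ D1) (hT : 0 < T)
    (hξ0 : 0 < ξ) (hη : 0 < η) (hP0 : 0 ≤ P) (hP : P ≤ (1 + 2 * D1) ^ 2)
    (h2 : ξ * ((103 / 100) * (1 + 2 * D1) ^ 2 *
      (240 * K ^ 2 * T ^ 2 + 3 * T * (1 + 2 * D1) ^ 4) * (16 / η ^ 2)) ≤ 1) :
    (103 / 100) * (240 * K ^ 2 * T ^ 2 * ξ + 3 * (ξ * T * (1 + 2 * D) ^ 4)) * P ≤ η ^ 2 / 16 := by
  have hX4 : (1 + 2 * D) ^ 4 ≤ (1 + 2 * D1) ^ 4 := pow_le_pow_left₀ (by positivity) (by linarith only [hD1]) 4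
  have h1 : 240 * K ^ 2 * T ^ 2 * ξ + 3 * (ξ * T * (1 + 2 * D) ^ 4) ≤
      (240 * K ^ 2 * T ^ 2 + 3 * T * (1 + 2 * D1) ^ 4) * ξ := by
    have : ξ * T * (1 + 2 * D) ^ 4 ≤ ξ * T * (1 + 2 * D1) ^ 4 :=
      mul_le_mul_of_nonneg_left hX4 (by positivity)
    linarith only [this]
  calc (103 / 100) * (240 * K ^ 2 * T ^ 2 * ξ + 3 * (ξ * T * (1 + 2 * D) ^ 4)) * P
      ≤ (103 / 100) * ((240 * K ^ 2 * T ^ 2 + 3 * T * (1 + 2 * D1) ^ 4) * ξ) *
        (1 + 2 * D1) ^ 2 := by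
        apply mul_le_mul _ hP hP0 (by positivity)
        linarith only [h1]
    _ = (ξ * ((103 / 100) * (1 + 2 * D1) ^ 2 *
        (240 * K ^ 2 * T ^ 2 + 3 * T * (1 + 2 * D1) ^ 4) * (16 / η ^ 2))) * (η ^ 2 / 16) := by
        field_simp
    _ ≤ 1 * (η ^ 2 / 16) := mul_le_mul_of_nonneg_right h2 (by positivity)
    _ = _ := one_mul _

lemma fin_bound (A x y z P η : ℝ) (hP : 0 ≤ P) (hA : A ≤ x + y + z)
    (h1 : (103 / 100) * x * P ≤ η ^ 2 / 16) (h2 : (103 / 100) * y * P ≤ η ^ 2 / 16)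
    (h3 : (103 / 100) * z * P ≤ η ^ 2 / 16) : (103 / 100) * A * P ≤ (η / 2) ^ 2 := by
  have h9 : (103 / 100) * A * P ≤ (103 / 100) * (x + y + z) * P := by
    apply mul_le_mul_of_nonneg_right _ hP
    linarith only [hA]
  linarith only [h1, h2, h3, h9, sq_nonneg η]

/-- conditions on `s` -/
structure SCond (s K η : ℝ) : Prop where
  one : 1 ≤ s
  hundred : 100 ≤ s
  a : 150 / s ≤ 1 / 100
  b : 150 / s ≤ η / 4
  c : 3 * K ^ 2 / s ≤ 1 / 100000
  d : 1000 * K ^ 2 / s ≤ 1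
  e : 1050 * K ^ 2 / s ≤ 1 / 2
  f : (103 / 100) * 9 * (13075 * 151 ^ 4) / s ≤ η ^ 2 / 16
  g : (103 / 100) * 9 * (240 * (1050 * K ^ 2) ^ 2) / s ≤ η ^ 2 / 16

lemma exists_scond (K η : ℝ) (hη : 0 < η) : ∃ s0 : ℝ, 1 ≤ s0 ∧ ∀ s, s0 ≤ s → SCond s K η := by
  obtain ⟨C1, hC1⟩ : ∃ C1 : ℝ, C1 = (103 / 100) * 9 * (13075 * 151 ^ 4) := ⟨_, rfl⟩
  obtain ⟨C2, hC2⟩ : ∃ C2 : ℝ, C2 = (103 / 100) * 9 * (240 * (1050 * K ^ 2) ^ 2) := ⟨_, rfl⟩
  have hC10 : 0 ≤ C1 := by rw [hC1]; norm_num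
  have hC20 : 0 ≤ C2 := by rw [hC2]; positivity
  have hη2 : 0 < η ^ 2 / 16 := by positivity
  have hη4 : 0 < η / 4 := by positivity
  have p0 : (0:ℝ) ≤ 150 / (1 / 100) := by norm_num
  have p1 : 0 ≤ 150 / (η / 4) := by positivity
  have p2 : 0 ≤ 3 * K ^ 2 / (1 / 100000) := by positivity
  have p3 : 0 ≤ 1000 * K ^ 2 / 1 := by positivity
  have p4 : 0 ≤ 1050 * K ^ 2 / (1 / 2) := by positivity
  have p5 : 0 ≤ C1 / (η ^ 2 / 16) := by positivity
  have p6 : 0 ≤ C2 / (η ^ 2 / 16) := by positivity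
  refine ⟨100 + 150 / (1 / 100) + 150 / (η / 4) + 3 * K ^ 2 / (1 / 100000) + 1000 * K ^ 2 / 1 +
    1050 * K ^ 2 / (1 / 2) + C1 / (η ^ 2 / 16) + C2 / (η ^ 2 / 16), by linarith only [p1, p2, p5, p6], fun s hs => ?_⟩
  refine ⟨by linarith only [p1, p2, p5, p6, hs], by linarith only [p1, p2, p5, p6, hs], div_small _ _ (by norm_num) (by norm_num) s (by linarith only [p1, p2, p5, p6, hs]),
    div_small _ _ hη4 (by norm_num) s (by linarith only [p2, p5, p6, hs]),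
    div_small _ _ (by norm_num) (by positivity) s (by linarith only [p1, p2, p5, p6, hs]),
    div_small _ _ (by norm_num) (by positivity) s (by linarith only [p1, p2, p5, p6, hs]),
    div_small _ _ (by norm_num) (by positivity) s (by linarith), ?_, ?_⟩
  · rw [← hC1]
    exact div_small _ _ hη2 hC10 s (by linarith only [p1, p2, p6, hs])
  · rw [← hC2]
    exact div_small _ _ hη2 hC20 s (by linarith only [p1, p2, p5, hs])

/-- conditions on `ξ` -/
structure XCond (ξ D1 K T η : ℝ) : Prop where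
  pos : 0 < ξ
  one : ξ ≤ 1
  a : ξ * (2 * Real.exp T) ≤ 1
  b : ξ * (T * (1 + 2 * D1) ^ 4) ≤ 1
  c : ξ * (2 * K * T) ≤ 1
  d : ξ * ((103 / 100) * (1 + 2 * D1) ^ 2 *
      (240 * K ^ 2 * T ^ 2 + 3 * T * (1 + 2 * D1) ^ 4) * (16 / η ^ 2)) ≤ 1

lemma exists_xcond (D1 K T η : ℝ) (hD1 : 1 ≤ D1) (hK : 0 < K) (hT : 0 < T) :
    ∃ ξ : ℝ, XCond ξ D1 K T η := by
  obtain ⟨Q, hQ⟩ : ∃ Q : ℝ, Q = 2 * Real.exp T + T * (1 + 2 * D1) ^ 4 + 2 * K * T +
    (103 / 100) * (1 + 2 * D1) ^ 2 * (240 * K ^ 2 * T ^ 2 + 3 * T * (1 + 2 * D1) ^ 4) *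
      (16 / η ^ 2) + 1 := ⟨_, rfl⟩
  have q1 : 0 ≤ T * (1 + 2 * D1) ^ 4 := by positivity
  have q2 : 0 ≤ (103 / 100) * (1 + 2 * D1) ^ 2 * (240 * K ^ 2 * T ^ 2 + 3 * T * (1 + 2 * D1) ^ 4) *
      (16 / η ^ 2) := by positivity
  have q3 : 0 ≤ 2 * K * T := by positivity
  have q4 := Real.exp_pos T
  have hQ1 : 1 ≤ Q := by rw [hQ]; linarith only [q1, q2, q3, q4]
  have hQ0 : 0 < Q := by linarith only [hQ, q1, q2, q3, q4]
  have hξQ : ∀ x, x ≤ Q → 1 / Q * x ≤ 1 := by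
    intro x hx
    rw [one_div, inv_mul_le_iff₀ hQ0, mul_one]
    exact hx
  refine ⟨1 / Q, by positivity, by rw [div_le_one hQ0]; exact hQ1, hξQ _ (by rw [hQ]; linarith only [q1, q2, q3]),
    hξQ _ (by rw [hQ]; linarith only [q2, q3, q4]), hξQ _ (by rw [hQ]; linarith only [q1, q2, q4]), hξQ _ (by rw [hQ]; linarith only [q1, q3, q4])⟩

/-- application of `final_core` -/
lemma energy_aux {α : Type*} {V : Finset α} {H : Finset (Finset α)} {T ξ : ℝ} {q : α → ℝ → ℝ}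
    {p : Finset α → ℝ → ℝ} (hH : Hyp V H) (hS : Sys V H T ξ q p) (s D D1 K η : ℝ)
    (hK : K = Real.exp (7 * T)) (hT : 0 < T) (hη : 0 < η) (hDs : D = s ^ 100)
    (hDD1 : D ≤ D1) (hs : SCond s K η) (hx : XCond ξ D1 K T η)
    (hΛ : ∑ v ∈ V, (mz (zd H D v) + mw (wd H D v)) ≤ V.card * (1 / s ^ 190))
    (t : ℝ) (ht : t ∈ Set.Icc 0 T) :
    |∑ v ∈ V, q v t - V.card / √(Sf D t)| ≤ η * (V.card / √(Sf D t)) := by
  have hK0 : 0 < K := by rw [hK]; exact Real.exp_pos _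
  have hs1 := hs.one
  have hspos : 0 < s := by linarith only [hs1]
  have hD1 : 1 ≤ D := by rw [hDs]; exact one_le_pow₀ hs1
  have hD0 : 0 < D := by linarith only [hD1]
  have hξ0 := hx.pos
  obtain ⟨σm, hσm⟩ : ∃ σm : ℝ, σm = Real.log (1 + 2 * D) / 2 := ⟨_, rfl⟩
  have hσm1 : σm ≤ 150 * s := by rw [hσm]; exact log_bound s D hs1 hDs
  have hσm0 : 0 ≤ σm := by
    rw [hσm]
    have := Real.log_nonneg (show (1:ℝ) ≤ 1 + 2 * D by linarith only [hD1])
    linarith only [this]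
  have hkk : (1 / s ^ 2) * σm ≤ 150 / s := by
    calc (1 / s ^ 2) * σm ≤ (1 / s ^ 2) * (150 * s) :=
          mul_le_mul_of_nonneg_left hσm1 (by positivity)
      _ = 150 / s := by field_simp
  have hP : 0 ≤ (1 + 2 * D) ^ (8 / 5 : ℝ) := by (clear * - hD1; positivity)
  have hX4 : (1 + 2 * D) ^ 4 ≤ (1 + 2 * D1) ^ 4 := pow_le_pow_left₀ (by positivity) (by linarith only [hDD1]) 4
  obtain ⟨a, ha⟩ : ∃ a : ℝ, a = K * ((K / D) * (7 * σm)) := ⟨_, rfl⟩
  have ha0 : 0 ≤ a := by rw [ha]; (clear * - hK0 hD1 hσm0; positivity)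
  have ha1 : a ≤ 1050 * K ^ 2 / s ^ 99 := by
    rw [ha]
    calc K * ((K / D) * (7 * σm)) ≤ K * ((K / D) * (7 * (150 * s))) := by
          apply mul_le_mul_of_nonneg_left _ hK0.le
          apply mul_le_mul_of_nonneg_left _ (by positivity)
          linarith only [hσm1]
      _ = 1050 * K ^ 2 / s ^ 99 := by
          rw [hDs]
          field_simp
          ring
  have g1 := g1_bound s σm 13075 hs1 hσm0 hσm1 (by norm_num)
  have g2 := g2_bound s a K T ξ (1050 * K ^ 2) hs1 ha0 ha1 hξ0.le hx.one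
  have hfin := fin_bound (13075 * (1 + σm) ^ 4 * (1 / s ^ 190) / (1 / s ^ 2) ^ 4 +
    120 * (a + K * T * ξ) ^ 2 + 3 * (ξ * T * (1 + 2 * D) ^ 4)) (13075 * 151 ^ 4 / s ^ 178)
    (240 * (1050 * K ^ 2) ^ 2 / s ^ 198)
    (240 * K ^ 2 * T ^ 2 * ξ + 3 * (ξ * T * (1 + 2 * D) ^ 4)) ((1 + 2 * D) ^ (8 / 5 : ℝ)) η hP
    (by linarith only [g1, g2])
    (term_bound s _ (13075 * 151 ^ 4) _ 160 178 17 hs1 (S2_bound s D hs1 hDs) (by norm_num)
      (by norm_num) hs.f)
    (term_bound s _ (240 * (1050 * K ^ 2) ^ 2) _ 160 198 37 hs1 (S2_bound s D hs1 hDs)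
      (by positivity) (by norm_num) hs.g)
    (xi_bound D D1 K T ξ _ η hD0 hDD1 hT hξ0 hη hP (S3_bound D D1 hD0 hDD1) hx.d)
  exact final_core hH hS D (1 / s ^ 2) (a + K * T * ξ) (1 / s ^ 190) _ η σm hD0 hT.le
    (by positivity)
    (by
      have := pow_div_le 1 s (by norm_num) hs1 2 (by norm_num)
      refine this.trans ?_
      rw [div_le_div_iff₀ hspos (by norm_num)]
      linarith only [hs, hs.hundred])
    hξ0.le
    (by linarith only [hx, hx.a])
    hσm (hkk.trans hs.a) (hkk.trans hs.b) hη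
    (by rw [← hK, ha]; apply le_of_eq; ring)
    (by
      have h1 := ha1.trans ((pow_div_le _ s (by positivity) hs1 99 (by norm_num)).trans hs.e)
      linarith only [h1, hx, hx.c])
    (by
      rw [← hK, hDs]
      exact (pow_div_le _ s (by positivity) hs1 100 (by norm_num)).trans hs.c)
    (by
      rw [← hK]
      calc 3 * K ^ 2 / D * (22 / 10 * σm) ≤ 3 * K ^ 2 / D * (22 / 10 * (150 * s)) := by
            apply mul_le_mul_of_nonneg_left _ (by positivity)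
            linarith only [hσm1]
        _ = 990 * K ^ 2 / s ^ 99 := by
            rw [hDs]
            field_simp
            ring
        _ ≤ 1000 * K ^ 2 / s ^ 99 := by
            apply div_le_div_of_nonneg_right _ (by positivity)
            have : 0 ≤ K ^ 2 := by positivity
            linarith only [this]
        _ ≤ 1 := (pow_div_le _ s (by positivity) hs1 99 (by norm_num)).trans hs.d)
    (by
      have h2 : ξ * T * (1 + 2 * D) ^ 4 ≤ ξ * T * (1 + 2 * D1) ^ 4 :=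
        mul_le_mul_of_nonneg_left hX4 (by positivity)
      linarith only [h2, hx, hx.b])
    (by positivity)
    hΛ
    le_rfl
    hfin t ht

/-- M7 -/
theorem energy : Energy := by
  intro T η hT hη
  obtain ⟨K, hK⟩ : ∃ K, K = Real.exp (7 * T) := ⟨_, rfl⟩
  have hK0 : 0 < K := by rw [hK]; exact Real.exp_pos _
  obtain ⟨s0, hs01, hs0⟩ := exists_scond K η hη
  refine ⟨s0 ^ 100, one_le_pow₀ hs01, ?_⟩
  intro D1 hD1
  obtain ⟨ξ, hξ⟩ := exists_xcond D1 K T η ((one_le_pow₀ hs01).trans hD1) hK0 hT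
  refine ⟨ξ, hξ.pos, ?_⟩
  intro D hD α V H hH q p hS hsum t ht
  have hDD : s0 ^ 100 ≤ D := hD.1
  have hDD1 : D ≤ D1 := hD.2
  have hD0 : 0 < D := lt_of_lt_of_le (by positivity) hDD
  obtain ⟨s, hs⟩ : ∃ s : ℝ, s = D ^ (1 / 100 : ℝ) := ⟨_, rfl⟩
  have hDs : D = s ^ 100 := by
    rw [hs, ← Real.rpow_natCast, ← Real.rpow_mul hD0.le]; norm_num
  have hss0 : s0 ≤ s := by
    have h1 : s0 = (s0 ^ 100) ^ (1 / 100 : ℝ) := by
      rw [← Real.rpow_natCast, ← Real.rpow_mul (by linarith only [hs01])]; norm_num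
    rw [h1, hs]
    exact Real.rpow_le_rpow (by positivity) hDD (by norm_num)
  have hspos : 0 < s := by linarith only [hs01, hss0]
  have hΛs : D ^ (-(19 / 10 : ℝ)) = 1 / s ^ 190 := by
    rw [Real.rpow_neg hD0.le, one_div]
    congr 1
    rw [hDs, ← Real.rpow_natCast, ← Real.rpow_natCast, ← Real.rpow_mul hspos.le]
    norm_num
  rw [hΛs] at hsum
  exact energy_aux hH hS s D D1 K η hK hT hη hDs hDD1 (hs0 s hss0) hξ hsum t ht

end Vale.Agent.P046.K
end
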