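import Mathlib
import Vale.Agent.P046.Bdl.B2
import Vale.Agent.P046.Bdl.B1

set_option linter.all false

section

/-!
Locality of the greedy process in hypergraphs of bounded degree.
-/

set_option autoImplicit false

open scoped Classical
open Finset

namespace Vale.Agent.P046.S

variable {V : Type} [Fintype V]

/-- weighted disagreement -/
noncomputable def dW (w : V → ℝ) (A : Finset V × Finset V) : ℝ :=
  ∑ v ∈ A.1 \ A.2, w v + ∑ v ∈ A.2 \ A.1, w v

/-- total weight of the neighbours of `v` (with multiplicity) -/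
noncomputable def kap (H : Finset (Finset V)) (w : V → ℝ) (v : V) : ℝ :=
  ∑ h ∈ H, if v ∈ h then ∑ u ∈ h.erase v, w u else 0

omit [Fintype V] in
lemma dW_nonneg (w : V → ℝ) (hw : ∀ v, 0 ≤ w v) (A : Finset V × Finset V) : 0 ≤ dW w A :=
  add_nonneg (Finset.sum_nonneg fun v _ => hw v) (Finset.sum_nonneg fun v _ => hw v)

omit [Fintype V] in
/-- one ring, one side -/
lemma dW_one (w : V → ℝ) (hw : ∀ v, 0 ≤ w v) (A B h : Finset V) (hA : h ⊆ A) (hB : ¬ h ⊆ B) :
    (∑ v ∈ (A \ h) \ B, w v + ∑ v ∈ B \ (A \ h), w v) - (∑ v ∈ A \ B, w v + ∑ v ∈ B \ A, w v) ≤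
      ∑ v ∈ h \ B, ∑ u ∈ h.erase v, w u := by
  have e1 : ∑ v ∈ (A \ h) \ B, w v ≤ ∑ v ∈ A \ B, w v := by
    apply Finset.sum_le_sum_of_subset_of_nonneg
    · exact Finset.sdiff_subset_sdiff Finset.sdiff_subset subset_rfl
    · exact fun v _ _ => hw v
  have e2 : B \ (A \ h) = (B \ A) ∪ (h ∩ B) := by
    ext x
    simp only [Finset.mem_sdiff, Finset.mem_union, Finset.mem_inter, not_and, not_not]
    constructor
    · rintro ⟨h3, h4⟩
      by_cases h5 : x ∈ A
      · exact Or.inr ⟨h4 h5, h3⟩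
      · exact Or.inl ⟨h3, h5⟩
    · rintro (⟨h3, h4⟩ | ⟨h3, h4⟩)
      · exact ⟨h3, fun h5 => absurd h5 h4⟩
      · exact ⟨h4, fun _ => h3⟩
  have hd : Disjoint (B \ A) (h ∩ B) := by
    rw [Finset.disjoint_left]
    intro x hx hx'
    exact (Finset.mem_sdiff.mp hx).2 (hA (Finset.mem_inter.mp hx').1)
  have e3 : ∑ v ∈ B \ (A \ h), w v = ∑ v ∈ B \ A, w v + ∑ v ∈ h ∩ B, w v := by
    rw [e2, Finset.sum_union hd]
  obtain ⟨v0, hv0⟩ := Finset.sdiff_nonempty.mpr hB
  have e4 : ∑ v ∈ h ∩ B, w v ≤ ∑ u ∈ h.erase v0, w u := by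
    apply Finset.sum_le_sum_of_subset_of_nonneg
    · intro x hx
      rw [Finset.mem_inter] at hx
      refine Finset.mem_erase.mpr ⟨?_, hx.1⟩
      rintro rfl
      exact (Finset.mem_sdiff.mp hv0).2 hx.2
    · exact fun v _ _ => hw v
  have e5 : ∑ u ∈ h.erase v0, w u ≤ ∑ v ∈ h \ B, ∑ u ∈ h.erase v, w u :=
    Finset.single_le_sum (f := fun v => ∑ u ∈ h.erase v, w u)
      (fun v _ => Finset.sum_nonneg fun u _ => hw u) hv0
  linarith

omit [Fintype V] in
lemma sum_kap_ge (H : Finset (Finset V)) (w : V → ℝ) (hw : ∀ v, 0 ≤ w v) (A B : Finset V) :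
    ∑ h ∈ H, (if h ⊆ A then ∑ v ∈ h \ B, ∑ u ∈ h.erase v, w u else 0) ≤
      ∑ v ∈ A \ B, kap H w v := by
  unfold kap
  rw [Finset.sum_comm]
  refine Finset.sum_le_sum fun h _ => ?_
  by_cases hA : h ⊆ A
  · rw [if_pos hA]
    have h1 : ∑ v ∈ h \ B, ∑ u ∈ h.erase v, w u =
        ∑ v ∈ h \ B, (if v ∈ h then ∑ u ∈ h.erase v, w u else 0) := by
      refine Finset.sum_congr rfl fun v hv => ?_
      rw [if_pos (Finset.mem_sdiff.mp hv).1]
    rw [h1]
    apply Finset.sum_le_sum_of_subset_of_nonneg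
    · exact Finset.sdiff_subset_sdiff hA subset_rfl
    · intro v _ _
      split_ifs
      · exact Finset.sum_nonneg fun u _ => hw u
      · exact le_rfl
  · rw [if_neg hA]
    refine Finset.sum_nonneg fun v _ => ?_
    split_ifs
    · exact Finset.sum_nonneg fun u _ => hw u
    · exact le_rfl

lemma LP_dW (H : Finset (Finset V)) (w : V → ℝ) (hw : ∀ v, 0 ≤ w v) (A : Finset V × Finset V) :
    LP H (dW w) A ≤ ∑ v ∈ A.1 \ A.2, kap H w v + ∑ v ∈ A.2 \ A.1, kap H w v := by
  rw [LP_apply]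
  obtain ⟨A, B⟩ := A
  simp only
  have h1 := sum_kap_ge H w hw A B
  have h2 := sum_kap_ge H w hw B A
  refine le_trans ?_ (add_le_add h1 h2)
  rw [← Finset.sum_add_distrib]
  refine Finset.sum_le_sum fun h _ => ?_
  unfold dW
  simp only
  have hn1 : 0 ≤ ∑ v ∈ h \ B, ∑ u ∈ h.erase v, w u :=
    Finset.sum_nonneg fun v _ => Finset.sum_nonneg fun u _ => hw u
  have hn2 : 0 ≤ ∑ v ∈ h \ A, ∑ u ∈ h.erase v, w u :=
    Finset.sum_nonneg fun v _ => Finset.sum_nonneg fun u _ => hw u
  by_cases hA : h ⊆ A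
  · have e1 : fire h A = A \ h := by unfold fire; rw [if_pos hA]
    rw [if_pos hA, e1]
    by_cases hB : h ⊆ B
    · have e2 : fire h B = B \ h := by unfold fire; rw [if_pos hB]
      rw [if_pos hB, e2]
      have e3 : (A \ h) \ (B \ h) = A \ B := by
        ext x
        simp only [Finset.mem_sdiff, not_and, not_not]
        constructor
        · rintro ⟨⟨h3, h4⟩, h5⟩
          exact ⟨h3, fun h6 => h4 (h5 h6)⟩
        · rintro ⟨h3, h4⟩
          exact ⟨⟨h3, fun h5 => h4 (hB h5)⟩, fun h5 => absurd h5 h4⟩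
      have e4 : (B \ h) \ (A \ h) = B \ A := by
        ext x
        simp only [Finset.mem_sdiff, not_and, not_not]
        constructor
        · rintro ⟨⟨h3, h4⟩, h5⟩
          exact ⟨h3, fun h6 => h4 (h5 h6)⟩
        · rintro ⟨h3, h4⟩
          exact ⟨⟨h3, fun h5 => h4 (hA h5)⟩, fun h5 => absurd h5 h4⟩
      rw [e3, e4]
      linarith
    · have e2 : fire h B = B := by unfold fire; rw [if_neg hB]
      rw [if_neg hB, e2, add_zero]
      exact dW_one w hw A B h hA hB
  · have e1 : fire h A = A := by unfold fire; rw [if_neg hA]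
    rw [if_neg hA, e1]
    by_cases hB : h ⊆ B
    · have e2 : fire h B = B \ h := by unfold fire; rw [if_pos hB]
      rw [if_pos hB, e2, zero_add]
      have := dW_one w hw B A h hB hA
      linarith
    · have e2 : fire h B = B := by unfold fire; rw [if_neg hB]
      rw [if_neg hB, e2]
      simp

/-- growth of the weighted disagreement -/
lemma P_dW (H : Finset (Finset V)) (w c : V → ℝ) (Λ C t : ℝ) (hw : ∀ v, 0 ≤ w v)
    (hc : ∀ v, 0 ≤ c v) (hΛ : 0 ≤ Λ) (hk : ∀ v, kap H w v ≤ Λ * w v + c v)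
    (hC : ∑ v, c v ≤ C) (ht : 0 ≤ t) (A : Finset V × Finset V) :
    P (LP H) t (dW w) A ≤ Real.exp (Λ * t) * (dW w A + C * t) := by
  have hC0 : 0 ≤ C := le_trans (Finset.sum_nonneg fun v _ => hc v) hC
  have hL : ∀ B : Finset V × Finset V, LP H (dW w) B ≤ Λ * dW w B + C := by
    intro B
    refine (LP_dW H w hw B).trans ?_
    have h1 : ∑ v ∈ B.1 \ B.2, kap H w v ≤ ∑ v ∈ B.1 \ B.2, (Λ * w v + c v) :=
      Finset.sum_le_sum fun v _ => hk v
    have h2 : ∑ v ∈ B.2 \ B.1, kap H w v ≤ ∑ v ∈ B.2 \ B.1, (Λ * w v + c v) :=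
      Finset.sum_le_sum fun v _ => hk v
    rw [Finset.sum_add_distrib, ← Finset.mul_sum] at h1 h2
    have hd : Disjoint (B.1 \ B.2) (B.2 \ B.1) := by
      rw [Finset.disjoint_left]
      intro x hx hx'
      exact (Finset.mem_sdiff.mp hx).2 (Finset.mem_sdiff.mp hx').1
    have h3 : ∑ v ∈ B.1 \ B.2, c v + ∑ v ∈ B.2 \ B.1, c v ≤ C := by
      rw [← Finset.sum_union hd]
      exact (Finset.sum_le_sum_of_subset_of_nonneg (Finset.subset_univ _)
        fun v _ _ => hc v).trans hC
    unfold dW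
    linarith
  have key := P_super (LP H) (LP_qpos H) t ht
    (fun s B => Real.exp (-(Λ * s)) * dW w B + (-(C * s)) * 1)
    (fun s B => (Real.exp (-(Λ * s)) * (-Λ)) * dW w B + (-C) * 1)
    (by
      intro s _
      have h1 : HasDerivAt (fun s : ℝ => Real.exp (-(Λ * s))) (Real.exp (-(Λ * s)) * (-Λ)) s := by
        have h2 : HasDerivAt (fun s : ℝ => Λ * s) (Λ * 1) s := (hasDerivAt_id s).const_mul Λ
        rw [mul_one] at h2
        exact h2.fun_neg.exp
      have h3 : HasDerivAt (fun s : ℝ => -(C * s)) (-C) s := by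
        have h2 : HasDerivAt (fun s : ℝ => C * s) (C * 1) s := (hasDerivAt_id s).const_mul C
        rw [mul_one] at h2
        exact h2.fun_neg
      rw [hasDerivAt_pi]
      intro B
      exact (h1.mul_const _).add (h3.mul_const _))
    (by
      intro s hs B
      rw [LP_lin]
      have h1 : LP H (fun _ => (1:ℝ)) B = 0 := by
        rw [LP_apply]; simp
      rw [h1]
      have h2 := hL B
      have h3 := Real.exp_pos (-(Λ * s))
      have h4 : Real.exp (-(Λ * s)) ≤ 1 := by
        rw [Real.exp_le_one_iff]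
        have := mul_nonneg hΛ hs
        linarith
      have h5 := mul_le_mul_of_nonneg_left h2 h3.le
      have h6 := mul_le_mul_of_nonneg_right h4 hC0
      linarith)
    A
  rw [PLP_lin, PP_one] at key
  simp only [mul_zero, neg_zero, Real.exp_zero, one_mul, mul_one, add_zero] at key
  have h1 : Real.exp (-(Λ * t)) * P (LP H) t (dW w) A ≤ dW w A + C * t := by linarith
  have h2 := Real.exp_pos (Λ * t)
  calc P (LP H) t (dW w) A = Real.exp (Λ * t) * (Real.exp (-(Λ * t)) * P (LP H) t (dW w) A) := by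
        rw [← mul_assoc, ← Real.exp_add]
        simp
    _ ≤ _ := mul_le_mul_of_nonneg_left h1 h2.le

/-- iterated neighbourhoods -/
noncomputable def nbh (H : Finset (Finset V)) (U : Finset V) : ℕ → Finset V
  | 0 => U
  | k + 1 => nbh H U k ∪ Finset.univ.filter (fun v => ∃ h ∈ H, v ∈ h ∧ ¬ Disjoint h (nbh H U k))

lemma nbh_mono (H : Finset (Finset V)) (U : Finset V) {j k : ℕ} (hjk : j ≤ k) :
    nbh H U j ⊆ nbh H U k := by
  induction hjk with
  | refl => exact subset_rfl
  | step _ ih => exact ih.trans (by rw [nbh]; exact Finset.subset_union_left)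

/-- maximal degree -/
def MaxDeg (H : Finset (Finset V)) (Δ : ℕ) : Prop :=
  ∀ v, (H.filter (fun h => v ∈ h)).card ≤ Δ

lemma nbh_card (H : Finset (Finset V)) (hH : Lin H) (Δ : ℕ) (hΔ : MaxDeg H Δ) (U : Finset V)
    (k : ℕ) : (nbh H U k).card ≤ (1 + 3 * Δ) ^ k * U.card := by
  induction k with
  | zero => simp [nbh]
  | succ k ih =>
    rw [nbh]
    have h1 : Finset.univ.filter (fun v => ∃ h ∈ H, v ∈ h ∧ ¬ Disjoint h (nbh H U k)) ⊆
        (nbh H U k).biUnion (fun u => (H.filter (fun h => u ∈ h)).biUnion id) := by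
      intro v hv
      obtain ⟨h, hh, hv1, hd⟩ := (Finset.mem_filter.mp hv).2
      rw [Finset.not_disjoint_iff] at hd
      obtain ⟨u, hu1, hu2⟩ := hd
      rw [Finset.mem_biUnion]
      refine ⟨u, hu2, ?_⟩
      rw [Finset.mem_biUnion]
      exact ⟨h, Finset.mem_filter.mpr ⟨hh, hu1⟩, hv1⟩
    have h2 : (Finset.univ.filter (fun v => ∃ h ∈ H, v ∈ h ∧ ¬ Disjoint h (nbh H U k))).card ≤
        (nbh H U k).card * (Δ * 3) := by
      refine (Finset.card_le_card h1).trans ?_
      refine Finset.card_biUnion_le_card_mul _ _ _ fun u _ => ?_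
      refine (Finset.card_biUnion_le_card_mul _ _ 3 fun h hh => ?_).trans ?_
      · rw [Finset.mem_filter] at hh
        exact (hH.card3 h hh.1).le
      · exact Nat.mul_le_mul_right _ (hΔ u)
    refine (Finset.card_union_le _ _).trans ?_
    calc (nbh H U k).card + _ ≤ (nbh H U k).card + (nbh H U k).card * (Δ * 3) :=
          Nat.add_le_add_left h2 _
      _ = (1 + 3 * Δ) * (nbh H U k).card := by ring
      _ ≤ (1 + 3 * Δ) * ((1 + 3 * Δ) ^ k * U.card) := Nat.mul_le_mul_left _ ih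
      _ = (1 + 3 * Δ) ^ (k + 1) * U.card := by ring

/-- the weights `∑_k θ^k 1[v ∈ S_k]` -/
noncomputable def wt (H : Finset (Finset V)) (U : Finset V) (θ : ℝ) (R : ℕ) (v : V) : ℝ :=
  ∑ k ∈ Finset.range (R + 1), if v ∈ nbh H U k then θ ^ k else 0

lemma wt_nonneg (H : Finset (Finset V)) (U : Finset V) (θ : ℝ) (hθ : 0 ≤ θ) (R : ℕ) (v : V) :
    0 ≤ wt H U θ R v := by
  unfold wt
  exact Finset.sum_nonneg fun k _ => by split_ifs <;> positivity

lemma one_le_wt (H : Finset (Finset V)) (U : Finset V) (θ : ℝ) (hθ : 0 ≤ θ) (R : ℕ) (v : V)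
    (hv : v ∈ U) : 1 ≤ wt H U θ R v := by
  unfold wt
  have h := Finset.single_le_sum (f := fun k => if v ∈ nbh H U k then θ ^ k else (0:ℝ))
    (s := Finset.range (R + 1)) (fun k _ => by split_ifs <;> positivity)
    (Finset.mem_range.mpr (Nat.succ_pos R))
  simp only [nbh, if_pos hv, pow_zero] at h
  exact h

lemma wt_eq_zero (H : Finset (Finset V)) (U : Finset V) (θ : ℝ) (R : ℕ) (v : V)
    (hv : v ∉ nbh H U R) : wt H U θ R v = 0 := by
  unfold wt
  refine Finset.sum_eq_zero fun k hk => ?_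
  rw [if_neg]
  intro h
  exact hv (nbh_mono H U (Nat.lt_succ_iff.mp (Finset.mem_range.mp hk)) h)

lemma kap_wt (H : Finset (Finset V)) (hH : Lin H) (Δ : ℕ) (hΔ : MaxDeg H Δ) (U : Finset V)
    (θ : ℝ) (hθ : 0 < θ) (R : ℕ) (v : V) :
    kap H (wt H U θ R) v ≤ (2 * Δ / θ) * wt H U θ R v +
      (if v ∈ nbh H U (R + 1) then 2 * Δ * θ ^ R else 0) := by
  have h1 : kap H (wt H U θ R) v = ∑ k ∈ Finset.range (R + 1),
      ∑ h ∈ H, (if v ∈ h then ∑ u ∈ h.erase v, (if u ∈ nbh H U k then θ ^ k else 0) else 0) := by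
    unfold kap wt
    rw [Finset.sum_comm]
    refine Finset.sum_congr rfl fun h _ => ?_
    by_cases hv : v ∈ h
    · simp only [if_pos hv]
      rw [Finset.sum_comm]
    · simp only [if_neg hv]
      simp
  have h2 : ∀ k, ∑ h ∈ H, (if v ∈ h then ∑ u ∈ h.erase v, (if u ∈ nbh H U k then θ ^ k else 0)
      else 0) ≤ if v ∈ nbh H U (k + 1) then 2 * Δ * θ ^ k else 0 := by
    intro k
    by_cases hv : v ∈ nbh H U (k + 1)
    · rw [if_pos hv]
      have h3 : ∀ h ∈ H, (if v ∈ h then ∑ u ∈ h.erase v, (if u ∈ nbh H U k then θ ^ k else 0)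
          else 0) ≤ if v ∈ h then 2 * θ ^ k else 0 := by
        intro h hh
        split_ifs with hvh
        · have hc : (h.erase v).card = 2 := by
            rw [Finset.card_erase_of_mem hvh, hH.card3 h hh]
          calc ∑ u ∈ h.erase v, (if u ∈ nbh H U k then θ ^ k else 0) ≤
              ∑ u ∈ h.erase v, θ ^ k := by
                refine Finset.sum_le_sum fun u _ => ?_
                split_ifs
                · exact le_rfl
                · positivity
            _ = 2 * θ ^ k := by rw [Finset.sum_const, hc]; simp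
        · exact le_rfl
      refine (Finset.sum_le_sum h3).trans ?_
      rw [← Finset.sum_filter, Finset.sum_const, nsmul_eq_mul]
      have h4 : ((H.filter (fun h => v ∈ h)).card : ℝ) ≤ Δ := by exact_mod_cast hΔ v
      have h5 : 0 ≤ 2 * θ ^ k := by positivity
      calc _ ≤ (Δ : ℝ) * (2 * θ ^ k) := mul_le_mul_of_nonneg_right h4 h5
        _ = _ := by ring
    · rw [if_neg hv]
      apply le_of_eq
      refine Finset.sum_eq_zero fun h hh => ?_
      split_ifs with hvh
      · refine Finset.sum_eq_zero fun u hu => ?_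
        rw [if_neg]
        intro hu2
        apply hv
        rw [nbh, Finset.mem_union]
        right
        rw [Finset.mem_filter]
        refine ⟨Finset.mem_univ _, h, hh, hvh, ?_⟩
        rw [Finset.not_disjoint_iff]
        exact ⟨u, (Finset.mem_erase.mp hu).2, hu2⟩
      · rfl
  rw [h1]
  refine (Finset.sum_le_sum fun k _ => h2 k).trans ?_
  rw [Finset.sum_range_succ]
  apply add_le_add _ le_rfl
  -- shift
  unfold wt
  rw [Finset.sum_range_succ' (fun k => if v ∈ nbh H U k then θ ^ k else 0), mul_add, Finset.mul_sum]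
  have h6 : ∑ k ∈ Finset.range R, (if v ∈ nbh H U (k + 1) then 2 * (Δ:ℝ) * θ ^ k else 0) =
      ∑ k ∈ Finset.range R, 2 * (Δ:ℝ) / θ * (if v ∈ nbh H U (k + 1) then θ ^ (k + 1) else 0) := by
    refine Finset.sum_congr rfl fun k _ => ?_
    split_ifs
    · rw [pow_succ]
      field_simp
    · ring
  rw [h6]
  have h7 : 0 ≤ 2 * (Δ:ℝ) / θ * (if v ∈ nbh H U 0 then θ ^ 0 else 0) := by
    split_ifs
    · positivity
    · simp
  linarith

/-- `f` only looks at the vertices of `U` -/
def LocalFun (U : Finset V) (f : Finset V → ℝ) : Prop :=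
  ∀ A B : Finset V, |f A - f B| ≤ (((A \ B) ∩ U).card : ℝ) + (((B \ A) ∩ U).card : ℝ)

/-- the locality error -/
noncomputable def locErr (Δ : ℕ) (t : ℝ) (u : ℕ) (R : ℕ) : ℝ :=
  Real.exp (4 * Δ * (1 + 3 * Δ) * t) * (2 * Δ * (1 + 3 * Δ) * u * t) * (1 / 2) ^ R

theorem locality (H : Finset (Finset V)) (hH : Lin H) (Δ : ℕ) (hΔ : MaxDeg H Δ) (U : Finset V)
    (R : ℕ) (t : ℝ) (ht : 0 ≤ t) (f : Finset V → ℝ) (hf : LocalFun U f) (A B : Finset V)
    (hAB : ∀ v ∈ nbh H U R, v ∈ A ↔ v ∈ B) :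
    |P (LH H) t f A - P (LH H) t f B| ≤ locErr Δ t U.card R := by
  have hΔ0 : (0:ℝ) ≤ Δ := by positivity
  obtain ⟨θ, hθ⟩ : ∃ θ : ℝ, θ = 1 / (2 * (1 + 3 * Δ)) := ⟨_, rfl⟩
  have hθ0 : 0 < θ := by rw [hθ]; positivity
  have hw : ∀ v, 0 ≤ wt H U θ R v := fun v => wt_nonneg H U θ hθ0.le R v
  have h1 := P_diff_le H t ht f (dW (wt H U θ R)) (by
    intro C
    refine (hf C.1 C.2).trans ?_
    unfold dW
    apply add_le_add
    · calc ((((C.1 \ C.2) ∩ U).card : ℕ) : ℝ) = ∑ v ∈ (C.1 \ C.2) ∩ U, (1:ℝ) := by simp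
        _ ≤ ∑ v ∈ (C.1 \ C.2) ∩ U, wt H U θ R v :=
          Finset.sum_le_sum fun v hv => one_le_wt H U θ hθ0.le R v (Finset.mem_inter.mp hv).2
        _ ≤ _ := Finset.sum_le_sum_of_subset_of_nonneg Finset.inter_subset_left
          fun v _ _ => hw v
    · calc ((((C.2 \ C.1) ∩ U).card : ℕ) : ℝ) = ∑ v ∈ (C.2 \ C.1) ∩ U, (1:ℝ) := by simp
        _ ≤ ∑ v ∈ (C.2 \ C.1) ∩ U, wt H U θ R v :=
          Finset.sum_le_sum fun v hv => one_le_wt H U θ hθ0.le R v (Finset.mem_inter.mp hv).2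
        _ ≤ _ := Finset.sum_le_sum_of_subset_of_nonneg Finset.inter_subset_left
          fun v _ _ => hw v) A B
  refine h1.trans ?_
  have h2 := P_dW H (wt H U θ R)
    (fun v => if v ∈ nbh H U (R + 1) then 2 * (Δ:ℝ) * θ ^ R else 0) (2 * Δ / θ)
    (2 * Δ * θ ^ R * ((1 + 3 * Δ) ^ (R + 1) * U.card)) t hw (by
      intro v
      split_ifs <;> positivity) (by positivity)
    (fun v => kap_wt H hH Δ hΔ U θ hθ0 R v) (by
      rw [← Finset.sum_filter, Finset.sum_const, nsmul_eq_mul, mul_comm]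
      apply mul_le_mul_of_nonneg_left _ (by positivity)
      rw [Finset.filter_mem_eq_inter, Finset.univ_inter]
      have := nbh_card H hH Δ hΔ U (R + 1)
      exact_mod_cast this) ht (A, B)
  refine h2.trans ?_
  have h3 : dW (wt H U θ R) (A, B) = 0 := by
    unfold dW
    simp only
    rw [Finset.sum_eq_zero, Finset.sum_eq_zero, add_zero]
    · intro v hv
      rw [Finset.mem_sdiff] at hv
      by_cases h : v ∈ nbh H U R
      · exact absurd ((hAB v h).mpr hv.1) hv.2
      · exact wt_eq_zero H U θ R v h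
    · intro v hv
      rw [Finset.mem_sdiff] at hv
      by_cases h : v ∈ nbh H U R
      · exact absurd ((hAB v h).mp hv.1) hv.2
      · exact wt_eq_zero H U θ R v h
  rw [h3, zero_add]
  unfold locErr
  apply le_of_eq
  have e1 : 2 * (Δ:ℝ) / θ * t = 4 * Δ * (1 + 3 * Δ) * t := by
    rw [hθ]; field_simp; ring
  have e2 : θ ^ R * (1 + 3 * (Δ:ℝ)) ^ (R + 1) = (1 + 3 * Δ) * (1 / 2) ^ R := by
    rw [pow_succ, ← mul_assoc, ← mul_pow]
    have : θ * (1 + 3 * (Δ:ℝ)) = 1 / 2 := by rw [hθ]; field_simp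
    rw [this]; ring
  rw [e1]
  calc Real.exp (4 * Δ * (1 + 3 * Δ) * t) *
      (2 * Δ * θ ^ R * ((1 + 3 * Δ) ^ (R + 1) * U.card) * t) =
      Real.exp (4 * Δ * (1 + 3 * Δ) * t) *
      (2 * Δ * (θ ^ R * (1 + 3 * (Δ:ℝ)) ^ (R + 1)) * U.card * t) := by ring
    _ = _ := by rw [e2]; ring

end Vale.Agent.P046.S
end

section

/-!
Factorisation of the marginals of the greedy process.
-/

set_option autoImplicit false

open scoped Classical
open Finset

namespace Vale.Agent.P046.S

open Vale.Agent.P046.K (Hyp Sys star Harm)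

variable {α : Type} [Fintype α]

/-- one step inside `W`, avoiding `v` -/
def rel (H : Finset (Finset α)) (W : Finset α) (v : α) (u u' : α) : Prop :=
  ∃ h ∈ H, h ⊆ W ∧ v ∉ h ∧ u ∈ h ∧ u' ∈ h

/-- no short cycles: inside any vertex set of size at most `K₀`, removing `v` disconnects the
hyperedges at `v` -/
def Sep (K₀ : ℕ) (V : Finset α) (H : Finset (Finset α)) : Prop :=
  ∀ v ∈ V, ∀ W : Finset α, W ⊆ V → W.card ≤ K₀ → ∀ h₁ ∈ H, ∀ h₂ ∈ H, h₁ ≠ h₂ → v ∈ h₁ → v ∈ h₂ →
    h₁ ⊆ W → h₂ ⊆ W → ∀ u₁ ∈ h₁.erase v, ∀ u₂ ∈ h₂.erase v,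
      ¬ Relation.ReflTransGen (rel H W v) u₁ u₂

lemma lin_of_hyp {V : Finset α} {H : Finset (Finset α)} (h : Hyp V H) : Lin H :=
  ⟨h.card, h.lin⟩

/-- indicator of `S ⊆ A` -/
noncomputable def mon (S A : Finset α) : ℝ := if S ⊆ A then 1 else 0

omit [Fintype α] in
lemma mon_nonneg (S A : Finset α) : 0 ≤ mon S A := by unfold mon; split_ifs <;> norm_num

omit [Fintype α] in
lemma mon_le_one (S A : Finset α) : mon S A ≤ 1 := by unfold mon; split_ifs <;> norm_num

omit [Fintype α] in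
lemma mon_local (S U : Finset α) (hSU : S ⊆ U) : LocalFun U (mon S) := by
  intro A B
  unfold mon
  by_cases hA : S ⊆ A
  · by_cases hB : S ⊆ B
    · rw [if_pos hA, if_pos hB, sub_self, abs_zero]
      (clear * -; positivity)
    · rw [if_pos hA, if_neg hB, sub_zero, abs_one]
      have h1 : 0 < ((A \ B) ∩ U).card := by
        apply Finset.card_pos.mpr
        obtain ⟨x, hx, hxB⟩ := Finset.not_subset.mp hB
        exact ⟨x, Finset.mem_inter.mpr ⟨Finset.mem_sdiff.mpr ⟨hA hx, hxB⟩, hSU hx⟩⟩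
      have h2 : (1:ℝ) ≤ (((A \ B) ∩ U).card : ℝ) := by exact_mod_cast h1
      have h3 : (0:ℝ) ≤ (((B \ A) ∩ U).card : ℝ) := by positivity
      linarith
  · by_cases hB : S ⊆ B
    · rw [if_neg hA, if_pos hB, zero_sub, abs_neg, abs_one]
      have h1 : 0 < ((B \ A) ∩ U).card := by
        apply Finset.card_pos.mpr
        obtain ⟨x, hx, hxA⟩ := Finset.not_subset.mp hA
        exact ⟨x, Finset.mem_inter.mpr ⟨Finset.mem_sdiff.mpr ⟨hB hx, hxA⟩, hSU hx⟩⟩
      have h2 : (1:ℝ) ≤ (((B \ A) ∩ U).card : ℝ) := by exact_mod_cast h1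
      have h3 : (0:ℝ) ≤ (((A \ B) ∩ U).card : ℝ) := by positivity
      linarith only [h2]
    · rw [if_neg hA, if_neg hB, sub_self, abs_zero]
      positivity

omit [Fintype α] in
lemma mon_dep (S W : Finset α) (h : S ⊆ W) : Dep W (mon S) := by
  intro A
  unfold mon
  by_cases hA : S ⊆ A
  · rw [if_pos hA, if_pos (Finset.subset_inter hA h)]
  · rw [if_neg hA, if_neg (fun h' => hA (h'.trans Finset.inter_subset_left))]

omit [Fintype α] in
lemma mon_split (Z S0 S1 A : Finset α) :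
    mon (Z ∪ S0 ∪ S1) A = if Z ⊆ A then mon S0 A * mon S1 A else 0 := by
  unfold mon
  by_cases hZ : Z ⊆ A
  · by_cases h0 : S0 ⊆ A
    · by_cases h1 : S1 ⊆ A
      · rw [if_pos hZ, if_pos h0, if_pos h1,
          if_pos (Finset.union_subset (Finset.union_subset hZ h0) h1)]
        norm_num
      · rw [if_pos hZ, if_neg h1, if_neg (fun h' => h1 (Finset.subset_union_right.trans h'))]
        norm_num
    · rw [if_pos hZ, if_neg h0, if_neg (fun h' => h0
        ((Finset.subset_union_right.trans Finset.subset_union_left).trans h'))]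
      norm_num
  · rw [if_neg hZ, if_neg (fun h' => hZ
        ((Finset.subset_union_left.trans Finset.subset_union_left).trans h'))]

lemma P_mon_nonneg (H : Finset (Finset α)) (t : ℝ) (ht : 0 ≤ t) (S A : Finset α) :
    0 ≤ P (LH H) t (mon S) A :=
  P_nonneg _ (LH_qpos H) t ht _ (fun B => mon_nonneg S B) A

lemma P_mon_le_one (H : Finset (Finset α)) (t : ℝ) (ht : 0 ≤ t) (S A : Finset α) :
    P (LH H) t (mon S) A ≤ 1 := by
  have := P_mono (LH H) (LH_qpos H) t ht (mon S) (fun _ => 1) (fun B => mon_le_one S B) A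
  rwa [P_one] at this

/-- restriction of monomials -/
lemma P_mon_restrict (H : Finset (Finset α)) (W S : Finset α) (hSW : S ⊆ W) (t : ℝ) :
    P (LH H) t (mon S) W = P (LH (H.filter (fun h => h ⊆ W))) t (mon S) W := by
  have h := P_restrict H W t (mon S) W
  have e : (fun B => mon S (B ∩ W)) = mon S := funext fun B => ((mon_dep S W hSW) B).symm
  rw [Finset.inter_self, e] at h
  exact h.symm

lemma nbh_subset (H : Finset (Finset α)) (V U : Finset α) (hV : Hyp V H) (hU : U ⊆ V) (k : ℕ) :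
    nbh H U k ⊆ V := by
  induction k with
  | zero => exact hU
  | succ k ih =>
    rw [nbh]
    refine Finset.union_subset ih ?_
    intro v hv
    obtain ⟨h, hh, hv1, _⟩ := (Finset.mem_filter.mp hv).2
    exact hV.sub h hh hv1

/-- exact factorisation inside a separated set -/
lemma fact_exact (H : Finset (Finset α)) (V W : Finset α) (K₀ : ℕ) (hV : Hyp V H)
    (hS : Sep K₀ V H) (hWV : W ⊆ V) (hW : W.card ≤ K₀) (v : α) (hv : v ∈ V) (h₁ h₂ : Finset α)
    (hh₁ : h₁ ∈ H) (hh₂ : h₂ ∈ H) (hne : h₁ ≠ h₂) (hv₁ : v ∈ h₁) (hv₂ : v ∈ h₂) (h₁W : h₁ ⊆ W)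
    (h₂W : h₂ ⊆ W) (t : ℝ) :
    P (LH H) t (mon (h₁ ∪ h₂)) W * P (LH H) t (mon {v}) W =
      P (LH H) t (mon h₁) W * P (LH H) t (mon h₂) W := by
  have hvW : ({v} : Finset α) ⊆ W := Finset.singleton_subset_iff.mpr (h₁W hv₁)
  rw [P_mon_restrict H W (h₁ ∪ h₂) (Finset.union_subset h₁W h₂W), P_mon_restrict H W {v} hvW,
    P_mon_restrict H W h₁ h₁W, P_mon_restrict H W h₂ h₂W]
  obtain ⟨H', hH'⟩ : ∃ H', H' = H.filter (fun h => h ⊆ W) := ⟨_, rfl⟩
  rw [← hH']
  obtain ⟨W0, hW0⟩ : ∃ W0 : Finset α, W0 = Finset.univ.filter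
    (fun u => ∃ u₁ ∈ h₁.erase v, Relation.ReflTransGen (rel H W v) u₁ u) := ⟨_, rfl⟩
  obtain ⟨W1, hW1⟩ : ∃ W1 : Finset α, W1 = Finset.univ \ (W0 ∪ {v}) := ⟨_, rfl⟩
  have hWW : Disjoint W0 W1 := by
    rw [hW1, Finset.disjoint_left]
    intro x hx hx'
    exact (Finset.mem_sdiff.mp hx').2 (Finset.mem_union_left _ hx)
  have hmemW0 : ∀ u, u ∈ W0 ↔ ∃ u₁ ∈ h₁.erase v, Relation.ReflTransGen (rel H W v) u₁ u := by
    intro u
    rw [hW0, Finset.mem_filter]
    exact ⟨fun h => h.2, fun h => ⟨Finset.mem_univ _, h⟩⟩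
  have h10 : h₁ \ {v} ⊆ W0 := by
    intro u hu
    rw [hmemW0]
    rw [Finset.mem_sdiff, Finset.mem_singleton] at hu
    exact ⟨u, Finset.mem_erase.mpr ⟨hu.2, hu.1⟩, Relation.ReflTransGen.refl⟩
  have h2x : ∀ h ∈ H, h ⊆ W → v ∈ h → h ≠ h₁ → h \ {v} ⊆ W1 := by
    intro h hh hhW hvh hne' u hu
    rw [hW1, Finset.mem_sdiff]
    refine ⟨Finset.mem_univ _, ?_⟩
    rw [Finset.mem_sdiff, Finset.mem_singleton] at hu
    intro hu'
    rw [Finset.mem_union, Finset.mem_singleton] at hu'
    rcases hu' with hu' | hu'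
    · obtain ⟨u₁, hu₁, hr⟩ := (hmemW0 u).mp hu'
      exact hS v hv W hWV hW h₁ hh₁ h hh (fun e => hne' e.symm) hv₁ hvh h₁W hhW u₁ hu₁ u
        (Finset.mem_erase.mpr ⟨hu.2, hu.1⟩) hr
    · exact hu.2 hu'
  have h21 : h₂ \ {v} ⊆ W1 := h2x h₂ hh₂ h₂W hv₂ (fun e => hne e.symm)
  have hblock : ∀ h ∈ H', h \ {v} ⊆ W0 ∨ h \ {v} ⊆ W1 := by
    intro h hh
    rw [hH', Finset.mem_filter] at hh
    by_cases hvh : v ∈ h
    · by_cases he : h = h₁
      · left
        rw [he]
        exact h10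
      · right
        exact h2x h hh.1 hh.2 hvh he
    · by_cases hm : ∃ u ∈ h, u ∈ W0
      · left
        obtain ⟨u, hu, huW⟩ := hm
        obtain ⟨u₁, hu₁, hr⟩ := (hmemW0 u).mp huW
        intro x hx
        rw [hmemW0]
        refine ⟨u₁, hu₁, hr.tail ?_⟩
        exact ⟨h, hh.1, hh.2, hvh, hu, (Finset.mem_sdiff.mp hx).1⟩
      · right
        push Not at hm
        intro x hx
        rw [Finset.mem_sdiff, Finset.mem_singleton] at hx
        rw [hW1, Finset.mem_sdiff, Finset.mem_union, Finset.mem_singleton]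
        refine ⟨Finset.mem_univ _, ?_⟩
        rintro (h3 | h3)
        · exact hm x hx.1 h3
        · exact hx.2 h3
  -- the four monomials
  have key : ∀ S0 S1 : Finset α, S0 ⊆ W0 → S1 ⊆ W1 →
      P (LH H') t (mon ({v} ∪ S0 ∪ S1)) W =
        P (KB (H'.filter (fun h => h \ {v} ⊆ W0)) {v}) t (mon S0) W *
        P (KB (H'.filter (fun h => ¬ h \ {v} ⊆ W0)) {v}) t (mon S1) W := by
    intro S0 S1 hS0 hS1
    have e : mon ({v} ∪ S0 ∪ S1) = fun A => if {v} ⊆ A then mon S0 A * mon S1 A else 0 :=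
      funext fun A => mon_split {v} S0 S1 A
    rw [e, P_prod H' {v} W0 W1 hWW hblock (mon S0) (mon S1) (mon_dep S0 W0 hS0)
      (mon_dep S1 W1 hS1) t W, if_pos hvW]
  have k1 := key (h₁ \ {v}) (h₂ \ {v}) h10 h21
  have k2 := key ∅ ∅ (Finset.empty_subset _) (Finset.empty_subset _)
  have k3 := key (h₁ \ {v}) ∅ h10 (Finset.empty_subset _)
  have k4 := key ∅ (h₂ \ {v}) (Finset.empty_subset _) h21
  have e1 : {v} ∪ (h₁ \ {v}) ∪ (h₂ \ {v}) = h₁ ∪ h₂ := by
    ext x
    simp only [Finset.mem_union, Finset.mem_sdiff, Finset.mem_singleton]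
    constructor
    · rintro ((h | h) | h)
      · left; rw [h]; exact hv₁
      · left; exact h.1
      · right; exact h.1
    · intro h
      by_cases hx : x = v
      · left; left; exact hx
      · rcases h with h | h
        · left; right; exact ⟨h, hx⟩
        · right; exact ⟨h, hx⟩
  have e2 : ({v} : Finset α) ∪ ∅ ∪ ∅ = {v} := by simp
  have e3 : {v} ∪ (h₁ \ {v}) ∪ ∅ = h₁ := by
    ext x
    simp only [Finset.mem_union, Finset.mem_sdiff, Finset.mem_singleton, Finset.notMem_empty,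
      or_false]
    constructor
    · rintro (h | h)
      · rw [h]; exact hv₁
      · exact h.1
    · intro h
      by_cases hx : x = v
      · left; exact hx
      · right; exact ⟨h, hx⟩
  have e4 : {v} ∪ ∅ ∪ (h₂ \ {v}) = h₂ := by
    ext x
    simp only [Finset.mem_union, Finset.mem_sdiff, Finset.mem_singleton, Finset.notMem_empty,
      or_false]
    constructor
    · rintro (h | h)
      · rw [h]; exact hv₂
      · exact h.1
    · intro h
      by_cases hx : x = v
      · left; exact hx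
      · right; exact ⟨h, hx⟩
  rw [e1] at k1
  rw [e2] at k2
  rw [e3] at k3
  rw [e4] at k4
  rw [k1, k2, k3, k4]
  ring

/-- approximate factorisation -/
theorem fact_approx (H : Finset (Finset α)) (V : Finset α) (K₀ Δ R : ℕ) (hV : Hyp V H)
    (hΔ : MaxDeg H Δ) (hS : Sep K₀ V H) (hK : (1 + 3 * Δ) ^ R * 5 ≤ K₀) (v : α) (hv : v ∈ V)
    (h₁ h₂ : Finset α) (hh₁ : h₁ ∈ H) (hh₂ : h₂ ∈ H) (hne : h₁ ≠ h₂) (hv₁ : v ∈ h₁)
    (hv₂ : v ∈ h₂) (t : ℝ) (ht : 0 ≤ t) :
    |P (LH H) t (mon (h₁ ∪ h₂)) V * P (LH H) t (mon {v}) V -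
      P (LH H) t (mon h₁) V * P (LH H) t (mon h₂) V| ≤ 4 * locErr Δ t 5 R := by
  have hlin := lin_of_hyp hV
  have hcard : (h₁ ∪ h₂).card = 5 := by
    have h1 := Finset.card_union_add_card_inter h₁ h₂
    have h2 := hV.lin h₁ hh₁ h₂ hh₂ hne
    have h3 := hV.card h₁ hh₁
    have h4 := hV.card h₂ hh₂
    have h5 : 0 < (h₁ ∩ h₂).card :=
      Finset.card_pos.mpr ⟨v, Finset.mem_inter.mpr ⟨hv₁, hv₂⟩⟩
    omega
  obtain ⟨W, hW⟩ : ∃ W, W = nbh H (h₁ ∪ h₂) R := ⟨_, rfl⟩
  have hUV : h₁ ∪ h₂ ⊆ V := Finset.union_subset (hV.sub _ hh₁) (hV.sub _ hh₂)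
  have hUW : h₁ ∪ h₂ ⊆ W := by
    rw [hW]
    exact nbh_mono H (h₁ ∪ h₂) (Nat.zero_le R)
  have hWV : W ⊆ V := by rw [hW]; exact nbh_subset H V _ hV hUV R
  have hWc : W.card ≤ K₀ := by
    rw [hW]
    refine (nbh_card H hlin Δ hΔ _ R).trans ?_
    rw [hcard]
    exact hK
  have hloc : ∀ S : Finset α, S ⊆ h₁ ∪ h₂ →
      |P (LH H) t (mon S) V - P (LH H) t (mon S) W| ≤ locErr Δ t 5 R := by
    intro S hSU
    have := locality H hlin Δ hΔ (h₁ ∪ h₂) R t ht (mon S) (mon_local S _ hSU) V W (by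
      intro x hx
      rw [← hW] at hx
      exact ⟨fun _ => hx, fun h => hWV h⟩)
    rwa [hcard] at this
  have hex := fact_exact H V W K₀ hV hS hWV hWc v hv h₁ h₂ hh₁ hh₂ hne hv₁ hv₂
    (Finset.subset_union_left.trans hUW) (Finset.subset_union_right.trans hUW) t
  have b1 := hloc (h₁ ∪ h₂) subset_rfl
  have b2 := hloc {v} (Finset.singleton_subset_iff.mpr (Finset.mem_union_left _ hv₁))
  have b3 := hloc h₁ Finset.subset_union_left
  have b4 := hloc h₂ Finset.subset_union_right
  obtain ⟨x1, hx1⟩ : ∃ x, x = P (LH H) t (mon (h₁ ∪ h₂)) V := ⟨_, rfl⟩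
  obtain ⟨x2, hx2⟩ : ∃ x, x = P (LH H) t (mon {v}) V := ⟨_, rfl⟩
  obtain ⟨x3, hx3⟩ : ∃ x, x = P (LH H) t (mon h₁) V := ⟨_, rfl⟩
  obtain ⟨x4, hx4⟩ : ∃ x, x = P (LH H) t (mon h₂) V := ⟨_, rfl⟩
  obtain ⟨y1, hy1⟩ : ∃ x, x = P (LH H) t (mon (h₁ ∪ h₂)) W := ⟨_, rfl⟩
  obtain ⟨y2, hy2⟩ : ∃ x, x = P (LH H) t (mon {v}) W := ⟨_, rfl⟩
  obtain ⟨y3, hy3⟩ : ∃ x, x = P (LH H) t (mon h₁) W := ⟨_, rfl⟩
  obtain ⟨y4, hy4⟩ : ∃ x, x = P (LH H) t (mon h₂) W := ⟨_, rfl⟩
  have n1 := P_mon_nonneg H t ht (h₁ ∪ h₂) V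
  have n2 := P_mon_nonneg H t ht {v} V
  have n3 := P_mon_nonneg H t ht h₁ V
  have n4 := P_mon_nonneg H t ht h₂ V
  have l1 := P_mon_le_one H t ht (h₁ ∪ h₂) V
  have l2 := P_mon_le_one H t ht {v} V
  have l3 := P_mon_le_one H t ht h₁ V
  have l4 := P_mon_le_one H t ht h₂ V
  have m1 := P_mon_nonneg H t ht (h₁ ∪ h₂) W
  have m2 := P_mon_nonneg H t ht {v} W
  have m3 := P_mon_nonneg H t ht h₁ W
  have m4 := P_mon_nonneg H t ht h₂ W
  have o1 := P_mon_le_one H t ht (h₁ ∪ h₂) W
  have o2 := P_mon_le_one H t ht {v} W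
  have o3 := P_mon_le_one H t ht h₁ W
  have o4 := P_mon_le_one H t ht h₂ W
  rw [← hx1] at b1 n1 l1 ⊢
  rw [← hx2] at b2 n2 l2 ⊢
  rw [← hx3] at b3 n3 l3 ⊢
  rw [← hx4] at b4 n4 l4 ⊢
  rw [← hy1] at b1 m1 o1 hex
  rw [← hy2] at b2 m2 o2 hex
  rw [← hy3] at b3 m3 o3 hex
  rw [← hy4] at b4 m4 o4 hex
  have e : x1 * x2 - x3 * x4 = (x1 - y1) * x2 + y1 * (x2 - y2) - (x3 - y3) * x4 -
      y3 * (x4 - y4) := by
    linear_combination hex
  rw [e]
  have c1 : |(x1 - y1) * x2| ≤ locErr Δ t 5 R := by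
    rw [abs_mul, abs_of_nonneg n2]
    calc |x1 - y1| * x2 ≤ |x1 - y1| * 1 := mul_le_mul_of_nonneg_left l2 (abs_nonneg _)
      _ ≤ _ := by rw [mul_one]; exact b1
  have c2 : |y1 * (x2 - y2)| ≤ locErr Δ t 5 R := by
    rw [abs_mul, abs_of_nonneg m1]
    calc y1 * |x2 - y2| ≤ 1 * |x2 - y2| := mul_le_mul_of_nonneg_right o1 (abs_nonneg _)
      _ ≤ _ := by rw [one_mul]; exact b2
  have c3 : |(x3 - y3) * x4| ≤ locErr Δ t 5 R := by
    rw [abs_mul, abs_of_nonneg n4]
    calc |x3 - y3| * x4 ≤ |x3 - y3| * 1 := mul_le_mul_of_nonneg_left l4 (abs_nonneg _)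
      _ ≤ _ := by rw [mul_one]; exact b3
  have c4 : |y3 * (x4 - y4)| ≤ locErr Δ t 5 R := by
    rw [abs_mul, abs_of_nonneg m3]
    calc y3 * |x4 - y4| ≤ 1 * |x4 - y4| := mul_le_mul_of_nonneg_right o3 (abs_nonneg _)
      _ ≤ _ := by rw [one_mul]; exact b4
  rw [abs_le] at c1 c2 c3 c4 ⊢
  constructor <;> linarith only [c1, c2, c3, c4, c1.1, c1.2, c2.1, c2.2, c3.1, c3.2, c4.1, c4.2]

end Vale.Agent.P046.S
end

section

/-!
The marginals of the greedy process satisfy the approximate cavity system.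
-/

set_option autoImplicit false

open scoped Classical
open Finset

namespace Vale.Agent.P046.S

open Vale.Agent.P046.K (Hyp Sys star Harm)

variable {α : Type} [Fintype α]

lemma LH_mon (H : Finset (Finset α)) (S A : Finset α) :
    LH H (mon S) A = -∑ h ∈ H, if S ⊆ A ∧ h ⊆ A ∧ ¬ Disjoint h S then (1:ℝ) else 0 := by
  rw [LH_apply, ← Finset.sum_neg_distrib]
  refine Finset.sum_congr rfl fun h _ => ?_
  by_cases hA : h ⊆ A
  · have e1 : fire h A = A \ h := by unfold fire; rw [if_pos hA]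
    rw [e1]
    unfold mon
    by_cases hS : S ⊆ A
    · by_cases hd : Disjoint h S
      · have h1 : S ⊆ A \ h := fun x hx => Finset.mem_sdiff.mpr
          ⟨hS hx, fun hxh => (Finset.disjoint_left.mp hd hxh) hx⟩
        rw [if_pos h1, if_pos hS, if_neg (fun h' => h'.2.2 hd)]
        ring
      · have h1 : ¬ S ⊆ A \ h := by
          intro h2
          apply hd
          rw [Finset.disjoint_left]
          intro x hx hxS
          exact (Finset.mem_sdiff.mp (h2 hxS)).2 hx
        rw [if_neg h1, if_pos hS, if_pos ⟨hS, hA, hd⟩]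
        ring
    · have h1 : ¬ S ⊆ A \ h := fun h2 => hS (h2.trans Finset.sdiff_subset)
      rw [if_neg h1, if_neg hS, if_neg (fun h' => hS h'.1)]
      ring
  · have e1 : fire h A = A := by unfold fire; rw [if_neg hA]
    rw [e1, if_neg (fun h' => hA h'.2.1)]
    ring

lemma LH_mon_ge (H : Finset (Finset α)) (Δ : ℕ) (hΔ : MaxDeg H Δ) (S A : Finset α) :
    -((S.card * Δ : ℕ) : ℝ) * mon S A ≤ LH H (mon S) A := by
  rw [LH_mon]
  by_cases hS : S ⊆ A
  · have e : mon S A = 1 := by unfold mon; rw [if_pos hS]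
    rw [e, mul_one, neg_le_neg_iff]
    have h1 : ∑ h ∈ H, (if S ⊆ A ∧ h ⊆ A ∧ ¬ Disjoint h S then (1:ℝ) else 0) ≤
        ∑ h ∈ H, (if ¬ Disjoint h S then (1:ℝ) else 0) := by
      refine Finset.sum_le_sum fun h _ => ?_
      by_cases hd : Disjoint h S
      · rw [if_neg (fun h' => h'.2.2 hd), if_neg (fun h' => h' hd)]
      · rw [if_pos hd]
        split_ifs <;> norm_num
    refine h1.trans ?_
    rw [← Finset.sum_filter, Finset.sum_const, nsmul_eq_mul, mul_one]
    have h2 : H.filter (fun h => ¬ Disjoint h S) ⊆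
        S.biUnion (fun v => H.filter (fun h => v ∈ h)) := by
      intro h hh
      rw [Finset.mem_filter, Finset.not_disjoint_iff] at hh
      obtain ⟨hh, x, hx1, hx2⟩ := hh
      rw [Finset.mem_biUnion]
      exact ⟨x, hx2, Finset.mem_filter.mpr ⟨hh, hx1⟩⟩
    have h3 := (Finset.card_le_card h2).trans
      (Finset.card_biUnion_le_card_mul _ _ Δ fun v _ => hΔ v)
    exact_mod_cast h3
  · have e : mon S A = 0 := by unfold mon; rw [if_neg hS]
    rw [e, mul_zero]
    rw [Finset.sum_eq_zero]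
    · simp
    · intro h _
      rw [if_neg (fun h' => hS h'.1)]

/-- lower bound for the probability that `S` survives -/
lemma P_mon_lower (H : Finset (Finset α)) (Δ : ℕ) (hΔ : MaxDeg H Δ) (S A : Finset α) (t : ℝ)
    (ht : 0 ≤ t) (hSA : S ⊆ A) : Real.exp (-((S.card * Δ : ℕ) : ℝ) * t) ≤ P (LH H) t (mon S) A := by
  obtain ⟨c, hc⟩ : ∃ c : ℝ, c = ((S.card * Δ : ℕ) : ℝ) := ⟨_, rfl⟩
  have key := P_super (LH H) (LH_qpos H) t ht
    (fun s B => -Real.exp (c * s) * mon S B)
    (fun s B => -(Real.exp (c * s) * c) * mon S B) (by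
      intro s _
      rw [hasDerivAt_pi]
      intro B
      have h1 : HasDerivAt (fun s : ℝ => c * s) (c * 1) s := (hasDerivAt_id s).const_mul c
      rw [mul_one] at h1
      exact h1.exp.fun_neg.mul_const _)
    (by
      intro s _ B
      have e : LH H (fun B => -Real.exp (c * s) * mon S B) B =
          -Real.exp (c * s) * LH H (mon S) B := by
        have : (fun B => -Real.exp (c * s) * mon S B) = (-Real.exp (c * s)) • mon S := by
          ext B; simp
        rw [this, map_smul]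
        simp
      rw [e]
      have h1 := LH_mon_ge H Δ hΔ S B
      rw [← hc] at h1
      have h2 := Real.exp_pos (c * s)
      nlinarith [mul_le_mul_of_nonneg_left h1 h2.le])
    A
  have e1 : P (LH H) t (fun B => -Real.exp (c * t) * mon S B) A =
      -Real.exp (c * t) * P (LH H) t (mon S) A := by
    have : (fun B => -Real.exp (c * t) * mon S B) = (-Real.exp (c * t)) • mon S := by
      ext B; simp
    rw [this, map_smul]
    simp
  rw [e1] at key
  have e2 : mon S A = 1 := by unfold mon; rw [if_pos hSA]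
  simp only [mul_zero, Real.exp_zero] at key
  rw [e2] at key
  have h2 := Real.exp_pos (c * t)
  have h3 : 1 ≤ Real.exp (c * t) * P (LH H) t (mon S) A := by linarith
  rw [← hc]
  have h4 : Real.exp (-c * t) * Real.exp (c * t) = 1 := by
    rw [← Real.exp_add]
    simp
  calc Real.exp (-c * t) = Real.exp (-c * t) * 1 := by ring
    _ ≤ Real.exp (-c * t) * (Real.exp (c * t) * P (LH H) t (mon S) A) :=
      mul_le_mul_of_nonneg_left h3 (Real.exp_pos _).le
    _ = P (LH H) t (mon S) A := by rw [← mul_assoc, h4, one_mul]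

/-- derivative of the marginal of a vertex -/
lemma hasDerivAt_q (H : Finset (Finset α)) (V : Finset α) (v : α) (t : ℝ) :
    HasDerivAt (fun s => P (LH H) s (mon {v}) V)
      (-(∑ h ∈ star H v, P (LH H) t (mon h) V)) t := by
  have h1 := hasDerivAt_P_apply_pt (LH H) t (mon {v}) V
  have e : LH H (mon {v}) = -∑ h ∈ star H v, mon h := by
    ext A
    rw [LH_mon]
    simp only [Pi.neg_apply, Finset.sum_apply]
    unfold Vale.Agent.P046.K.star
    rw [Finset.sum_filter]
    congr 1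
    refine Finset.sum_congr rfl fun h _ => ?_
    unfold mon
    by_cases hv : v ∈ h
    · rw [if_pos hv]
      by_cases hA : h ⊆ A
      · rw [if_pos hA, if_pos ⟨Finset.singleton_subset_iff.mpr (hA hv), hA,
          Finset.not_disjoint_iff.mpr ⟨v, hv, Finset.mem_singleton_self v⟩⟩]
      · rw [if_neg hA, if_neg (fun h' => hA h'.2.1)]
    · rw [if_neg hv, if_neg]
      rintro ⟨_, _, h3⟩
      rw [Finset.not_disjoint_iff] at h3
      obtain ⟨x, hx, hx'⟩ := h3
      rw [Finset.mem_singleton] at hx'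
      rw [hx'] at hx
      exact hv hx
  rw [e, map_neg, map_sum] at h1
  simpa using h1

/-- derivative of the marginal of a hyperedge -/
lemma hasDerivAt_p (H : Finset (Finset α)) (hH : Lin H) (V : Finset α) (h₀ : Finset α)
    (hh₀ : h₀ ∈ H) (t : ℝ) :
    HasDerivAt (fun s => P (LH H) s (mon h₀) V)
      (-(P (LH H) t (mon h₀) V + ∑ i ∈ h₀, ∑ h ∈ (star H i).erase h₀,
        P (LH H) t (mon (h₀ ∪ h)) V)) t := by
  have h1 := hasDerivAt_P_apply_pt (LH H) t (mon h₀) V
  have e : LH H (mon h₀) = -(mon h₀ + ∑ i ∈ h₀, ∑ h ∈ (star H i).erase h₀, mon (h₀ ∪ h)) := by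
    ext A
    rw [LH_mon]
    simp only [Pi.neg_apply, Pi.add_apply, Finset.sum_apply]
    congr 1
    have hc := hH.card3 h₀ hh₀
    have hne : ¬ Disjoint h₀ h₀ := by
      rw [disjoint_self]
      intro h0
      rw [h0] at hc
      simp at hc
    have e1 : ∑ i ∈ h₀, ∑ h ∈ (star H i).erase h₀, mon (h₀ ∪ h) A =
        ∑ h ∈ H.erase h₀, ((h₀ ∩ h).card : ℝ) * mon (h₀ ∪ h) A := by
      have e2 : ∀ i ∈ h₀, ∑ h ∈ (star H i).erase h₀, mon (h₀ ∪ h) A =
          ∑ h ∈ H.erase h₀, if i ∈ h then mon (h₀ ∪ h) A else 0 := by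
        intro i _
        unfold Vale.Agent.P046.K.star
        rw [← Finset.sum_filter]
        congr 1
        ext h
        simp only [Finset.mem_erase, Finset.mem_filter]
        tauto
      rw [Finset.sum_congr rfl e2, Finset.sum_comm]
      refine Finset.sum_congr rfl fun h _ => ?_
      rw [← Finset.sum_filter, Finset.sum_const, nsmul_eq_mul]
      congr 2
    rw [e1, ← Finset.add_sum_erase H _ hh₀]
    congr 1
    · unfold mon
      by_cases hA : h₀ ⊆ A
      · rw [if_pos ⟨hA, hA, hne⟩, if_pos hA]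
      · rw [if_neg (fun h' => hA h'.1), if_neg hA]
    · refine Finset.sum_congr rfl fun h hh => ?_
      rw [Finset.mem_erase] at hh
      have hi := hH.inter h₀ hh₀ h hh.2 (fun e => hh.1 e.symm)
      by_cases hd : Disjoint h h₀
      · rw [if_neg (fun h' => h'.2.2 hd)]
        have : h₀ ∩ h = ∅ := by
          rw [← Finset.disjoint_iff_inter_eq_empty]
          exact hd.symm
        rw [this]
        simp
      · have h3 : 0 < (h₀ ∩ h).card := by
          rw [Finset.card_pos]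
          rw [Finset.not_disjoint_iff] at hd
          obtain ⟨x, hx, hx'⟩ := hd
          exact ⟨x, Finset.mem_inter.mpr ⟨hx', hx⟩⟩
        have h4 : (h₀ ∩ h).card = 1 := by omega
        rw [h4]
        unfold mon
        by_cases hA : h₀ ⊆ A ∧ h ⊆ A
        · rw [if_pos ⟨hA.1, hA.2, hd⟩, if_pos (Finset.union_subset hA.1 hA.2)]
          norm_num
        · rw [if_neg (fun h' => hA ⟨h'.1, h'.2.1⟩), if_neg]
          · norm_num
          · intro h'
            exact hA ⟨Finset.subset_union_left.trans h', Finset.subset_union_right.trans h'⟩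
  rw [e, map_neg, map_add, map_sum] at h1
  simp only [map_sum] at h1
  simpa using h1

lemma locErr_nonneg (Δ : ℕ) (t : ℝ) (ht : 0 ≤ t) (u R : ℕ) : 0 ≤ locErr Δ t u R := by
  unfold locErr
  positivity

lemma locErr_mono (Δ : ℕ) (t T : ℝ) (ht : 0 ≤ t) (htT : t ≤ T) (u R : ℕ) :
    locErr Δ t u R ≤ locErr Δ T u R := by
  unfold locErr
  have hT : 0 ≤ T := ht.trans htT
  apply mul_le_mul_of_nonneg_right _ (by positivity)
  apply mul_le_mul
  · rw [Real.exp_le_exp]
    exact mul_le_mul_of_nonneg_left htT (by positivity)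
  · exact mul_le_mul_of_nonneg_left htT (by positivity)
  · positivity
  · positivity

lemma exists_locErr (Δ : ℕ) (T : ℝ) (u : ℕ) (ε : ℝ) (hε : 0 < ε) :
    ∃ R : ℕ, locErr Δ T u R ≤ ε := by
  obtain ⟨M, hM⟩ : ∃ M : ℝ, M = Real.exp (4 * Δ * (1 + 3 * Δ) * T) *
    (2 * Δ * (1 + 3 * Δ) * u * T) := ⟨_, rfl⟩
  obtain ⟨R, hR⟩ := exists_pow_lt_of_lt_one (show 0 < ε / (|M| + 1) by positivity)
    (show (1/2 : ℝ) < 1 by norm_num)
  refine ⟨R, ?_⟩
  unfold locErr
  rw [← hM]
  have h1 : M ≤ |M| + 1 := by linarith [le_abs_self M]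
  have h2 : (0:ℝ) ≤ (1/2) ^ R := by positivity
  calc M * (1 / 2) ^ R ≤ (|M| + 1) * (1/2) ^ R := mul_le_mul_of_nonneg_right h1 h2
    _ ≤ (|M| + 1) * (ε / (|M| + 1)) := mul_le_mul_of_nonneg_left hR.le (by positivity)
    _ = ε := by field_simp

/-- the marginals satisfy the approximate cavity system -/
theorem sys_of_sep (Δ : ℕ) (T ξ : ℝ) (hT : 0 ≤ T) (hξ : 0 < ξ) :
    ∃ K₀ : ℕ, ∀ (α : Type) [Fintype α] (V : Finset α) (H : Finset (Finset α)), Hyp V H →
      MaxDeg H Δ → Sep K₀ V H →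
      Sys V H T ξ (fun v t => P (LH H) t (mon {v}) V) (fun h t => P (LH H) t (mon h) V) := by
  obtain ⟨M, hM⟩ : ∃ M : ℝ, M = 12 * Δ * Real.exp (4 * Δ * T) + 1 := ⟨_, rfl⟩
  have hM0 : 0 < M := by rw [hM]; positivity
  obtain ⟨R, hR⟩ := exists_locErr Δ T 5 (ξ / M) (by positivity)
  refine ⟨(1 + 3 * Δ) ^ R * 5, ?_⟩
  intro α _ V H hV hΔ hS
  have hlin := lin_of_hyp hV
  have hlowq : ∀ v ∈ V, ∀ t ∈ Set.Icc (0:ℝ) T, Real.exp (-(Δ * T)) ≤ P (LH H) t (mon {v}) V := by
    intro v hv t ht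
    have h1 := P_mon_lower H Δ hΔ {v} V t ht.1 (Finset.singleton_subset_iff.mpr hv)
    refine le_trans ?_ h1
    rw [Real.exp_le_exp, Finset.card_singleton, one_mul]
    have : (Δ : ℝ) * t ≤ Δ * T := mul_le_mul_of_nonneg_left ht.2 (by positivity)
    linarith
  have hlowp : ∀ h ∈ H, ∀ t ∈ Set.Icc (0:ℝ) T,
      Real.exp (-(3 * Δ * T)) ≤ P (LH H) t (mon h) V := by
    intro h hh t ht
    have h1 := P_mon_lower H Δ hΔ h V t ht.1 (hV.sub h hh)
    refine le_trans ?_ h1
    rw [Real.exp_le_exp, hV.card h hh]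
    push_cast
    have : (Δ : ℝ) * t ≤ Δ * T := mul_le_mul_of_nonneg_left ht.2 (by positivity)
    nlinarith
  refine ⟨?_, ?_, ?_, ?_, ?_, ?_⟩
  · intro v hv
    show P (LH H) 0 (mon {v}) V = 1
    rw [P_zero_apply]
    unfold mon
    rw [if_pos (Finset.singleton_subset_iff.mpr hv)]
  · intro h hh
    show P (LH H) 0 (mon h) V = 1
    rw [P_zero_apply]
    unfold mon
    rw [if_pos (hV.sub h hh)]
  · exact fun v hv t ht => lt_of_lt_of_le (Real.exp_pos _) (hlowq v hv t ht)
  · exact fun h hh t ht => lt_of_lt_of_le (Real.exp_pos _) (hlowp h hh t ht)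
  · exact fun v _ t _ => hasDerivAt_q H V v t
  · intro h hh t ht
    obtain ⟨q, hq⟩ : ∃ q : α → ℝ, q = fun v => P (LH H) t (mon {v}) V := ⟨_, rfl⟩
    obtain ⟨p, hp⟩ : ∃ p : Finset α → ℝ, p = fun k => P (LH H) t (mon k) V := ⟨_, rfl⟩
    have hq0 : ∀ i ∈ h, 0 < q i := fun i hi => by
      rw [hq]; exact lt_of_lt_of_le (Real.exp_pos _) (hlowq i (hV.sub h hh hi) t ht)
    have hp0 : 0 < p h := by
      rw [hp]; exact lt_of_lt_of_le (Real.exp_pos _) (hlowp h hh t ht)
    refine ⟨∑ i ∈ h, ∑ k ∈ (star H i).erase h, (p (h ∪ k) / p h - p k / q i), ?_, ?_⟩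
    · have hterm : ∀ i ∈ h, ∀ k ∈ (star H i).erase h,
          |p (h ∪ k) / p h - p k / q i| ≤ 4 * (ξ / M) * Real.exp (4 * Δ * T) := by
        intro i hi k hk
        rw [Finset.mem_erase] at hk
        have hk2 : k ∈ H ∧ i ∈ k := by
          have := hk.2
          unfold Vale.Agent.P046.K.star at this
          exact Finset.mem_filter.mp this
        have hiV : i ∈ V := hV.sub h hh hi
        have hf := fact_approx H V _ Δ R hV hΔ hS le_rfl i hiV h k hh hk2.1
          (fun e => hk.1 e.symm) hi hk2.2 t ht.1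
        have hf2 : |p (h ∪ k) * q i - p h * p k| ≤ 4 * (ξ / M) := by
          rw [hp, hq]
          exact hf.trans (mul_le_mul_of_nonneg_left
            ((locErr_mono Δ t T ht.1 ht.2 5 R).trans hR) (by norm_num))
        have e : p (h ∪ k) / p h - p k / q i = (p (h ∪ k) * q i - p h * p k) / (p h * q i) := by
          have := hq0 i hi
          field_simp
        rw [e, abs_div, abs_of_pos (mul_pos hp0 (hq0 i hi)), div_le_iff₀ (mul_pos hp0 (hq0 i hi))]
        have h1 : Real.exp (-(3 * Δ * T)) ≤ p h := by rw [hp]; exact hlowp h hh t ht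
        have h2 : Real.exp (-(Δ * T)) ≤ q i := by rw [hq]; exact hlowq i hiV t ht
        have h3 : Real.exp (-(4 * Δ * T)) ≤ p h * q i := by
          calc Real.exp (-(4 * Δ * T)) = Real.exp (-(3 * Δ * T)) * Real.exp (-(Δ * T)) := by
                rw [← Real.exp_add]; congr 1; ring
            _ ≤ _ := mul_le_mul h1 h2 (Real.exp_pos _).le hp0.le
        have h4 : 1 ≤ Real.exp (4 * Δ * T) * (p h * q i) := by
          calc (1:ℝ) = Real.exp (4 * Δ * T) * Real.exp (-(4 * Δ * T)) := by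
                rw [← Real.exp_add]; simp
            _ ≤ _ := mul_le_mul_of_nonneg_left h3 (Real.exp_pos _).le
        calc |p (h ∪ k) * q i - p h * p k| ≤ 4 * (ξ / M) := hf2
          _ = 4 * (ξ / M) * 1 := by ring
          _ ≤ 4 * (ξ / M) * (Real.exp (4 * Δ * T) * (p h * q i)) :=
            mul_le_mul_of_nonneg_left h4 (by positivity)
          _ = _ := by ring
      calc |∑ i ∈ h, ∑ k ∈ (star H i).erase h, (p (h ∪ k) / p h - p k / q i)|
          ≤ ∑ i ∈ h, |∑ k ∈ (star H i).erase h, (p (h ∪ k) / p h - p k / q i)| :=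
            Finset.abs_sum_le_sum_abs _ _
        _ ≤ ∑ i ∈ h, ∑ k ∈ (star H i).erase h, |p (h ∪ k) / p h - p k / q i| :=
            Finset.sum_le_sum fun i _ => Finset.abs_sum_le_sum_abs _ _
        _ ≤ ∑ i ∈ h, ∑ k ∈ (star H i).erase h, 4 * (ξ / M) * Real.exp (4 * Δ * T) :=
            Finset.sum_le_sum fun i hi => Finset.sum_le_sum fun k hk => hterm i hi k hk
        _ ≤ ∑ i ∈ h, (Δ : ℝ) * (4 * (ξ / M) * Real.exp (4 * Δ * T)) := by
            refine Finset.sum_le_sum fun i _ => ?_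
            rw [Finset.sum_const, nsmul_eq_mul]
            apply mul_le_mul_of_nonneg_right _ (by positivity)
            have h1 : ((star H i).erase h).card ≤ Δ :=
              (Finset.card_le_card (Finset.erase_subset _ _)).trans (hΔ i)
            exact_mod_cast h1
        _ = (12 * Δ * Real.exp (4 * Δ * T)) * (ξ / M) := by
            rw [Finset.sum_const, hV.card h hh]
            simp only [nsmul_eq_mul]
            push_cast
            ring
        _ ≤ M * (ξ / M) := by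
            apply mul_le_mul_of_nonneg_right _ (by positivity)
            rw [hM]; linarith
        _ = ξ := by field_simp
    · have hd := hasDerivAt_p H hlin V h hh t
      have e : -(P (LH H) t (mon h) V + ∑ i ∈ h, ∑ k ∈ (star H i).erase h,
          P (LH H) t (mon (h ∪ k)) V) =
          -(p h) * (1 + (∑ i ∈ h, ((∑ k ∈ star H i, p k) - p h) / q i) +
            ∑ i ∈ h, ∑ k ∈ (star H i).erase h, (p (h ∪ k) / p h - p k / q i)) := by
        have e1 : ∀ i ∈ h, ((∑ k ∈ star H i, p k) - p h) / q i =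
            ∑ k ∈ (star H i).erase h, p k / q i := by
          intro i hi
          have hm : h ∈ star H i := by
            unfold Vale.Agent.P046.K.star
            exact Finset.mem_filter.mpr ⟨hh, hi⟩
          rw [← Finset.sum_div, ← Finset.add_sum_erase _ _ hm]
          congr 1
          ring
        rw [Finset.sum_congr rfl e1]
        rw [add_assoc, ← Finset.sum_add_distrib]
        have e2 : ∑ i ∈ h, (∑ k ∈ (star H i).erase h, p k / q i +
            ∑ k ∈ (star H i).erase h, (p (h ∪ k) / p h - p k / q i)) =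
            (∑ i ∈ h, ∑ k ∈ (star H i).erase h, p (h ∪ k)) / p h := by
          rw [Finset.sum_div]
          refine Finset.sum_congr rfl fun i _ => ?_
          rw [← Finset.sum_add_distrib, Finset.sum_div]
          refine Finset.sum_congr rfl fun k _ => ?_
          ring
        rw [e2, mul_add, mul_div_assoc', mul_comm (-(p h)) (∑ i ∈ h, _)]
        rw [show (∑ i ∈ h, ∑ k ∈ (star H i).erase h, p (h ∪ k)) * -p h / p h =
          -(∑ i ∈ h, ∑ k ∈ (star H i).erase h, p (h ∪ k)) by field_simp]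
        rw [hp]
        ring
      rw [e, hp, hq] at hd
      rw [hp, hq]
      exact hd

end Vale.Agent.P046.S
end

section

/-!
Variance of the number of survivors.
-/

set_option autoImplicit false

open scoped Classical
open Finset

namespace Vale.Agent.P046.S

open Vale.Agent.P046.K (Hyp Sys Harm)

variable {α : Type} [Fintype α]

lemma nbh_mono_set (H : Finset (Finset α)) {U U' : Finset α} (h : U ⊆ U') (k : ℕ) :
    nbh H U k ⊆ nbh H U' k := by
  induction k with
  | zero => exact h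
  | succ k ih =>
    rw [nbh, nbh]
    apply Finset.union_subset_union ih
    intro v hv
    rw [Finset.mem_filter] at hv ⊢
    obtain ⟨_, g, hg, hvg, hd⟩ := hv
    refine ⟨Finset.mem_univ _, g, hg, hvg, fun h' => hd (Finset.disjoint_of_subset_right ih h')⟩

lemma nbh_nbh (H : Finset (Finset α)) (U : Finset α) (j k : ℕ) :
    nbh H (nbh H U j) k = nbh H U (j + k) := by
  induction k with
  | zero => rfl
  | succ k ih =>
    rw [← add_assoc, nbh, nbh, ih]

lemma nbh_symm (H : Finset (Finset α)) (u v : α) (k : ℕ) (h : u ∈ nbh H {v} k) :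
    v ∈ nbh H {u} k := by
  induction k generalizing u with
  | zero =>
    have h1 : u = v := by simpa [nbh] using h
    rw [h1]
    simp [nbh]
  | succ k ih =>
    rw [nbh, Finset.mem_union] at h
    rcases h with h | h
    · exact nbh_mono H {u} (Nat.le_succ k) (ih u h)
    · rw [Finset.mem_filter] at h
      obtain ⟨_, g, hg, hug, hd⟩ := h
      rw [Finset.not_disjoint_iff] at hd
      obtain ⟨y, hyg, hy⟩ := hd
      have h1 := ih y hy
      have h2 : ({y} : Finset α) ⊆ nbh H {u} 1 := by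
        rw [Finset.singleton_subset_iff, nbh, Finset.mem_union]
        right
        rw [Finset.mem_filter]
        refine ⟨Finset.mem_univ _, g, hg, hyg, ?_⟩
        rw [Finset.not_disjoint_iff]
        exact ⟨u, hug, by simp [nbh]⟩
      have h3 := nbh_mono_set H h2 k h1
      rw [nbh_nbh, add_comm] at h3
      exact h3

lemma nbh_union (H : Finset (Finset α)) (U U' : Finset α) (k : ℕ) :
    nbh H (U ∪ U') k = nbh H U k ∪ nbh H U' k := by
  induction k with
  | zero => rfl
  | succ k ih =>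
    rw [nbh, nbh, nbh, ih]
    ext x
    simp only [Finset.mem_union, Finset.mem_filter, Finset.mem_univ, true_and,
      Finset.disjoint_union_right]
    constructor
    · rintro ((h | h) | ⟨g, hg, hx, hd⟩)
      · left; left; exact h
      · right; left; exact h
      · by_cases h1 : Disjoint g (nbh H U k)
        · right; right
          exact ⟨g, hg, hx, fun h2 => hd ⟨h1, h2⟩⟩
        · left; right
          exact ⟨g, hg, hx, h1⟩
    · rintro ((h | ⟨g, hg, hx, hd⟩) | (h | ⟨g, hg, hx, hd⟩))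
      · left; left; exact h
      · right
        exact ⟨g, hg, hx, fun h2 => hd h2.1⟩
      · left; right; exact h
      · right
        exact ⟨g, hg, hx, fun h2 => hd h2.2⟩

/-- independence of two vertices with disjoint neighbourhoods, inside these neighbourhoods -/
lemma indep_exact (H : Finset (Finset α)) (V : Finset α) (R : ℕ) (hV : Hyp V H) (u v : α)
    (hfar : Disjoint (nbh H {u} (R + 1)) (nbh H {v} R)) (t : ℝ) :
    P (LH H) t (mon {u, v}) (nbh H {u, v} R) =
      P (LH H) t (mon {u}) (nbh H {u, v} R) * P (LH H) t (mon {v}) (nbh H {u, v} R) := by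
  obtain ⟨W, hW⟩ : ∃ W, W = nbh H {u, v} R := ⟨_, rfl⟩
  have huv : ({u, v} : Finset α) = {u} ∪ {v} := by
    ext x; simp
  have hWu : W = nbh H {u} R ∪ nbh H {v} R := by rw [hW, huv, nbh_union]
  rw [← hW]
  have hsub : ({u, v} : Finset α) ⊆ W := by
    rw [hW]
    exact nbh_mono H {u, v} (Nat.zero_le R)
  have hu : ({u} : Finset α) ⊆ W := by
    refine Finset.Subset.trans ?_ hsub
    rw [huv]; exact Finset.subset_union_left
  have hv : ({v} : Finset α) ⊆ W := by
    refine Finset.Subset.trans ?_ hsub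
    rw [huv]; exact Finset.subset_union_right
  have hu0 : ({u} : Finset α) ⊆ nbh H {u} R := nbh_mono H {u} (Nat.zero_le R)
  have hv0 : ({v} : Finset α) ⊆ nbh H {v} R := nbh_mono H {v} (Nat.zero_le R)
  rw [P_mon_restrict H W _ hsub, P_mon_restrict H W _ hu, P_mon_restrict H W _ hv]
  obtain ⟨H', hH'⟩ : ∃ H', H' = H.filter (fun h => h ⊆ W) := ⟨_, rfl⟩
  rw [← hH']
  have hWW : Disjoint (nbh H {u} R) (nbh H {v} R) :=
    Finset.disjoint_of_subset_left (nbh_mono H {u} (Nat.le_succ R)) hfar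
  have hblock : ∀ h ∈ H', h \ ∅ ⊆ nbh H {u} R ∨ h \ ∅ ⊆ nbh H {v} R := by
    intro h hh
    rw [Finset.sdiff_empty]
    rw [hH', Finset.mem_filter] at hh
    by_cases hd : Disjoint h (nbh H {u} R)
    · right
      intro x hx
      have h1 := hh.2 hx
      rw [hWu, Finset.mem_union] at h1
      rcases h1 with h1 | h1
      · exact absurd h1 (Finset.disjoint_left.mp hd hx)
      · exact h1
    · left
      intro x hx
      have h1 := hh.2 hx
      rw [hWu, Finset.mem_union] at h1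
      rcases h1 with h1 | h1
      · exact h1
      · exfalso
        have h2 : x ∈ nbh H {u} (R + 1) := by
          rw [nbh, Finset.mem_union]
          right
          rw [Finset.mem_filter]
          exact ⟨Finset.mem_univ _, h, hh.1, hx, hd⟩
        exact Finset.disjoint_left.mp hfar h2 h1
  have key : ∀ S0 S1 : Finset α, S0 ⊆ nbh H {u} R → S1 ⊆ nbh H {v} R →
      P (LH H') t (mon (∅ ∪ S0 ∪ S1)) W =
        P (KB (H'.filter (fun h => h \ ∅ ⊆ nbh H {u} R)) ∅) t (mon S0) W *
        P (KB (H'.filter (fun h => ¬ h \ ∅ ⊆ nbh H {u} R)) ∅) t (mon S1) W := by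
    intro S0 S1 hS0 hS1
    have e : mon (∅ ∪ S0 ∪ S1) = fun A => if ∅ ⊆ A then mon S0 A * mon S1 A else 0 :=
      funext fun A => mon_split ∅ S0 S1 A
    rw [e, P_prod H' ∅ (nbh H {u} R) (nbh H {v} R) hWW hblock (mon S0) (mon S1)
      (mon_dep S0 _ hS0) (mon_dep S1 _ hS1) t W, if_pos (Finset.empty_subset _)]
  have k1 := key {u} {v} hu0 hv0
  have k2 := key ∅ ∅ (Finset.empty_subset _) (Finset.empty_subset _)
  have k3 := key {u} ∅ hu0 (Finset.empty_subset _)
  have k4 := key ∅ {v} (Finset.empty_subset _) hv0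
  have e1 : ∅ ∪ {u} ∪ {v} = ({u, v} : Finset α) := by ext x; simp
  have e2 : (∅ : Finset α) ∪ ∅ ∪ ∅ = ∅ := by simp
  have e3 : ∅ ∪ {u} ∪ ∅ = ({u} : Finset α) := by simp
  have e4 : ∅ ∪ ∅ ∪ {v} = ({v} : Finset α) := by simp
  rw [e1] at k1
  rw [e2] at k2
  rw [e3] at k3
  rw [e4] at k4
  have e5 : P (LH H') t (mon ∅) W = 1 := by
    have : mon (∅ : Finset α) = fun _ => 1 := by
      ext A
      unfold mon
      rw [if_pos (Finset.empty_subset _)]
    rw [this, P_one]
  rw [e5] at k2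
  rw [k1, k3, k4]
  linear_combination (-(P (KB (H'.filter (fun h => h \ ∅ ⊆ nbh H {u} R)) ∅) t (mon {u}) W *
    P (KB (H'.filter (fun h => ¬ h \ ∅ ⊆ nbh H {u} R)) ∅) t (mon {v}) W)) * (-k2)

lemma indep_approx (H : Finset (Finset α)) (V : Finset α) (Δ R : ℕ) (hV : Hyp V H)
    (hΔ : MaxDeg H Δ) (u v : α) (hu : u ∈ V) (hv : v ∈ V) (huv : u ≠ v)
    (hfar : Disjoint (nbh H {u} (R + 1)) (nbh H {v} R)) (t : ℝ) (ht : 0 ≤ t) :
    |P (LH H) t (mon {u, v}) V - P (LH H) t (mon {u}) V * P (LH H) t (mon {v}) V| ≤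
      3 * locErr Δ t 2 R := by
  have hlin := lin_of_hyp hV
  have hcard : ({u, v} : Finset α).card = 2 := Finset.card_pair huv
  obtain ⟨W, hW⟩ : ∃ W, W = nbh H {u, v} R := ⟨_, rfl⟩
  have hUV : ({u, v} : Finset α) ⊆ V := by
    intro x hx
    rw [Finset.mem_insert, Finset.mem_singleton] at hx
    rcases hx with hx | hx
    · rw [hx]; exact hu
    · rw [hx]; exact hv
  have hWV : W ⊆ V := by rw [hW]; exact nbh_subset H V _ hV hUV R
  have hloc : ∀ S : Finset α, S ⊆ {u, v} →
      |P (LH H) t (mon S) V - P (LH H) t (mon S) W| ≤ locErr Δ t 2 R := by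
    intro S hSU
    have := locality H hlin Δ hΔ {u, v} R t ht (mon S) (mon_local S _ hSU) V W (by
      intro x hx
      rw [← hW] at hx
      exact ⟨fun _ => hx, fun h => hWV h⟩)
    rwa [hcard] at this
  have hex := indep_exact H V R hV u v hfar t
  rw [← hW] at hex
  have b1 := hloc {u, v} subset_rfl
  have b2 := hloc {u} (by intro x hx; simp at hx; simp [hx])
  have b3 := hloc {v} (by intro x hx; simp at hx; simp [hx])
  obtain ⟨x1, hx1⟩ : ∃ x, x = P (LH H) t (mon {u, v}) V := ⟨_, rfl⟩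
  obtain ⟨x2, hx2⟩ : ∃ x, x = P (LH H) t (mon {u}) V := ⟨_, rfl⟩
  obtain ⟨x3, hx3⟩ : ∃ x, x = P (LH H) t (mon {v}) V := ⟨_, rfl⟩
  obtain ⟨y1, hy1⟩ : ∃ x, x = P (LH H) t (mon {u, v}) W := ⟨_, rfl⟩
  obtain ⟨y2, hy2⟩ : ∃ x, x = P (LH H) t (mon {u}) W := ⟨_, rfl⟩
  obtain ⟨y3, hy3⟩ : ∃ x, x = P (LH H) t (mon {v}) W := ⟨_, rfl⟩
  have n3 := P_mon_nonneg H t ht {v} V
  have l3 := P_mon_le_one H t ht {v} V
  have m2 := P_mon_nonneg H t ht {u} W
  have o2 := P_mon_le_one H t ht {u} W
  rw [← hx1] at b1 ⊢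
  rw [← hx2] at b2 ⊢
  rw [← hx3] at b3 n3 l3 ⊢
  rw [← hy1] at b1 hex
  rw [← hy2] at b2 m2 o2 hex
  rw [← hy3] at b3 hex
  have e : x1 - x2 * x3 = (x1 - y1) - (x2 - y2) * x3 - y2 * (x3 - y3) := by
    linear_combination hex
  rw [e]
  have c2 : |(x2 - y2) * x3| ≤ locErr Δ t 2 R := by
    rw [abs_mul, abs_of_nonneg n3]
    calc |x2 - y2| * x3 ≤ |x2 - y2| * 1 := mul_le_mul_of_nonneg_left l3 (abs_nonneg _)
      _ ≤ _ := by rw [mul_one]; exact b2
  have c3 : |y2 * (x3 - y3)| ≤ locErr Δ t 2 R := by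
    rw [abs_mul, abs_of_nonneg m2]
    calc y2 * |x3 - y3| ≤ 1 * |x3 - y3| := mul_le_mul_of_nonneg_right o2 (abs_nonneg _)
      _ ≤ _ := by rw [one_mul]; exact b3
  rw [abs_le] at b1 c2 c3 ⊢
  constructor <;> linarith [b1.1, b1.2, c2.1, c2.2, c3.1, c3.2]

/-- a monomial outside the initial set has probability zero -/
lemma P_mon_outside (H : Finset (Finset α)) (V S : Finset α) (hS : ¬ S ⊆ V) (t : ℝ) :
    P (LH H) t (mon S) V = 0 := by
  have h := P_restrict H V t (mon S) V
  rw [Finset.inter_self] at h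
  rw [← h]
  have e : (fun B => mon S (B ∩ V)) = fun _ => 0 := by
    ext B
    unfold mon
    rw [if_neg (fun h' => hS (h'.trans Finset.inter_subset_right))]
  rw [e, P_one]

/-- expected number of survivors -/
lemma P_card (H : Finset (Finset α)) (V : Finset α) (t : ℝ) :
    P (LH H) t (fun A => (A.card : ℝ)) V = ∑ v ∈ V, P (LH H) t (mon {v}) V := by
  have e : (fun A : Finset α => (A.card : ℝ)) = ∑ v : α, mon {v} := by
    ext A
    rw [Finset.sum_apply, card_eq_sum_ite A Finset.univ (Finset.subset_univ _)]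
    refine Finset.sum_congr rfl fun v _ => ?_
    unfold mon
    simp only [Finset.singleton_subset_iff]
  rw [e, map_sum, Finset.sum_apply]
  symm
  apply Finset.sum_subset (Finset.subset_univ _)
  intro v _ hv
  exact P_mon_outside H V {v} (fun h => hv (Finset.singleton_subset_iff.mp h)) t

lemma P_card_sq (H : Finset (Finset α)) (V : Finset α) (t : ℝ) :
    P (LH H) t (fun A => (A.card : ℝ) ^ 2) V =
      ∑ u ∈ V, ∑ v ∈ V, P (LH H) t (mon {u, v}) V := by
  have e : (fun A : Finset α => (A.card : ℝ) ^ 2) = ∑ u : α, ∑ v : α, mon {u, v} := by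
    ext A
    simp only [Finset.sum_apply]
    rw [card_eq_sum_ite A Finset.univ (Finset.subset_univ _), sq, Finset.sum_mul_sum]
    refine Finset.sum_congr rfl fun u _ => Finset.sum_congr rfl fun v _ => ?_
    unfold mon
    by_cases hu : u ∈ A
    · by_cases hv : v ∈ A
      · rw [if_pos hu, if_pos hv, if_pos]
        · norm_num
        · intro x hx
          rw [Finset.mem_insert, Finset.mem_singleton] at hx
          rcases hx with hx | hx
          · rw [hx]; exact hu
          · rw [hx]; exact hv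
      · rw [if_neg hv, if_neg (show ¬ ({u, v} : Finset α) ⊆ A from fun h => hv (h (by simp)))]
        ring
    · rw [if_neg hu, if_neg (show ¬ ({u, v} : Finset α) ⊆ A from fun h => hu (h (by simp)))]
      ring
  rw [e]
  simp only [map_sum, Finset.sum_apply]
  symm
  rw [← Finset.sum_subset (Finset.subset_univ V)]
  · refine Finset.sum_congr rfl fun u _ => ?_
    apply Finset.sum_subset (Finset.subset_univ _)
    intro v _ hv
    exact P_mon_outside H V {u, v} (fun h => hv (h (by simp))) t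
  · intro u _ hu
    refine Finset.sum_eq_zero fun v _ => ?_
    exact P_mon_outside H V {u, v} (fun h => hu (h (by simp))) t

/-- variance bound -/
theorem var_bound (H : Finset (Finset α)) (V : Finset α) (Δ R : ℕ) (hV : Hyp V H)
    (hΔ : MaxDeg H Δ) (t : ℝ) (ht : 0 ≤ t) (m : ℝ) (hm : m = ∑ v ∈ V, P (LH H) t (mon {v}) V) :
    P (LH H) t (fun A => ((A.card : ℝ) - m) ^ 2) V ≤
      3 * locErr Δ t 2 R * (V.card : ℝ) ^ 2 + (1 + 3 * Δ : ℝ) ^ (2 * R + 1) * V.card := by
  have hlin := lin_of_hyp hV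
  have e1 : (fun A : Finset α => ((A.card : ℝ) - m) ^ 2) =
      (fun A => (A.card : ℝ) ^ 2) + (-(2 * m)) • (fun A => (A.card : ℝ)) + fun _ => m ^ 2 := by
    ext A
    simp only [Pi.add_apply, Pi.smul_apply, smul_eq_mul]
    ring
  have e2 : P (LH H) t (fun A => ((A.card : ℝ) - m) ^ 2) V =
      P (LH H) t (fun A => (A.card : ℝ) ^ 2) V - 2 * m * P (LH H) t (fun A => (A.card : ℝ)) V +
        m ^ 2 := by
    rw [e1, map_add, map_add, map_smul]
    simp only [Pi.add_apply, Pi.smul_apply, smul_eq_mul, P_one]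
    ring
  rw [e2, P_card, P_card_sq, ← hm]
  have e3 : m ^ 2 = ∑ u ∈ V, ∑ v ∈ V, P (LH H) t (mon {u}) V * P (LH H) t (mon {v}) V := by
    rw [hm, sq, Finset.sum_mul_sum]
  have e4 : ∑ u ∈ V, ∑ v ∈ V, P (LH H) t (mon {u, v}) V - 2 * m * m + m ^ 2 =
      ∑ u ∈ V, ∑ v ∈ V, (P (LH H) t (mon {u, v}) V -
        P (LH H) t (mon {u}) V * P (LH H) t (mon {v}) V) := by
    simp only [Finset.sum_sub_distrib]
    rw [← e3]
    ring
  rw [e4]
  have hle := locErr_nonneg Δ t ht 2 R
  have hterm : ∀ u ∈ V, ∀ v ∈ V, P (LH H) t (mon {u, v}) V -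
        P (LH H) t (mon {u}) V * P (LH H) t (mon {v}) V ≤
        3 * locErr Δ t 2 R + if ¬ Disjoint (nbh H {u} (R + 1)) (nbh H {v} R) then 1 else 0 := by
    intro u hu v hv
    by_cases hd : Disjoint (nbh H {u} (R + 1)) (nbh H {v} R)
    · rw [if_neg (fun h => h hd), add_zero]
      have huv : u ≠ v := by
        intro h
        rw [h] at hd
        have h1 : v ∈ nbh H {v} (R + 1) := nbh_mono H {v} (Nat.zero_le _) (by simp [nbh])
        have h2 : v ∈ nbh H {v} R := nbh_mono H {v} (Nat.zero_le _) (by simp [nbh])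
        exact Finset.disjoint_left.mp hd h1 h2
      exact (le_abs_self _).trans (indep_approx H V Δ R hV hΔ u v hu hv huv hd t ht)
    · rw [if_pos hd]
      have h1 := P_mon_le_one H t ht {u, v} V
      have h2 := P_mon_nonneg H t ht {u} V
      have h3 := P_mon_nonneg H t ht {v} V
      have h4 := mul_nonneg h2 h3
      linarith
  refine (Finset.sum_le_sum fun u hu => Finset.sum_le_sum fun v hv => hterm u hu v hv).trans ?_
  simp only [Finset.sum_add_distrib, Finset.sum_const, nsmul_eq_mul]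
  have hnear : ∑ u ∈ V, ∑ v ∈ V,
      (if ¬ Disjoint (nbh H {u} (R + 1)) (nbh H {v} R) then (1:ℝ) else 0) ≤
      (1 + 3 * Δ : ℝ) ^ (2 * R + 1) * V.card := by
    have h1 : ∀ u ∈ V, ∑ v ∈ V,
        (if ¬ Disjoint (nbh H {u} (R + 1)) (nbh H {v} R) then (1:ℝ) else 0) ≤
        (1 + 3 * Δ : ℝ) ^ (2 * R + 1) := by
      intro u _
      rw [← Finset.sum_filter, Finset.sum_const, nsmul_eq_mul, mul_one]
      have h2 : V.filter (fun v => ¬ Disjoint (nbh H {u} (R + 1)) (nbh H {v} R)) ⊆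
          nbh H {u} (2 * R + 1) := by
        intro v hv
        rw [Finset.mem_filter, Finset.not_disjoint_iff] at hv
        obtain ⟨_, x, hx1, hx2⟩ := hv
        have h3 := nbh_symm H x v R hx2
        have h4 := nbh_mono_set H (Finset.singleton_subset_iff.mpr hx1) R h3
        rw [nbh_nbh] at h4
        have e5 : R + 1 + R = 2 * R + 1 := by ring
        rw [e5] at h4
        exact h4
      have h5 := (Finset.card_le_card h2).trans (nbh_card H hlin Δ hΔ {u} (2 * R + 1))
      rw [Finset.card_singleton, mul_one] at h5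
      exact_mod_cast h5
    calc _ ≤ ∑ u ∈ V, (1 + 3 * Δ : ℝ) ^ (2 * R + 1) := Finset.sum_le_sum h1
      _ = _ := by rw [Finset.sum_const, nsmul_eq_mul]; ring
  linarith [hnear, show (V.card : ℝ) * ((V.card : ℝ) * (3 * locErr Δ t 2 R)) =
    3 * locErr Δ t 2 R * (V.card : ℝ) ^ 2 by ring]

/-- Cauchy–Schwarz for the semigroup -/
lemma P_sq_le (H : Finset (Finset α)) (t : ℝ) (ht : 0 ≤ t) (f : Finset α → ℝ) (A : Finset α) :
    (P (LH H) t f A) ^ 2 ≤ P (LH H) t (fun B => f B ^ 2) A := by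
  obtain ⟨x, hx⟩ : ∃ x, x = P (LH H) t f A := ⟨_, rfl⟩
  have h1 := P_nonneg (LH H) (LH_qpos H) t ht (fun B => (f B - x) ^ 2) (fun B => sq_nonneg _) A
  have e1 : (fun B : Finset α => (f B - x) ^ 2) =
      (fun B => f B ^ 2) + (-(2 * x)) • f + fun _ => x ^ 2 := by
    ext B
    simp only [Pi.add_apply, Pi.smul_apply, smul_eq_mul]
    ring
  rw [e1, map_add, map_add, map_smul] at h1
  simp only [Pi.add_apply, Pi.smul_apply, smul_eq_mul, P_one] at h1
  rw [← hx] at h1 ⊢
  linarith [show -(2 * x) * x = -(2 * x ^ 2) by ring]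

/-- mean absolute deviation of the number of survivors -/
theorem l1_bound (H : Finset (Finset α)) (V : Finset α) (Δ R : ℕ) (hV : Hyp V H)
    (hΔ : MaxDeg H Δ) (t : ℝ) (ht : 0 ≤ t) (m : ℝ) (hm : m = ∑ v ∈ V, P (LH H) t (mon {v}) V) :
    P (LH H) t (fun A => |(A.card : ℝ) - m|) V ≤
      Real.sqrt (3 * locErr Δ t 2 R * (V.card : ℝ) ^ 2 +
        (1 + 3 * Δ : ℝ) ^ (2 * R + 1) * V.card) := by
  apply Real.le_sqrt_of_sq_le
  refine (P_sq_le H t ht _ V).trans ?_
  have e : (fun B : Finset α => |(B.card : ℝ) - m| ^ 2) = fun B => ((B.card : ℝ) - m) ^ 2 := by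
    ext B
    rw [sq_abs]
  rw [e]
  exact var_bound H V Δ R hV hΔ t ht m hm

end Vale.Agent.P046.S
end

section

/-!
Hypergraph-level master theorem (conditional on the energy module) and the transfer lemma.
-/

set_option autoImplicit false

open scoped Classical
open Finset

namespace Vale.Agent.P046.S

open Vale.Agent.P046.K (Hyp Sys Harm zd wd Energy)

variable {α : Type} [Fintype α]

/-- the energy module, uniform in the level -/
def EnergyU : Prop :=
  ∀ T η : ℝ, 0 < T → 0 < η → ∃ D₀ : ℝ, 1 ≤ D₀ ∧ ∀ D₂ : ℝ, D₀ ≤ D₂ → ∃ ξ : ℝ, 0 < ξ ∧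
    ∀ D ∈ Set.Icc D₀ D₂,
    ∀ (α : Type) (V : Finset α) (H : Finset (Finset α)), Hyp V H →
    ∀ (q : α → ℝ → ℝ) (p : Finset α → ℝ → ℝ), Sys V H T ξ q p →
    ∑ v ∈ V, (min (zd H D v ^ 4) (zd H D v ^ 2) + min (wd H D v ^ 2) |wd H D v|) ≤
      V.card * D ^ (-(19 / 10 : ℝ)) →
    ∀ t ∈ Set.Icc (0:ℝ) T,
    |∑ v ∈ V, q v t - V.card / Real.sqrt (1 + 2 * D * (1 - Real.exp (-t)))| ≤
      η * (V.card / Real.sqrt (1 + 2 * D * (1 - Real.exp (-t))))

/-- number of live hyperedges -/
noncomputable def nlive (H : Finset (Finset α)) (A : Finset α) : ℝ := ∑ h ∈ H, mon h A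

omit [Fintype α] in
lemma nlive_nonneg (H : Finset (Finset α)) (A : Finset α) : 0 ≤ nlive H A :=
  Finset.sum_nonneg fun h _ => mon_nonneg h A

lemma P_nlive (H : Finset (Finset α)) (t : ℝ) (V : Finset α) :
    P (LH H) t (nlive H) V = ∑ h ∈ H, P (LH H) t (mon h) V := by
  have e : nlive H = ∑ h ∈ H, mon h := by
    ext A
    rw [Finset.sum_apply]
    rfl
  rw [e, map_sum, Finset.sum_apply]

lemma LH_mon_nonpos (H : Finset (Finset α)) (S A : Finset α) : LH H (mon S) A ≤ 0 := by
  rw [LH_mon, neg_nonpos]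
  exact Finset.sum_nonneg fun h _ => by split_ifs <;> norm_num

lemma nlive_anti (H : Finset (Finset α)) (V : Finset α) (s t : ℝ) (hs : 0 ≤ s) (hst : s ≤ t) :
    P (LH H) t (nlive H) V ≤ P (LH H) s (nlive H) V := by
  rw [P_nlive, P_nlive]
  refine Finset.sum_le_sum fun h _ => ?_
  have hanti : AntitoneOn (fun s => P (LH H) s (mon h) V) (Set.Ici 0) := by
    apply antitoneOn_of_deriv_nonpos (convex_Ici 0)
    · exact fun s _ => (hasDerivAt_P_apply_pt (LH H) s (mon h) V).continuousAt.continuousWithinAt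
    · exact fun s _ =>
        (hasDerivAt_P_apply_pt (LH H) s (mon h) V).differentiableAt.differentiableWithinAt
    · intro s hs
      rw [interior_Ici] at hs
      rw [(hasDerivAt_P_apply_pt (LH H) s (mon h) V).deriv]
      have h1 := P_nonneg (LH H) (LH_qpos H) s (le_of_lt hs) (-(LH H (mon h))) (fun B => by
        have := LH_mon_nonpos H h B
        simp only [Pi.neg_apply]
        linarith) V
      rw [map_neg] at h1
      simp only [Pi.neg_apply] at h1
      linarith
  exact hanti (Set.mem_Ici.mpr hs) (Set.mem_Ici.mpr (hs.trans hst)) hst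

/-- derivative of the expected number of survivors -/
lemma hasDerivAt_sumq (H : Finset (Finset α)) (V : Finset α) (hV : Hyp V H) (t : ℝ) :
    HasDerivAt (fun s => ∑ v ∈ V, P (LH H) s (mon {v}) V) (-(3 * P (LH H) t (nlive H) V)) t := by
  have h1 : HasDerivAt (fun s => ∑ v ∈ V, P (LH H) s (mon {v}) V)
      (∑ v ∈ V, -(∑ h ∈ Vale.Agent.P046.K.star H v, P (LH H) t (mon h) V)) t :=
    HasDerivAt.fun_sum fun v _ => hasDerivAt_q H V v t
  have e : ∑ v ∈ V, -(∑ h ∈ Vale.Agent.P046.K.star H v, P (LH H) t (mon h) V) =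
      -(3 * P (LH H) t (nlive H) V) := by
    rw [Finset.sum_neg_distrib, P_nlive, Finset.mul_sum]
    congr 1
    unfold Vale.Agent.P046.K.star
    simp only [Finset.sum_filter]
    rw [Finset.sum_comm]
    refine Finset.sum_congr rfl fun h hh => ?_
    rw [← Finset.sum_filter, Finset.sum_const, nsmul_eq_mul]
    have e2 : V.filter (fun v => v ∈ h) = h := by
      ext x
      rw [Finset.mem_filter]
      exact ⟨fun h' => h'.2, fun h' => ⟨hV.sub h hh h', h'⟩⟩
    rw [e2, hV.card h hh]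
    norm_num
  rw [e] at h1
  exact h1

/-- the number of live hyperedges at time `T` is controlled by the decrease of the number of
survivors -/
lemma nlive_le (H : Finset (Finset α)) (V : Finset α) (hV : Hyp V H) (T : ℝ) (hT : 1 ≤ T) :
    3 * P (LH H) T (nlive H) V ≤
      ∑ v ∈ V, P (LH H) (T - 1) (mon {v}) V - ∑ v ∈ V, P (LH H) T (mon {v}) V := by
  obtain ⟨g, hg⟩ : ∃ g, g = P (LH H) T (nlive H) V := ⟨_, rfl⟩
  have hd : ∀ s, HasDerivAt (fun s => ∑ v ∈ V, P (LH H) s (mon {v}) V + 3 * g * s)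
      (-(3 * P (LH H) s (nlive H) V) + 3 * g) s := by
    intro s
    have h1 : HasDerivAt (fun s : ℝ => 3 * g * s) (3 * g * 1) s :=
      (hasDerivAt_id s).const_mul (3 * g)
    rw [mul_one] at h1
    exact (hasDerivAt_sumq H V hV s).add h1
  have hanti : AntitoneOn (fun s => ∑ v ∈ V, P (LH H) s (mon {v}) V + 3 * g * s)
      (Set.Icc (T - 1) T) := by
    apply antitoneOn_of_deriv_nonpos (convex_Icc _ _)
    · exact fun s _ => (hd s).continuousAt.continuousWithinAt
    · exact fun s _ => (hd s).differentiableAt.differentiableWithinAt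
    · intro s hs
      rw [interior_Icc] at hs
      rw [(hd s).deriv]
      have := nlive_anti H V s T (by linarith [hs.1]) hs.2.le
      rw [← hg] at this
      linarith
  have h := hanti (Set.left_mem_Icc.mpr (by linarith)) (Set.right_mem_Icc.mpr (by linarith))
    (by linarith : T - 1 ≤ T)
  simp only at h
  rw [← hg]
  linarith

lemma ratio_bound (d r η : ℝ) (hd : 0 < d) (hr : 0 < r) (hη : 0 ≤ η) (hη1 : η ≤ 1 / 2)
    (h1 : (1 - η) * d ^ 2 ≤ r ^ 2) (h2 : r ^ 2 ≤ (1 + η) * d ^ 2) : |d / r - 1| ≤ η := by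
  rw [abs_le]
  constructor
  · have h3 : (1 - η) * r ≤ d := by
      apply le_of_sq_le_sq _ hd.le
      have h4 : (1 - η) ^ 2 * (1 + η) ≤ 1 := by nlinarith only [hη, hη1, mul_nonneg hη hη]
      have h5 : 0 < d ^ 2 := by positivity
      calc ((1 - η) * r) ^ 2 = (1 - η) ^ 2 * r ^ 2 := by ring
        _ ≤ (1 - η) ^ 2 * ((1 + η) * d ^ 2) := mul_le_mul_of_nonneg_left h2 (sq_nonneg _)
        _ = ((1 - η) ^ 2 * (1 + η)) * d ^ 2 := by ring
        _ ≤ 1 * d ^ 2 := mul_le_mul_of_nonneg_right h4 h5.le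
        _ = d ^ 2 := one_mul _
    have h4 : 1 - η ≤ d / r := by rw [le_div_iff₀ hr]; exact h3
    linarith only [h4]
  · have h3 : d ≤ (1 + η) * r := by
      apply le_of_sq_le_sq _ (by positivity)
      have h4 : 1 ≤ (1 + η) ^ 2 * (1 - η) := by nlinarith only [hη, hη1, mul_nonneg hη hη]
      have h5 : 0 < d ^ 2 := by positivity
      calc d ^ 2 = 1 * d ^ 2 := (one_mul _).symm
        _ ≤ ((1 + η) ^ 2 * (1 - η)) * d ^ 2 := mul_le_mul_of_nonneg_right h4 h5.le
        _ = (1 + η) ^ 2 * ((1 - η) * d ^ 2) := by ring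
        _ ≤ (1 + η) ^ 2 * r ^ 2 := mul_le_mul_of_nonneg_left h1 (sq_nonneg _)
        _ = ((1 + η) * r) ^ 2 := by ring
    have h4 : d / r ≤ 1 + η := by rw [div_le_iff₀ hr]; exact h3
    linarith only [h4]

lemma sqrt_part (N x D η le b : ℝ) (hN : 0 ≤ N) (hx : 0 ≤ x) (hD : 0 < D) (hη : 0 < η)
    (e3 : N ^ 2 ≤ x ^ 2 * (2 * D)) (hle : le ≤ η ^ 2 / (2 * D) / 3)
    (hVN : b * (2 * D) / η ^ 2 ≤ N) :
    Real.sqrt (3 * le * N ^ 2 + b * N) ≤ 2 * η * x := by
  rw [Real.sqrt_le_left (by positivity)]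
  rw [div_le_iff₀ (by positivity)] at hVN
  have h3 : 3 * le * N ^ 2 ≤ η ^ 2 * x ^ 2 := by
    have h4 : 3 * le ≤ η ^ 2 / (2 * D) := by linarith
    calc 3 * le * N ^ 2 ≤ η ^ 2 / (2 * D) * N ^ 2 := mul_le_mul_of_nonneg_right h4 (by positivity)
      _ ≤ η ^ 2 / (2 * D) * (x ^ 2 * (2 * D)) := mul_le_mul_of_nonneg_left e3 (by positivity)
      _ = η ^ 2 * x ^ 2 := by field_simp
  have h5 : b * N ≤ η ^ 2 * x ^ 2 := by
    have h6 := mul_le_mul_of_nonneg_right hVN hN
    have h7 : b * N * (2 * D) ≤ η ^ 2 * x ^ 2 * (2 * D) := by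
      calc b * N * (2 * D) = b * (2 * D) * N := by ring
        _ ≤ N * η ^ 2 * N := h6
        _ = η ^ 2 * N ^ 2 := by ring
        _ ≤ η ^ 2 * (x ^ 2 * (2 * D)) := mul_le_mul_of_nonneg_left e3 (by positivity)
        _ = η ^ 2 * x ^ 2 * (2 * D) := by ring
    exact le_of_mul_le_mul_right h7 (by positivity)
  have h8 : 0 ≤ η ^ 2 * x ^ 2 := by positivity
  calc 3 * le * N ^ 2 + b * N ≤ 2 * (η ^ 2 * x ^ 2) := by linarith only [h3, h5]
    _ ≤ 4 * (η ^ 2 * x ^ 2) := by linarith only [h8]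
    _ = (2 * η * x) ^ 2 := by ring

lemma mean_part (f x d D η e r : ℝ) (hx : 0 ≤ x) (hD : 1 ≤ D) (hη : 0 < η) (hη1 : η ≤ 1 / 20)
    (hd : 0 < d) (hd2 : d ^ 2 = 2 * D) (hr : r = Real.sqrt (1 + 2 * D * (1 - e))) (he0 : 0 < e)
    (he : e ≤ η) (hDη2 : 1 ≤ D * η) (h1 : |f - x * (d / r)| ≤ η * (x * (d / r))) :
    |f - x| ≤ 3 * η * x := by
  have hin : 0 < 1 + 2 * D * (1 - e) := by
    have : 0 ≤ 2 * D * (1 - e) := mul_nonneg (by linarith only [hD]) (by linarith only [hη, hη1, he])
    linarith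
  have hr0 : 0 < r := by rw [hr]; exact Real.sqrt_pos.mpr hin
  have hr2 : r ^ 2 = 1 + 2 * D * (1 - e) := by
    rw [hr]; exact Real.sq_sqrt hin.le
  have h2 : |d / r - 1| ≤ η := by
    apply ratio_bound d r η hd hr0 hη.le (by linarith only [hη1])
    · rw [hr2, hd2]
      nlinarith only [he, hD]
    · rw [hr2, hd2]
      nlinarith only [he0, hDη2, hD]
  have h3 := abs_le.mp h2
  have h4 : x * (d / r) ≤ x * (1 + η) := mul_le_mul_of_nonneg_left (by linarith only [h3]) hx
  have h5 : |f - x| ≤ |f - x * (d / r)| + |x * (d / r) - x| := abs_sub_le _ _ _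
  have h6 : |x * (d / r) - x| ≤ x * η := by
    have : x * (d / r) - x = x * (d / r - 1) := by ring
    rw [this, abs_mul, abs_of_nonneg hx]
    exact mul_le_mul_of_nonneg_left h2 hx
  have h7 : η * (x * (d / r)) ≤ η * (x * (1 + η)) := mul_le_mul_of_nonneg_left h4 hη.le
  have h8 : η * (x * (1 + η)) ≤ 2 * η * x := by
    have : 0 ≤ η * x := by positivity
    nlinarith only [this, hη1]
  linarith only [h1, h5, h6, h7, h8]

/-- hypergraph-level master theorem -/
theorem hg_master (hE : EnergyU) (ε : ℝ) (hε : 0 < ε) :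
    ∃ T : ℝ, 1 ≤ T ∧ ∃ D₁ : ℝ, 1 ≤ D₁ ∧ ∀ D₂ : ℝ, D₁ ≤ D₂ → ∀ Δ : ℕ, ∃ K₀ N₀ : ℕ,
      ∀ D ∈ Set.Icc D₁ D₂,
      ∀ (α : Type) [Fintype α] (V : Finset α) (H : Finset (Finset α)), Hyp V H →
      MaxDeg H Δ → Sep K₀ V H → N₀ ≤ V.card →
      ∑ v ∈ V, (min (zd H D v ^ 4) (zd H D v ^ 2) + min (wd H D v ^ 2) |wd H D v|) ≤
        V.card * D ^ (-(19 / 10 : ℝ)) →
      P (LH H) T (fun A => |(A.card : ℝ) - V.card / Real.sqrt (2 * D)|) V ≤
          ε * (V.card / Real.sqrt (2 * D)) ∧
        P (LH H) T (nlive H) V ≤ ε * (V.card / Real.sqrt (2 * D)) := by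
  obtain ⟨η, hη⟩ : ∃ η : ℝ, η = min ε 1 / 20 := ⟨_, rfl⟩
  have hη0 : 0 < η := by rw [hη]; positivity
  have hη1 : η ≤ 1 / 20 := by rw [hη]; have := min_le_right ε 1; linarith only [this]
  have hηε : 20 * η ≤ ε := by rw [hη]; have := min_le_left ε 1; linarith only [this]
  obtain ⟨T, hT⟩ : ∃ T : ℝ, T = 1 - Real.log η := ⟨_, rfl⟩
  have hlog : Real.log η ≤ 0 := Real.log_nonpos hη0.le (by linarith only [hη1])
  have hT1 : 1 ≤ T := by rw [hT]; linarith only [hlog]
  obtain ⟨D₀, hD₀, hE1⟩ := hE T η (by linarith only [hT, hlog]) hη0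
  refine ⟨T, hT1, max D₀ (1 / η), le_max_of_le_left hD₀, ?_⟩
  intro D₂ hD₂ Δ
  have hD₂1 : 1 ≤ D₂ := (hD₀.trans (le_max_left _ _)).trans hD₂
  have hD₂0 : 0 < D₂ := by linarith only [hη0, hη1, hD₂1]
  obtain ⟨ξ, hξ, hE2⟩ := hE1 D₂ ((le_max_left _ _).trans hD₂)
  obtain ⟨K₀, hK₀⟩ := sys_of_sep Δ T ξ (by linarith) hξ
  obtain ⟨R, hR⟩ := exists_locErr Δ T 2 (η ^ 2 / (2 * D₂) / 3) (by positivity)
  obtain ⟨N₀, hN₀⟩ := exists_nat_ge ((1 + 3 * Δ : ℝ) ^ (2 * R + 1) * (2 * D₂) / η ^ 2)
  refine ⟨K₀, N₀, ?_⟩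
  intro D hD α _ V H hV hΔ hS hN hH
  have hDD : D₀ ≤ D := (le_max_left _ _).trans hD.1
  have hDη : 1 / η ≤ D := (le_max_right _ _).trans hD.1
  have hDη2 : 1 ≤ D * η := by rwa [div_le_iff₀ hη0] at hDη
  have hD1 : 1 ≤ D := hD₀.trans hDD
  have hD0 : 0 < D := by linarith only [hη0, hη1, hD₀, hDD]
  have hsys := hK₀ α V H hV hΔ hS
  have hen := hE2 D ⟨hDD, hD.2⟩ α V H hV _ _ hsys hH
  obtain ⟨d, hd⟩ : ∃ d, d = Real.sqrt (2 * D) := ⟨_, rfl⟩
  have hd0 : 0 < d := by rw [hd]; positivity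
  have hd2 : d ^ 2 = 2 * D := by rw [hd]; exact Real.sq_sqrt (by positivity)
  obtain ⟨x, hx⟩ : ∃ x, x = (V.card : ℝ) / d := ⟨_, rfl⟩
  have hx0 : 0 ≤ x := by rw [hx]; (clear * - hd0; positivity)
  rw [← hd, ← hx]
  obtain ⟨f, hf⟩ : ∃ f : ℝ → ℝ, f = fun s => ∑ v ∈ V, P (LH H) s (mon {v}) V := ⟨_, rfl⟩
  -- the mean at times `T - 1` and `T`
  have hmean : ∀ s, s ∈ Set.Icc (T - 1) T → |f s - x| ≤ 3 * η * x := by
    intro s hs
    have hs0 : s ∈ Set.Icc (0:ℝ) T := ⟨by linarith only [hT, hlog, hs, hs.1], hs.2⟩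
    have h1 := hen s hs0
    obtain ⟨r, hr⟩ : ∃ r, r = Real.sqrt (1 + 2 * D * (1 - Real.exp (-s))) := ⟨_, rfl⟩
    have he : Real.exp (-s) ≤ η := by
      calc Real.exp (-s) ≤ Real.exp (Real.log η) := by
            rw [Real.exp_le_exp]
            have := hs.1
            rw [hT] at this
            linarith only [this]
        _ = η := Real.exp_log hη0
    rw [← hr] at h1
    have e1 : (V.card : ℝ) / r = x * (d / r) := by
      rw [hx]; field_simp
    have h1' : |f s - V.card / r| ≤ η * (V.card / r) := by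
      rw [hf]; exact h1
    rw [e1] at h1'
    exact mean_part (f s) x d D η (Real.exp (-s)) r hx0 hD1 hη0 hη1 hd0 hd2 hr
      (Real.exp_pos _) he hDη2 h1'
  have hTm := hmean T ⟨by linarith only [hη0, hη1], le_rfl⟩
  have hTm1 := hmean (T - 1) ⟨le_rfl, by linarith only [hη0, hη1]⟩
  constructor
  · -- L1 deviation
    have h1 := l1_bound H V Δ R hV hΔ T (by linarith only [hη0, hη1, hT, hlog]) (f T) (by rw [hf])
    have h2 : Real.sqrt (3 * locErr Δ T 2 R * (V.card : ℝ) ^ 2 +
        (1 + 3 * Δ : ℝ) ^ (2 * R + 1) * V.card) ≤ 2 * η * x := by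
      apply sqrt_part (V.card : ℝ) x D₂ η _ _ (by (clear * -; positivity)) hx0 hD₂0 hη0 _ hR
      · exact hN₀.trans (by exact_mod_cast hN)
      · have e3 : x ^ 2 * (2 * D) = (V.card : ℝ) ^ 2 := by
          rw [hx, div_pow, hd2]; field_simp
        rw [← e3]
        apply mul_le_mul_of_nonneg_left _ (sq_nonneg _)
        linarith only [hD, hD.2]
    have h3 : P (LH H) T (fun A => |(A.card : ℝ) - x|) V ≤
        P (LH H) T (fun A => |(A.card : ℝ) - f T|) V + |f T - x| := by
      have e : (fun A : Finset α => |(A.card : ℝ) - f T| + |f T - x|) =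
          (fun A => |(A.card : ℝ) - f T|) + fun _ => |f T - x| := rfl
      have h4 := P_mono (LH H) (LH_qpos H) T (by linarith only [hη0, hη1, hT, hlog]) (fun A => |(A.card : ℝ) - x|)
        (fun A => |(A.card : ℝ) - f T| + |f T - x|) (fun A => abs_sub_le _ _ _) V
      rw [e, map_add] at h4
      simp only [Pi.add_apply, P_one] at h4
      exact h4
    have h6 : 0 ≤ η * x := by (clear * - hη0 hx0; positivity)
    calc P (LH H) T (fun A => |(A.card : ℝ) - x|) V ≤ 2 * η * x + 3 * η * x := by linarith only [hTm, h1, h2, h3]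
      _ = 5 * (η * x) := by ring
      _ ≤ 20 * (η * x) := by linarith only [h6]
      _ = 20 * η * x := by ring
      _ ≤ ε * x := mul_le_mul_of_nonneg_right hηε hx0
  · have h1 := nlive_le H V hV T hT1
    have h2 : f (T - 1) - f T ≤ 6 * η * x := by
      have h3 := abs_le.mp hTm
      have h4 := abs_le.mp hTm1
      linarith only [h3, h4]
    rw [hf] at h2
    have h6 : 0 ≤ η * x := by (clear * - hη0 hx0; positivity)
    calc P (LH H) T (nlive H) V ≤ 2 * (η * x) := by linarith only [h1, h2]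
      _ ≤ 20 * (η * x) := by linarith only [h6]
      _ = 20 * η * x := by ring
      _ ≤ ε * x := mul_le_mul_of_nonneg_right hηε hx0

end Vale.Agent.P046.S
end

section

/-!
Transfer: the final value is controlled by the process on a subset of the vertices.
-/

set_option autoImplicit false

open scoped Classical
open Finset

namespace Vale.Agent.P046.S

open Vale.Agent.P046.K (Hyp)

variable {α : Type} [Fintype α]

omit [Fintype α] in
lemma nlive_eq_card (H : Finset (Finset α)) (A : Finset α) :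
    nlive H A = ((H.filter (fun h => h ⊆ A)).card : ℝ) := by
  unfold nlive mon
  rw [Finset.sum_ite, Finset.sum_const_zero, add_zero, Finset.sum_const, nsmul_eq_mul, mul_one]

omit [Fintype α] in
lemma nlive_sub_le (H : Finset (Finset α)) (A B : Finset α) :
    nlive H A - nlive H B ≤ JJ H A B := by
  unfold nlive JJ
  rw [← Finset.sum_sub_distrib]
  refine Finset.sum_le_sum fun h _ => ?_
  unfold mon
  by_cases hA : h ⊆ A
  · rw [if_pos hA, if_pos hA]
    by_cases hB : h ⊆ B
    · rw [if_pos hB, sub_self]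
      positivity
    · rw [if_neg hB, sub_zero]
      have : 0 < (h \ B).card := Finset.card_pos.mpr (Finset.sdiff_nonempty.mpr hB)
      exact_mod_cast this
  · rw [if_neg hA, if_neg hA]
    split_ifs <;> norm_num

omit [Fintype α] in
lemma abs_nlive_sub_le (H : Finset (Finset α)) (A : Finset α × Finset α) :
    |nlive H A.1 - nlive H A.2| ≤ dY H A := by
  have h1 := nlive_sub_le H A.1 A.2
  have h2 := nlive_sub_le H A.2 A.1
  have h3 := JJ_nonneg H A.1 A.2
  have h4 := JJ_nonneg H A.2 A.1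
  unfold dY
  rw [abs_le]
  constructor <;> linarith

omit [Fintype α] in
lemma card_sub_le (W A B : Finset α) :
    ((A ∩ W).card : ℝ) - ((B ∩ W).card : ℝ) ≤ ((A \ B).card : ℝ) := by
  have h1 : A ∩ W ⊆ (B ∩ W) ∪ (A \ B) := by
    intro v hv
    rw [Finset.mem_inter] at hv
    rw [Finset.mem_union, Finset.mem_inter, Finset.mem_sdiff]
    by_cases hB : v ∈ B
    · exact Or.inl ⟨hB, hv.2⟩
    · exact Or.inr ⟨hv.1, hB⟩
  have h2 : (A ∩ W).card ≤ (B ∩ W).card + (A \ B).card :=
    (Finset.card_le_card h1).trans (Finset.card_union_le _ _)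
  have h3 : ((A ∩ W).card : ℝ) ≤ ((B ∩ W).card : ℝ) + ((A \ B).card : ℝ) := by exact_mod_cast h2
  linarith

omit [Fintype α] in
lemma abs_card_sub_le (W : Finset α) (A : Finset α × Finset α) :
    |((A.1 ∩ W).card : ℝ) - ((A.2 ∩ W).card : ℝ)| ≤ dN A := by
  have h1 := card_sub_le W A.1 A.2
  have h2 := card_sub_le W A.2 A.1
  have h3 : (0:ℝ) ≤ ((A.1 \ A.2).card : ℝ) := Nat.cast_nonneg _
  have h4 : (0:ℝ) ≤ ((A.2 \ A.1).card : ℝ) := Nat.cast_nonneg _
  unfold dN
  rw [abs_le]
  constructor <;> linarith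

omit [Fintype α] in
lemma F_diff (H : Finset (Finset α)) (W : Finset α) (x : ℝ) (A : Finset α × Finset α) :
    |(|((A.1 ∩ W).card : ℝ) - x| + 3 * nlive H A.1) -
      (|((A.2 ∩ W).card : ℝ) - x| + 3 * nlive H A.2)| ≤ 1 * dN A + 3 * dY H A := by
  have h1 := abs_nlive_sub_le H A
  have h2 := abs_card_sub_le W A
  have h3 : |(|((A.1 ∩ W).card : ℝ) - x|) - (|((A.2 ∩ W).card : ℝ) - x|)| ≤ dN A := by
    refine (abs_abs_sub_abs_le_abs_sub _ _).trans ?_
    have e : ((A.1 ∩ W).card : ℝ) - x - (((A.2 ∩ W).card : ℝ) - x) =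
        ((A.1 ∩ W).card : ℝ) - ((A.2 ∩ W).card : ℝ) := by ring
    rw [e]
    exact h2
  rw [abs_le] at h1 h3 ⊢
  constructor <;> linarith [h1.1, h1.2, h3.1, h3.2]

/-- the transfer lemma -/
theorem transfer (H0 : Finset (Finset α)) (V0 W : Finset α) (hV0 : Hyp V0 H0) (hW : W ⊆ V0)
    (φ : Finset α → ℝ) (x : ℝ) (t : ℝ) (ht : 0 ≤ t) (hφ : P (LH H0) t φ = φ)
    (hle : ∀ A, φ A ≤ |((A ∩ V0).card : ℝ) - x| + 3 * nlive H0 A) (D : ℝ) (hD : 0 < D) :
    φ V0 ≤ P (LH (H0.filter (fun h => h ⊆ W))) t (fun A => |(A.card : ℝ) - x|) W +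
      3 * P (LH (H0.filter (fun h => h ⊆ W))) t (nlive (H0.filter (fun h => h ⊆ W))) W +
      (Real.sqrt (gw D t) + 3 * (D * Real.exp (2 * t) / Real.sqrt (gw D t))) *
        (((V0 \ W).card : ℝ) + (∑ v ∈ V0 \ W, ldeg H0 V0 v) / D) := by
  obtain ⟨F0, hF0⟩ : ∃ F0 : Finset α → ℝ,
      F0 = fun A => |((A ∩ V0).card : ℝ) - x| + 3 * nlive H0 A := ⟨_, rfl⟩
  have h1 : φ V0 ≤ P (LH H0) t F0 V0 := by
    have h := P_mono (LH H0) (LH_qpos H0) t ht φ F0 (by rw [hF0]; exact hle) V0
    rwa [hφ] at h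
  have h2 : |P (LH H0) t F0 V0 - P (LH H0) t F0 W| ≤
      P (LP H0) t (fun B => 1 * dN B + 3 * dY H0 B) (V0, W) :=
    P_diff_le H0 t ht F0 (fun B => 1 * dN B + 3 * dY H0 B)
      (fun A => by rw [hF0]; exact F_diff H0 V0 x A) V0 W
  rw [PLP_lin] at h2
  have hlin : Lin H0 := lin_of_hyp hV0
  have h3 := stab_N H0 hlin D t hD ht (V0, W)
  have h4 := stab_Y H0 hlin D t hD ht (V0, W)
  have e1 : dN (V0, W) = ((V0 \ W).card : ℝ) := by
    unfold dN
    simp only
    rw [Finset.sdiff_eq_empty_iff_subset.mpr hW]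
    simp
  have e2 : dY H0 (V0, W) = ∑ v ∈ V0 \ W, ldeg H0 V0 v := by
    unfold dY
    simp only
    rw [JJ_eq, JJ_eq, Finset.sdiff_eq_empty_iff_subset.mpr hW]
    simp
  rw [e1, e2] at h3 h4
  obtain ⟨H, hH⟩ : ∃ H, H = H0.filter (fun h => h ⊆ W) := ⟨_, rfl⟩
  rw [← hH]
  have h5 : P (LH H0) t F0 W = P (LH H) t (fun B => F0 (B ∩ W)) W := by
    have h := P_restrict H0 W t F0 W
    rw [Finset.inter_self] at h
    rw [hH]
    exact h.symm
  have hHH : H.filter (fun h => h ⊆ W) = H := by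
    rw [hH, Finset.filter_filter]
    simp
  have h6 : P (LH H) t (fun A => |(A.card : ℝ) - x| + 3 * nlive H A) W =
      P (LH H) t (fun B => F0 (B ∩ W)) W := by
    have h := P_restrict H W t (fun A => |(A.card : ℝ) - x| + 3 * nlive H A) W
    rw [Finset.inter_self, hHH] at h
    rw [← h]
    have e5 : (fun B => |((B ∩ W).card : ℝ) - x| + 3 * nlive H (B ∩ W)) =
        fun B => F0 (B ∩ W) := by
     ext B
     rw [hF0]
     simp only
     have e3 : (B ∩ W) ∩ V0 = B ∩ W :=
      Finset.inter_eq_left.mpr (Finset.inter_subset_right.trans hW)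
     have e4 : nlive H0 (B ∩ W) = nlive H (B ∩ W) := by
      rw [nlive_eq_card, nlive_eq_card, hH, Finset.filter_filter]
      congr 2
      ext h
      rw [Finset.mem_filter, Finset.mem_filter]
      constructor
      · rintro ⟨a, b⟩
        exact ⟨a, b.trans Finset.inter_subset_right, b⟩
      · rintro ⟨a, _, b⟩
        exact ⟨a, b⟩
     rw [e3, e4]
    rw [e5]
  have h7 : P (LH H) t (fun A => |(A.card : ℝ) - x| + 3 * nlive H A) W =
      P (LH H) t (fun A => |(A.card : ℝ) - x|) W + 3 * P (LH H) t (nlive H) W := by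
    have e : (fun A : Finset α => |(A.card : ℝ) - x| + 3 * nlive H A) =
        (fun A => |(A.card : ℝ) - x|) + (3:ℝ) • nlive H := by
      ext A
      simp
    rw [e, map_add, map_smul]
    simp
  have h8 := (abs_le.mp h2).2
  have h9 : (Real.sqrt (gw D t) + 3 * (D * Real.exp (2 * t) / Real.sqrt (gw D t))) *
        (((V0 \ W).card : ℝ) + (∑ v ∈ V0 \ W, ldeg H0 V0 v) / D) =
      Real.sqrt (gw D t) * (((V0 \ W).card : ℝ) + (∑ v ∈ V0 \ W, ldeg H0 V0 v) / D) +
      3 * ((D * Real.exp (2 * t) / Real.sqrt (gw D t)) *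
        (((V0 \ W).card : ℝ) + (∑ v ∈ V0 \ W, ldeg H0 V0 v) / D)) := by ring
  rw [h9]
  linarith

end Vale.Agent.P046.S
end

section

/-!
The combination of the hypergraph-level theorem and of the transfer lemma.
-/

set_option autoImplicit false

open scoped Classical
open Finset

namespace Vale.Agent.P046.S

open Vale.Agent.P046.K (Hyp Sys Harm zd wd)

lemma gw_ge_one (D t : ℝ) (hD : 0 < D) (ht : 0 ≤ t) : 1 ≤ gw D t := by
  unfold gw
  have : 1 ≤ Real.exp (2 * t) := Real.one_le_exp (by linarith)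
  nlinarith only [hD, this]

/-- a crude bound for the stability constant -/
lemma stab_const (D D₂ t : ℝ) (hD : 0 < D) (hD₂ : D ≤ D₂) (ht : 0 ≤ t) :
    Real.sqrt (gw D t) + 3 * (D * Real.exp (2 * t) / Real.sqrt (gw D t)) ≤
      1 + 4 * D₂ * Real.exp (2 * t) := by
  have h1 := gw_ge_one D t hD ht
  have h2 : 1 ≤ Real.sqrt (gw D t) := by rw [Real.one_le_sqrt]; exact h1
  have h3 : Real.sqrt (gw D t) ≤ gw D t := by
    have h4 := Real.mul_self_sqrt (by linarith : 0 ≤ gw D t)
    nlinarith only [h4, h2]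
  have he : 0 < Real.exp (2 * t) := Real.exp_pos _
  have h4 : gw D t ≤ 1 + D₂ * Real.exp (2 * t) := by
    unfold gw
    have : D * Real.exp (2 * t) ≤ D₂ * Real.exp (2 * t) := mul_le_mul_of_nonneg_right hD₂ he.le
    linarith only [hD, this]
  have h5 : D * Real.exp (2 * t) / Real.sqrt (gw D t) ≤ D₂ * Real.exp (2 * t) := by
    rw [div_le_iff₀ (by linarith)]
    have h6 : D * Real.exp (2 * t) ≤ D₂ * Real.exp (2 * t) := mul_le_mul_of_nonneg_right hD₂ he.le
    have h7 : 0 < D₂ * Real.exp (2 * t) := by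
      have : 0 < D₂ := by linarith
      positivity
    nlinarith only [h6, h1, h2, h4]
  linarith

/-- hypergraph-level theorem with a small exceptional set of vertices -/
theorem hg_final (hE : EnergyU) (ε : ℝ) (hε : 0 < ε) :
    ∃ T : ℝ, 1 ≤ T ∧ ∃ D₁ : ℝ, 1 ≤ D₁ ∧ ∀ D₂ : ℝ, D₁ ≤ D₂ →
      ∃ δ : ℝ, 0 < δ ∧ ∀ Δ : ℕ, ∃ K₀ N₀ : ℕ,
      ∀ D ∈ Set.Icc D₁ D₂,
      ∀ (α : Type) [Fintype α] (V0 W : Finset α) (H0 : Finset (Finset α)), Hyp V0 H0 → W ⊆ V0 →
      Hyp W (H0.filter (fun h => h ⊆ W)) →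
      MaxDeg (H0.filter (fun h => h ⊆ W)) Δ → Sep K₀ W (H0.filter (fun h => h ⊆ W)) →
      N₀ ≤ W.card →
      ∑ v ∈ W, (min (zd (H0.filter (fun h => h ⊆ W)) D v ^ 4)
          (zd (H0.filter (fun h => h ⊆ W)) D v ^ 2) +
        min (wd (H0.filter (fun h => h ⊆ W)) D v ^ 2) |wd (H0.filter (fun h => h ⊆ W)) D v|) ≤
        W.card * D ^ (-(19 / 10 : ℝ)) →
      ((V0 \ W).card : ℝ) + (∑ v ∈ V0 \ W, ldeg H0 V0 v) / D ≤ δ * V0.card →
      ∀ φ : Finset α → ℝ, P (LH H0) T φ = φ →
      (∀ A, φ A ≤ |((A ∩ V0).card : ℝ) - V0.card / Real.sqrt (2 * D)| + 3 * nlive H0 A) →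
      φ V0 ≤ ε * (V0.card / Real.sqrt (2 * D)) := by
  obtain ⟨T, hT, D₁, hD₁, h1⟩ := hg_master hE (ε / 8) (by positivity)
  refine ⟨T, hT, D₁, hD₁, fun D₂ hD₂ => ?_⟩
  have h2 := h1 D₂ hD₂
  have hD₂0 : 0 < D₂ := by linarith
  have hs2 : 0 < Real.sqrt (2 * D₂) := Real.sqrt_pos.mpr (by positivity)
  obtain ⟨C, hC⟩ : ∃ C : ℝ, C = 1 + 4 * D₂ * Real.exp (2 * T) := ⟨_, rfl⟩
  have hC1 : 1 ≤ C := by
    rw [hC]
    have : 0 < 4 * D₂ * Real.exp (2 * T) := by positivity
    linarith
  have hs21 : 1 ≤ Real.sqrt (2 * D₂) := by rw [Real.one_le_sqrt]; linarith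
  refine ⟨ε / 8 / (C * Real.sqrt (2 * D₂)), by positivity, fun Δ => ?_⟩
  obtain ⟨K₀, N₀, h3⟩ := h2 Δ
  refine ⟨K₀, N₀, ?_⟩
  intro D hD α _ V0 W H0 hV0 hW hHW hΔ hS hN hEn hdel φ hφ hle
  have hD0 : 0 < D := by linarith only [hD₁, hD, hD.1]
  obtain ⟨h4, h5⟩ := h3 D hD α W (H0.filter (fun h => h ⊆ W)) hHW hΔ hS hN hEn
  obtain ⟨s, hs⟩ : ∃ s, s = Real.sqrt (2 * D) := ⟨_, rfl⟩
  have hs0 : 0 < s := by rw [hs]; exact Real.sqrt_pos.mpr (by positivity)
  have hss2 : s ≤ Real.sqrt (2 * D₂) := by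
    rw [hs]; exact Real.sqrt_le_sqrt (by linarith only [hD, hD.2])
  have h6 := transfer H0 V0 W hV0 hW φ (V0.card / Real.sqrt (2 * D)) T (by linarith only [hT]) hφ hle D hD0
  have hconst := stab_const D D₂ T hD0 hD.2 (by linarith only [hT])
  rw [← hC] at hconst
  rw [← hs] at h4 h5 h6 ⊢
  obtain ⟨N, hN'⟩ : ∃ N : ℝ, N = (V0.card : ℝ) := ⟨_, rfl⟩
  have hN0 : 0 ≤ N := by rw [hN']; (clear * -; positivity)
  have hWN : (W.card : ℝ) ≤ N := by rw [hN']; exact_mod_cast Finset.card_le_card hW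
  have hsum0 : 0 ≤ (∑ v ∈ V0 \ W, ldeg H0 V0 v) / D :=
    div_nonneg (Finset.sum_nonneg fun v _ => ldeg_nonneg H0 V0 v) hD0.le
  have hcard : ((V0 \ W).card : ℝ) = N - W.card := by
    rw [Finset.card_sdiff_of_subset hW, Nat.cast_sub (Finset.card_le_card hW), hN']
  obtain ⟨δ, hδ⟩ : ∃ δ : ℝ, δ = ε / 8 / (C * Real.sqrt (2 * D₂)) := ⟨_, rfl⟩
  rw [← hδ, ← hN'] at hdel
  rw [← hN'] at h6 ⊢
  have hδ0 : 0 < δ := by rw [hδ]; positivity
  have hδC : C * δ ≤ ε / 8 / s := by
    rw [hδ, le_div_iff₀ hs0]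
    have e : C * (ε / 8 / (C * Real.sqrt (2 * D₂))) * s = ε / 8 * (s / Real.sqrt (2 * D₂)) := by
      field_simp
    rw [e]
    have : s / Real.sqrt (2 * D₂) ≤ 1 := by rw [div_le_one hs2]; exact hss2
    have h8 : 0 ≤ ε / 8 := by positivity
    nlinarith only [hε, this]
  have hδ8 : δ ≤ ε / 8 := by
    rw [hδ]
    apply div_le_self (by positivity)
    nlinarith only [hs21, hs2, hC1]
  -- the reference value changes a little
  have h7 : P (LH (H0.filter (fun h => h ⊆ W))) T (fun A => |(A.card : ℝ) - N / s|) W ≤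
      ε / 8 * (W.card / s) + δ * N / s := by
    have e : (fun A : Finset α => |(A.card : ℝ) - W.card / s| + |(W.card : ℝ) / s - N / s|) =
        (fun A => |(A.card : ℝ) - W.card / s|) + fun _ => |(W.card : ℝ) / s - N / s| := rfl
    have h8 := P_mono (LH (H0.filter (fun h => h ⊆ W))) (LH_qpos _) T (by linarith only [hT])
      (fun A => |(A.card : ℝ) - N / s|)
      (fun A => |(A.card : ℝ) - W.card / s| + |(W.card : ℝ) / s - N / s|)
      (fun A => abs_sub_le _ _ _) W
    rw [e, map_add] at h8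
    simp only [Pi.add_apply, P_one] at h8
    have h9 : |(W.card : ℝ) / s - N / s| ≤ δ * N / s := by
      rw [← sub_div, abs_div, abs_of_pos hs0]
      apply div_le_div_of_nonneg_right _ hs0.le
      rw [abs_le]
      constructor <;> linarith only [hsum0, hcard, hdel, hWN]
    linarith only [h4, h8, h9]
  have h8 : (Real.sqrt (gw D T) + 3 * (D * Real.exp (2 * T) / Real.sqrt (gw D T))) *
        (((V0 \ W).card : ℝ) + (∑ v ∈ V0 \ W, ldeg H0 V0 v) / D) ≤ ε / 8 * (N / s) := by
    have h9 : 0 ≤ ((V0 \ W).card : ℝ) + (∑ v ∈ V0 \ W, ldeg H0 V0 v) / D := by (clear * - hsum0; positivity)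
    calc _ ≤ C * (((V0 \ W).card : ℝ) + (∑ v ∈ V0 \ W, ldeg H0 V0 v) / D) :=
          mul_le_mul_of_nonneg_right hconst h9
      _ ≤ C * (δ * N) := mul_le_mul_of_nonneg_left hdel (by linarith only [hC1])
      _ = C * δ * N := by ring
      _ ≤ ε / 8 / s * N := mul_le_mul_of_nonneg_right hδC hN0
      _ = ε / 8 * (N / s) := by ring
  have h10 : (W.card : ℝ) / s ≤ N / s := div_le_div_of_nonneg_right hWN hs0.le
  have h11 : 0 ≤ N / s := by (clear * - hN0 hs0; positivity)
  have h12 : ε / 8 * ((W.card : ℝ) / s) ≤ ε / 8 * (N / s) :=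
    mul_le_mul_of_nonneg_left h10 (by positivity)
  have h13 : δ * N / s ≤ ε / 8 * (N / s) := by
    rw [mul_div_assoc]
    exact mul_le_mul_of_nonneg_right hδ8 h11
  have h14 : 0 ≤ ε * (N / s) := by (clear * - hε hN0 hs0; positivity)
  have e15 : ε / 8 * (N / s) = ε * (N / s) / 8 := by ring
  rw [e15] at h8 h12 h13
  linarith only [h5, h6, h7, h8, h12, h13, h14]

end Vale.Agent.P046.S
end

section

/-!
Sparsity of the edge set implies separation in the triangle hypergraph.
-/

set_option autoImplicit false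

open scoped Classical
open Finset

namespace Vale.Agent.P046.A

open Vale.Agent.P046.K (Hyp star hedge Sparse TH)
open Vale.Agent.P046.S (Sep rel)

variable {n : ℕ}

lemma mem_hedge (t : Finset (Fin n)) (x y : Fin n) :
    s(x, y) ∈ hedge t ↔ x ∈ t ∧ y ∈ t ∧ x ≠ y := by
  unfold hedge
  rw [Finset.mem_filter, Finset.mk_mem_sym2_iff, Sym2.mk_isDiag_iff]
  tauto

lemma hedge_mono {t U : Finset (Fin n)} (h : t ⊆ U) (e : Sym2 (Fin n)) (he : e ∈ hedge t) :
    e ∈ U.sym2 := by
  unfold hedge at he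
  exact Finset.sym2_mono h (Finset.mem_filter.mp he).1

lemma third {t : Finset (Fin n)} (ht : t.card = 3) {x y : Fin n} (hx : x ∈ t) (hy : y ∈ t)
    (hxy : x ≠ y) : ∃ z, z ≠ x ∧ z ≠ y ∧ t = {x, y, z} := by
  have h1 : ((t.erase x).erase y).card = 1 := by
    rw [Finset.card_erase_of_mem (Finset.mem_erase.mpr ⟨hxy.symm, hy⟩),
      Finset.card_erase_of_mem hx, ht]
  obtain ⟨z, hz⟩ := Finset.card_eq_one.mp h1
  have hz1 : z ∈ (t.erase x).erase y := by rw [hz]; exact Finset.mem_singleton_self z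
  rw [Finset.mem_erase, Finset.mem_erase] at hz1
  refine ⟨z, hz1.2.1, hz1.1, ?_⟩
  ext w
  simp only [Finset.mem_insert, Finset.mem_singleton]
  constructor
  · intro hw
    by_cases hwx : w = x
    · exact Or.inl hwx
    · by_cases hwy : w = y
      · exact Or.inr (Or.inl hwy)
      · right; right
        have : w ∈ (t.erase x).erase y := by
          rw [Finset.mem_erase, Finset.mem_erase]
          exact ⟨hwy, hwx, hw⟩
        rw [hz] at this
        exact Finset.mem_singleton.mp this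
  · rintro (h | h | h)
    · rw [h]; exact hx
    · rw [h]; exact hy
    · rw [h]; exact hz1.2.2

/-- edges of `V` inside `U` -/
noncomputable def ins (V : Finset (Sym2 (Fin n))) (U : Finset (Fin n)) : Finset (Sym2 (Fin n)) :=
  V.filter fun e => e ∈ U.sym2

lemma ins_insert (V : Finset (Sym2 (Fin n))) (U S : Finset (Fin n)) (d : Fin n) (hd : d ∉ U)
    (hS : S ⊆ U) (hV : ∀ w ∈ S, s(w, d) ∈ V) :
    (ins V U).card + S.card ≤ (ins V (insert d U)).card := by
  have himg : (S.image fun w => s(w, d)).card = S.card := by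
    apply Finset.card_image_of_injOn
    intro w hw w' hw' h
    simp only [Sym2.eq_iff] at h
    rcases h with h | h
    · exact h.1
    · exfalso
      exact hd (h.2 ▸ hS hw')
  rw [← himg, ← Finset.card_union_of_disjoint]
  · apply Finset.card_le_card
    intro e he
    rw [Finset.mem_union] at he
    unfold ins at he ⊢
    rw [Finset.mem_filter] at he ⊢
    rcases he with he | he
    · exact ⟨he.1, Finset.sym2_mono (Finset.subset_insert d U) he.2⟩
    · obtain ⟨w, hw, rfl⟩ := Finset.mem_image.mp he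
      refine ⟨hV w hw, ?_⟩
      rw [Finset.mk_mem_sym2_iff]
      exact ⟨Finset.mem_insert_of_mem (hS hw), Finset.mem_insert_self d U⟩
  · rw [Finset.disjoint_left]
    intro e he he'
    obtain ⟨w, hw, rfl⟩ := Finset.mem_image.mp he'
    unfold ins at he
    rw [Finset.mem_filter, Finset.mk_mem_sym2_iff] at he
    exact hd he.2.2

lemma card_vs (W : Finset (Sym2 (Fin n))) : (W.biUnion Sym2.toFinset).card ≤ 2 * W.card := by
  refine (Finset.card_biUnion_le_card_mul W _ 2 ?_).trans (le_of_eq (mul_comm _ _))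
  intro e _
  by_cases he : e.IsDiag
  · rw [Sym2.card_toFinset_of_isDiag e he]; norm_num
  · rw [Sym2.card_toFinset_of_not_isDiag e he]

lemma hedge_vs {t : Finset (Fin n)} (ht : t.card = 3) {W : Finset (Sym2 (Fin n))}
    (h : hedge t ⊆ W) : t ⊆ W.biUnion Sym2.toFinset := by
  intro x hx
  obtain ⟨y, hy, hyx⟩ : ∃ y ∈ t, y ≠ x := by
    by_contra hcon
    push Not at hcon
    have h1 : t ⊆ {x} := fun y hy => Finset.mem_singleton.mpr (hcon y hy)
    have := Finset.card_le_card h1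
    rw [ht, Finset.card_singleton] at this
    omega
  rw [Finset.mem_biUnion]
  refine ⟨s(x, y), h ((mem_hedge t x y).mpr ⟨hx, hy, hyx.symm⟩), ?_⟩
  rw [Sym2.mem_toFinset]
  exact Sym2.mem_mk_left x y

/-- **sparsity implies separation** -/
theorem sep_of_sparse {K₀ K : ℕ} (hK : 2 * K₀ ≤ K) (V : Finset (Sym2 (Fin n)))
    (H : Finset (Finset (Sym2 (Fin n))))
    (hH : ∀ h ∈ H, ∃ t : Finset (Fin n), t.card = 3 ∧ h = hedge t)
    (hs : ∀ h ∈ H, h ⊆ V) (hsp : Sparse K V) : Sep K₀ V H := by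
  intro v hv W hWV hWc h₁ hh₁ h₂ hh₂ hne hv₁ hv₂ h₁W h₂W u₁ hu₁ u₂ hu₂ hwalk
  replace hu₁ := (@Finset.mem_erase _ (fun a b => Classical.propDecidable (a = b)) _ _ _).mp hu₁
  replace hu₂ := (@Finset.mem_erase _ (fun a b => Classical.propDecidable (a = b)) _ _ _).mp hu₂
  obtain ⟨t₁, ht₁, rfl⟩ := hH h₁ hh₁
  obtain ⟨t₂, ht₂, rfl⟩ := hH h₂ hh₂
  obtain ⟨a, b, rfl⟩ : ∃ a b, v = s(a, b) := by
    induction v with
    | _ x y => exact ⟨x, y, rfl⟩
  obtain ⟨ha₁, hb₁, hab⟩ := (mem_hedge t₁ a b).mp hv₁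
  obtain ⟨ha₂, hb₂, -⟩ := (mem_hedge t₂ a b).mp hv₂
  obtain ⟨c, hca, hcb, hc⟩ := third ht₁ ha₁ hb₁ hab
  obtain ⟨d, hda, hdb, hd⟩ := third ht₂ ha₂ hb₂ hab
  have hcd : d ≠ c := by
    rintro rfl
    exact hne (by rw [hc, hd])
  have hvsK : ∀ U : Finset (Fin n), U ⊆ W.biUnion Sym2.toFinset → U.card ≤ K := fun U hU =>
    ((Finset.card_le_card hU).trans (card_vs W)).trans
      ((Nat.mul_le_mul_left 2 hWc).trans hK)
  have hadV : ∀ w ∈ ({a, b} : Finset (Fin n)), s(w, d) ∈ V := by
    intro w hw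
    refine hs _ hh₂ ((mem_hedge t₂ w d).mpr ?_)
    rw [hd]
    rw [Finset.mem_insert, Finset.mem_singleton] at hw
    rcases hw with rfl | rfl
    · exact ⟨by simp, by simp, hda.symm⟩
    · exact ⟨by simp, by simp, hdb.symm⟩
  have hd_vs : d ∈ W.biUnion Sym2.toFinset := hedge_vs ht₂ h₂W (by rw [hd]; simp)
  -- the invariant
  have key : ∀ u, Relation.ReflTransGen (rel H W s(a, b)) u₁ u →
      ∃ U : Finset (Fin n), a ∈ U ∧ b ∈ U ∧ d ∉ U ∧ U ⊆ W.biUnion Sym2.toFinset ∧
        (ins V U).card + 3 = 2 * U.card ∧ u ∈ U.sym2 := by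
    intro u hu
    induction hu with
    | refl =>
      have htc : t₁.card = 3 := ht₁
      refine ⟨t₁, ha₁, hb₁, ?_, hedge_vs ht₁ h₁W, ?_, ?_⟩
      · rw [hc]
        simp only [Finset.mem_insert, Finset.mem_singleton, not_or]
        exact ⟨hda, hdb, hcd⟩
      · have h1 := hsp t₁ (by omega) (hvsK t₁ (hedge_vs ht₁ h₁W))
        have h2 : (hedge t₁).card = 3 := by
          rw [hc]
          have : hedge ({a, b, c} : Finset (Fin n)) = {s(a, b), s(a, c), s(b, c)} := by
            ext e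
            induction e with
            | _ x y =>
              rw [mem_hedge]
              simp only [Finset.mem_insert, Finset.mem_singleton, Sym2.eq_iff]
              constructor
              · rintro ⟨rfl | rfl | rfl, rfl | rfl | rfl, hxy⟩ <;> simp_all
              · rintro ((⟨rfl, rfl⟩ | ⟨rfl, rfl⟩) | (⟨rfl, rfl⟩ | ⟨rfl, rfl⟩) |
                  (⟨rfl, rfl⟩ | ⟨rfl, rfl⟩)) <;> simp_all [Ne.symm]
          rw [this, Finset.card_insert_of_notMem, Finset.card_insert_of_notMem,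
            Finset.card_singleton]
          · simp only [Finset.mem_singleton, Sym2.eq_iff]
            rintro (⟨h, -⟩ | ⟨h, -⟩)
            · exact hab h
            · exact hca h.symm
          · simp only [Finset.mem_insert, Finset.mem_singleton, Sym2.eq_iff]
            rintro ((⟨-, h⟩ | ⟨h, -⟩) | (⟨h, -⟩ | ⟨h, -⟩))
            · exact hcb h.symm
            · exact hca h.symm
            · exact hab h
            · exact hca h.symm
        have h3 : hedge t₁ ⊆ ins V t₁ := by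
          intro e he
          unfold ins
          rw [Finset.mem_filter]
          exact ⟨hs _ hh₁ he, hedge_mono subset_rfl e he⟩
        have h4 := Finset.card_le_card h3
        unfold ins at h4 ⊢
        omega
      · exact hedge_mono subset_rfl u₁ hu₁.2
    | tail hw hr ih =>
      rename_i u u'
      obtain ⟨U, haU, hbU, hdU, hUvs, htight, huU⟩ := ih
      obtain ⟨h, hh, hhW, hvh, huh, huh'⟩ := hr
      obtain ⟨t, ht, rfl⟩ := hH h hh
      obtain ⟨x, y, rfl⟩ : ∃ x y, u = s(x, y) := by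
        induction u with
        | _ x y => exact ⟨x, y, rfl⟩
      obtain ⟨hxt, hyt, hxy⟩ := (mem_hedge t x y).mp huh
      rw [Finset.mk_mem_sym2_iff] at huU
      obtain ⟨z, hzx, hzy, hz⟩ := third ht hxt hyt hxy
      by_cases hzU : z ∈ U
      · refine ⟨U, haU, hbU, hdU, hUvs, htight, ?_⟩
        have htU : t ⊆ U := by
          rw [hz]
          intro w hw
          simp only [Finset.mem_insert, Finset.mem_singleton] at hw
          rcases hw with rfl | rfl | rfl
          · exact huU.1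
          · exact huU.2
          · exact hzU
        exact hedge_mono htU u' huh'
      · have hxzV : ∀ w ∈ ({x, y} : Finset (Fin n)), s(w, z) ∈ V := by
          intro w hw
          refine hs _ hh ((mem_hedge t w z).mpr ?_)
          rw [hz]
          rw [Finset.mem_insert, Finset.mem_singleton] at hw
          rcases hw with rfl | rfl
          · exact ⟨by simp, by simp, hzx.symm⟩
          · exact ⟨by simp, by simp, hzy.symm⟩
        have hzvs : z ∈ W.biUnion Sym2.toFinset := hedge_vs ht hhW (by rw [hz]; simp)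
        have hU' : insert z U ⊆ W.biUnion Sym2.toFinset := Finset.insert_subset hzvs hUvs
        have hcardU' : (insert z U).card = U.card + 1 := Finset.card_insert_of_notMem hzU
        have hU2 : 2 ≤ U.card := by
          have : ({a, b} : Finset (Fin n)) ⊆ U := by
            intro w hw
            rw [Finset.mem_insert, Finset.mem_singleton] at hw
            rcases hw with rfl | rfl
            · exact haU
            · exact hbU
          have h2 := Finset.card_le_card this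
          rw [Finset.card_pair hab] at h2
          exact h2
        have hsp' := hsp (insert z U) (by omega) (hvsK _ hU')
        by_cases hzd : z = d
        · exfalso
          subst hzd
          have hS : ({x, y} ∪ {a, b} : Finset (Fin n)) ⊆ U := by
            intro w hw
            simp only [Finset.mem_union, Finset.mem_insert, Finset.mem_singleton] at hw
            rcases hw with (rfl | rfl) | (rfl | rfl)
            · exact huU.1
            · exact huU.2
            · exact haU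
            · exact hbU
          have h1 := ins_insert V U ({x, y} ∪ {a, b}) z hzU hS (by
            intro w hw
            rw [Finset.mem_union] at hw
            rcases hw with hw | hw
            · exact hxzV w hw
            · exact hadV w hw)
          have h3 : 3 ≤ ({x, y} ∪ {a, b} : Finset (Fin n)).card := by
            by_contra hlt
            push Not at hlt
            have h4 : ({x, y} : Finset (Fin n)) = {x, y} ∪ {a, b} :=
              Finset.eq_of_subset_of_card_le Finset.subset_union_left (by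
                rw [Finset.card_pair hxy]; omega)
            have h5 : ({a, b} : Finset (Fin n)) = {x, y} ∪ {a, b} :=
              Finset.eq_of_subset_of_card_le Finset.subset_union_right (by
                rw [Finset.card_pair hab]; omega)
            have h6 : ({x, y} : Finset (Fin n)) = {a, b} := h4.trans h5.symm
            apply hvh
            have hat : a ∈ ({x, y} : Finset (Fin n)) := by rw [h6]; simp
            have hbt : b ∈ ({x, y} : Finset (Fin n)) := by rw [h6]; simp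
            rw [mem_hedge]
            rw [Finset.mem_insert, Finset.mem_singleton] at hat hbt
            refine ⟨?_, ?_, hab⟩
            · rcases hat with h | h
              · rw [h]; exact hxt
              · rw [h]; exact hyt
            · rcases hbt with h | h
              · rw [h]; exact hxt
              · rw [h]; exact hyt
          unfold ins at h1 htight
          omega
        · refine ⟨insert z U, Finset.mem_insert_of_mem haU, Finset.mem_insert_of_mem hbU, ?_,
            hU', ?_, ?_⟩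
          · rw [Finset.mem_insert, not_or]
            exact ⟨fun h => hzd h.symm, hdU⟩
          · have hS : ({x, y} : Finset (Fin n)) ⊆ U := by
              intro w hw
              simp only [Finset.mem_insert, Finset.mem_singleton] at hw
              rcases hw with rfl | rfl
              · exact huU.1
              · exact huU.2
            have h1 := ins_insert V U {x, y} z hzU hS hxzV
            rw [Finset.card_pair hxy] at h1
            unfold ins at h1 htight ⊢
            omega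
          · refine hedge_mono ?_ u' huh'
            rw [hz]
            intro w hw
            simp only [Finset.mem_insert, Finset.mem_singleton] at hw
            rcases hw with rfl | rfl | rfl
            · exact Finset.mem_insert_of_mem huU.1
            · exact Finset.mem_insert_of_mem huU.2
            · exact Finset.mem_insert_self _ _
  obtain ⟨U, haU, hbU, hdU, -, -, huU⟩ := key u₂ hwalk
  obtain ⟨x, y, rfl⟩ : ∃ x y, u₂ = s(x, y) := by
    induction u₂ with
    | _ x y => exact ⟨x, y, rfl⟩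
  obtain ⟨hxt, hyt, hxy⟩ := (mem_hedge t₂ x y).mp hu₂.2
  rw [Finset.mk_mem_sym2_iff] at huU
  rw [hd] at hxt hyt
  simp only [Finset.mem_insert, Finset.mem_singleton] at hxt hyt
  have hx : x ≠ d := fun h => hdU (h ▸ huU.1)
  have hy : y ≠ d := fun h => hdU (h ▸ huU.2)
  apply hu₂.1
  rcases hxt with rfl | rfl | rfl <;> rcases hyt with rfl | rfl | rfl <;>
    first | (exact absurd rfl hxy) | (exact absurd rfl hx) | (exact absurd rfl hy) | rfl |
      (exact Sym2.eq_swap)

end Vale.Agent.P046.A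
end

section

/-!
The triangle removal process and the greedy matching process on its triangle hypergraph.
-/

set_option autoImplicit false

open scoped Classical
open Finset

namespace Vale.Agent.P046.A

open Vale.Agent.P046.K (Hyp star hedge Sparse TH)
open Vale.Agent.P046.S (LH LH_apply fire P P_of_harm Lin)

variable {n : ℕ}

lemma hedge_triple {a b c : Fin n} (hab : a ≠ b) (hac : a ≠ c) (hbc : b ≠ c) :
    hedge ({a, b, c} : Finset (Fin n)) = {s(a, b), s(a, c), s(b, c)} := by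
  ext e
  induction e with
  | _ x y =>
    rw [mem_hedge]
    simp only [Finset.mem_insert, Finset.mem_singleton, Sym2.eq_iff]
    constructor
    · rintro ⟨rfl | rfl | rfl, rfl | rfl | rfl, hxy⟩ <;> simp_all
    · rintro ((⟨rfl, rfl⟩ | ⟨rfl, rfl⟩) | (⟨rfl, rfl⟩ | ⟨rfl, rfl⟩) |
        (⟨rfl, rfl⟩ | ⟨rfl, rfl⟩)) <;> simp_all [Ne.symm]

lemma hedge_card {t : Finset (Fin n)} (ht : t.card = 3) : (hedge t).card = 3 := by
  obtain ⟨a, b, c, hab, hac, hbc, rfl⟩ := Finset.card_eq_three.mp ht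
  rw [hedge_triple hab hac hbc, Finset.card_insert_of_notMem, Finset.card_insert_of_notMem,
    Finset.card_singleton]
  · simp only [Finset.mem_singleton, Sym2.eq_iff]
    rintro (⟨h, -⟩ | ⟨h, -⟩)
    · exact hab h
    · exact hac h
  · simp only [Finset.mem_insert, Finset.mem_singleton, Sym2.eq_iff]
    rintro ((⟨-, h⟩ | ⟨h, -⟩) | (⟨h, -⟩ | ⟨h, -⟩))
    · exact hbc h
    · exact hac h
    · exact hab h
    · exact hac h

/-- a vertex of a triangle lies on one of its edges -/
lemma mem_of_hedge {t : Finset (Fin n)} (ht : t.card = 3) {x : Fin n} (hx : x ∈ t) :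
    ∃ y ∈ t, y ≠ x ∧ s(x, y) ∈ hedge t := by
  have h1 : 1 < t.card := by omega
  obtain ⟨y, hy, hyx⟩ := Finset.exists_mem_ne h1 x
  exact ⟨y, hy, hyx, (mem_hedge t x y).mpr ⟨hx, hy, hyx.symm⟩⟩

lemma hedge_subset_iff {t : Finset (Fin n)} (ht : t.card = 3) (t' : Finset (Fin n)) :
    hedge t ⊆ hedge t' ↔ t ⊆ t' := by
  constructor
  · intro h x hx
    obtain ⟨y, _, _, h2⟩ := mem_of_hedge ht hx
    exact ((mem_hedge t' x y).mp (h h2)).1
  · intro h e he
    induction e with
    | _ x y =>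
      rw [mem_hedge] at he ⊢
      exact ⟨h he.1, h he.2.1, he.2.2⟩

lemma hedge_inj {t t' : Finset (Fin n)} (ht : t.card = 3) (ht' : t'.card = 3)
    (h : hedge t = hedge t') : t = t' :=
  Finset.Subset.antisymm ((hedge_subset_iff ht t').mp h.subset)
    ((hedge_subset_iff ht' t).mp h.symm.subset)

lemma hedge_inter {t t' : Finset (Fin n)} (ht : t.card = 3) (ht' : t'.card = 3)
    (h : hedge t ≠ hedge t') : (hedge t ∩ hedge t').card ≤ 1 := by
  rw [Finset.card_le_one]
  intro e he e' he'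
  by_contra hne
  apply h
  rw [Finset.mem_inter] at he he'
  have key : t = t' := by
    have hcard : 3 ≤ (t ∩ t').card := by
      by_contra hlt
      push Not at hlt
      obtain ⟨x, y, rfl⟩ : ∃ x y, e = s(x, y) := by
        induction e with
        | _ x y => exact ⟨x, y, rfl⟩
      obtain ⟨x', y', rfl⟩ : ∃ x y, e' = s(x, y) := by
        induction e' with
        | _ x y => exact ⟨x, y, rfl⟩
      obtain ⟨⟨h1, h2, h3⟩, ⟨h4, h5, -⟩⟩ := And.imp (mem_hedge t x y).mp (mem_hedge t' x y).mp he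
      obtain ⟨⟨k1, k2, k3⟩, ⟨k4, k5, -⟩⟩ :=
        And.imp (mem_hedge t x' y').mp (mem_hedge t' x' y').mp he'
      have hs : ({x, y} : Finset (Fin n)) ⊆ t ∩ t' := by
        intro w hw
        rw [Finset.mem_insert, Finset.mem_singleton] at hw
        rw [Finset.mem_inter]
        rcases hw with rfl | rfl
        · exact ⟨h1, h4⟩
        · exact ⟨h2, h5⟩
      have hs' : ({x', y'} : Finset (Fin n)) ⊆ t ∩ t' := by
        intro w hw
        rw [Finset.mem_insert, Finset.mem_singleton] at hw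
        rw [Finset.mem_inter]
        rcases hw with rfl | rfl
        · exact ⟨k1, k4⟩
        · exact ⟨k2, k5⟩
      have e1 : ({x, y} : Finset (Fin n)) = t ∩ t' :=
        Finset.eq_of_subset_of_card_le hs (by rw [Finset.card_pair h3]; omega)
      have e2 : ({x', y'} : Finset (Fin n)) = t ∩ t' :=
        Finset.eq_of_subset_of_card_le hs' (by rw [Finset.card_pair k3]; omega)
      apply hne
      have e3 : ({x, y} : Finset (Fin n)) = {x', y'} := e1.trans e2.symm
      have hx : x ∈ ({x', y'} : Finset (Fin n)) := by rw [← e3]; simp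
      have hy : y ∈ ({x', y'} : Finset (Fin n)) := by rw [← e3]; simp
      rw [Finset.mem_insert, Finset.mem_singleton] at hx hy
      rw [Sym2.eq_iff]
      rcases hx with rfl | rfl <;> rcases hy with rfl | rfl
      · exact absurd rfl h3
      · exact Or.inl ⟨rfl, rfl⟩
      · exact Or.inr ⟨rfl, rfl⟩
      · exact absurd rfl h3
    have e1 : t ∩ t' = t := Finset.eq_of_subset_of_card_le Finset.inter_subset_left (by omega)
    have e2 : t ∩ t' = t' := Finset.eq_of_subset_of_card_le Finset.inter_subset_right (by omega)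
    exact e1.symm.trans e2
  rw [key]

lemma mem_triangles (G : SimpleGraph (Fin n)) (t : Finset (Fin n)) :
    t ∈ triangles G ↔ t.card = 3 ∧ hedge t ⊆ G.edgeFinset := by
  unfold triangles
  rw [SimpleGraph.mem_cliqueFinset_iff, SimpleGraph.isNClique_iff]
  constructor
  · rintro ⟨h1, h2⟩
    refine ⟨h2, fun e he => ?_⟩
    induction e with
    | _ x y =>
      rw [mem_hedge] at he
      rw [SimpleGraph.mem_edgeFinset, SimpleGraph.mem_edgeSet]
      exact h1 he.1 he.2.1 he.2.2
  · rintro ⟨h1, h2⟩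
    refine ⟨fun x hx y hy hxy => ?_, h1⟩
    have := h2 ((mem_hedge t x y).mpr ⟨hx, hy, hxy⟩)
    rwa [SimpleGraph.mem_edgeFinset, SimpleGraph.mem_edgeSet] at this

lemma mem_TH (G : SimpleGraph (Fin n)) (h : Finset (Sym2 (Fin n))) :
    h ∈ TH G ↔ ∃ t : Finset (Fin n), t.card = 3 ∧ hedge t ⊆ G.edgeFinset ∧ hedge t = h := by
  unfold TH
  rw [Finset.mem_image]
  constructor
  · rintro ⟨t, ht, rfl⟩
    rw [mem_triangles] at ht
    exact ⟨t, ht.1, ht.2, rfl⟩
  · rintro ⟨t, h1, h2, rfl⟩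
    exact ⟨t, (mem_triangles G t).mpr ⟨h1, h2⟩, rfl⟩

lemma inter_inst' {β : Type} (i1 i2 : DecidableEq β) (A B : Finset β) :
    (@Inter.inter _ (@Finset.instInter β i1) A B) = (@Inter.inter _ (@Finset.instInter β i2) A B) := by
  obtain rfl : i1 = i2 := Subsingleton.elim _ _
  rfl

lemma filter_inst' {β : Type} (p : β → Prop) (i1 i2 : DecidablePred p) (A : Finset β) :
    @Finset.filter β p i1 A = @Finset.filter β p i2 A := by
  obtain rfl : i1 = i2 := Subsingleton.elim _ _
  rfl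

lemma sdiff_inst {β : Type} (i1 i2 : DecidableEq β) (A B : Finset β) :
    (@SDiff.sdiff _ (@Finset.instSDiff β i1) A B) = (@SDiff.sdiff _ (@Finset.instSDiff β i2) A B) := by
  obtain rfl : i1 = i2 := Subsingleton.elim _ _
  rfl

lemma TH_hyp (G : SimpleGraph (Fin n)) : Hyp G.edgeFinset (TH G) where
  sub := by
    intro h hh
    obtain ⟨t, _, h2, rfl⟩ := (mem_TH G h).mp hh
    exact h2
  card := by
    intro h hh
    obtain ⟨t, h1, _, rfl⟩ := (mem_TH G h).mp hh
    exact hedge_card h1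
  lin := by
    intro h hh h' hh' hne
    obtain ⟨t, h1, _, rfl⟩ := (mem_TH G h).mp hh
    obtain ⟨t', h1', _, rfl⟩ := (mem_TH G h').mp hh'
    have h2 := hedge_inter h1 h1' hne
    rw [inter_inst' (fun a b => Classical.propDecidable (a = b)) (inferInstance)]
    exact h2

lemma TH_lin (G : SimpleGraph (Fin n)) : Lin (TH G) :=
  ⟨(TH_hyp G).card, (TH_hyp G).lin⟩

lemma TH_triple (G : SimpleGraph (Fin n)) :
    ∀ h ∈ TH G, ∃ t : Finset (Fin n), t.card = 3 ∧ h = hedge t := by
  intro h hh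
  obtain ⟨t, h1, _, h3⟩ := (mem_TH G h).mp hh
  exact ⟨t, h1, h3.symm⟩

lemma TH_card (G : SimpleGraph (Fin n)) : (TH G).card = (triangles G).card := by
  unfold TH
  apply Finset.card_image_of_injOn
  intro t ht t' ht' h
  rw [Finset.mem_coe, mem_triangles] at ht ht'
  exact hedge_inj ht.1 ht'.1 h

/-- the degree in the triangle hypergraph is the codegree -/
lemma TH_deg (G : SimpleGraph (Fin n)) (u v : Fin n) (h : G.Adj u v) :
    K.deg (TH G) s(u, v) = codeg G u v := by
  rw [← OS.card_triangles_edge G u v h]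
  have h0 : K.deg (TH G) s(u, v) = ((TH G).filter (fun h => s(u, v) ∈ h)).card := by
    unfold K.deg K.star
    exact congrArg Finset.card (filter_inst' _ _ _ _)
  rw [h0]
  unfold TH
  rw [Finset.filter_image, Finset.card_image_of_injOn]
  · congr 1
    ext t
    rw [Finset.mem_filter, Finset.mem_filter, mem_hedge]
    constructor
    · rintro ⟨h1, h2, h3, _⟩
      exact ⟨h1, h2, h3⟩
    · rintro ⟨h1, h2, h3⟩
      exact ⟨h1, h2, h3, G.ne_of_adj h⟩
  · intro t ht t' ht' h
    rw [Finset.mem_coe, Finset.mem_filter, mem_triangles] at ht ht'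
    exact hedge_inj ht.1.1 ht'.1.1 h

/-! ### the graph with edge set `A` -/

/-- the graph with edge set `A` -/
noncomputable def GA (A : Finset (Sym2 (Fin n))) : SimpleGraph (Fin n) :=
  SimpleGraph.fromEdgeSet (A : Set (Sym2 (Fin n)))

lemma GA_edge (G : SimpleGraph (Fin n)) (A : Finset (Sym2 (Fin n))) :
    (GA (A ∩ G.edgeFinset)).edgeFinset = A ∩ G.edgeFinset := by
  ext e
  rw [SimpleGraph.mem_edgeFinset]
  show e ∈ (SimpleGraph.fromEdgeSet ((A ∩ G.edgeFinset : Finset (Sym2 (Fin n))) :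
    Set (Sym2 (Fin n)))).edgeSet ↔ _
  rw [SimpleGraph.edgeSet_fromEdgeSet]
  constructor
  · intro h
    exact h.1
  · intro h
    refine ⟨h, fun hd => ?_⟩
    rw [Finset.mem_inter, SimpleGraph.mem_edgeFinset] at h
    exact G.not_isDiag_of_mem_edgeSet h.2 hd

lemma GA_self (G : SimpleGraph (Fin n)) : GA (G.edgeFinset ∩ G.edgeFinset) = G := by
  rw [Finset.inter_self]
  unfold GA
  rw [SimpleGraph.coe_edgeFinset, SimpleGraph.fromEdgeSet_edgeSet]

lemma numEdges_GA (G : SimpleGraph (Fin n)) (A : Finset (Sym2 (Fin n))) :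
    numEdges (GA (A ∩ G.edgeFinset)) = (A ∩ G.edgeFinset).card := by
  unfold numEdges
  rw [GA_edge]

lemma mem_triangles_GA (G : SimpleGraph (Fin n)) (A : Finset (Sym2 (Fin n)))
    (t : Finset (Fin n)) :
    t ∈ triangles (GA (A ∩ G.edgeFinset)) ↔ t ∈ triangles G ∧ hedge t ⊆ A := by
  rw [mem_triangles, mem_triangles, GA_edge, Finset.subset_inter_iff]
  tauto

lemma remove_GA (G : SimpleGraph (Fin n)) (A : Finset (Sym2 (Fin n))) (t : Finset (Fin n)) :
    removeTriangle (GA (A ∩ G.edgeFinset)) t = GA ((A \ hedge t) ∩ G.edgeFinset) := by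
  ext x y
  rw [OS.removeTriangle_adj]
  unfold GA
  rw [SimpleGraph.fromEdgeSet_adj, SimpleGraph.fromEdgeSet_adj, Finset.mem_coe, Finset.mem_coe,
    Finset.mem_inter, Finset.mem_inter, Finset.mem_sdiff, mem_hedge]
  tauto

/-! ### stabilisation -/

lemma triangles_empty_of_numEdges (G : SimpleGraph (Fin n)) (h : numEdges G = 0) :
    ¬ (triangles G).Nonempty := by
  rintro ⟨t, ht⟩
  have := numEdges_removeTriangle G t ht
  omega

lemma V_stab (f : SimpleGraph (Fin n) → ℝ) (k : ℕ) :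
    ∀ G : SimpleGraph (Fin n), numEdges G ≤ 3 * k → V f (k + 1) G = V f k G := by
  induction k with
  | zero =>
    intro G hG
    exact V_succ_of_empty f 0 G (triangles_empty_of_numEdges G (by omega))
  | succ k ih =>
    intro G hG
    by_cases hT : (triangles G).Nonempty
    · rw [V_succ_of_nonempty f (k + 1) G hT, V_succ_of_nonempty f k G hT]
      congr 1
      refine Finset.sum_congr rfl fun t ht => ih _ ?_
      have := numEdges_removeTriangle G t ht
      omega
    · exact V_succ_of_empty f (k + 1) G hT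

lemma numEdges_le (G : SimpleGraph (Fin n)) : numEdges G ≤ n.choose 2 := by
  unfold numEdges
  have := G.card_edgeFinset_le_card_choose_two
  rwa [Fintype.card_fin] at this

/-- the value function of the removal process as a function on edge sets -/
noncomputable def phi (G : SimpleGraph (Fin n)) (f : SimpleGraph (Fin n) → ℝ)
    (A : Finset (Sym2 (Fin n))) : ℝ :=
  V f (n.choose 2) (GA (A ∩ G.edgeFinset))

lemma phi_self (G : SimpleGraph (Fin n)) (f : SimpleGraph (Fin n) → ℝ) :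
    phi G f G.edgeFinset = V f (n.choose 2) G := by
  unfold phi
  rw [GA_self]

/-- the value function is harmonic -/
theorem LH_phi (G : SimpleGraph (Fin n)) (f : SimpleGraph (Fin n) → ℝ) :
    LH (TH G) (phi G f) = 0 := by
  ext A
  rw [LH_apply, Pi.zero_apply]
  have h1 : ∑ h ∈ TH G, (phi G f (fire h A) - phi G f A) =
      ∑ t ∈ triangles G, (phi G f (fire (hedge t) A) - phi G f A) := by
    unfold TH
    rw [Finset.sum_image]
    intro t ht t' ht' h
    rw [Finset.mem_coe, mem_triangles] at ht ht'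
    exact hedge_inj ht.1 ht'.1 h
  rw [h1]
  have h2 : ∑ t ∈ triangles G, (phi G f (fire (hedge t) A) - phi G f A) =
      ∑ t ∈ triangles (GA (A ∩ G.edgeFinset)),
        (V f (n.choose 2) (removeTriangle (GA (A ∩ G.edgeFinset)) t) - phi G f A) := by
    have h3 : triangles (GA (A ∩ G.edgeFinset)) = (triangles G).filter (fun t => hedge t ⊆ A) := by
      ext t
      rw [mem_triangles_GA, Finset.mem_filter]
    rw [h3, Finset.sum_filter]
    refine Finset.sum_congr rfl fun t _ => ?_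
    by_cases hA : hedge t ⊆ A
    · rw [if_pos hA, remove_GA]
      unfold fire
      rw [if_pos hA]
      have e : phi G f (A \ hedge t) = V f (n.choose 2) (GA ((A \ hedge t) ∩ G.edgeFinset)) := rfl
      rw [← e, sdiff_inst (fun a b => Classical.propDecidable (a = b)) (inferInstance)]
    · rw [if_neg hA]
      unfold fire
      rw [if_neg hA, sub_self]
  rw [h2]
  by_cases hT : (triangles (GA (A ∩ G.edgeFinset))).Nonempty
  · have h4 := V_stab f (n.choose 2) (GA (A ∩ G.edgeFinset)) (by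
      have := numEdges_le (GA (A ∩ G.edgeFinset))
      omega)
    rw [V_succ_of_nonempty _ _ _ hT] at h4
    have h5 : (0 : ℝ) < ((triangles (GA (A ∩ G.edgeFinset))).card : ℝ) := by
      exact_mod_cast Finset.card_pos.mpr hT
    rw [Finset.sum_sub_distrib, Finset.sum_const, nsmul_eq_mul]
    unfold phi
    rw [← h4]
    field_simp
    ring
  · rw [Finset.not_nonempty_iff_eq_empty] at hT
    rw [hT, Finset.sum_empty]

theorem P_phi (G : SimpleGraph (Fin n)) (f : SimpleGraph (Fin n) → ℝ) (t : ℝ) :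
    P (LH (TH G)) t (phi G f) = phi G f :=
  P_of_harm _ _ (LH_phi G f) t

/-! ### from now on the process removes at most three edges per triangle -/

lemma triangles_remove (G : SimpleGraph (Fin n)) (t : Finset (Fin n)) (ht : t ∈ triangles G) :
    (triangles (removeTriangle G t)).card + 1 ≤ (triangles G).card := by
  have h1 : triangles (removeTriangle G t) ⊆ (triangles G).erase t := by
    intro t' ht'
    have e : GA (G.edgeFinset ∩ G.edgeFinset) = G := GA_self G
    have h2 : removeTriangle G t = GA ((G.edgeFinset \ hedge t) ∩ G.edgeFinset) := by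
      rw [← remove_GA, e]
    rw [h2, mem_triangles_GA] at ht'
    rw [Finset.mem_erase]
    refine ⟨?_, ht'.1⟩
    rintro rfl
    have h3 := (mem_triangles G t').mp ht
    have h4 : (hedge t').card = 3 := hedge_card h3.1
    obtain ⟨e, he⟩ := Finset.card_pos.mp (by omega : 0 < (hedge t').card)
    exact (Finset.mem_sdiff.mp (ht'.2 he)).2 he
  have h2 := Finset.card_le_card h1
  rw [Finset.card_erase_of_mem ht] at h2
  have h3 : 0 < (triangles G).card := Finset.card_pos.mpr ⟨t, ht⟩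
  omega

lemma V_sub_le (f : SimpleGraph (Fin n) → ℝ)
    (hf : ∀ (G : SimpleGraph (Fin n)) (t : Finset (Fin n)), t ∈ triangles G →
      |f (removeTriangle G t) - f G| ≤ 3) (k : ℕ) :
    ∀ G : SimpleGraph (Fin n), |V f k G - f G| ≤ 3 * ((triangles G).card : ℝ) := by
  induction k with
  | zero =>
    intro G
    rw [V_zero, sub_self, abs_zero]
    positivity
  | succ k ih =>
    intro G
    by_cases hT : (triangles G).Nonempty
    · have h5 : (0 : ℝ) < ((triangles G).card : ℝ) := by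
        exact_mod_cast Finset.card_pos.mpr hT
      rw [V_succ_of_nonempty _ _ _ hT]
      have h6 : (∑ t ∈ triangles G, V f k (removeTriangle G t)) / ((triangles G).card : ℝ) - f G =
          (∑ t ∈ triangles G, (V f k (removeTriangle G t) - f G)) / ((triangles G).card : ℝ) := by
        rw [Finset.sum_sub_distrib, Finset.sum_const, nsmul_eq_mul]
        field_simp
      rw [h6, abs_div, abs_of_pos h5, div_le_iff₀ h5]
      have h7 : ∀ t ∈ triangles G, |V f k (removeTriangle G t) - f G| ≤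
          3 * ((triangles G).card : ℝ) := by
        intro t ht
        have h8 := ih (removeTriangle G t)
        have h9 := hf G t ht
        have h10 : ((triangles (removeTriangle G t)).card : ℝ) + 1 ≤ (triangles G).card := by
          exact_mod_cast triangles_remove G t ht
        have h11 := abs_sub_le (V f k (removeTriangle G t)) (f (removeTriangle G t)) (f G)
        linarith only [h8, h9, h10, h11]
      calc |∑ t ∈ triangles G, (V f k (removeTriangle G t) - f G)| ≤
            ∑ t ∈ triangles G, |V f k (removeTriangle G t) - f G| :=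
            Finset.abs_sum_le_sum_abs _ _
        _ ≤ ∑ _t ∈ triangles G, 3 * ((triangles G).card : ℝ) := Finset.sum_le_sum h7
        _ = 3 * ((triangles G).card : ℝ) * ((triangles G).card : ℝ) := by
            rw [Finset.sum_const, nsmul_eq_mul]
            ring
    · rw [V_of_empty f _ G hT, sub_self, abs_zero]
      (clear * -; positivity)

lemma absdev (x : ℝ) (G : SimpleGraph (Fin n)) (t : Finset (Fin n)) (ht : t ∈ triangles G) :
    |(|(numEdges (removeTriangle G t) : ℝ) - x|) - (|(numEdges G : ℝ) - x|)| ≤ 3 := by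
  have h1 : ((numEdges (removeTriangle G t) : ℝ)) + 3 = numEdges G := by
    exact_mod_cast numEdges_removeTriangle G t ht
  refine (abs_abs_sub_abs_le_abs_sub _ _).trans ?_
  rw [← h1]
  have : (numEdges (removeTriangle G t) : ℝ) - x - ((numEdges (removeTriangle G t) : ℝ) + 3 - x) =
      -3 := by ring
  rw [this]
  norm_num

/-- number of live hyperedges -/
lemma live_card (G : SimpleGraph (Fin n)) (A : Finset (Sym2 (Fin n))) :
    ((TH G).filter (fun h => h ⊆ A)).card = (triangles (GA (A ∩ G.edgeFinset))).card := by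
  unfold TH
  rw [Finset.filter_image, Finset.card_image_of_injOn]
  · congr 1
    ext t
    rw [mem_triangles_GA, Finset.mem_filter]
  · intro t ht t' ht' h
    rw [Finset.mem_coe, Finset.mem_filter, mem_triangles] at ht ht'
    exact hedge_inj ht.1.1 ht'.1.1 h

theorem phi_le (G : SimpleGraph (Fin n)) (x : ℝ) (A : Finset (Sym2 (Fin n))) :
    phi G (fun G' => |(numEdges G' : ℝ) - x|) A ≤
      |((A ∩ G.edgeFinset).card : ℝ) - x| +
        3 * (((TH G).filter (fun h => h ⊆ A)).card : ℝ) := by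
  have h := V_sub_le (fun G' : SimpleGraph (Fin n) => |(numEdges G' : ℝ) - x|) (absdev x)
    (n.choose 2) (GA (A ∩ G.edgeFinset))
  have h2 := (abs_le.mp h).2
  rw [live_card]
  unfold phi
  simp only [numEdges_GA] at h2
  linarith

end Vale.Agent.P046.A
end

section

/-!
Sparse sets, part 4: the grid of levels.
-/

set_option autoImplicit false

open scoped Classical
open Finset

namespace Vale.Agent.P046.M2

lemma inv_sqrt_step (θ x y : ℝ) (hθ : 0 < θ) (hθ1 : θ ≤ 1) (hx : 0 < x)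
    (hxy : (1 + θ / 2) * x ≤ y) : 1 / √y ≤ (1 - θ / 8) * (1 / √x) := by
  have hy : 0 < y := lt_of_lt_of_le (by positivity) hxy
  have hsx : 0 < √x := Real.sqrt_pos.mpr hx
  have hsy : 0 < √y := Real.sqrt_pos.mpr hy
  have h1 : 0 < 1 - θ / 8 := by linarith
  rw [mul_one_div, div_le_div_iff₀ hsy hsx, one_mul]
  have h2 : x ≤ (1 - θ / 8) ^ 2 * y := by
    have h3 : 1 ≤ (1 - θ / 8) ^ 2 * (1 + θ / 2) := by
      nlinarith [mul_pos hθ hθ, mul_pos (mul_pos hθ hθ) hθ,
        mul_nonneg hθ.le (sub_nonneg.mpr hθ1)]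
    calc x = 1 * x := by ring
      _ ≤ (1 - θ / 8) ^ 2 * (1 + θ / 2) * x := mul_le_mul_of_nonneg_right h3 hx.le
      _ = (1 - θ / 8) ^ 2 * ((1 + θ / 2) * x) := by ring
      _ ≤ _ := mul_le_mul_of_nonneg_left hxy (by positivity)
  calc √x ≤ √((1 - θ / 8) ^ 2 * y) := Real.sqrt_le_sqrt h2
    _ = (1 - θ / 8) * √y := by rw [Real.sqrt_mul (by positivity), Real.sqrt_sq h1.le]

lemma exists_grid (θ : ℝ) (hθ : 0 < θ) (hθ1 : θ ≤ 1) (k : ℕ) :
    ∀ e0 : ℕ, 6 ≤ θ * e0 → ∃ (J : ℕ) (e m : ℕ → ℕ), e 0 = e0 ∧ e J = e0 + 3 * k ∧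
      (∀ i, i < J → e (i + 1) = e i + 3 * m i) ∧
      (∀ i, i < J → (e (i + 1) : ℝ) ≤ (1 + θ) * e i) ∧
      (∑ i ∈ Finset.range J, 1 / √(e i : ℝ) ≤ (9 / θ) * (1 / √(e0 : ℝ))) ∧
      (∑ i ∈ Finset.range J, m i = k) := by
  induction k using Nat.strong_induction_on with
  | _ k ih =>
    intro e0 he0
    have he0pos : (0:ℝ) < e0 := by
      by_contra hneg
      push Not at hneg
      nlinarith
    have hs0 : 0 < √(e0 : ℝ) := Real.sqrt_pos.mpr he0pos
    by_cases hcase : ((e0 + 3 * k : ℕ) : ℝ) ≤ (1 + θ) * e0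
    · refine ⟨1, fun i => e0 + i * (3 * k), fun _ => k, by simp, by simp, ?_, ?_, ?_, by simp⟩
      · intro i hi
        have : i = 0 := by omega
        subst this
        simp
      · intro i hi
        have : i = 0 := by omega
        subst this
        simpa using hcase
      · rw [Finset.sum_range_one]
        have h1 : (1:ℝ) ≤ 9 / θ := by
          rw [le_div_iff₀ hθ]; linarith
        have h2 : 0 ≤ 1 / √(e0 : ℝ) := by positivity
        simp only [zero_mul, add_zero]
        nlinarith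
    · push Not at hcase
      obtain ⟨m0, hm0⟩ : ∃ m0, m0 = ⌊θ * e0 / 3⌋₊ := ⟨_, rfl⟩
      have hm1 : (m0 : ℝ) ≤ θ * e0 / 3 := by
        rw [hm0]; exact Nat.floor_le (by positivity)
      have hm2 : θ * e0 / 3 < (m0 : ℝ) + 1 := by
        rw [hm0]; exact Nat.lt_floor_add_one _
      have hm3 : 1 ≤ m0 := by
        by_contra hneg
        have : m0 = 0 := by omega
        rw [this] at hm2
        push_cast at hm2
        linarith
      have hmk : m0 ≤ k := by
        have h1 : (m0 : ℝ) < k := by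
          push_cast at hcase
          linarith
        exact_mod_cast h1.le
      have hlow : (1 + θ / 2) * (e0 : ℝ) ≤ ((e0 + 3 * m0 : ℕ) : ℝ) := by
        push_cast
        linarith
      obtain ⟨J, e, m, h1, h2, h3, h4, h5, h6⟩ := ih (k - m0) (by omega) (e0 + 3 * m0) (by
        have : θ * (e0:ℝ) ≤ θ * ((e0 + 3 * m0 : ℕ) : ℝ) := by
          apply mul_le_mul_of_nonneg_left _ hθ.le
          push_cast
          have : (0:ℝ) ≤ m0 := Nat.cast_nonneg _
          linarith
        linarith)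
      refine ⟨J + 1, fun i => Nat.casesOn i e0 e, fun i => Nat.casesOn i m0 m, rfl, ?_, ?_, ?_, ?_,
        ?_⟩
      · show e J = e0 + 3 * k
        rw [h2]
        omega
      · intro i hi
        cases i with
        | zero => exact h1
        | succ i => exact h3 i (by omega)
      · intro i hi
        cases i with
        | zero =>
          show (e 0 : ℝ) ≤ (1 + θ) * e0
          rw [h1]
          push_cast
          linarith
        | succ i => exact h4 i (by omega)
      · rw [Finset.sum_range_succ']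
        show ∑ i ∈ Finset.range J, 1 / √(e i : ℝ) + 1 / √(e0 : ℝ) ≤ _
        have h7 := inv_sqrt_step θ e0 ((e0 + 3 * m0 : ℕ) : ℝ) hθ hθ1 he0pos hlow
        have h8 : 0 ≤ 1 / √(e0 : ℝ) := by positivity
        have h9 : (9 / θ) * (1 / √((e0 + 3 * m0 : ℕ) : ℝ)) ≤
            (9 / θ) * ((1 - θ / 8) * (1 / √(e0 : ℝ))) :=
          mul_le_mul_of_nonneg_left h7 (by positivity)
        have h10 : (9 / θ) * ((1 - θ / 8) * (1 / √(e0 : ℝ))) =
            (9 / θ) * (1 / √(e0 : ℝ)) - 9 / 8 * (1 / √(e0 : ℝ)) := by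
          field_simp
        linarith
      · rw [Finset.sum_range_succ']
        show ∑ i ∈ Finset.range J, m i + m0 = k
        omega

end Vale.Agent.P046.M2
end
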