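import Mathlib
import Vale.Agent.P046.Bdl.B3
import Vale.Agent.P046.Bdl.B4
import Vale.Agent.P046.Bdl.B1
import Vale.Agent.P046.Bdl.B2
import Vale.Agent.P046.Bdl.B5
attribute [-instance] ProperSMul.toContinuousSMul IsTopologicalTorsor.toContinuousSMul IdemSemiring.toCanonicallyOrderedAdd IdemSemiring.toMulLeftMono IdemSemiring.toMulRightMono AddQuantale.instAddLeftMono AddQuantale.instAddRightMono Quantale.instMulLeftMono Quantale.instMulRightMono FiniteDimensional.rclike_to_real IsScalarTower.complexToReal FiniteDimensional.complexToReal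

set_option linter.all false

section

section

set_option autoImplicit false

open scoped Classical
open Finset

namespace Vale.Agent.P046.C.Ea

open Vale.Agent.P046
open Vale.Agent.P046.OS (triSum triSum_swap12 triSum_swap23 triSum_add triSum_mul triSum_mono
  edgeSum_codeg_mul codeg_comm codeg_real codeg_le)

variable {n : ℕ}

/-- squares of the deviations -/
noncomputable def Z2 (G : SimpleGraph (Fin n)) : ℝ := edgeSum G (fun u v => zz G u v ^ 2)

lemma Z2_nonneg (G : SimpleGraph (Fin n)) : 0 ≤ Z2 G :=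
  Vale.Agent.P046.edgeSum_nonneg G _ fun _ _ _ => sq_nonneg _

lemma Z2_le (G : SimpleGraph (Fin n)) (hc : 0 < cc G) (τ : ℝ) (hτ : 0 < τ) :
    Z2 G ≤ τ * cc G * Z4 G + 1 / (4 * τ) * (2 * numEdges G) / cc G := by
  have h : Z2 G ≤ edgeSum G (fun u v => (τ * cc G) * zz G u v ^ 4 + (1 / (4 * τ * cc G)) * 1) := by
    apply OS.edgeSum_mono
    intro u v _
    have h1 : (τ * cc G) * zz G u v ^ 4 + (1 / (4 * τ * cc G)) * 1 - zz G u v ^ 2 =
        (2 * τ * cc G * zz G u v ^ 2 - 1) ^ 2 / (4 * τ * cc G) := by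
      field_simp
      ring
    have h2 : 0 ≤ (2 * τ * cc G * zz G u v ^ 2 - 1) ^ 2 / (4 * τ * cc G) := by positivity
    linarith
  rw [OS.edgeSum_add, OS.edgeSum_mul, OS.edgeSum_mul, OS.edgeSum_one] at h
  refine h.trans (le_of_eq ?_)
  unfold Z4
  field_simp

lemma edgeSum_zeta (G : SimpleGraph (Fin n)) :
    edgeSum G (fun _ _ => (rho G - 1) ^ 2 * 1) = 2 * RF G := by
  rw [OS.edgeSum_mul, OS.edgeSum_one]
  unfold RF; ring

/-- the cubic interaction -/
lemma tri_q (G : SimpleGraph (Fin n)) (x : ℝ) (hc : 0 < cc G) (hx0 : 0 ≤ x) (hx1 : x ≤ 1 / 1000)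
    (h : Sm G x) :
    -triSum G (fun u v y => ww G u v * (zz G u y + zz G v y) ^ 2) ≤
      (11 / 200) * cc G * W2 G + 81 * cc G * Z4 G := by
  have h1 : -triSum G (fun u v y => ww G u v * (zz G u y + zz G v y) ^ 2) ≤
      triSum G (fun u v y => (1 / 20) * ww G u v ^ 2 + (40 * zz G u y ^ 4 + 40 * zz G v y ^ 4)) := by
    have e1 : -triSum G (fun u v y => ww G u v * (zz G u y + zz G v y) ^ 2) =
        triSum G (fun u v y => (-1) * (ww G u v * (zz G u y + zz G v y) ^ 2)) := by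
      rw [triSum_mul]; ring
    rw [e1]
    apply triSum_mono
    intro u v y _ _ _
    obtain ⟨w, hw⟩ : ∃ w, w = ww G u v := ⟨_, rfl⟩
    obtain ⟨a, ha⟩ : ∃ a, a = zz G u y := ⟨_, rfl⟩
    obtain ⟨b, hb⟩ : ∃ b, b = zz G v y := ⟨_, rfl⟩
    rw [← hw, ← ha, ← hb]
    have q1 : -1 * (w * (a + b) ^ 2) ≤ (1 / 20) * w ^ 2 + 5 * ((a + b) ^ 2) ^ 2 := by
      linarith only [sq_nonneg (w + 10 * (a + b) ^ 2)]
    have q2 : ((a + b) ^ 2) ^ 2 ≤ 8 * a ^ 4 + 8 * b ^ 4 := by
      have q3 : (a + b) ^ 2 ≤ 2 * a ^ 2 + 2 * b ^ 2 := by linarith only [sq_nonneg (a - b)]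
      have q4 : ((a + b) ^ 2) ^ 2 ≤ (2 * a ^ 2 + 2 * b ^ 2) ^ 2 :=
        pow_le_pow_left₀ (sq_nonneg _) q3 2
      linarith only [q4, sq_nonneg (a ^ 2 - b ^ 2)]
    linarith
  refine h1.trans ?_
  rw [triSum_add, triSum_add]
  have e2 : triSum G (fun u v y => 40 * zz G u y ^ 4) = triSum G (fun u v _ => 40 * zz G u v ^ 4) := by
    rw [triSum_swap23 G (fun u v y => 40 * zz G u y ^ 4)]
  have e3 : triSum G (fun u v y => 40 * zz G v y ^ 4) = triSum G (fun u v _ => 40 * zz G u v ^ 4) := by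
    rw [triSum_swap12 G (fun u v y => 40 * zz G v y ^ 4)]
    exact e2
  rw [e2, e3]
  have h2 := triSum_first G x hc h (fun u v => (1 / 20) * ww G u v ^ 2)
    (fun u v _ => by positivity)
  have h3 := triSum_first G x hc h (fun u v => 40 * zz G u v ^ 4) (fun u v _ => by positivity)
  rw [OS.edgeSum_mul] at h2 h3
  have e4 : edgeSum G (fun u v => ww G u v ^ 2) = W2 G := rfl
  have e5 : edgeSum G (fun u v => zz G u v ^ 4) = Z4 G := rfl
  rw [e4] at h2
  rw [e5] at h3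
  have hW := W2_nonneg G
  have hZ := Z4_nonneg G
  have p1 : cc G * (1 + x) * (1 / 20 * W2 G) ≤ (11 / 200) * cc G * W2 G := by
    have : 0 ≤ cc G * W2 G := by positivity
    nlinarith only [this, hx1]
  have p2 : cc G * (1 + x) * (40 * Z4 G) ≤ (81 / 2) * cc G * Z4 G := by
    have : 0 ≤ cc G * Z4 G := by positivity
    nlinarith only [this, hx1]
  linarith only [h2, h3, p1, p2]

/-- the `ζ` interaction -/
lemma zeta_w (G : SimpleGraph (Fin n)) (x : ℝ) (hc : 0 < cc G) (hx0 : 0 ≤ x) (hx1 : x ≤ 1 / 1000)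
    (h : Sm G x) (hζ : |rho G - 1| ≤ x) :
    8 * cc G * (rho G - 1) * edgeSum G (fun u v => ww G u v * (ww G u v + rr G u v)) ≤
      (83 / 100) * cc G * W2 G + 41 * cc G * RF G := by
  have h1 : (rho G - 1) * edgeSum G (fun u v => ww G u v * (ww G u v + rr G u v)) ≤
      edgeSum G (fun u v => (102 / 1000) * ww G u v ^ 2 + (2 + 53 / 100) * ((rho G - 1) ^ 2 * 1)) := by
    rw [← OS.edgeSum_mul]
    apply OS.edgeSum_mono
    intro u v huv
    have hr := rr_bounds G x h u v (G.ne_of_adj huv)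
    obtain ⟨w, hw⟩ : ∃ w, w = ww G u v := ⟨_, rfl⟩
    obtain ⟨z, hz⟩ : ∃ z, z = rho G - 1 := ⟨_, rfl⟩
    obtain ⟨r, hr'⟩ : ∃ r, r = rr G u v := ⟨_, rfl⟩
    rw [← hr'] at hr
    rw [← hz] at hζ
    rw [← hw, ← hz, ← hr']
    have a1 := abs_le.mp hζ
    have q1 : z * (w * w) ≤ (1 / 1000) * w ^ 2 := by nlinarith only [hx1, a1]
    have q2 : z * w * r ≤ (101 / 1000) * w ^ 2 + (2 + 53 / 100) * z ^ 2 := by
      have q3 : |z * w| * r ≤ |z * w| * (1001 / 1000) :=
        mul_le_mul_of_nonneg_left (by linarith only [hx1, hr]) (abs_nonneg _)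
      have q4 : z * w * r ≤ |z * w| * r := mul_le_mul_of_nonneg_right (le_abs_self _) (by linarith only [hx1, hr])
      have q5 : |z * w| ≤ (1 / 10) * w ^ 2 + (5 / 2) * z ^ 2 := by
        rw [abs_le]
        constructor
        · linarith only [sq_nonneg (w + 5 * z)]
        · linarith only [sq_nonneg (w - 5 * z)]
      linarith only [q3, q4, q5, sq_nonneg w, sq_nonneg z]
    calc z * (w * (w + r)) = z * (w * w) + z * w * r := by ring
      _ ≤ _ := by linarith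
  rw [OS.edgeSum_add, OS.edgeSum_mul, OS.edgeSum_mul, edgeSum_zeta] at h1
  have e4 : edgeSum G (fun u v => ww G u v ^ 2) = W2 G := rfl
  rw [e4] at h1
  have h2 := mul_le_mul_of_nonneg_left h1 (show 0 ≤ 8 * cc G by positivity)
  have hW := W2_nonneg G
  have hR : 0 ≤ RF G := by unfold RF; positivity
  have p1 : 0 ≤ cc G * W2 G := by positivity
  have p2 : 0 ≤ cc G * RF G := by positivity
  linarith only [h2, p1, p2]

end Vale.Agent.P046.C.Ea
end
end

section

section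

set_option autoImplicit false

open scoped Classical
open Finset

namespace Vale.Agent.P046.C.Ea

open Vale.Agent.P046
open Vale.Agent.P046.OS (triSum triSum_swap12 triSum_swap23 triSum_add triSum_mul triSum_mono
  edgeSum_codeg_mul codeg_comm codeg_real codeg_le)

variable {n : ℕ}

lemma cc_div_E (G : SimpleGraph (Fin n)) (hn : 0 < n) (hE : 0 < numEdges G) :
    cc G / numEdges G ≤ 2 / n := by
  have hn0 : (0:ℝ) < n := by exact_mod_cast hn
  have hE0 : (0:ℝ) < numEdges G := by exact_mod_cast hE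
  have h6 := numEdges_le G
  rw [div_le_div_iff₀ hE0 hn0]
  unfold cc
  rw [div_mul_eq_mul_div, div_le_iff₀ (by positivity)]
  have a1 := mul_le_mul_of_nonneg_left h6 (show 0 ≤ 2 * (n:ℝ) * numEdges G by positivity)
  linarith only [a1]

lemma qq_small (G : SimpleGraph (Fin n)) (x : ℝ) (hc : 0 < cc G) (hx0 : 0 ≤ x) (hx1 : x ≤ 1 / 1000)
    (h : Sm G x) (u v : Fin n) (huv : u ≠ v) : qq G u v ≤ 1 := by
  have h1 := nbr_sum_le G x hc h u v huv (fun w => (zz G u w + zz G v w) ^ 2) (1 / 2)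
    (by positivity) (fun w h1 h2 => by
      have a := abs_le.mp (h.adj u w h1)
      have b := abs_le.mp (h.adj v w h2)
      have hs : |zz G u w + zz G v w| ≤ 1 / 500 := by rw [abs_le]; constructor <;> linarith only [hx1, a, b]
      have := pow_le_pow_left₀ (abs_nonneg _) hs 2
      rw [sq_abs] at this
      linarith only [this])
  unfold qq
  rw [div_le_iff₀ hc]
  have : 0 ≤ cc G * x := by positivity
  nlinarith only [hc, h1, hx1]

lemma Aw_small (G : SimpleGraph (Fin n)) (x : ℝ) (hc : 0 < cc G) (hx0 : 0 ≤ x) (hx1 : x ≤ 1 / 1000)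
    (h : Sm G x) (u v : Fin n) (huv : u ≠ v) : |K.Aw G u v| ≤ 1 := by
  have h1 := nbr_sum_le G x hc h u v huv (fun w => ww G u w + ww G v w) (1 / 2) (by positivity)
    (fun w h1 h2 => by
      have a := abs_le.mp (ww_small G x hc hx0 hx1 h u w (G.ne_of_adj h1))
      have b := abs_le.mp (ww_small G x hc hx0 hx1 h v w (G.ne_of_adj h2))
      linarith)
  have h2 := nbr_sum_le G x hc h u v huv (fun w => -(ww G u w + ww G v w)) (1 / 2) (by positivity)
    (fun w h1 h2 => by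
      have a := abs_le.mp (ww_small G x hc hx0 hx1 h u w (G.ne_of_adj h1))
      have b := abs_le.mp (ww_small G x hc hx0 hx1 h v w (G.ne_of_adj h2))
      linarith only [hx1, a, b])
  have e2 : (∑ w, if G.Adj u w ∧ G.Adj v w then -(ww G u w + ww G v w) else 0) =
      -∑ w, if G.Adj u w ∧ G.Adj v w then (ww G u w + ww G v w) else 0 := by
    rw [← Finset.sum_neg_distrib]
    refine Finset.sum_congr rfl fun w _ => ?_
    split_ifs <;> ring
  rw [e2] at h2
  unfold K.Aw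
  obtain ⟨S, hS⟩ : ∃ S, S = ∑ w, if G.Adj u w ∧ G.Adj v w then (ww G u w + ww G v w) else 0 :=
    ⟨_, rfl⟩
  rw [← hS] at h1 h2 ⊢
  rw [abs_div, abs_of_pos hc, div_le_iff₀ hc, abs_le]
  have h3 : cc G * (1 + x) * (1 / 2) ≤ 1 * cc G := by
    have : 0 ≤ cc G * x := by positivity
    nlinarith only [hc, hx1]
  constructor <;> linarith only [h2, h3, h1]

/-- first error term -/
lemma err1 (G : SimpleGraph (Fin n)) (x d : ℝ) (hn : 0 < n) (hE : 0 < numEdges G)
    (hc : 1000 ≤ cc G) (hcn : cc G ≤ n) (hx0 : 0 ≤ x) (hx1 : x ≤ 1 / 1000)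
    (h : Sm G x) (hd : 3 * x ≤ d) (u v : Fin n) (huv : G.Adj u v) :
    2 * |clip d (ww G u v)| * (7 * |ww G u v| + 9 * rr G u v + 5 * rr G u v ^ 2 +
        15 * cc G / numEdges G * (qq G u v + |K.Aw G u v|)) ≤
      (1 / 20) * cc G * ww G u v ^ 2 + 5780 / cc G := by
  have hc0 : 0 < cc G := by linarith only [hc]
  have huv' := G.ne_of_adj huv
  have hw := ww_small G x hc0 hx0 hx1 h u v huv'
  have hq := qq_small G x hc0 hx0 hx1 h u v huv'
  have hq0 := K.qq_nonneg G u v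
  have hA := Aw_small G x hc0 hx0 hx1 h u v huv'
  obtain ⟨hr1, hr2⟩ := rr_bounds G x h u v huv'
  rw [clip_eq d _ (hw.trans hd)]
  have hn0 : (0:ℝ) < n := by exact_mod_cast hn
  have hE0 : (0:ℝ) < numEdges G := by exact_mod_cast hE
  have hce : 15 * cc G / numEdges G ≤ 1 := by
    have h1 := cc_div_E G hn hE
    have h2 : 2 / (n:ℝ) ≤ 2 / 1000 := div_le_div_of_nonneg_left (by norm_num) (by norm_num) (by linarith only [hc, hcn])
    rw [mul_div_assoc]
    linarith only [h1, h2]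
  have hce0 : 0 ≤ 15 * cc G / numEdges G := by positivity
  have h3 : 15 * cc G / numEdges G * (qq G u v + |K.Aw G u v|) ≤ 1 * (1 + 1) :=
    mul_le_mul hce (by linarith only [hq, hA]) (by have := abs_nonneg (K.Aw G u v); linarith only [hq0, this]) (by norm_num)
  have h4 : rr G u v ^ 2 ≤ (1001 / 1000) ^ 2 := pow_le_pow_left₀ (by linarith only [hx1, hr1]) (by linarith only [hx1, hr2]) 2
  have h5 : 7 * |ww G u v| + 9 * rr G u v + 5 * rr G u v ^ 2 +
        15 * cc G / numEdges G * (qq G u v + |K.Aw G u v|) ≤ 17 := by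
    norm_num at h4
    linarith only [hx1, hw, hr2, h3, h4]
  have hw0 := abs_nonneg (ww G u v)
  have h6 : 2 * |ww G u v| * (7 * |ww G u v| + 9 * rr G u v + 5 * rr G u v ^ 2 +
        15 * cc G / numEdges G * (qq G u v + |K.Aw G u v|)) ≤ 2 * |ww G u v| * 17 :=
    mul_le_mul_of_nonneg_left h5 (by positivity)
  refine h6.trans ?_
  obtain ⟨a, ha⟩ : ∃ a, a = |ww G u v| := ⟨_, rfl⟩
  rw [← sq_abs (ww G u v), ← ha]
  rw [← ha] at hw0
  have h7 : (1 / 20) * cc G * a ^ 2 + 5780 / cc G - 34 * a = (cc G * a - 340) ^ 2 / (20 * cc G) := by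
    field_simp
    ring
  have h8 : 0 ≤ (cc G * a - 340) ^ 2 / (20 * cc G) := by positivity
  linarith only [h7, h8]

/-- second error term -/
lemma err2 (G : SimpleGraph (Fin n)) (x d : ℝ) (hc : 1000 ≤ cc G) (hx1 : x ≤ 1 / 1000)
    (h : Sm G x) :
    edgeSum G (fun u v => ∑ y, if G.Adj u y ∧ G.Adj v y then
      ((codeg G u y : ℝ) + codeg G v y) * cost d ((zz G u y + zz G v y) / cc G) else 0) ≤
      (81 / 10) * Z2 G := by
  have hc0 : 0 < cc G := by linarith only [hc]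
  rw [K.edgeSum_x]
  have h1 : triSum G (fun u v y =>
      ((codeg G u y : ℝ) + codeg G v y) * cost d ((zz G u y + zz G v y) / cc G)) ≤
      triSum G (fun u v y => (4004 / 1000) / cc G * zz G u y ^ 2 +
        (4004 / 1000) / cc G * zz G v y ^ 2) := by
    apply triSum_mono
    intro u v y _ huy hvy
    have c1 : cost d ((zz G u y + zz G v y) / cc G) ≤ ((zz G u y + zz G v y) / cc G) ^ 2 := by
      unfold cost; exact min_le_left _ _
    have b1 := (abs_le.mp (h.adj u y huy)).2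
    have b2 := (abs_le.mp (h.adj v y hvy)).2
    have c2 : (codeg G u y : ℝ) + codeg G v y ≤ (2002 / 1000) * cc G := by
      rw [codeg_eq G hc0, codeg_eq G hc0]
      have a1 := mul_le_mul_of_nonneg_left b1 hc0.le
      have a2 := mul_le_mul_of_nonneg_left b2 hc0.le
      have a3 := mul_le_mul_of_nonneg_left hx1 hc0.le
      linarith only [a1, a2, a3]
    have c3 : (0:ℝ) ≤ (codeg G u y : ℝ) + codeg G v y := by positivity
    calc ((codeg G u y : ℝ) + codeg G v y) * cost d ((zz G u y + zz G v y) / cc G)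
        ≤ ((codeg G u y : ℝ) + codeg G v y) * ((zz G u y + zz G v y) / cc G) ^ 2 :=
          mul_le_mul_of_nonneg_left c1 c3
      _ ≤ ((2002 / 1000) * cc G) * ((zz G u y + zz G v y) / cc G) ^ 2 :=
          mul_le_mul_of_nonneg_right c2 (by positivity)
      _ = (2002 / 1000) / cc G * (zz G u y + zz G v y) ^ 2 := by field_simp
      _ ≤ (2002 / 1000) / cc G * (2 * zz G u y ^ 2 + 2 * zz G v y ^ 2) := by
          apply mul_le_mul_of_nonneg_left _ (by positivity)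
          linarith only [sq_nonneg (zz G u y - zz G v y)]
      _ = _ := by ring
  refine h1.trans ?_
  rw [triSum_add]
  have e2 : triSum G (fun u v y => (4004 / 1000) / cc G * zz G u y ^ 2) =
      triSum G (fun u v _ => (4004 / 1000) / cc G * zz G u v ^ 2) := by
    rw [triSum_swap23 G (fun u v y => (4004 / 1000) / cc G * zz G u y ^ 2)]
  have e3 : triSum G (fun u v y => (4004 / 1000) / cc G * zz G v y ^ 2) =
      triSum G (fun u v _ => (4004 / 1000) / cc G * zz G u v ^ 2) := by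
    rw [triSum_swap12 G (fun u v y => (4004 / 1000) / cc G * zz G v y ^ 2)]
    exact e2
  rw [e2, e3]
  have h3 := triSum_first G x hc0 h (fun u v => (4004 / 1000) / cc G * zz G u v ^ 2)
    (fun u v _ => by positivity)
  rw [OS.edgeSum_mul] at h3
  have e5 : edgeSum G (fun u v => zz G u v ^ 2) = Z2 G := rfl
  rw [e5] at h3
  have hZ := Z2_nonneg G
  have p2 : cc G * (1 + x) * ((4004 / 1000) / cc G * Z2 G) = (1 + x) * ((4004 / 1000) * Z2 G) := by
    field_simp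
  rw [p2] at h3
  nlinarith only [h3, hZ, hx1]

/-- third error term -/
lemma err3 (G : SimpleGraph (Fin n)) (x d : ℝ) (hn : 0 < n) (hE : 0 < numEdges G)
    (hc : 1000 ≤ cc G) (hx1 : x ≤ 1 / 1000) (h : Sm G x) (hd : 0 < d) (hd1 : d ≤ 1) :
    edgeSum G (fun u v => ∑ t ∈ (triangles G).filter (fun t => ¬ (u ∈ t ∧ v ∈ t)),
      cost d (BB G t u v / cc G ^ 2)) ≤
      2048 * (wheels G / cc G ^ 3) + 7000 * ((numEdges G : ℝ) / cc G) := by
  have hc0 : 0 < cc G := by linarith only [hc]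
  have h1 := noiseB G d hd hd1 hn hE (by linarith only [hc])
  have h2 : edgeSum G (fun u v => ∑ t ∈ (triangles G).filter (fun t => ¬ (u ∈ t ∧ v ∈ t)),
      cost d (BB G t u v / cc G ^ 2)) =
      edgeSum G (fun u v => ∑ t ∈ (triangles G).filter (fun t => ¬ (u ∈ t ∧ v ∈ t)),
      min ((BB G t u v / cc G ^ 2) ^ 2) (4 * d * (BB G t u v / cc G ^ 2))) := by
    refine Vale.Agent.P046.edgeSum_congr G _ _ fun u v _ => ?_
    refine Finset.sum_congr rfl fun t _ => ?_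
    unfold cost
    have hB : 0 ≤ BB G t u v / cc G ^ 2 := div_nonneg (by
      unfold BB
      refine Finset.sum_nonneg fun y _ => ?_
      split_ifs
      · have := OS.kk_nonneg G t u y
        have := OS.kk_nonneg G t v y
        linarith
      · exact le_refl _) (by positivity)
    rw [abs_of_nonneg hB]
  rw [h2]
  refine h1.trans ?_
  have h3 : edgeSum G (fun u v => if 8 < rr G u v then rr G u v ^ 3 else 0) = 0 := by
    have e0 : edgeSum G (fun u v => if 8 < rr G u v then rr G u v ^ 3 else 0) =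
        edgeSum G (fun _ _ => (0:ℝ) * 1) := by
      refine Vale.Agent.P046.edgeSum_congr G _ _ fun u v huv => ?_
      have := (rr_bounds G x h u v (G.ne_of_adj huv)).2
      rw [if_neg (by linarith only [hx1, this])]
      ring
    rw [e0, OS.edgeSum_mul]; ring
  have h4 : edgeSum G (fun u v => rr G u v ^ 2) ≤ (11 / 10) * (2 * numEdges G) := by
    rw [← OS.edgeSum_one G, ← OS.edgeSum_mul]
    apply OS.edgeSum_mono
    intro u v huv
    have hb := rr_bounds G x h u v (G.ne_of_adj huv)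
    have := pow_le_pow_left₀ (by linarith only [hx1, hb]) (show rr G u v ≤ 1001 / 1000 by linarith only [hx1, hb]) 2
    norm_num at this ⊢
    linarith only [this]
  rw [h3]
  have h5 : 1 / cc G * edgeSum G (fun u v => rr G u v ^ 2) ≤ (11 / 5) * ((numEdges G : ℝ) / cc G) := by
    calc 1 / cc G * edgeSum G (fun u v => rr G u v ^ 2) ≤ 1 / cc G * ((11 / 10) * (2 * numEdges G)) :=
          mul_le_mul_of_nonneg_left h4 (by positivity)
      _ = _ := by ring
  have h6 : 0 ≤ (numEdges G : ℝ) / cc G := by positivity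
  linarith only [h5, h6]


end Vale.Agent.P046.C.Ea
end
end

section

section

set_option autoImplicit false

open scoped Classical
open Finset

namespace Vale.Agent.P046.C.Ea

open Vale.Agent.P046
open Vale.Agent.P046.OS (triSum triSum_swap12 triSum_swap23 triSum_add triSum_mul triSum_mono
  edgeSum_codeg_mul codeg_comm codeg_real codeg_le)

variable {n : ℕ}

/-- all error terms of the `M` inequality -/
lemma mErr_le (G : SimpleGraph (Fin n)) (x d : ℝ) (hn : 0 < n) (hE : 0 < numEdges G)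
    (hc : 1000 ≤ cc G) (hcn : cc G ≤ n) (hx0 : 0 ≤ x) (hx1 : x ≤ 1 / 1000)
    (h : Sm G x) (hd0 : 0 < d) (hd1 : d ≤ 1) (hd : 3 * x ≤ d)
    (hcd : 2892800 ≤ d * cc G ^ 2) :
    edgeSum G (K.mErr G d) ≤ (6 / 100) * cc G * W2 G + 260 * cc G * Z4 G +
      300000 * ((numEdges G : ℝ) / cc G + wheels G / cc G ^ 3) := by
  have hc0 : 0 < cc G := by linarith only [hc]
  have hE0 : (0:ℝ) < numEdges G := by exact_mod_cast hE
  obtain ⟨f2, hf2⟩ : ∃ f2 : Fin n → Fin n → ℝ, f2 = fun u v => ∑ y, if G.Adj u y ∧ G.Adj v y then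
      ((codeg G u y : ℝ) + codeg G v y) * cost d ((zz G u y + zz G v y) / cc G) else 0 := ⟨_, rfl⟩
  obtain ⟨f3, hf3⟩ : ∃ f3 : Fin n → Fin n → ℝ, f3 = fun u v =>
      ∑ t ∈ (triangles G).filter (fun t => ¬ (u ∈ t ∧ v ∈ t)), cost d (BB G t u v / cc G ^ 2) :=
    ⟨_, rfl⟩
  have e2 := err2 G x d hc hx1 h
  have e3 := err3 G x d hn hE hc hx1 h hd0 hd1
  rw [← hf2] at e2
  rw [← hf3] at e3
  have h1 : edgeSum G (K.mErr G d) ≤ edgeSum G (fun u v =>
      (((1 / 20) * cc G + 28928 / (cc G * d)) * ww G u v ^ 2 +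
        ((5780 + 7240) / cc G) * 1) + (32 * f2 u v + 32 * f3 u v)) := by
    apply OS.edgeSum_mono
    intro u v huv
    have p1 := err1 G x d hn hE hc hcn hx0 hx1 h hd u v huv
    have p2 := huber_eq d _ ((ww_small G x hc0 hx0 hx1 h u v (G.ne_of_adj huv)).trans hd)
    have p3 := (rr_bounds G x h u v (G.ne_of_adj huv)).2
    have p4 : 7232 / cc G * rr G u v ≤ 7240 / cc G := by
      rw [div_mul_eq_mul_div]
      apply div_le_div_of_nonneg_right _ hc0.le
      linarith only [hx1, p3]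
    have e4 : f2 u v = ∑ y, if G.Adj u y ∧ G.Adj v y then
      ((codeg G u y : ℝ) + codeg G v y) * cost d ((zz G u y + zz G v y) / cc G) else 0 := by
      rw [hf2]
    have e5 : f3 u v = ∑ t ∈ (triangles G).filter (fun t => ¬ (u ∈ t ∧ v ∈ t)),
      cost d (BB G t u v / cc G ^ 2) := by rw [hf3]
    unfold K.mErr
    rw [← e4, ← e5, p2]
    have e6 : ((1 / 20) * cc G + 28928 / (cc G * d)) * ww G u v ^ 2 +
        ((5780 + 7240) / cc G) * 1 = (1 / 20) * cc G * ww G u v ^ 2 + 5780 / cc G +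
        28928 / (cc G * d) * ww G u v ^ 2 + 7240 / cc G := by ring
    rw [e6]
    linarith only [p1, p4]
  refine h1.trans ?_
  rw [OS.edgeSum_add, OS.edgeSum_add, OS.edgeSum_add, OS.edgeSum_mul, OS.edgeSum_mul,
    OS.edgeSum_mul, OS.edgeSum_mul, OS.edgeSum_one]
  have e7 : edgeSum G (fun u v => ww G u v ^ 2) = W2 G := rfl
  rw [e7]
  have hW := W2_nonneg G
  have hZ := Z4_nonneg G
  have hZ2 := Z2_le G hc0 1 one_pos
  have q1 : 28928 / (cc G * d) ≤ (1 / 100) * cc G := by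
    rw [div_le_iff₀ (by positivity)]
    linarith only [hcd]
  have q2 : ((1 / 20) * cc G + 28928 / (cc G * d)) * W2 G ≤ (6 / 100) * cc G * W2 G := by
    apply mul_le_mul_of_nonneg_right _ hW
    linarith only [q1]
  have q3 : edgeSum G (fun u v => f2 u v) = edgeSum G f2 := rfl
  have q4 : edgeSum G (fun u v => f3 u v) = edgeSum G f3 := rfl
  rw [q3, q4]
  have q5 : (5780 + 7240) / cc G * (2 * (numEdges G : ℝ)) = 26040 * ((numEdges G : ℝ) / cc G) := by
    ring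
  have q6 : 1 / (4 * 1) * (2 * (numEdges G : ℝ)) / cc G = (1 / 2) * ((numEdges G : ℝ) / cc G) := by
    ring
  rw [q6] at hZ2
  have q7 : 0 ≤ wheels G / cc G ^ 3 := div_nonneg (wheels_nonneg G) (by positivity)
  have q8 : 0 ≤ (numEdges G : ℝ) / cc G := by positivity
  have q9 : 0 ≤ cc G * Z4 G := by positivity
  rw [q5]
  linarith only [e2, e3, hZ2, q2, q7, q8, q9]

/-- early phase, the `M` part -/
lemma M_early (G : SimpleGraph (Fin n)) (s0 d : ℝ) (hn : 0 < n) (hE : 0 < numEdges G)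
    (hc : 1000 ≤ cc G) (hcn : cc G ≤ n) (hs0 : 0 < s0) (hs1 : s0 ≤ 1 / 10 ^ 6)
    (h4 : (n : ℝ) ^ 3 ≤ s0 ^ 2 * cc G ^ 4) (hG : Good s0 G) (h : Sm G s0)
    (hd1 : d ≤ 1) (hd : 3 * s0 ≤ d) (hcd : 2892800 ≤ d * cc G ^ 2) :
    ∑ t ∈ triangles G, MM d (removeTriangle G t) ≤
      (((triangles G).card : ℝ) + (1 / 10) * cc G) * MM d G + 430 * cc G * Z4 G +
        41 * cc G * RF G + 300000 * ((numEdges G : ℝ) / cc G + wheels G / cc G ^ 3) := by
  have hc0 : 0 < cc G := by linarith only [hc]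
  have hd0 : 0 < d := by linarith only [hs0, hd]
  have hx1 : s0 ≤ 1 / 1000 := by linarith only [hs1]
  have hζ : |rho G - 1| ≤ s0 := rho_of_good G hn hE s0 h
  have hρ : rho G ≤ 2 := by
    have := (abs_le.mp hζ).2
    linarith only [hs0, hs1, this]
  have h1 := K.M_drift G d hd0 hd1 hc hρ
  have h2 := mErr_le G s0 d hn hE hc hcn hs0.le hx1 h hd0 hd1 hd hcd
  rw [K.edgeSum_mMain G hc0 d] at h1
  have hM : MM d G = W2 G := MM_eq G s0 d hc0 hs0.le hx1 h hd
  have e1 : ∑ t ∈ triangles G, MM d (removeTriangle G t) = ∑ t ∈ triangles G,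
      edgeSum (removeTriangle G t) (fun u v => huber d (ww (removeTriangle G t) u v)) := rfl
  have e2 : edgeSum G (fun u v => huber d (ww G u v)) = W2 G := hM
  have hcl : ∀ u v, G.Adj u v → clip d (ww G u v) = ww G u v := fun u v huv =>
    clip_eq d _ ((ww_small G s0 hc0 hs0.le hx1 h u v (G.ne_of_adj huv)).trans hd)
  have e3 : edgeSum G (fun u v => rr G u v * huber d (ww G u v)) ≥ (1 - s0) * W2 G := by
    unfold W2
    rw [← OS.edgeSum_mul]
    apply OS.edgeSum_mono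
    intro u v huv
    rw [huber_eq d _ ((ww_small G s0 hc0 hs0.le hx1 h u v (G.ne_of_adj huv)).trans hd)]
    exact mul_le_mul_of_nonneg_right (rr_bounds G s0 h u v (G.ne_of_adj huv)).1 (sq_nonneg _)
  have e4 : triSum G (fun u v y => clip d (ww G u v) * (ww G u y + ww G v y)) =
      triSum G (fun u v y => ww G u v * (ww G u y + ww G v y)) := by
    unfold triSum
    refine Finset.sum_congr rfl fun u _ => Finset.sum_congr rfl fun v _ =>
      Finset.sum_congr rfl fun y _ => ?_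
    by_cases h3 : G.Adj u v ∧ G.Adj u y ∧ G.Adj v y
    · rw [if_pos h3, if_pos h3]
      beta_reduce
      rw [hcl u v h3.1]
    · rw [if_neg h3, if_neg h3]
  have e5 : triSum G (fun u v y => clip d (ww G u v) * (zz G u y + zz G v y) ^ 2) =
      triSum G (fun u v y => ww G u v * (zz G u y + zz G v y) ^ 2) := by
    unfold triSum
    refine Finset.sum_congr rfl fun u _ => Finset.sum_congr rfl fun v _ =>
      Finset.sum_congr rfl fun y _ => ?_
    by_cases h3 : G.Adj u v ∧ G.Adj u y ∧ G.Adj v y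
    · rw [if_pos h3, if_pos h3]
      beta_reduce
      rw [hcl u v h3.1]
    · rw [if_neg h3, if_neg h3]
  have e6 : edgeSum G (fun u v => clip d (ww G u v) * (ww G u v + rr G u v)) =
      edgeSum G (fun u v => ww G u v * (ww G u v + rr G u v)) := by
    refine Vale.Agent.P046.edgeSum_congr G _ _ fun u v huv => ?_
    rw [hcl u v huv]
  rw [e1, hM]
  rw [e2, e4, e5, e6] at h1
  have t1 := tri_ww G s0 hn hE hc0 hcn hs0 h4 hG
  have t2 := tri_q G s0 hc0 hs0.le hx1 h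
  have t3 := zeta_w G s0 hc0 hs0.le hx1 h hζ
  have hW := W2_nonneg G
  have hcW : 0 ≤ cc G * W2 G := by positivity
  have hcZ : 0 ≤ cc G * Z4 G := by have := Z4_nonneg G; positivity
  have hsq : √(2 * s0) ≤ 1 / 500 := by
    rw [Real.sqrt_le_left (by norm_num)]
    linarith only [hs1]
  have t4 : 2 * (√(2 * s0) + 2 * s0) * cc G * W2 G ≤ (5 / 1000) * (cc G * W2 G) := by
    have : 2 * (√(2 * s0) + 2 * s0) ≤ 5 / 1000 := by linarith only [hs1, hsq]
    calc 2 * (√(2 * s0) + 2 * s0) * cc G * W2 G = 2 * (√(2 * s0) + 2 * s0) * (cc G * W2 G) := by ring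
      _ ≤ _ := mul_le_mul_of_nonneg_right this hcW
  have t5 : cc G * ((1 - s0) * W2 G) ≤ cc G * edgeSum G (fun u v => rr G u v * huber d (ww G u v)) :=
    mul_le_mul_of_nonneg_left e3 hc0.le
  have t6 : cc G * W2 G * s0 ≤ cc G * W2 G * (1 / 1000) := mul_le_mul_of_nonneg_left hx1 hcW
  linarith

end Vale.Agent.P046.C.Ea
end
end

section

section

/-!
Drift of `E * (rho - 1)^2` when one triangle is removed.
-/

set_option autoImplicit false

open scoped Classical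
open Finset

namespace Vale.Agent.P046.C.RD

open Vale.Agent.P046 Vale.Agent.P046.OS Vale.Agent.P046.C Vale.Agent.P046.C.TD
open Vale.Agent.P046.LB (nb card_nb sum_card_nb M2 triSum_tri triSum_congr triSum_sym
  card_triangles_remove_real)

variable {n : ℕ}

/-- basic facts, with a weaker assumption on the scale -/
lemma graph_facts' (G : SimpleGraph (Fin n)) (hT : (triangles G).Nonempty) (hc : 1000 ≤ cc G) :
    0 < n ∧ 0 < numEdges G ∧ cc G ≤ n ∧ cc G * n ≤ 2 * (numEdges G : ℝ) ∧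
      10000 ≤ (numEdges G : ℝ) ∧
      3 * ((triangles G).card : ℝ) = (numEdges G : ℝ) * cc G * rho G := by
  have hn := n_pos_of_triangle G hT
  have hn' : (0:ℝ) < n := by exact_mod_cast hn
  have hE : 0 < numEdges G := by
    rcases Nat.eq_zero_or_pos (numEdges G) with h | h
    · exfalso
      unfold cc at hc
      rw [h] at hc
      norm_num at hc
    · exact h
  have hE' : (0:ℝ) < numEdges G := by exact_mod_cast hE
  obtain ⟨h1, h2⟩ := scale_real (numEdges G) n (cc G) hn' hE' (two_e_le G) rfl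
  refine ⟨hn, hE, h1, h2, ?_, ?_⟩
  · nlinarith only [hc, h1, h2]
  · unfold cc rho
    field_simp

/-- facts on `g = (e/(e-3))^3 - 1` -/
lemma gam_real (e g : ℝ) (he : 10000 ≤ e) (hg : g = (e / (e - 3)) ^ 3 - 1) :
    0 ≤ e * g - 9 ∧ e * (e * g - 9) ≤ 60 := by
  have he3 : 0 < e - 3 := by linarith only [he]
  have h1 : e * g - 9 = (54 * e ^ 2 - 216 * e + 243) / (e - 3) ^ 3 := by
    rw [hg]; field_simp; ring
  constructor
  · rw [h1]
    apply div_nonneg _ (by positivity)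
    nlinarith only [he]
  · rw [h1, mul_div_assoc', div_le_iff₀ (by positivity)]
    nlinarith only [he]

lemma rho_remove (G : SimpleGraph (Fin n)) (t : Finset (Fin n)) (ht : t ∈ triangles G)
    (hn : 0 < n) (hE : 3 < (numEdges G : ℝ)) (g : ℝ)
    (hg : g = ((numEdges G : ℝ) / ((numEdges G : ℝ) - 3)) ^ 3 - 1) :
    rho (removeTriangle G t) = rho G + 3 / ((numEdges G : ℝ) * cc G) *
      (g * (triangles G).card - (1 + g) * (1 + ((nb G t).card : ℝ))) := by
  have h1 : (numEdges (removeTriangle G t) : ℝ) = (numEdges G : ℝ) - 3 := by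
    have := numEdges_removeTriangle G t ht
    have h2 : (numEdges (removeTriangle G t) : ℝ) + 3 = (numEdges G : ℝ) := by exact_mod_cast this
    linarith only [h2]
  have h2 := card_triangles_remove_real G t ht
  have hn' : (0:ℝ) < n := by exact_mod_cast hn
  obtain ⟨e, he⟩ : ∃ e : ℝ, e = (numEdges G : ℝ) := ⟨_, rfl⟩
  unfold rho cc
  rw [h1, h2, hg, ← he]
  rw [← he] at hE
  have he3 : 0 < e - 3 := by linarith only [hE]
  have he0 : 0 < e := by linarith only [hE]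
  field_simp
  ring

/-- the small parameters -/
lemma small_g (e c N g : ℝ) (hc : 1000 ≤ c) (hcN : c ≤ N) (hcNe : c * N ≤ 2 * e)
    (hg1 : 0 ≤ e * g - 9) (hg2 : e * (e * g - 9) ≤ 60) :
    500000 ≤ e ∧ 0 < g ∧ g ≤ 1/1000 ∧ c * g ≤ 1/50 ∧ (e * g - 9) * c ≤ 3/25 := by
  have hN : 1000 ≤ N := by linarith
  have hc0 : 0 < c := by linarith only [hc]
  have hcc : c * c ≤ 2 * e := by
    have := mul_le_mul_of_nonneg_left hcN hc0.le
    linarith
  have he : 500000 ≤ e := by nlinarith only [hc, hcc]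
  have he0 : 0 < e := by linarith
  have h7 : e * g ≤ 10 := by
    have : e * g - 9 ≤ 1 := by
      by_contra hcon
      push Not at hcon
      have h1 : e * 1 < e * (e * g - 9) := mul_lt_mul_of_pos_left hcon he0
      linarith only [hg2, he, h1]
    linarith
  have hg0 : 0 < g := by
    by_contra hcon
    push Not at hcon
    have := mul_nonpos_of_nonneg_of_nonpos he0.le hcon
    linarith
  have h8 : g * (c * N) ≤ 20 := by
    have := mul_le_mul_of_nonneg_left hcNe hg0.le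
    linarith
  have h9 : (g * c) * 1000 ≤ (g * c) * N := mul_le_mul_of_nonneg_left hN (by positivity)
  refine ⟨he, hg0, ?_, ?_, ?_⟩
  · have h1 : g * 500000 ≤ g * e := mul_le_mul_of_nonneg_left he hg0.le
    linarith only [h7, hg0, h1]
  · linarith
  · have h2 : (e * g - 9) * (c * N) ≤ (e * g - 9) * (2 * e) := mul_le_mul_of_nonneg_left hcNe hg1
    have h3 : ((e * g - 9) * c) * 1000 ≤ ((e * g - 9) * c) * N :=
      mul_le_mul_of_nonneg_left hN (by positivity)
    linarith only [hg2, h2, h3]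

/-- mean of the increment of `rho` -/
lemma mean_rho (e c N g ζ T P Z : ℝ) (hc : 1000 ≤ c) (hcN : c ≤ N) (hcNe : c * N ≤ 2 * e)
    (hg1 : 0 ≤ e * g - 9) (hg2 : e * (e * g - 9) ≤ 60) (hζ : |ζ| ≤ 1/1000)
    (hT : 3 * T = e * c * (1 + ζ)) (hZ : 0 ≤ Z)
    (hP : P = g * T ^ 2 - (1 + g) * (c ^ 2 * (Z + 2 * e * (1 + 2 * ζ)) / 2 - 2 * T)) :
    |3 / (e * c) * P| ≤ 3 * c * ζ ^ 2 + 8/5 * (c * Z / e) + 3 := by
  obtain ⟨he, hg0, hgs, hcg, ha⟩ := small_g e c N g hc hcN hcNe hg1 hg2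
  have hc0 : 0 < c := by linarith only [hc]
  have he0 : 0 < e := by linarith only [he, hg0, hgs]
  have hζ' := abs_le.mp hζ
  have e1 : 3 / (e * c) * P = 3 * c * ζ ^ 2 - 3/2 * (c * Z / e) + 2 * (1 + ζ) +
      ((e * g - 9) * c) * (1 + ζ) ^ 2 / 3 - g * (3/2 * (c * Z / e)) -
      3 * (c * g) * (1 + 2 * ζ) + 2 * (1 + ζ) * g := by
    have hT' : T = e * c * (1 + ζ) / 3 := by linarith only [hT]
    rw [hP, hT']
    field_simp
    ring
  rw [e1]
  obtain ⟨a, hadef⟩ : ∃ a, a = (e * g - 9) * c := ⟨_, rfl⟩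
  obtain ⟨b, hb⟩ : ∃ b, b = c * g := ⟨_, rfl⟩
  obtain ⟨q, hq⟩ : ∃ q, q = c * Z / e := ⟨_, rfl⟩
  obtain ⟨s, hs⟩ : ∃ s, s = c * ζ ^ 2 := ⟨_, rfl⟩
  have ha0 : 0 ≤ a := by rw [hadef]; positivity
  have hb0 : 0 ≤ b := by rw [hb]; positivity
  have hq0 : 0 ≤ q := by rw [hq]; positivity
  have hs0 : 0 ≤ s := by rw [hs]; positivity
  have e2 : 3 * c * ζ ^ 2 = 3 * s := by rw [hs]; ring
  rw [e2, ← hadef, ← hb, ← hq]
  rw [← hadef] at ha
  rw [← hb] at hcg
  have t1 : a * (1 + ζ) ^ 2 ≤ 3/25 * (101/100) := by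
    apply mul_le_mul ha _ (sq_nonneg _) (by norm_num)
    nlinarith only [hζ']
  have t1' : 0 ≤ a * (1 + ζ) ^ 2 := by positivity
  have t2 : g * q ≤ 1/1000 * q := mul_le_mul_of_nonneg_right hgs hq0
  have t2' : 0 ≤ g * q := by positivity
  have t3 : b * (1 + 2 * ζ) ≤ 1/50 * (101/100) :=
    mul_le_mul hcg (by linarith only [hζ']) (by linarith only [hζ']) (by norm_num)
  have t3' : 0 ≤ b * (1 + 2 * ζ) := mul_nonneg hb0 (by linarith only [hζ'])
  have t4 : (1 + ζ) * g ≤ (101/100) * (1/1000) :=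
    mul_le_mul (by linarith only [hζ']) hgs hg0.le (by norm_num)
  have t4' : 0 ≤ (1 + ζ) * g := mul_nonneg (by linarith only [hζ']) hg0.le
  rw [abs_le]
  constructor <;> linarith only [hζ', hq0, hs0, t1', t2, t3, t4', t1, t2', t3', t4]

/-- the constant part of the increment -/
lemma const_rho (e c N g ζ T A : ℝ) (hc : 1000 ≤ c) (hcN : c ≤ N) (hcNe : c * N ≤ 2 * e)
    (hg1 : 0 ≤ e * g - 9) (hg2 : e * (e * g - 9) ≤ 60) (hζ : |ζ| ≤ 1/1000)
    (hT : 3 * T = e * c * (1 + ζ)) (hA : A = g * T - (1 + g) * (3 * c - 2)) :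
    A ^ 2 ≤ 18 * c ^ 2 * ζ ^ 2 + 18 := by
  obtain ⟨he, hg0, hgs, hcg, ha⟩ := small_g e c N g hc hcN hcNe hg1 hg2
  have hc0 : 0 < c := by linarith only [hc]
  have he0 : 0 < e := by linarith only [he, hg0, hgs]
  have hζ' := abs_le.mp hζ
  have e1 : A = 3 * c * ζ + (2 + ((e * g - 9) * c) * (1 + ζ) / 3 - 3 * (c * g) + 2 * g) := by
    have hT' : T = e * c * (1 + ζ) / 3 := by linarith only [hT]
    rw [hA, hT']
    ring
  obtain ⟨a, hadef⟩ : ∃ a, a = (e * g - 9) * c := ⟨_, rfl⟩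
  have ha0 : 0 ≤ a := by rw [hadef]; positivity
  have hcg0 : 0 ≤ c * g := by positivity
  rw [← hadef] at e1 ha
  have t1 : a * (1 + ζ) ≤ 3/25 * (101/100) :=
    mul_le_mul ha (by linarith only [hζ']) (by linarith only [hζ']) (by norm_num)
  have t1' : 0 ≤ a * (1 + ζ) := mul_nonneg ha0 (by linarith only [hζ'])
  obtain ⟨b, hb⟩ : ∃ b, b = 2 + a * (1 + ζ) / 3 - 3 * (c * g) + 2 * g := ⟨_, rfl⟩
  have hb1 : 0 ≤ b := by rw [hb]; linarith only [hg0, hcg, t1']
  have hb2 : b ≤ 3 := by rw [hb]; linarith only [hgs, hcg0, t1]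
  rw [e1, ← hb]
  have hb3 : b ^ 2 ≤ 9 := by nlinarith only [hb, hg0, hcg0, hgs, t1, hcg, t1']
  linarith only [hb3, sq_nonneg (3 * c * ζ - b)]

/-- the final real computation -/
lemma final_real (e c N g ζ T P Q Z W S : ℝ) (hc : 1000 ≤ c) (hcN : c ≤ N)
    (hcNe : c * N ≤ 2 * e)
    (hg1 : 0 ≤ e * g - 9) (hg2 : e * (e * g - 9) ≤ 60) (hζ : |ζ| ≤ 1/1000)
    (hT : 3 * T = e * c * (1 + ζ)) (hZ : 0 ≤ Z) (hW : 0 ≤ W)
    (hP : P = g * T ^ 2 - (1 + g) * (c ^ 2 * (Z + 2 * e * (1 + 2 * ζ)) / 2 - 2 * T))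
    (hQ : Q ≤ 2 * (g * T - (1 + g) * (3 * c - 2)) ^ 2 * T + 2 * (1 + g) ^ 2 * S)
    (hQ0 : 0 ≤ Q) (hS : S ≤ 3/2 * c ^ 3 * W) :
    (e - 3) * (T * ζ ^ 2 + 2 * ζ * (3 / (e * c) * P) + (3 / (e * c)) ^ 2 * Q) ≤
      T * (e * ζ ^ 2) - 9/10 * c * (e * ζ ^ 2) + 4 * c * |ζ| * Z + 3000 * (e / c) +
        60 * c / e * W := by
  obtain ⟨he, hg0, hgs, hcg, ha⟩ := small_g e c N g hc hcN hcNe hg1 hg2
  have hc0 : 0 < c := by linarith only [hc]
  have he0 : 0 < e := by linarith only [he, hg0, hgs]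
  have he3 : 0 < e - 3 := by linarith only [he, hg0, hgs]
  have hζ' := abs_le.mp hζ
  have hT0 : 0 ≤ T := by
    have : 0 ≤ e * c * (1 + ζ) := mul_nonneg (by positivity) (by linarith only [hζ'])
    linarith only [hT, this]
  have hm := mean_rho e c N g ζ T P Z hc hcN hcNe hg1 hg2 hζ hT hZ hP
  have hA := const_rho e c N g ζ T _ hc hcN hcNe hg1 hg2 hζ hT rfl
  obtain ⟨A, hAdef⟩ : ∃ A, A = g * T - (1 + g) * (3 * c - 2) := ⟨_, rfl⟩
  rw [← hAdef] at hA hQ
  -- first piece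
  have p1 : (e - 3) * (T * ζ ^ 2) ≤ T * (e * ζ ^ 2) - 999/1000 * c * (e * ζ ^ 2) := by
    have e1 : (e - 3) * (T * ζ ^ 2) = T * (e * ζ ^ 2) - (3 * T) * ζ ^ 2 := by ring
    rw [e1, hT]
    have h1 : 0 ≤ c * (e * ζ ^ 2) := by positivity
    have h2 : 999/1000 * (c * (e * ζ ^ 2)) ≤ (1 + ζ) * (c * (e * ζ ^ 2)) :=
      mul_le_mul_of_nonneg_right (by linarith only [hζ']) h1
    linarith only [h2]
  -- second piece
  have p2 : (e - 3) * (2 * ζ * (3 / (e * c) * P)) ≤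
      6/1000 * c * (e * ζ ^ 2) + 4 * c * |ζ| * Z + 6 * e * |ζ| := by
    have h1 : (e - 3) * (2 * ζ * (3 / (e * c) * P)) ≤
        e * (2 * |ζ| * (3 * c * ζ ^ 2 + 8/5 * (c * Z / e) + 3)) := by
      have h2 : 2 * ζ * (3 / (e * c) * P) ≤ 2 * |ζ| * (3 * c * ζ ^ 2 + 8/5 * (c * Z / e) + 3) := by
        refine le_trans (le_abs_self _) ?_
        rw [abs_mul, abs_mul, abs_of_pos (by norm_num : (0:ℝ) < 2)]
        exact mul_le_mul_of_nonneg_left hm (by positivity)
      have h3 : 0 ≤ 2 * |ζ| * (3 * c * ζ ^ 2 + 8/5 * (c * Z / e) + 3) := by positivity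
      calc (e - 3) * (2 * ζ * (3 / (e * c) * P))
          ≤ (e - 3) * (2 * |ζ| * (3 * c * ζ ^ 2 + 8/5 * (c * Z / e) + 3)) :=
            mul_le_mul_of_nonneg_left h2 he3.le
        _ ≤ e * (2 * |ζ| * (3 * c * ζ ^ 2 + 8/5 * (c * Z / e) + 3)) :=
            mul_le_mul_of_nonneg_right (by linarith only [hg0, hgs]) h3
    have e1 : e * (2 * |ζ| * (3 * c * ζ ^ 2 + 8/5 * (c * Z / e) + 3)) =
        6 * |ζ| * (c * (e * ζ ^ 2)) + 16/5 * (c * |ζ| * Z) + 6 * e * |ζ| := by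
      field_simp
      ring
    rw [e1] at h1
    have h4 : 6 * |ζ| * (c * (e * ζ ^ 2)) ≤ 6/1000 * (c * (e * ζ ^ 2)) :=
      mul_le_mul_of_nonneg_right (by linarith only [hζ]) (by positivity)
    have h5 : 0 ≤ c * |ζ| * Z := by positivity
    linarith only [h1, h4, h5]
  have p3 : 6 * e * |ζ| ≤ 1/100 * c * (e * ζ ^ 2) + 900 * (e / c) := by
    have h1 : 6 * |ζ| ≤ 1/100 * c * ζ ^ 2 + 900 / c := by
      have h2 : 0 ≤ (c * |ζ| - 300) ^ 2 / (100 * c) := by positivity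
      have e2 : (c * |ζ| - 300) ^ 2 / (100 * c) = 1/100 * c * |ζ| ^ 2 - 6 * |ζ| + 900 / c := by
        field_simp
        ring
      rw [e2, sq_abs] at h2
      linarith only [h2]
    have h3 := mul_le_mul_of_nonneg_left h1 he0.le
    have e3 : e * (1/100 * c * ζ ^ 2 + 900 / c) = 1/100 * c * (e * ζ ^ 2) + 900 * (e / c) := by ring
    linarith only [h3, e3]
  -- third piece
  have p4 : (e - 3) * ((3 / (e * c)) ^ 2 * Q) ≤ 1/1000 * c * (e * ζ ^ 2) + (e / c) +
      60 * c / e * W := by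
    have h1 : (e - 3) * ((3 / (e * c)) ^ 2 * Q) ≤ e * ((3 / (e * c)) ^ 2 * Q) :=
      mul_le_mul_of_nonneg_right (by linarith only [hg0, hgs]) (by positivity)
    have e1 : e * ((3 / (e * c)) ^ 2 * Q) = 9 / (e * c ^ 2) * Q := by
      field_simp
      ring
    have h2 : Q ≤ 2 * (18 * c ^ 2 * ζ ^ 2 + 18) * T + 3 * (3/2 * c ^ 3 * W) := by
      have h3 : 2 * A ^ 2 * T ≤ 2 * (18 * c ^ 2 * ζ ^ 2 + 18) * T :=
        mul_le_mul_of_nonneg_right (by linarith only [hA]) hT0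
      have h4 : 2 * (1 + g) ^ 2 * S ≤ 2 * (1 + g) ^ 2 * (3/2 * c ^ 3 * W) :=
        mul_le_mul_of_nonneg_left hS (by positivity)
      have h5 : 2 * (1 + g) ^ 2 ≤ 3 := by nlinarith only [hg1, he, hgs]
      have h6 : 2 * (1 + g) ^ 2 * (3/2 * c ^ 3 * W) ≤ 3 * (3/2 * c ^ 3 * W) :=
        mul_le_mul_of_nonneg_right h5 (by positivity)
      linarith only [hQ, h3, h4, h6]
    have h7 : 9 / (e * c ^ 2) * Q ≤
        9 / (e * c ^ 2) * (2 * (18 * c ^ 2 * ζ ^ 2 + 18) * T + 3 * (3/2 * c ^ 3 * W)) :=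
      mul_le_mul_of_nonneg_left h2 (by positivity)
    have e2 : 9 / (e * c ^ 2) * (2 * (18 * c ^ 2 * ζ ^ 2 + 18) * T + 3 * (3/2 * c ^ 3 * W)) =
        108 * (1 + ζ) * (c * ζ ^ 2) + 108 * (1 + ζ) / c + 81/2 * (c / e * W) := by
      have hT' : T = e * c * (1 + ζ) / 3 := by linarith only [hT]
      rw [hT']
      field_simp
      ring
    have h8 : 108 * (1 + ζ) * (c * ζ ^ 2) ≤ 1/1000 * c * (e * ζ ^ 2) := by
      have h9 : 108 * (1 + ζ) ≤ 1/1000 * e := by linarith only [he, hζ']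
      have := mul_le_mul_of_nonneg_right h9 (by positivity : 0 ≤ c * ζ ^ 2)
      linarith only [this]
    have h10 : 108 * (1 + ζ) / c ≤ e / c := by
      apply div_le_div_of_nonneg_right _ hc0.le
      linarith only [he, hζ']
    have h11 : 81/2 * (c / e * W) ≤ 60 * c / e * W := by
      have h12 : 0 ≤ c / e * W := by positivity
      have e3 : 60 * c / e * W = 60 * (c / e * W) := by ring
      rw [e3]; linarith only [h12]
    linarith only [h1, e1, h7, e2, h8, h10, h11]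
  have h5 : 0 ≤ e / c := by positivity
  have h6 : 0 ≤ c * (e * ζ ^ 2) := by positivity
  have e9 : (e - 3) * (T * ζ ^ 2 + 2 * ζ * (3 / (e * c) * P) + (3 / (e * c)) ^ 2 * Q) =
      (e - 3) * (T * ζ ^ 2) + (e - 3) * (2 * ζ * (3 / (e * c) * P)) +
      (e - 3) * ((3 / (e * c)) ^ 2 * Q) := by ring
  rw [e9]
  linarith only [p1, p2, p3, p4, h5, h6]

lemma M2_eq (G : SimpleGraph (Fin n)) (hn : 0 < n) (hE : 0 < numEdges G)
    (hT : 3 * ((triangles G).card : ℝ) = (numEdges G : ℝ) * cc G * (1 + (rho G - 1))) :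
    M2 G = cc G ^ 2 * (edgeSum G (fun u v => (rr G u v - 1) ^ 2) +
      2 * (numEdges G : ℝ) * (1 + 2 * (rho G - 1))) / 2 := by
  have hc := cc_pos G hn hE
  have h1 : edgeSum G (fun u v => (codeg G u v : ℝ) ^ 2) =
      edgeSum G (fun u v => (cc G ^ 2 * (rr G u v - 1) ^ 2 + 2 * cc G * (codeg G u v : ℝ)) +
        (-(cc G ^ 2)) * 1) := by
    apply edgeSum_congr
    intro u v _
    rw [← rr_cc G hn hE u v]
    ring
  rw [edgeSum_add G (fun u v => cc G ^ 2 * (rr G u v - 1) ^ 2 + 2 * cc G * (codeg G u v : ℝ))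
      (fun _ _ => (-(cc G ^ 2)) * 1),
    edgeSum_add G (fun u v => cc G ^ 2 * (rr G u v - 1) ^ 2)
      (fun u v => 2 * cc G * (codeg G u v : ℝ)),
    edgeSum_mul G (cc G ^ 2) (fun u v => (rr G u v - 1) ^ 2),
    edgeSum_mul G (2 * cc G) (fun u v => (codeg G u v : ℝ)),
    edgeSum_mul G (-(cc G ^ 2)) (fun _ _ => 1), edgeSum_one, OS.edgeSum_codeg] at h1
  unfold M2
  rw [h1]
  have h2 : 6 * ((triangles G).card : ℝ) = 2 * ((numEdges G : ℝ) * cc G * (1 + (rho G - 1))) := by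
    linarith only [hT]
  rw [h2]
  ring

lemma sum_sq_le (G : SimpleGraph (Fin n)) (hn : 0 < n) (hE : 0 < numEdges G) :
    ∑ t ∈ triangles G, ((1 + ((nb G t).card : ℝ)) + 2 - 3 * cc G) ^ 2 ≤
      3/2 * cc G ^ 3 * edgeSum G (fun u v => rr G u v * (rr G u v - 1) ^ 2) := by
  have h1 := triSum_tri G (fun t => ((1 + ((nb G t).card : ℝ)) + 2 - 3 * cc G) ^ 2)
  have h2 : triSum G (fun u v w => ((1 + ((nb G {u, v, w}).card : ℝ)) + 2 - 3 * cc G) ^ 2) ≤
      triSum G (fun u v w => 3 * (((codeg G u v : ℝ) - cc G) ^ 2 + ((codeg G u w : ℝ) - cc G) ^ 2 +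
        ((codeg G v w : ℝ) - cc G) ^ 2)) := by
    apply triSum_mono
    intro u v w huv huw hvw
    rw [card_nb G u v w huv huw hvw]
    obtain ⟨a, ha⟩ : ∃ a : ℝ, a = (codeg G u v : ℝ) - cc G := ⟨_, rfl⟩
    obtain ⟨b, hb⟩ : ∃ b : ℝ, b = (codeg G u w : ℝ) - cc G := ⟨_, rfl⟩
    obtain ⟨d, hd⟩ : ∃ d : ℝ, d = (codeg G v w : ℝ) - cc G := ⟨_, rfl⟩
    have e1 : 1 + ((codeg G u v : ℝ) + codeg G u w + codeg G v w - 3) + 2 - 3 * cc G =
        a + b + d := by rw [ha, hb, hd]; ring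
    rw [e1, ← ha, ← hb, ← hd]
    linarith only [sq_nonneg (a - b), sq_nonneg (a - d), sq_nonneg (b - d)]
  rw [triSum_mul G 3 (fun u v w => ((codeg G u v : ℝ) - cc G) ^ 2 +
    ((codeg G u w : ℝ) - cc G) ^ 2 + ((codeg G v w : ℝ) - cc G) ^ 2),
    triSum_sym G (fun u v => ((codeg G u v : ℝ) - cc G) ^ 2)
      (fun u v => by rw [codeg_comm]),
    ← edgeSum_codeg_mul G (fun u v => ((codeg G u v : ℝ) - cc G) ^ 2)] at h2
  have h3 : edgeSum G (fun u v => (codeg G u v : ℝ) * ((codeg G u v : ℝ) - cc G) ^ 2) =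
      cc G ^ 3 * edgeSum G (fun u v => rr G u v * (rr G u v - 1) ^ 2) := by
    rw [← edgeSum_mul G (cc G ^ 3) (fun u v => rr G u v * (rr G u v - 1) ^ 2)]
    apply edgeSum_congr
    intro u v _
    rw [← rr_cc G hn hE u v]
    ring
  rw [h3] at h2
  linarith only [h1, h2]

end Vale.Agent.P046.C.RD

namespace Vale.Agent.P046.C

open Vale.Agent.P046 Vale.Agent.P046.OS Vale.Agent.P046.C.TD Vale.Agent.P046.C.RD
open Vale.Agent.P046.LB (nb sum_card_nb M2)

variable {n : ℕ}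

/-- drift of `E * (rho - 1)^2` -/
theorem R_drift (G : SimpleGraph (Fin n)) (hc : 1000 ≤ cc G) (hζ : |rho G - 1| ≤ 1/1000)
    (hT : (triangles G).Nonempty) :
    ∑ t ∈ triangles G, (numEdges (removeTriangle G t) : ℝ) * (rho (removeTriangle G t) - 1) ^ 2 ≤
      ((triangles G).card : ℝ) * ((numEdges G : ℝ) * (rho G - 1) ^ 2)
        - 9/10 * cc G * ((numEdges G : ℝ) * (rho G - 1) ^ 2)
        + 4 * cc G * |rho G - 1| * edgeSum G (fun u v => (rr G u v - 1) ^ 2)
        + 3000 * ((numEdges G : ℝ) / cc G)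
        + 60 * cc G / (numEdges G : ℝ) * edgeSum G (fun u v => rr G u v * (rr G u v - 1) ^ 2) := by
  obtain ⟨hn, hE, hcN, hcNe, he, hTe⟩ := graph_facts' G hT (by linarith only [hc])
  have hTe' : 3 * ((triangles G).card : ℝ) = (numEdges G : ℝ) * cc G * (1 + (rho G - 1)) := by
    rw [hTe]; ring
  have hM := M2_eq G hn hE hTe'
  have hS := sum_sq_le G hn hE
  have hnb := sum_card_nb G
  have hZ : 0 ≤ edgeSum G (fun u v => (rr G u v - 1) ^ 2) :=
    edgeSum_nonneg G _ fun u v _ => sq_nonneg _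
  have hW : 0 ≤ edgeSum G (fun u v => rr G u v * (rr G u v - 1) ^ 2) :=
    edgeSum_nonneg G _ fun u v _ => mul_nonneg (rr_nonneg G u v) (sq_nonneg _)
  obtain ⟨e, hedef⟩ : ∃ e : ℝ, e = (numEdges G : ℝ) := ⟨_, rfl⟩
  obtain ⟨g, hg⟩ : ∃ g : ℝ, g = (e / (e - 3)) ^ 3 - 1 := ⟨_, rfl⟩
  rw [← hedef] at hcNe he hTe hTe' hM ⊢
  obtain ⟨hg1, hg2⟩ := gam_real e g he hg
  obtain ⟨k, hk⟩ : ∃ k : ℝ, k = 3 / (e * cc G) := ⟨_, rfl⟩
  obtain ⟨Dt, hDt⟩ : ∃ Dt : Finset (Fin n) → ℝ, Dt = fun t =>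
    g * ((triangles G).card : ℝ) - (1 + g) * (1 + ((nb G t).card : ℝ)) := ⟨_, rfl⟩
  have hpt : ∀ t ∈ triangles G,
      (numEdges (removeTriangle G t) : ℝ) * (rho (removeTriangle G t) - 1) ^ 2 =
      (e - 3) * ((rho G - 1) ^ 2 + 2 * (rho G - 1) * (k * Dt t) + k ^ 2 * (Dt t) ^ 2) := by
    intro t ht
    have h1 : (numEdges (removeTriangle G t) : ℝ) = e - 3 := by
      have := numEdges_removeTriangle G t ht
      have h2 : (numEdges (removeTriangle G t) : ℝ) + 3 = (numEdges G : ℝ) := by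
        exact_mod_cast this
      rw [hedef]; linarith only [h2]
    rw [h1, rho_remove G t ht hn (by rw [← hedef]; linarith only [he]) g (by rw [← hedef]; exact hg),
      ← hedef, ← hk, hDt]
    ring
  rw [Finset.sum_congr rfl hpt, ← Finset.mul_sum, Finset.sum_add_distrib, Finset.sum_add_distrib,
    Finset.sum_const, nsmul_eq_mul, ← Finset.mul_sum, ← Finset.mul_sum, ← Finset.mul_sum]
  have hP : ∑ t ∈ triangles G, Dt t = g * ((triangles G).card : ℝ) ^ 2 -
      (1 + g) * (cc G ^ 2 * (edgeSum G (fun u v => (rr G u v - 1) ^ 2) +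
      2 * e * (1 + 2 * (rho G - 1))) / 2 - 2 * ((triangles G).card : ℝ)) := by
    rw [hDt, Finset.sum_sub_distrib, Finset.sum_const, nsmul_eq_mul, ← Finset.mul_sum,
      Finset.sum_add_distrib, Finset.sum_const, nsmul_eq_mul, hnb, ← hM]
    ring
  have hQ : ∑ t ∈ triangles G, (Dt t) ^ 2 ≤
      2 * (g * ((triangles G).card : ℝ) - (1 + g) * (3 * cc G - 2)) ^ 2 *
        ((triangles G).card : ℝ) + 2 * (1 + g) ^ 2 *
        ∑ t ∈ triangles G, ((1 + ((nb G t).card : ℝ)) + 2 - 3 * cc G) ^ 2 := by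
    have h1 : ∀ t ∈ triangles G, (Dt t) ^ 2 ≤
        2 * (g * ((triangles G).card : ℝ) - (1 + g) * (3 * cc G - 2)) ^ 2 +
        2 * (1 + g) ^ 2 * ((1 + ((nb G t).card : ℝ)) + 2 - 3 * cc G) ^ 2 := by
      intro t _
      have e1 : Dt t = (g * ((triangles G).card : ℝ) - (1 + g) * (3 * cc G - 2)) -
          (1 + g) * ((1 + ((nb G t).card : ℝ)) + 2 - 3 * cc G) := by
        rw [hDt]; ring
      rw [e1]
      obtain ⟨a, ha⟩ : ∃ a : ℝ, a = g * ((triangles G).card : ℝ) - (1 + g) * (3 * cc G - 2) :=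
        ⟨_, rfl⟩
      obtain ⟨b, hb⟩ : ∃ b : ℝ, b = (1 + ((nb G t).card : ℝ)) + 2 - 3 * cc G := ⟨_, rfl⟩
      rw [← ha, ← hb]
      linarith only [sq_nonneg (a + (1 + g) * b)]
    refine le_trans (Finset.sum_le_sum h1) ?_
    rw [Finset.sum_add_distrib, Finset.sum_const, nsmul_eq_mul, ← Finset.mul_sum]
    apply le_of_eq
    ring
  have hQ0 : 0 ≤ ∑ t ∈ triangles G, (Dt t) ^ 2 := Finset.sum_nonneg fun t _ => sq_nonneg _
  have := final_real e (cc G) n g (rho G - 1) (triangles G).card _ _ _ _ _ hc hcN hcNe hg1 hg2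
    hζ hTe' hZ hW hP hQ hQ0 hS
  rw [← hk] at this
  exact this

end Vale.Agent.P046.C
end
end

section

section

set_option autoImplicit false

open scoped Classical
open Finset

namespace Vale.Agent.P046.C.Ea

open Vale.Agent.P046
open Vale.Agent.P046.OS (triSum triSum_swap12 triSum_swap23 triSum_add triSum_mul triSum_mono
  edgeSum_codeg_mul codeg_comm codeg_real codeg_le)

variable {n : ℕ}

lemma hh_le_two (r : ℝ) (h : |r - 1| ≤ 1 / 2) : hh r ≤ 2 * (r - 1) ^ 2 := by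
  have h' := abs_le.mp h
  unfold hh
  split_ifs with hx1
  · nlinarith only [h']
  · push Not at hx1
    rw [max_eq_right (by linarith only [h'])]
    have : (r - 1)^2 / r ≤ (r - 1)^2 := by
      rw [div_le_iff₀ (by linarith only [hx1])]; nlinarith only [hx1]
    linarith only [this, sq_nonneg (r - 1)]

/-- `theta` is a fourth power near one -/
lemma theta_near (D r x : ℝ) (hD : 0 < D) (hx1 : x ≤ 1 / 1000) (hxD : 2 * x ^ 2 ≤ D)
    (h : |r - 1| ≤ x) : (r - 1) ^ 4 ≤ 8 * D * theta D r := by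
  have hr := abs_le.mp h
  have h1 := hh_near r (by linarith)
  have h2 := hh_le_two r (by linarith only [hx1, h])
  have h3 : (r - 1) ^ 2 / 2 ≤ hh r := by
    refine le_trans ?_ h1
    nlinarith only [hx1, h]
  have h4 : (r - 1) ^ 2 ≤ x ^ 2 := by
    rw [← sq_abs]
    exact pow_le_pow_left₀ (abs_nonneg _) h 2
  have h5 : hh r ≤ D := by linarith only [hxD, h2, h4]
  have e : theta D r = hh r ^ 2 / (2 * D) := by
    unfold theta Lam; rw [if_pos h5]
  rw [e]
  have h6 : ((r - 1) ^ 2 / 2) ^ 2 ≤ hh r ^ 2 := pow_le_pow_left₀ (by positivity) h3 2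
  have e2 : 8 * D * (hh r ^ 2 / (2 * D)) = 4 * hh r ^ 2 := by field_simp; ring
  rw [e2]
  linarith only [h6]

lemma thetad_near (D r x : ℝ) (hD : 0 < D) (hx1 : x ≤ 1 / 1000) 
    (h : |r - 1| ≤ x) : |thetad D r| ≤ 6 / D * |r - 1| ^ 3 := by
  have hr := abs_le.mp h
  have h2 := hh_le_two r (by linarith)
  have h0 := hh_nonneg r (by linarith only [hx1, hr])
  unfold thetad
  rw [abs_mul, abs_of_nonneg (ell_nonneg D _ hD h0)]
  have h3 : ell D (hh r) ≤ 2 * (r - 1) ^ 2 / D :=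
    (ell_le D _).trans (div_le_div_of_nonneg_right h2 hD.le)
  have h4 := gg_lin r (by linarith only [hx1, hr])
  calc ell D (hh r) * |gg r| ≤ (2 * (r - 1) ^ 2 / D) * (3 * |r - 1|) :=
        mul_le_mul h3 h4 (abs_nonneg _) (by positivity)
    _ = _ := by rw [← sq_abs (r - 1)]; ring

lemma Z4_le_TH (G : SimpleGraph (Fin n)) (D x : ℝ) (hD : 0 < D) (hx1 : x ≤ 1 / 1000)
    (hxD : 2 * x ^ 2 ≤ D) (h : Sm G x) : Z4 G ≤ 8 * D * TH D G := by
  unfold Z4 TH
  rw [← OS.edgeSum_mul]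
  apply OS.edgeSum_mono
  intro u v huv
  exact theta_near D _ x hD hx1 hxD (h.adj u v huv)

lemma TH_nonneg' (D : ℝ) (hD : 0 < D) (G : SimpleGraph (Fin n)) : 0 ≤ TH D G :=
  Vale.Agent.P046.edgeSum_nonneg G _ fun _ _ _ => theta_nonneg D _ hD

/-- pointwise bound of the interaction in the `theta` drift -/
lemma th_point (D r w ζ x : ℝ) (hD : 0 < D) (hx0 : 0 ≤ x) (hx1 : x ≤ 1 / 1000) (h : |r - 1| ≤ x) :
    thetad D r * (2 * ζ * r - w) ≤ (10 * x / D) * ((r - 1) ^ 4 + (ζ ^ 2 + w ^ 2)) := by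
  have h1 := thetad_near D r x hD hx1 h
  have hr := abs_le.mp h
  obtain ⟨z, hz⟩ : ∃ z, z = |r - 1| := ⟨_, rfl⟩
  have hz0 : 0 ≤ z := by rw [hz]; exact abs_nonneg _
  have hzx : z ≤ x := by rw [hz]; exact h
  have e4 : (r - 1) ^ 4 = z ^ 4 := by
    rw [hz, Even.pow_abs (by decide : Even 4)]
  rw [← hz] at h1
  rw [e4]
  have h2 : |2 * ζ * r - w| ≤ (2002 / 1000) * |ζ| + |w| := by
    have a1 : |2 * ζ * r - w| ≤ |2 * ζ * r| + |w| := abs_sub _ _
    have a2 : |2 * ζ * r| = 2 * |ζ| * r := by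
      rw [abs_mul, abs_mul, abs_of_pos (by norm_num : (0:ℝ) < 2), abs_of_pos (by linarith only [hx1, hr] : 0 < r)]
    have a3 : 2 * |ζ| * r ≤ 2 * |ζ| * (1001 / 1000) :=
      mul_le_mul_of_nonneg_left (by linarith only [hx1, hr]) (by positivity)
    linarith
  calc thetad D r * (2 * ζ * r - w) ≤ |thetad D r * (2 * ζ * r - w)| := le_abs_self _
    _ = |thetad D r| * |2 * ζ * r - w| := abs_mul _ _
    _ ≤ (6 / D * z ^ 3) * ((2002 / 1000) * |ζ| + |w|) :=
        mul_le_mul h1 h2 (abs_nonneg _) (by positivity)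
    _ = (6 / D) * (z * (z ^ 2 * ((2002 / 1000) * |ζ| + |w|))) := by ring
    _ ≤ (6 / D) * (x * (z ^ 2 * ((2002 / 1000) * |ζ| + |w|))) := by
        apply mul_le_mul_of_nonneg_left _ (by positivity)
        exact mul_le_mul_of_nonneg_right hzx (by positivity)
    _ ≤ (6 / D) * (x * ((5 / 3) * (z ^ 4 + (ζ ^ 2 + w ^ 2)))) := by
        apply mul_le_mul_of_nonneg_left _ (by positivity)
        apply mul_le_mul_of_nonneg_left _ hx0
        have b1 : z ^ 2 * |ζ| ≤ (1 / 2) * z ^ 4 + (1 / 2) * ζ ^ 2 := by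
          linarith only [sq_nonneg (z ^ 2 - |ζ|), sq_abs ζ]
        have b2 : z ^ 2 * |w| ≤ (1 / 2) * z ^ 4 + (1 / 2) * w ^ 2 := by
          linarith only [sq_nonneg (z ^ 2 - |w|), sq_abs w]
        have b3 : 0 ≤ z ^ 4 := by positivity
        linarith only [b1, b2, b3, sq_nonneg ζ, sq_nonneg w]
    _ = _ := by ring

/-- early phase, the `theta` part -/
lemma TH_early (G : SimpleGraph (Fin n)) (x D δ : ℝ) (hn : 0 < n) (hE : 0 < numEdges G)
    (hx0 : 0 ≤ x) (hx1 : x ≤ 1 / 1000) (h : Sm G x)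
    (hδ : 0 < δ) (hδ1 : δ ≤ 1 / 2) (hD : 0 < D) (hD' : D ≤ 1e-6 * δ ^ 2)
    (hxD : 2 * x ^ 2 ≤ D) (hxδ : x < δ) (hc : 1000 / δ ≤ cc G) (hT : (triangles G).Nonempty) :
    ∑ t ∈ triangles G, TH D (removeTriangle G t) ≤
      (((triangles G).card : ℝ) - (94 / 100) * cc G) * TH D G +
      (10 * x / D) * cc G * (Z4 G + (2 * RF G + W2 G)) +
        (3 * 10 ^ 7 / D) * ((numEdges G : ℝ) / cc G) := by
  have hc1 : 1000 ≤ cc G := by
    refine le_trans ?_ hc
    rw [le_div_iff₀ hδ]; linarith only [hδ1]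
  have hc0 : 0 < cc G := by linarith only [hδ, hδ1, hc1]
  have hζ : |rho G - 1| ≤ x := rho_of_good G hn hE x h
  have h1 := theta_drift G δ D hδ hδ1 hD hD' hc (by linarith only [hx1, hζ]) hT
  have e1 : ∑ t ∈ triangles G, TH D (removeTriangle G t) = ∑ t ∈ triangles G,
      edgeSum (removeTriangle G t) (fun u v => theta D (rr (removeTriangle G t) u v)) := rfl
  have hTH := TH_nonneg' D hD G
  have e0 : edgeSum G (fun u v => theta D (rr G u v)) = TH D G := rfl
  rw [e0] at h1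
  rw [e1]
  refine h1.trans ?_
  -- the loss
  have t1 : cc G * ((1 - x) * TH D G) ≤ edgeSum G (fun u v => codeg G u v * theta D (rr G u v)) := by
    rw [← mul_assoc]
    unfold TH
    rw [← OS.edgeSum_mul]
    apply OS.edgeSum_mono
    intro u v huv
    apply mul_le_mul_of_nonneg_right _ (theta_nonneg D _ hD)
    rw [codeg_eq G hc0]
    apply mul_le_mul_of_nonneg_left _ hc0.le
    have := (abs_le.mp (h.adj u v huv)).1
    linarith only [this]
  -- the interaction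
  have t2 : edgeSum G (fun u v => thetad D (rr G u v) *
      (2 * (rho G - 1) * rr G u v - ww G u v)) ≤
      (10 * x / D) * (Z4 G + (2 * RF G + W2 G)) := by
    have a1 : edgeSum G (fun u v => thetad D (rr G u v) *
      (2 * (rho G - 1) * rr G u v - ww G u v)) ≤ edgeSum G (fun u v =>
        (10 * x / D) * (zz G u v ^ 4 + ((rho G - 1) ^ 2 * 1 + ww G u v ^ 2))) := by
      apply OS.edgeSum_mono
      intro u v huv
      have := th_point D (rr G u v) (ww G u v) (rho G - 1) x hD hx0 hx1 (h.adj u v huv)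
      rw [mul_one]
      exact this
    rw [OS.edgeSum_mul, OS.edgeSum_add, OS.edgeSum_add, edgeSum_zeta] at a1
    exact a1
  -- the noise
  have t3 : edgeSum G (fun u v => |thetad D (rr G u v)| * (4 * rr G u v + |ww G u v|)) +
      edgeSum G (fun u v => (2 * bg δ (rr G u v) + (1 - bg δ (rr G u v)) * (30 / D) *
          ((rr G u v - 1) ^ 2 + 16 / (cc G) ^ 2)) * (16 * rr G u v + 6 * |ww G u v|)) ≤
      (540 / D) * Z2 G + (8160 / (D * cc G ^ 2)) * (2 * numEdges G) := by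
    rw [← OS.edgeSum_add]
    have a1 : edgeSum G (fun u v => |thetad D (rr G u v)| * (4 * rr G u v + |ww G u v|) +
        (2 * bg δ (rr G u v) + (1 - bg δ (rr G u v)) * (30 / D) *
          ((rr G u v - 1) ^ 2 + 16 / (cc G) ^ 2)) * (16 * rr G u v + 6 * |ww G u v|)) ≤
        edgeSum G (fun u v => (540 / D) * zz G u v ^ 2 + (8160 / (D * cc G ^ 2)) * 1) := by
      apply OS.edgeSum_mono
      intro u v huv
      have hz := h.adj u v huv
      have hr := rr_bounds G x h u v (G.ne_of_adj huv)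
      have hw := ww_small G x hc0 hx0 hx1 h u v (G.ne_of_adj huv)
      have hw0 := abs_nonneg (ww G u v)
      have hbg : bg δ (rr G u v) = 0 := by
        unfold bg
        have : |rr G u v - 1| < δ := lt_of_le_of_lt hz hxδ
        rw [if_neg (not_le.mpr this)]
      have htd := thetad_near D (rr G u v) x hD hx1 hz
      rw [hbg]
      have ez : zz G u v = rr G u v - 1 := rfl
      rw [ez]
      have b1 : |rr G u v - 1| ^ 3 ≤ (1 / 1000) * (rr G u v - 1) ^ 2 := by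
        have : |rr G u v - 1| ^ 3 = |rr G u v - 1| * (rr G u v - 1) ^ 2 := by
          rw [← sq_abs (rr G u v - 1)]; ring
        rw [this]
        apply mul_le_mul_of_nonneg_right _ (sq_nonneg _)
        exact hz.trans hx1
      have b2 : |thetad D (rr G u v)| * (4 * rr G u v + |ww G u v|) ≤
          (1 / D) * (rr G u v - 1) ^ 2 := by
        calc |thetad D (rr G u v)| * (4 * rr G u v + |ww G u v|)
            ≤ (6 / D * |rr G u v - 1| ^ 3) * 5 :=
              mul_le_mul htd (by linarith only [hx1, hr, hw]) (by linarith only [hδ1, hxδ, hr, hw0]) (by positivity)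
          _ ≤ (6 / D * ((1 / 1000) * (rr G u v - 1) ^ 2)) * 5 := by
              apply mul_le_mul_of_nonneg_right _ (by norm_num)
              exact mul_le_mul_of_nonneg_left b1 (by positivity)
          _ = (3 / 100) * ((1 / D) * (rr G u v - 1) ^ 2) := by ring
          _ ≤ _ := by
              have : 0 ≤ (1 / D) * (rr G u v - 1) ^ 2 := by positivity
              linarith only [this]
      have b3 : (2 * (0:ℝ) + (1 - 0) * (30 / D) * ((rr G u v - 1) ^ 2 + 16 / (cc G) ^ 2)) *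
          (16 * rr G u v + 6 * |ww G u v|) ≤
          (510 / D) * (rr G u v - 1) ^ 2 + 8160 / (D * cc G ^ 2) := by
        calc (2 * (0:ℝ) + (1 - 0) * (30 / D) * ((rr G u v - 1) ^ 2 + 16 / (cc G) ^ 2)) *
          (16 * rr G u v + 6 * |ww G u v|)
            ≤ (2 * (0:ℝ) + (1 - 0) * (30 / D) * ((rr G u v - 1) ^ 2 + 16 / (cc G) ^ 2)) * 17 :=
              mul_le_mul_of_nonneg_left (by linarith only [hx1, hr, hw]) (by positivity)
          _ = _ := by field_simp; ring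
      have b4 : 0 ≤ (1 / D) * (rr G u v - 1) ^ 2 := by positivity
      have e6 : (540 / D) * (rr G u v - 1) ^ 2 = (510 / D) * (rr G u v - 1) ^ 2 +
        30 * ((1 / D) * (rr G u v - 1) ^ 2) := by ring
      rw [e6]
      linarith only [b2, b3, b4]
    rw [OS.edgeSum_add G (fun u v => (540 / D) * zz G u v ^ 2), OS.edgeSum_mul, OS.edgeSum_mul,
      OS.edgeSum_one] at a1
    exact a1
  have t4 := Z2_le G hc0 (1 / 10 ^ 5) (by norm_num)
  have t5 := Z4_le_TH G D x hD hx1 hxD h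
  have hZ := Z4_nonneg G
  have t6 : (540 / D) * Z2 G ≤ (44 / 1000) * cc G * TH D G +
      (27 * 10 ^ 6 / D) * ((numEdges G : ℝ) / cc G) := by
    have a1 := mul_le_mul_of_nonneg_left t4 (show 0 ≤ 540 / D by positivity)
    have a2 : 540 / D * (1 / 10 ^ 5 * cc G * Z4 G) ≤ (44 / 1000) * cc G * TH D G := by
      calc 540 / D * (1 / 10 ^ 5 * cc G * Z4 G) ≤ 540 / D * (1 / 10 ^ 5 * cc G * (8 * D * TH D G)) := by
            apply mul_le_mul_of_nonneg_left _ (by positivity)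
            exact mul_le_mul_of_nonneg_left t5 (by positivity)
        _ = (432 / 10000) * (cc G * TH D G) := by field_simp; ring
        _ ≤ _ := by
            have : 0 ≤ cc G * TH D G := by positivity
            linarith only [this]
    have a3 : 540 / D * (1 / (4 * (1 / 10 ^ 5)) * (2 * (numEdges G : ℝ)) / cc G) =
        (27 * 10 ^ 6 / D) * ((numEdges G : ℝ) / cc G) := by ring
    rw [mul_add, a3] at a1
    linarith only [a1, a2]
  have t7 : (8160 / (D * cc G ^ 2)) * (2 * (numEdges G : ℝ)) ≤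
      (20 / D) * ((numEdges G : ℝ) / cc G) := by
    have e7 : (8160 / (D * cc G ^ 2)) * (2 * (numEdges G : ℝ)) =
      (16320 / cc G) * ((1 / D) * ((numEdges G : ℝ) / cc G)) := by
      field_simp
      try ring
    rw [e7]
    have a1 : 16320 / cc G ≤ 20 := by rw [div_le_iff₀ hc0]; linarith only [hc1]
    calc (16320 / cc G) * ((1 / D) * ((numEdges G : ℝ) / cc G)) ≤
          20 * ((1 / D) * ((numEdges G : ℝ) / cc G)) :=
          mul_le_mul_of_nonneg_right a1 (by positivity)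
      _ = _ := by ring
  have t8 := mul_le_mul_of_nonneg_left t2 hc0.le
  have t9 : cc G * TH D G * x ≤ cc G * TH D G * (1 / 1000) :=
    mul_le_mul_of_nonneg_left hx1 (by positivity)
  have e8 : (3 * 10 ^ 7 / D) * ((numEdges G : ℝ) / cc G) = (27 * 10 ^ 6 / D) * ((numEdges G : ℝ) / cc G) +
      (20 / D) * ((numEdges G : ℝ) / cc G) + ((3 * 10 ^ 6 - 20) / D) * ((numEdges G : ℝ) / cc G) := by
    ring
  have e9 : 0 ≤ ((3 * 10 ^ 6 - 20) / D) * ((numEdges G : ℝ) / cc G) := by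
    apply mul_nonneg _ (by positivity)
    apply div_nonneg _ hD.le
    norm_num
  have hnn : 0 ≤ cc G * TH D G := by positivity
  linarith only [t1, t3, t6, t7, t8, t9, e8, e9, hnn]

end Vale.Agent.P046.C.Ea
end
end

section

section

set_option autoImplicit false

open scoped Classical
open Finset

namespace Vale.Agent.P046.C.Ea

open Vale.Agent.P046
open Vale.Agent.P046.OS (triSum triSum_swap12 triSum_swap23 triSum_add triSum_mul triSum_mono
  edgeSum_codeg_mul codeg_comm codeg_real codeg_le)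

variable {n : ℕ}

/-- early phase, the density part -/
lemma RF_early (G : SimpleGraph (Fin n)) (x : ℝ) (hn : 0 < n) (hE : 0 < numEdges G)
    (hx0 : 0 ≤ x) (hx1 : x ≤ 1 / 1000) (h : Sm G x) (hc : 1000 ≤ cc G) (hcn : cc G ≤ n)
    (hT : (triangles G).Nonempty) :
    ∑ t ∈ triangles G, RF (removeTriangle G t) ≤
      (((triangles G).card : ℝ) - (8 / 10) * cc G) * RF G + 100 * cc G * Z4 G +
        4000 * ((numEdges G : ℝ) / cc G) := by
  have hc0 : 0 < cc G := by linarith only [hc]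
  have hn0 : (0:ℝ) < n := by exact_mod_cast hn
  have hE0 : (0:ℝ) < numEdges G := by exact_mod_cast hE
  have hζ : |rho G - 1| ≤ x := rho_of_good G hn hE x h
  have h1 := R_drift G hc (hζ.trans hx1) hT
  have e1 : ∑ t ∈ triangles G, RF (removeTriangle G t) = ∑ t ∈ triangles G,
      (numEdges (removeTriangle G t) : ℝ) * (rho (removeTriangle G t) - 1) ^ 2 := rfl
  have e0 : (numEdges G : ℝ) * (rho G - 1) ^ 2 = RF G := rfl
  rw [e0] at h1
  rw [e1]
  refine h1.trans ?_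
  have hR : 0 ≤ RF G := by unfold RF; positivity
  -- interaction
  have t1 : |rho G - 1| * edgeSum G (fun u v => (rr G u v - 1) ^ 2) ≤ (1 / 50) * RF G + 25 * Z4 G := by
    have a1 : edgeSum G (fun u v => |rho G - 1| * (rr G u v - 1) ^ 2) ≤
        edgeSum G (fun u v => (1 / 100) * ((rho G - 1) ^ 2 * 1) + 25 * zz G u v ^ 4) := by
      apply OS.edgeSum_mono
      intro u v _
      have ez : zz G u v = rr G u v - 1 := rfl
      rw [ez]
      obtain ⟨z, hz⟩ : ∃ z, z = rr G u v - 1 := ⟨_, rfl⟩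
      obtain ⟨y, hy⟩ : ∃ y, y = |rho G - 1| := ⟨_, rfl⟩
      rw [← hz, ← hy, ← sq_abs (rho G - 1), ← hy]
      linarith only [sq_nonneg (y - 50 * z ^ 2)]
    rw [OS.edgeSum_mul, OS.edgeSum_add, OS.edgeSum_mul, edgeSum_zeta, OS.edgeSum_mul] at a1
    have e5 : edgeSum G (fun u v => zz G u v ^ 4) = Z4 G := rfl
    rw [e5] at a1
    linarith only [a1]
  have t2 : 4 * cc G * |rho G - 1| * edgeSum G (fun u v => (rr G u v - 1) ^ 2) ≤
      (8 / 100) * cc G * RF G + 100 * cc G * Z4 G := by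
    have := mul_le_mul_of_nonneg_left t1 (show 0 ≤ 4 * cc G by positivity)
    linarith only [this]
  -- last term
  have t3 : edgeSum G (fun u v => rr G u v * (rr G u v - 1) ^ 2) ≤ (1 / 1000) * (2 * numEdges G) := by
    rw [← OS.edgeSum_one G, ← OS.edgeSum_mul]
    apply OS.edgeSum_mono
    intro u v huv
    have hr := rr_bounds G x h u v (G.ne_of_adj huv)
    have hz := h.adj u v huv
    have ez : zz G u v = rr G u v - 1 := rfl
    rw [ez] at hz
    have a1 : (rr G u v - 1) ^ 2 ≤ (1 / 1000) ^ 2 := by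
      rw [← sq_abs]
      exact pow_le_pow_left₀ (abs_nonneg _) (hz.trans hx1) 2
    calc rr G u v * (rr G u v - 1) ^ 2 ≤ 2 * (1 / 1000) ^ 2 :=
          mul_le_mul (by linarith only [hx1, hr]) a1 (sq_nonneg _) (by norm_num)
      _ ≤ _ := by norm_num
  have t4 : 60 * cc G / (numEdges G : ℝ) * edgeSum G (fun u v => rr G u v * (rr G u v - 1) ^ 2) ≤
      (numEdges G : ℝ) / cc G := by
    have a1 := cc_div_E G hn hE
    have a2 : 2 / (n:ℝ) ≤ 2 / cc G := div_le_div_of_nonneg_left (by norm_num) hc0 hcn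
    have a3 : 60 * cc G / (numEdges G : ℝ) ≤ 120 / cc G := by
      have : 60 * cc G / (numEdges G : ℝ) = 60 * (cc G / (numEdges G : ℝ)) := by ring
      rw [this]
      have : 120 / cc G = 60 * (2 / cc G) := by ring
      rw [this]
      linarith only [a1, a2]
    have hnn : 0 ≤ edgeSum G (fun u v => rr G u v * (rr G u v - 1) ^ 2) :=
      Vale.Agent.P046.edgeSum_nonneg G _ fun u v huv => by
        have hr := rr_bounds G x h u v (G.ne_of_adj huv)
        have : 0 ≤ rr G u v := by linarith only [hx1, hr]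
        positivity
    calc 60 * cc G / (numEdges G : ℝ) * edgeSum G (fun u v => rr G u v * (rr G u v - 1) ^ 2)
        ≤ (120 / cc G) * ((1 / 1000) * (2 * numEdges G)) :=
          mul_le_mul a3 t3 hnn (by positivity)
      _ = (240 / 1000) * ((numEdges G : ℝ) / cc G) := by ring
      _ ≤ _ := by
          have : 0 ≤ (numEdges G : ℝ) / cc G := by positivity
          linarith only [this]
  have t5 : 0 ≤ (numEdges G : ℝ) / cc G := by positivity
  have t6 : 0 ≤ cc G * RF G := by positivity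
  linarith only [t2, t4, t5, t6]

/-- the early phase inequality for the full functional -/
theorem FF_early (G : SimpleGraph (Fin n)) (s0 d β D μ δ : ℝ) (hn : 0 < n)
    (hs0 : 0 < s0) (hs1 : s0 ≤ 1 / 10 ^ 6) (hd1 : d ≤ 1) (hd : 3 * s0 ≤ d)
    (hβ : 0 < β) (hD : 0 < D) (hδ : 0 < δ) (hδ1 : δ ≤ 1 / 2) (hD' : D ≤ 1e-6 * δ ^ 2)
    (hμ : 40 ≤ μ) (hDβ : (3440 + 800 * μ) * D ≤ β) (hsD : 2 * s0 ^ 2 ≤ D) (hsδ : s0 < δ)
    (hsβ : 100 * β * s0 ≤ D) (hc : 1000 / δ ≤ cc G) (hcn : cc G ≤ n)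
    (hcd : 2892800 ≤ d * cc G ^ 2)
    (h4 : (n : ℝ) ^ 3 ≤ s0 ^ 2 * cc G ^ 4) (hG : Good s0 G) :
    ∑ t ∈ triangles G, FF d β D μ (removeTriangle G t) ≤
      (((triangles G).card : ℝ) + (1 / 2) * cc G) * FF d β D μ G +
        (300000 + β * (3 * 10 ^ 7 / D) + 4000 * μ) *
          ((numEdges G : ℝ) / cc G + wheels G / cc G ^ 3) := by
  have hc1 : 1000 ≤ cc G := by
    refine le_trans ?_ hc
    rw [le_div_iff₀ hδ]; linarith only [hδ1]
  have hc0 : 0 < cc G := by linarith only [hc1]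
  have hn0 : (0:ℝ) < n := by exact_mod_cast hn
  have hE0 : (0:ℝ) < numEdges G := by
    by_contra hneg
    push Not at hneg
    have : (numEdges G : ℝ) = 0 := le_antisymm hneg (by positivity)
    unfold cc at hc0
    rw [this] at hc0
    simp at hc0
  have hE : 0 < numEdges G := by exact_mod_cast hE0
  have h : Sm G s0 := by
    intro u v huv
    refine (hG u v huv).trans ?_
    have h1 : cc G / n ≤ 1 := by rw [div_le_one hn0]; exact hcn
    have h2 : 0 ≤ cc G / n := by positivity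
    nlinarith only [hs0, h1]
  have hx1 : s0 ≤ 1 / 1000 := by linarith only [hs1]
  have hζ : |rho G - 1| ≤ s0 := rho_of_good G hn hE s0 h
  have hT : (triangles G).Nonempty := nonempty_of_rho G (by linarith only [hs1, hζ])
  have m1 := M_early G s0 d hn hE hc1 hcn hs0 hs1 h4 hG h hd1 hd hcd
  have m2 := TH_early G s0 D δ hn hE hs0.le hx1 h hδ hδ1 hD hD' hsD hsδ hc hT
  have m3 := RF_early G s0 hn hE hs0.le hx1 h hc1 hcn hT
  have m4 := Z4_le_TH G D s0 hD hx1 hsD h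
  have e1 : ∑ t ∈ triangles G, FF d β D μ (removeTriangle G t) =
      ∑ t ∈ triangles G, MM d (removeTriangle G t) +
      β * ∑ t ∈ triangles G, TH D (removeTriangle G t) +
      μ * ∑ t ∈ triangles G, RF (removeTriangle G t) := by
    unfold FF
    rw [Finset.sum_add_distrib, Finset.sum_add_distrib, Finset.mul_sum, Finset.mul_sum]
  have hW : 0 ≤ MM d G := MM_nonneg d (by linarith only [hs0, hd]) G
  have hWM : W2 G = MM d G := (MM_eq G s0 d hc0 hs0.le hx1 h hd).symm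
  have hTH := TH_nonneg' D hD G
  have hR : 0 ≤ RF G := by unfold RF; positivity
  have hZ := Z4_nonneg G
  have hEc : 0 ≤ (numEdges G : ℝ) / cc G := by positivity
  have hWc : 0 ≤ wheels G / cc G ^ 3 := div_nonneg (wheels_nonneg G) (by positivity)
  have hμ0 : 0 < μ := by linarith only [hs0, hs1, hμ]
  rw [hWM] at m2
  -- small coefficient
  have k1 : β * (10 * s0 / D) ≤ 1 / 10 := by
    rw [← mul_div_assoc, div_le_iff₀ hD]; linarith only [hsβ]
  have k1' : 0 ≤ β * (10 * s0 / D) := by positivity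
  have m2' := mul_le_mul_of_nonneg_left m2 hβ.le
  have m3' := mul_le_mul_of_nonneg_left m3 hμ0.le
  have k2 : β * ((10 * s0 / D) * cc G * (Z4 G + (2 * RF G + MM d G))) ≤
      (1 / 10) * (cc G * (Z4 G + (2 * RF G + MM d G))) := by
    calc β * ((10 * s0 / D) * cc G * (Z4 G + (2 * RF G + MM d G))) =
          (β * (10 * s0 / D)) * (cc G * (Z4 G + (2 * RF G + MM d G))) := by ring
      _ ≤ _ := mul_le_mul_of_nonneg_right k1 (by positivity)
  have k3 : (430 + 100 * μ) * (cc G * Z4 G) ≤ β * (cc G * TH D G) := by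
    calc (430 + 100 * μ) * (cc G * Z4 G) ≤ (430 + 100 * μ) * (cc G * (8 * D * TH D G)) := by
          apply mul_le_mul_of_nonneg_left _ (by positivity)
          exact mul_le_mul_of_nonneg_left m4 hc0.le
      _ = ((3440 + 800 * μ) * D) * (cc G * TH D G) := by ring
      _ ≤ β * (cc G * TH D G) := mul_le_mul_of_nonneg_right hDβ (by positivity)
  have k4 : (1 / 10) * (cc G * Z4 G) ≤ (1 / 100) * ((430 + 100 * μ) * (cc G * Z4 G)) := by
    have : 0 ≤ cc G * Z4 G := by positivity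
    nlinarith only [this, hμ]
  have k5 : 40 * (cc G * RF G) ≤ μ * (cc G * RF G) :=
    mul_le_mul_of_nonneg_right hμ (by positivity)
  have k6 : 0 ≤ cc G * MM d G := by positivity
  have k7 : 0 ≤ β * (cc G * TH D G) := by positivity
  have k8 : 0 ≤ cc G * RF G := by positivity
  have k9 : 0 ≤ β * (3 * 10 ^ 7 / D) * (wheels G / cc G ^ 3) := by positivity
  have k10 : 0 ≤ 4000 * μ * (wheels G / cc G ^ 3) := by positivity
  have k11 : 0 ≤ μ * (cc G * RF G) := by positivity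
  rw [e1]
  unfold FF
  obtain ⟨T, hTd⟩ : ∃ T, T = ((triangles G).card : ℝ) := ⟨_, rfl⟩
  rw [← hTd] at m1 m2' m3' ⊢
  obtain ⟨EC, hEC⟩ : ∃ EC, EC = (numEdges G : ℝ) / cc G := ⟨_, rfl⟩
  obtain ⟨WC, hWC⟩ : ∃ WC, WC = wheels G / cc G ^ 3 := ⟨_, rfl⟩
  rw [← hEC, ← hWC] at m1 ⊢
  rw [← hEC] at m2' m3'
  rw [← hWC] at k9 k10
  have g1 : β * ((T - 94 / 100 * cc G) * TH D G +
      10 * s0 / D * cc G * (Z4 G + (2 * RF G + MM d G)) + 3 * 10 ^ 7 / D * EC) =
      T * (β * TH D G) - (94 / 100) * (β * (cc G * TH D G)) +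
      β * ((10 * s0 / D) * cc G * (Z4 G + (2 * RF G + MM d G))) + β * (3 * 10 ^ 7 / D) * EC := by
    ring
  have g2 : μ * ((T - 8 / 10 * cc G) * RF G + 100 * cc G * Z4 G + 4000 * EC) =
      T * (μ * RF G) - (8 / 10) * (μ * (cc G * RF G)) + (100 * μ) * (cc G * Z4 G) +
        4000 * μ * EC := by ring
  rw [g1] at m2'
  rw [g2] at m3'
  have g3 : (T + 1 / 2 * cc G) * (MM d G + β * TH D G + μ * RF G) +
      (300000 + β * (3 * 10 ^ 7 / D) + 4000 * μ) * (EC + WC) =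
      T * MM d G + T * (β * TH D G) + T * (μ * RF G) + (1 / 2) * (cc G * MM d G) +
      (1 / 2) * (β * (cc G * TH D G)) + (1 / 2) * (μ * (cc G * RF G)) +
      300000 * (EC + WC) + β * (3 * 10 ^ 7 / D) * EC + β * (3 * 10 ^ 7 / D) * WC +
      4000 * μ * EC + 4000 * μ * WC := by ring
  rw [g3]
  have g4 : (T + 1 / 10 * cc G) * MM d G + 430 * cc G * Z4 G + 41 * cc G * RF G +
      300000 * (EC + WC) = T * MM d G + (1 / 10) * (cc G * MM d G) + 430 * (cc G * Z4 G) +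
      41 * (cc G * RF G) + 300000 * (EC + WC) := by ring
  rw [g4] at m1
  have g5 : (1 / 10) * (cc G * (Z4 G + (2 * RF G + MM d G))) = (1 / 10) * (cc G * Z4 G) +
      (2 / 10) * (cc G * RF G) + (1 / 10) * (cc G * MM d G) := by ring
  rw [g5] at k2
  have g6 : (430 + 100 * μ) * (cc G * Z4 G) = 430 * (cc G * Z4 G) + (100 * μ) * (cc G * Z4 G) := by
    ring
  rw [g6] at k3 k4
  linarith only [k2, k3, k4, k5, k6, k7, k8, m3', m2', k10, k9, m1]

end Vale.Agent.P046.C.Ea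
end
end

section

section

set_option autoImplicit false

open scoped Classical
open Finset

namespace Vale.Agent.P046.C.K

open Vale.Agent.P046 Vale.Agent.P046.C
open Vale.Agent.P046.OS (triSum triSum_swap12 triSum_swap23 triSum_add triSum_mul triSum_mono
  edgeSum_codeg_mul codeg_comm card_triangles_not_edge codeg_real codeg_le rr_nonneg)
open Vale.Agent.P046.LB (sum_edgeSum_remove)

variable {n : ℕ}

lemma amgm (τ x y : ℝ) (hτ : 0 < τ) : x * y ≤ τ / 2 * x ^ 2 + 1 / (2 * τ) * y ^ 2 := by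
  have e : τ / 2 * x ^ 2 + 1 / (2 * τ) * y ^ 2 - x * y = (τ * x - y) ^ 2 / (2 * τ) := by
    field_simp; ring
  have : 0 ≤ (τ * x - y) ^ 2 / (2 * τ) := by positivity
  linarith

lemma pt_A2 (d δ τ a m p x : ℝ) (hδ : 0 < δ) (hτ : 0 < τ) (ha : |a| ≤ d)
    (ham : a ^ 2 ≤ m) :
    |a| * (x - 1) ^ 2 ≤ d * ((x - 1) ^ 2 * bg δ x) + d * ((p - 1) ^ 2 * bg δ p) +
      τ / 2 * ((1 - bg δ p) * m) + 1 / (2 * τ) * ((x - 1) ^ 4 * (1 - bg δ x)) := by
  have hd : 0 ≤ d := le_trans (abs_nonneg _) ha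
  have hm : 0 ≤ m := le_trans (sq_nonneg _) ham
  rcases bg_cases δ x with ⟨h1, h2⟩ | ⟨h1, h2⟩
  · rw [h2]
    have := mul_le_mul_of_nonneg_right ha (sq_nonneg (x - 1))
    have h3 : 0 ≤ d * ((p - 1) ^ 2 * bg δ p) := mul_nonneg hd (mul_nonneg (sq_nonneg _) (bg_nonneg _ _))
    have h4 : 0 ≤ τ / 2 * ((1 - bg δ p) * m) := by
      have := bg_le_one δ p
      have : 0 ≤ (1 - bg δ p) := by linarith
      positivity
    linarith
  · rcases bg_cases δ p with ⟨g1, g2⟩ | ⟨g1, g2⟩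
    · rw [h2, g2]
      have h3 : (x - 1) ^ 2 ≤ (p - 1) ^ 2 := by
        rw [← sq_abs (x - 1), ← sq_abs (p - 1)]
        exact pow_le_pow_left₀ (abs_nonneg _) (by linarith) 2
      have h4 : |a| * (x - 1) ^ 2 ≤ d * (p - 1) ^ 2 :=
        mul_le_mul ha h3 (sq_nonneg _) hd
      have h5 : 0 ≤ 1 / (2 * τ) * ((x - 1) ^ 4 * (1 - 0)) := by positivity
      linarith
    · rw [h2, g2]
      have h3 := amgm τ |a| ((x - 1) ^ 2) hτ
      rw [sq_abs] at h3
      have h4 : τ / 2 * a ^ 2 ≤ τ / 2 * m := mul_le_mul_of_nonneg_left ham (by positivity)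
      have e : ((x - 1) ^ 2) ^ 2 = (x - 1) ^ 4 := by ring
      rw [e] at h3
      linarith

/-- (A2) -/
lemma abs_A2 (G : SimpleGraph (Fin n)) (hc : 0 < cc G) (d δ τ : ℝ) (hd : 0 < d) (hδ : 0 < δ)
    (hδ1 : δ ≤ 1) (hτ : 0 < τ) :
    -(2 * triSum G (fun u v x => clip d (ww G u v) * (zz G u x + zz G v x) ^ 2)) ≤
      16 * d * (cc G * NN δ G) + 8 * τ * (cc G * MM d G) + 8 / τ * (cc G * QQ δ G) := by
  have h1 : triSum G (fun u v x => (-2) * (clip d (ww G u v) * (zz G u x + zz G v x) ^ 2)) ≤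
      triSum G (fun u v x =>
        (((4 * d) * ((rr G u x - 1) ^ 2 * bg δ (rr G u x)) +
        (4 * d) * ((rr G v x - 1) ^ 2 * bg δ (rr G v x))) +
        ((8 * d) * ((rr G u v - 1) ^ 2 * bg δ (rr G u v)) +
        (4 * τ) * ((1 - bg δ (rr G u v)) * huber d (ww G u v)))) +
        ((2 / τ) * ((rr G u x - 1) ^ 4 * (1 - bg δ (rr G u x))) +
        (2 / τ) * ((rr G v x - 1) ^ 4 * (1 - bg δ (rr G v x))))) := by
    refine triSum_mono G _ _ fun u v x _ _ _ => ?_
    have p1 := pt_A2 d δ τ (clip d (ww G u v)) (huber d (ww G u v)) (rr G u v) (rr G u x) hδ hτ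
      (clip_abs d _ hd) (clip_sq_le d _ hd)
    have p2 := pt_A2 d δ τ (clip d (ww G u v)) (huber d (ww G u v)) (rr G u v) (rr G v x) hδ hτ
      (clip_abs d _ hd) (clip_sq_le d _ hd)
    have h2 : (-2) * (clip d (ww G u v) * (zz G u x + zz G v x) ^ 2) ≤
        4 * (|clip d (ww G u v)| * (rr G u x - 1) ^ 2) +
        4 * (|clip d (ww G u v)| * (rr G v x - 1) ^ 2) := by
      unfold zz
      have h3 : (rr G u x - 1 + (rr G v x - 1)) ^ 2 ≤
          2 * (rr G u x - 1) ^ 2 + 2 * (rr G v x - 1) ^ 2 := by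
        linarith only [sq_nonneg ((rr G u x - 1) - (rr G v x - 1))]
      have h4 : (-2) * (clip d (ww G u v) * (rr G u x - 1 + (rr G v x - 1)) ^ 2) ≤
          2 * (|clip d (ww G u v)| * (rr G u x - 1 + (rr G v x - 1)) ^ 2) := by
        have h5 := neg_abs_le (clip d (ww G u v))
        have h6 := mul_le_mul_of_nonneg_right h5 (sq_nonneg (rr G u x - 1 + (rr G v x - 1)))
        linarith only [h6]
      have h5 := mul_le_mul_of_nonneg_left h3 (abs_nonneg (clip d (ww G u v)))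
      linarith only [h4, h5]
    have e1 : 2 / τ = 4 * (1 / (2 * τ)) := by field_simp; ring
    rw [e1]
    linarith
  rw [triSum_mul] at h1
  have h2 : triSum G (fun u v x =>
        (((4 * d) * ((rr G u x - 1) ^ 2 * bg δ (rr G u x)) +
        (4 * d) * ((rr G v x - 1) ^ 2 * bg δ (rr G v x))) +
        ((8 * d) * ((rr G u v - 1) ^ 2 * bg δ (rr G u v)) +
        (4 * τ) * ((1 - bg δ (rr G u v)) * huber d (ww G u v)))) +
        ((2 / τ) * ((rr G u x - 1) ^ 4 * (1 - bg δ (rr G u x))) +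
        (2 / τ) * ((rr G v x - 1) ^ 4 * (1 - bg δ (rr G v x))))) =
      16 * d * (cc G * NN δ G) +
      4 * τ * (cc G * edgeSum G (fun u v => rr G u v * ((1 - bg δ (rr G u v)) *
        huber d (ww G u v)))) +
      4 / τ * (cc G * edgeSum G (fun u v => rr G u v * ((rr G u v - 1) ^ 4 *
        (1 - bg δ (rr G u v))))) := by
    rw [triSum_add, triSum_add, triSum_add, triSum_add, triSum_add, triSum_mul, triSum_mul,
      triSum_mul, triSum_mul, triSum_mul, triSum_mul,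
      tri_ux G hc.ne' (fun u v => (rr G u v - 1) ^ 2 * bg δ (rr G u v)),
      tri_vx G hc.ne' (fun u v => (rr G u v - 1) ^ 2 * bg δ (rr G u v)),
      tri_uv G hc.ne' (fun u v => (rr G u v - 1) ^ 2 * bg δ (rr G u v)),
      tri_uv G hc.ne' (fun u v => (1 - bg δ (rr G u v)) * huber d (ww G u v)),
      tri_ux G hc.ne' (fun u v => (rr G u v - 1) ^ 4 * (1 - bg δ (rr G u v))),
      tri_vx G hc.ne' (fun u v => (rr G u v - 1) ^ 4 * (1 - bg δ (rr G u v)))]
    unfold NN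
    ring
  rw [h2] at h1
  have h3 : edgeSum G (fun u v => rr G u v * ((1 - bg δ (rr G u v)) *
        huber d (ww G u v))) ≤ 2 * MM d G := by
    unfold MM
    rw [← edgeSum_mul]
    refine edgeSum_mono G _ _ fun u v _ => ?_
    have hm := huber_nonneg d (ww G u v) hd
    rcases bg_cases δ (rr G u v) with ⟨g1, g2⟩ | ⟨g1, g2⟩
    · rw [g2]; linarith only [hm]
    · rw [g2]
      have : rr G u v ≤ 2 := by
        have := (abs_lt.mp g1).2
        linarith only [hδ1, this]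
      have := mul_le_mul_of_nonneg_right this hm
      linarith only [this]
  have h4 : edgeSum G (fun u v => rr G u v * ((rr G u v - 1) ^ 4 *
        (1 - bg δ (rr G u v)))) ≤ 2 * QQ δ G := by
    unfold QQ
    rw [← edgeSum_mul]
    refine edgeSum_mono G _ _ fun u v _ => ?_
    have hm : 0 ≤ (rr G u v - 1) ^ 4 := by positivity
    rcases bg_cases δ (rr G u v) with ⟨g1, g2⟩ | ⟨g1, g2⟩
    · rw [g2]; linarith only []
    · rw [g2]
      have : rr G u v ≤ 2 := by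
        have := (abs_lt.mp g1).2
        linarith only [hδ1, this]
      have := mul_le_mul_of_nonneg_right this hm
      linarith only [this]
  have h5 := mul_le_mul_of_nonneg_left h3 (by positivity : 0 ≤ 4 * τ * cc G)
  have h6 := mul_le_mul_of_nonneg_left h4 (by positivity : 0 ≤ 4 / τ * cc G)
  have e8 : 8 / τ * (cc G * QQ δ G) = 4 / τ * cc G * (2 * QQ δ G) := by ring
  rw [e8]
  linarith only [h1, h5, h6]

/-- (A3) -/
lemma abs_A3 (G : SimpleGraph (Fin n)) (hc : 0 < cc G) (d η τ : ℝ) (hd : 0 < d)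
    (hτ : 0 < τ) (hη : |rho G - 1| ≤ η) :
    8 * cc G * (rho G - 1) * edgeSum G (fun u v => clip d (ww G u v) *
        (ww G u v + rr G u v)) ≤
      (8 * η + 4 * τ) * (cc G * MM d G) + 1152 / τ * (cc G * RF G) +
        η * d * (cc G * HH G) := by
  have hη0 : 0 ≤ η := le_trans (abs_nonneg _) hη
  have h1 : edgeSum G (fun u v => (rho G - 1) * (clip d (ww G u v) *
        (ww G u v + rr G u v))) ≤
      edgeSum G (fun u v => ((η + τ / 2) * huber d (ww G u v) +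
        (η * d / 144) * (rr G u v * hv (rr G u v))) + (72 / τ * (rho G - 1) ^ 2) * 1) := by
    refine edgeSum_mono G _ _ fun u v _ => ?_
    obtain ⟨a, ha⟩ : ∃ a, a = clip d (ww G u v) := ⟨_, rfl⟩
    have ha1 := clip_abs d (ww G u v) hd
    have ha2 := clip_sq_le d (ww G u v) hd
    have ha3 := clip_mul_le d (ww G u v) hd
    have ha4 := clip_mul_nonneg d (ww G u v) hd
    have hr := rr_nonneg G u v
    have hhv := hv_nonneg (rr G u v)
    rw [← ha] at ha1 ha2 ha3 ha4 ⊢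
    have t1 : (rho G - 1) * (a * ww G u v) ≤ η * huber d (ww G u v) :=
      mul_le_mul ((le_abs_self _).trans hη) ha3 ha4 hη0
    have t2 : (rho G - 1) * (a * rr G u v) ≤ |rho G - 1| * |a| * rr G u v := by
      have : (rho G - 1) * a ≤ |rho G - 1| * |a| := by
        rw [← abs_mul]; exact le_abs_self _
      have := mul_le_mul_of_nonneg_right this hr
      linarith only [this]
    have t3 : |rho G - 1| * |a| * rr G u v ≤ τ / 2 * huber d (ww G u v) +
        72 / τ * (rho G - 1) ^ 2 + (η * d / 144) * (rr G u v * hv (rr G u v)) := by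
      rcases le_or_gt (rr G u v) 12 with h12 | h12
      · have g1 : |rho G - 1| * |a| * rr G u v ≤ |rho G - 1| * |a| * 12 :=
          mul_le_mul_of_nonneg_left h12 (by positivity)
        have g2 := amgm τ |a| (12 * |rho G - 1|) hτ
        rw [sq_abs, mul_pow, sq_abs] at g2
        have g3 : 1 / (2 * τ) * (12 ^ 2 * (rho G - 1) ^ 2) = 72 / τ * (rho G - 1) ^ 2 := by
          field_simp; ring
        have g4 : τ / 2 * a ^ 2 ≤ τ / 2 * huber d (ww G u v) :=
          mul_le_mul_of_nonneg_left ha2 (by positivity)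
        have g5 : 0 ≤ (η * d / 144) * (rr G u v * hv (rr G u v)) := by positivity
        linarith
      · have e : hv (rr G u v) = rr G u v ^ 2 := by unfold hv; rw [if_pos h12]
        have g1 : |rho G - 1| * |a| ≤ η * d := mul_le_mul hη ha1 (abs_nonneg _) hη0
        have g2 : |rho G - 1| * |a| * rr G u v ≤ η * d * rr G u v :=
          mul_le_mul_of_nonneg_right g1 hr
        have g3 : 0 ≤ τ / 2 * huber d (ww G u v) := by
          have := huber_nonneg d (ww G u v) hd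
          positivity
        have g4 : 0 ≤ 72 / τ * (rho G - 1) ^ 2 := by positivity
        have g5 : η * d * rr G u v ≤ (η * d / 144) * (rr G u v * hv (rr G u v)) := by
          rw [e]
          have : rr G u v * 144 ≤ rr G u v * rr G u v ^ 2 :=
            mul_le_mul_of_nonneg_left (by nlinarith only [h12, hr]) hr
          have := mul_le_mul_of_nonneg_left this (by positivity : 0 ≤ η * d / 144)
          linarith only [this]
        linarith
    have e2 : (rho G - 1) * (a * (ww G u v + rr G u v)) =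
        (rho G - 1) * (a * ww G u v) + (rho G - 1) * (a * rr G u v) := by ring
    rw [e2]
    linarith only [t1, t2, t3]
  rw [edgeSum_mul, edgeSum_add, edgeSum_add, edgeSum_mul, edgeSum_mul, edgeSum_mul,
    edgeSum_one] at h1
  have h2 := mul_le_mul_of_nonneg_left h1 (by positivity : 0 ≤ 8 * cc G)
  have hH := HH_nonneg G
  have h3 : 0 ≤ η * d * (cc G * HH G) := by positivity
  unfold MM RF
  unfold HH at h3 ⊢
  have e1 : 8 * cc G * ((η + τ / 2) * edgeSum G (fun u v => huber d (ww G u v)) +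
      (η * d / 144) * edgeSum G (fun u v => rr G u v * hv (rr G u v)) +
      72 / τ * (rho G - 1) ^ 2 * (2 * (numEdges G : ℝ))) =
      (8 * η + 4 * τ) * (cc G * edgeSum G (fun u v => huber d (ww G u v))) +
      1152 / τ * (cc G * ((numEdges G : ℝ) * (rho G - 1) ^ 2)) +
      1 / 18 * (η * d * (cc G * edgeSum G (fun u v => rr G u v * hv (rr G u v)))) := by ring
  rw [e1] at h2
  linarith only [h2, h3]

end Vale.Agent.P046.C.K
end
end

section

section

set_option autoImplicit false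

open scoped Classical
open Finset

namespace Vale.Agent.P046.C.K

open Vale.Agent.P046 Vale.Agent.P046.C
open Vale.Agent.P046.OS (triSum triSum_swap12 triSum_swap23 triSum_add triSum_mul triSum_mono
  edgeSum_codeg_mul codeg_comm card_triangles_not_edge codeg_real codeg_le rr_nonneg)
open Vale.Agent.P046.LB (sum_edgeSum_remove)

variable {n : ℕ}

lemma edgeSum_sub (G : SimpleGraph (Fin n)) (f g : Fin n → Fin n → ℝ) :
    edgeSum G (fun u v => f u v - g u v) = edgeSum G f - edgeSum G g := by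
  have h : (fun u v => f u v - g u v) = (fun u v => f u v + (-1) * g u v) := by
    funext u v; ring
  rw [h, edgeSum_add, edgeSum_mul]; ring

/-- `w` is controlled by the Huber energy -/
lemma abs_w_le (d w : ℝ) (hd : 0 < d) (hd1 : d ≤ 1) : |w| ≤ 1 + 1 / d * huber d w := by
  rcases le_or_gt |w| d with h | h
  · have := huber_nonneg d w hd
    have : 0 ≤ 1 / d * huber d w := by positivity
    linarith
  · have h1 := huber_ge_lin d w hd h.le
    have h2 : 1 / d * (d * |w|) ≤ 1 / d * huber d w := mul_le_mul_of_nonneg_left h1 (by positivity)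
    have e : 1 / d * (d * |w|) = |w| := by field_simp
    linarith

lemma edgeSum_qq (G : SimpleGraph (Fin n)) (hc : 0 < cc G) :
    edgeSum G (fun u v => qq G u v) ≤ 4 * edgeSum G (fun u v => rr G u v * (rr G u v - 1) ^ 2) := by
  have h1 : cc G * edgeSum G (fun u v => qq G u v) =
      triSum G (fun u v x => (zz G u x + zz G v x) ^ 2) := by
    rw [← edgeSum_x, ← edgeSum_mul]
    congr 1
    funext u v
    unfold qq
    field_simp
  have h2 : triSum G (fun u v x => (zz G u x + zz G v x) ^ 2) ≤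
      triSum G (fun u v x => 2 * (rr G u x - 1) ^ 2 + 2 * (rr G v x - 1) ^ 2) := by
    refine triSum_mono G _ _ fun u v x _ _ _ => ?_
    unfold zz
    linarith only [sq_nonneg ((rr G u x - 1) - (rr G v x - 1))]
  rw [triSum_add, triSum_mul, triSum_mul, tri_ux G hc.ne' (fun u v => (rr G u v - 1) ^ 2),
    tri_vx G hc.ne' (fun u v => (rr G u v - 1) ^ 2), ← h1] at h2
  by_contra hcon
  push Not at hcon
  have := mul_lt_mul_of_pos_left hcon hc
  linarith

lemma edgeSum_Aw (G : SimpleGraph (Fin n)) (hc : 0 < cc G) :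
    edgeSum G (fun u v => |Aw G u v|) ≤ 2 * edgeSum G (fun u v => rr G u v * |ww G u v|) := by
  have h1 : cc G * edgeSum G (fun u v => |Aw G u v|) ≤
      triSum G (fun u v x => |ww G u x| + |ww G v x|) := by
    rw [← edgeSum_x, ← edgeSum_mul]
    refine edgeSum_mono G _ _ fun u v _ => ?_
    unfold Aw
    rw [abs_div, abs_of_pos hc, mul_div_cancel₀ _ hc.ne']
    refine (Finset.abs_sum_le_sum_abs _ _).trans ?_
    refine Finset.sum_le_sum fun x _ => ?_
    split_ifs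
    · exact abs_add_le _ _
    · simp
  rw [triSum_add, tri_ux G hc.ne' (fun u v => |ww G u v|),
    tri_vx G hc.ne' (fun u v => |ww G u v|)] at h1
  by_contra hcon
  push Not at hcon
  have := mul_lt_mul_of_pos_left hcon hc
  linarith

lemma edgeSum_rz2 (G : SimpleGraph (Fin n)) (δ : ℝ) (hδ1 : δ ≤ 1) :
    edgeSum G (fun u v => rr G u v * (rr G u v - 1) ^ 2) ≤ NN δ G + 2 * SQ δ G := by
  unfold NN SQ
  rw [← edgeSum_mul, ← edgeSum_add]
  refine edgeSum_mono G _ _ fun u v _ => ?_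
  rcases bg_cases δ (rr G u v) with ⟨g1, g2⟩ | ⟨g1, g2⟩
  · rw [g2]; linarith
  · rw [g2]
    have : rr G u v ≤ 2 := by
      have := (abs_lt.mp g1).2
      linarith
    have := mul_le_mul_of_nonneg_right this (sq_nonneg (rr G u v - 1))
    linarith

lemma SQ_le (G : SimpleGraph (Fin n)) (δ : ℝ) (hδ1 : δ ≤ 1) :
    SQ δ G ≤ 2 * (numEdges G : ℝ) := by
  rw [← edgeSum_one]
  unfold SQ
  refine edgeSum_mono G _ _ fun u v _ => ?_
  rcases bg_cases δ (rr G u v) with ⟨g1, g2⟩ | ⟨g1, g2⟩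
  · rw [g2]; norm_num
  · rw [g2, sub_zero, mul_one, ← sq_abs]
    have := abs_nonneg (rr G u v - 1)
    nlinarith

/-- numeric facts -/
structure Num (e c : ℝ) : Prop where
  hc : 1000 ≤ c
  he : 500000 ≤ e
  hcc : c * c ≤ 2 * e

lemma num_of (G : SimpleGraph (Fin n)) (hc : 1000 ≤ cc G) : Num (numEdges G) (cc G) := by
  have P := par_of G hc
  refine ⟨P.hc, P.he, ?_⟩
  have h1 := P.hcN
  have h2 := P.hNc
  have := mul_le_mul_of_nonneg_right h1 (by linarith only [hc] : 0 ≤ cc G)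
  linarith

/-- the averaged part of (A4) -/
lemma abs_A4b (G : SimpleGraph (Fin n)) (hc : 1000 ≤ cc G) (d δ : ℝ) (hd : 0 < d) (hd1 : d ≤ 1)
    (hδ1 : δ ≤ 1) :
    edgeSum G (fun u v => 2 * |clip d (ww G u v)| * (15 * cc G / numEdges G *
      (qq G u v + |Aw G u v|))) ≤
      NN δ G + 1200 * ((numEdges G : ℝ) / cc G) + 1 * MM d G := by
  obtain ⟨hc', he, hcc⟩ := num_of G hc
  have P := par_of G hc
  have hc0 : 0 < cc G := by linarith only [hc]
  have he0 : (0:ℝ) < numEdges G := by linarith only [he]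
  obtain ⟨e, hed⟩ : ∃ e : ℝ, e = (numEdges G : ℝ) := ⟨_, rfl⟩
  obtain ⟨c, hcd⟩ : ∃ c : ℝ, c = cc G := ⟨_, rfl⟩
  have hc0' : 0 < cc G := hc0
  rw [← hed] at he hcc P he0 ⊢
  rw [← hcd] at hc' hcc P hc0 ⊢
  have h1 : edgeSum G (fun u v => 2 * |clip d (ww G u v)| * (15 * c / e *
      (qq G u v + |Aw G u v|))) ≤
      edgeSum G (fun u v => (30 * d * (c / e)) * qq G u v + (30 * d * (c / e)) * |Aw G u v|) := by
    refine edgeSum_mono G _ _ fun u v _ => ?_
    have ha := clip_abs d (ww G u v) hd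
    have hq := qq_nonneg G u v
    have h2 : 2 * |clip d (ww G u v)| * (15 * c / e * (qq G u v + |Aw G u v|)) ≤
        2 * d * (15 * c / e * (qq G u v + |Aw G u v|)) := by
      apply mul_le_mul_of_nonneg_right _ (by positivity)
      linarith only [ha]
    have e1 : 2 * d * (15 * c / e * (qq G u v + |Aw G u v|)) =
        (30 * d * (c / e)) * qq G u v + (30 * d * (c / e)) * |Aw G u v| := by ring
    linarith
  rw [edgeSum_add, edgeSum_mul, edgeSum_mul] at h1
  have h2 := edgeSum_qq G hc0'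
  have h3 := edgeSum_Aw G hc0'
  have h4 := edgeSum_rz2 G δ hδ1
  have h5 := SQ_le G δ hδ1
  rw [← hed] at h5
  have hN0 := NN_nonneg δ G
  have hM0 := MM_nonneg d hd G
  -- r |w| part
  have h6 : (c / e) * edgeSum G (fun u v => rr G u v * |ww G u v|) ≤
      4 * (e / c) + 2 / (c * d) * MM d G := by
    have g1 : edgeSum G (fun u v => (c / e) * (rr G u v * |ww G u v|)) ≤
        edgeSum G (fun u v => (2 / c) * 1 + (2 / (c * d)) * huber d (ww G u v)) := by
      refine edgeSum_mono G _ _ fun u v _ => ?_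
      have hr := rr_nonneg G u v
      have hrN := rr_cc_le G hc0' u v
      rw [← hcd] at hrN
      have g2 : (c / e) * rr G u v ≤ 2 / c := by
        have : c / e * rr G u v = (c * rr G u v) / e := by ring
        rw [this, div_le_div_iff₀ he0 hc0]
        have h7 := mul_le_mul_of_nonneg_right hrN hc0.le
        have := P.hNc
        linarith only [h7, this]
      have g3 := abs_w_le d (ww G u v) hd hd1
      have g4 : (c / e) * rr G u v * |ww G u v| ≤ 2 / c * |ww G u v| :=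
        mul_le_mul_of_nonneg_right g2 (abs_nonneg _)
      have g5 : 2 / c * |ww G u v| ≤ 2 / c * (1 + 1 / d * huber d (ww G u v)) :=
        mul_le_mul_of_nonneg_left g3 (by positivity)
      have e1 : 2 / c * (1 + 1 / d * huber d (ww G u v)) =
          (2 / c) * 1 + (2 / (c * d)) * huber d (ww G u v) := by
        field_simp
      linarith only [g4, g5, e1]
    rw [edgeSum_mul, edgeSum_add, edgeSum_mul, edgeSum_mul, edgeSum_one, ← hed] at g1
    have e2 : 2 / c * (2 * e) = 4 * (e / c) := by ring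
    unfold MM
    linarith only [g1, e2]
  have hce : c / e ≤ 1 / 500 := by
    rw [div_le_div_iff₀ he0 (by norm_num)]
    nlinarith only [hcc, hc']
  have hce0 : 0 < c / e := by positivity
  have hcV : c ≤ 2 * (e / c) := by
    rw [mul_div_assoc', le_div_iff₀ hc0]; linarith only [hcc]
  -- combine
  have k1 : 30 * d * (c / e) * edgeSum G (fun u v => qq G u v) ≤
      30 * d * (c / e) * (4 * (NN δ G + 4 * e)) := by
    apply mul_le_mul_of_nonneg_left _ (by positivity)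
    linarith only [h2, h4, h5]
  have k2 : 30 * d * (c / e) * edgeSum G (fun u v => |Aw G u v|) ≤
      60 * d * (4 * (e / c) + 2 / (c * d) * MM d G) := by
    calc 30 * d * (c / e) * edgeSum G (fun u v => |Aw G u v|) ≤
        30 * d * (c / e) * (2 * edgeSum G (fun u v => rr G u v * |ww G u v|)) := by
          apply mul_le_mul_of_nonneg_left h3 (by positivity)
      _ = 60 * d * ((c / e) * edgeSum G (fun u v => rr G u v * |ww G u v|)) := by ring
      _ ≤ _ := mul_le_mul_of_nonneg_left h6 (by positivity)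
  have k3 : 30 * d * (c / e) * (4 * (NN δ G + 4 * e)) ≤ NN δ G + 480 * c := by
    have e1 : 30 * d * (c / e) * (4 * (NN δ G + 4 * e)) =
        d * (120 * (c / e) * NN δ G) + d * (480 * c) := by
      field_simp; ring
    rw [e1]
    have g1 : 120 * (c / e) * NN δ G ≤ 1 * NN δ G := by
      apply mul_le_mul_of_nonneg_right _ hN0
      linarith only [hce]
    have g2 : d * (120 * (c / e) * NN δ G) ≤ 1 * (120 * (c / e) * NN δ G) :=
      mul_le_mul_of_nonneg_right hd1 (by positivity)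
    have g3 : d * (480 * c) ≤ 1 * (480 * c) := mul_le_mul_of_nonneg_right hd1 (by positivity)
    linarith only [g1, g2, g3]
  have k4 : 60 * d * (4 * (e / c) + 2 / (c * d) * MM d G) ≤ 240 * (e / c) + 1 * MM d G := by
    have e1 : 60 * d * (4 * (e / c) + 2 / (c * d) * MM d G) =
        d * (240 * (e / c)) + 120 / c * MM d G := by
      field_simp; ring
    rw [e1]
    have g1 : d * (240 * (e / c)) ≤ 1 * (240 * (e / c)) :=
      mul_le_mul_of_nonneg_right hd1 (by positivity)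
    have g2 : 120 / c * MM d G ≤ 1 * MM d G := by
      apply mul_le_mul_of_nonneg_right _ hM0
      rw [div_le_one hc0]; linarith only [hc', hce, hce0]
    linarith only [g1, g2]
  linarith

/-- the local part of (A4) -/
lemma abs_A4a (G : SimpleGraph (Fin n)) (hc : 1000 ≤ cc G) (d : ℝ) (hd : 0 < d) :
    edgeSum G (fun u v => 2 * |clip d (ww G u v)| *
      (7 * |ww G u v| + 9 * rr G u v + 5 * rr G u v ^ 2)) ≤
      14 * MM d G + 1 / 8000 * (cc G * MM d G) + 11 * 10 ^ 9 * ((numEdges G : ℝ) / cc G) +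
        d * HH G := by
  have hc0 : 0 < cc G := by linarith
  have h1 : edgeSum G (fun u v => 2 * |clip d (ww G u v)| *
      (7 * |ww G u v| + 9 * rr G u v + 5 * rr G u v ^ 2)) ≤
      edgeSum G (fun u v => ((14 + 1 / 8000 * cc G) * huber d (ww G u v) +
        d * (rr G u v * hv (rr G u v))) + (5500000000 / cc G) * 1) := by
    refine edgeSum_mono G _ _ fun u v _ => ?_
    obtain ⟨w, hw⟩ : ∃ w, w = ww G u v := ⟨_, rfl⟩
    obtain ⟨r, hr⟩ : ∃ r, r = rr G u v := ⟨_, rfl⟩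
    obtain ⟨a, ha⟩ : ∃ a, a = clip d w := ⟨_, rfl⟩
    have hr0 : 0 ≤ r := by rw [hr]; exact rr_nonneg G u v
    rw [← hw, ← hr, ← ha]
    have ha1 : |a| ≤ d := by rw [ha]; exact clip_abs d w hd
    have ha2 : a ^ 2 ≤ huber d w := by rw [ha]; exact clip_sq_le d w hd
    have ha3 : |a| * |w| ≤ huber d w := by
      rw [ha, ← abs_mul, abs_of_nonneg (clip_mul_nonneg d w hd)]
      exact clip_mul_le d w hd
    have hh0 := hv_nonneg r
    have hm0 := huber_nonneg d w hd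
    rcases le_or_gt r 12 with h12 | h12
    · have g1 : 9 * r + 5 * r ^ 2 ≤ 828 := by nlinarith only [h12, hr0]
      have g2 : 2 * |a| * (9 * r + 5 * r ^ 2) ≤ 2 * |a| * 828 :=
        mul_le_mul_of_nonneg_left g1 (by positivity)
      have g3 := amgm (cc G / 4000) |a| 1656 (by positivity)
      rw [sq_abs] at g3
      have g4 : 1 / (2 * (cc G / 4000)) * 1656 ^ 2 ≤ 5500000000 / cc G := by
        have : 1 / (2 * (cc G / 4000)) * 1656 ^ 2 = 5484672000 / cc G := by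
          field_simp; ring
        rw [this]
        apply div_le_div_of_nonneg_right _ hc0.le
        norm_num
      have g5 : cc G / 4000 / 2 * a ^ 2 ≤ 1 / 8000 * cc G * huber d w := by
        have : cc G / 4000 / 2 * a ^ 2 = 1 / 8000 * cc G * a ^ 2 := by ring
        rw [this]
        exact mul_le_mul_of_nonneg_left ha2 (by positivity)
      have g6 : 0 ≤ d * (r * hv r) := by positivity
      linarith
    · have e : hv r = r ^ 2 := by unfold hv; rw [if_pos h12]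
      rw [e]
      have g1 : 2 * (9 * r + 5 * r ^ 2) ≤ r * r ^ 2 := by nlinarith only [h12]
      have g2 : |a| * (2 * (9 * r + 5 * r ^ 2)) ≤ d * (r * r ^ 2) :=
        mul_le_mul ha1 g1 (by positivity) hd.le
      have g3 : 0 ≤ 5500000000 / cc G := by positivity
      have g4 : 0 ≤ 1 / 8000 * cc G * huber d w := by positivity
      linarith
  rw [edgeSum_add, edgeSum_add, edgeSum_mul, edgeSum_mul, edgeSum_mul, edgeSum_one] at h1
  unfold MM HH
  refine h1.trans (le_of_eq ?_)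
  ring

/-- pointwise cost of primary kills -/
lemma pt_A5 (c d x y : ℝ) (hc : 0 < c) (hd : 0 < d) (hx : 0 ≤ x) (hy : 0 ≤ y) :
    c * (x + y) * cost d ((x - 1 + (y - 1)) / c) ≤
      48 / c * ((if x ≤ 12 then (x - 1) ^ 2 else 0) + (if y ≤ 12 then (y - 1) ^ 2 else 0)) +
      16 * d * (hv x + hv y) := by
  have hvx := hv_nonneg x
  have hvy := hv_nonneg y
  by_cases hb : x ≤ 12 ∧ y ≤ 12
  · rw [if_pos hb.1, if_pos hb.2]
    have h1 : cost d ((x - 1 + (y - 1)) / c) ≤ ((x - 1 + (y - 1)) / c) ^ 2 := cost_le_sq d _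
    have h2 : ((x - 1 + (y - 1)) / c) ^ 2 ≤ 2 * ((x - 1) ^ 2 + (y - 1) ^ 2) / c ^ 2 := by
      rw [div_pow]
      apply div_le_div_of_nonneg_right _ (by positivity)
      linarith only [sq_nonneg ((x - 1) - (y - 1))]
    have h3 : c * (x + y) ≤ c * 24 := mul_le_mul_of_nonneg_left (by linarith only [hb]) hc.le
    have h4 : c * (x + y) * cost d ((x - 1 + (y - 1)) / c) ≤
        c * 24 * (2 * ((x - 1) ^ 2 + (y - 1) ^ 2) / c ^ 2) :=
      mul_le_mul h3 (h1.trans h2) (cost_nonneg d _ hd) (by positivity)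
    have e1 : c * 24 * (2 * ((x - 1) ^ 2 + (y - 1) ^ 2) / c ^ 2) =
        48 / c * ((x - 1) ^ 2 + (y - 1) ^ 2) := by
      field_simp; ring
    have h5 : 0 ≤ 16 * d * (hv x + hv y) := by positivity
    linarith
  · have h0 : 0 ≤ 48 / c * ((if x ≤ 12 then (x - 1) ^ 2 else 0) +
        (if y ≤ 12 then (y - 1) ^ 2 else 0)) := by
      have a1 : 0 ≤ (if x ≤ 12 then (x - 1) ^ 2 else 0) := by split_ifs <;> positivity
      have a2 : 0 ≤ (if y ≤ 12 then (y - 1) ^ 2 else 0) := by split_ifs <;> positivity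
      positivity
    have h1 : cost d ((x - 1 + (y - 1)) / c) ≤ 4 * d * |(x - 1 + (y - 1)) / c| := min_le_right _ _
    have h2 : c * (x + y) * cost d ((x - 1 + (y - 1)) / c) ≤
        c * (x + y) * (4 * d * |(x - 1 + (y - 1)) / c|) :=
      mul_le_mul_of_nonneg_left h1 (by positivity)
    rw [abs_div, abs_of_pos hc] at h2
    have e1 : c * (x + y) * (4 * d * (|x - 1 + (y - 1)| / c)) =
        4 * d * ((x + y) * |x - 1 + (y - 1)|) := by
      field_simp
    rw [e1] at h2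
    have key : ∀ p q : ℝ, 0 ≤ q → q ≤ p → 12 < p → (p + q) * |p - 1 + (q - 1)| ≤ 4 * (hv p) := by
      intro p q hq hqp hp
      have e : hv p = p ^ 2 := by unfold hv; rw [if_pos hp]
      rw [e]
      have h3 : |p - 1 + (q - 1)| ≤ 2 * p := abs_le.mpr ⟨by linarith only [hq, hp], by linarith only [hqp]⟩
      have h4 : (p + q) * |p - 1 + (q - 1)| ≤ (2 * p) * (2 * p) :=
        mul_le_mul (by linarith only [hqp]) h3 (abs_nonneg _) (by linarith only [hp])
      linarith only [h4]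
    have h3 : (x + y) * |x - 1 + (y - 1)| ≤ 4 * (hv x + hv y) := by
      rcases le_total y x with hyx | hxy
      · have hx12 : 12 < x := by
          by_contra h
          push Not at h
          exact hb ⟨h, le_trans hyx h⟩
        have := key x y hy hyx hx12
        linarith only [hvy, this]
      · have hy12 : 12 < y := by
          by_contra h
          push Not at h
          exact hb ⟨le_trans hxy h, h⟩
        have := key y x hx hxy hy12
        have e2 : y + x = x + y := by ring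
        have e3 : y - 1 + (x - 1) = x - 1 + (y - 1) := by ring
        rw [e2, e3] at this
        linarith only [hvx, this]
    have h4 := mul_le_mul_of_nonneg_left h3 (by positivity : 0 ≤ 4 * d)
    linarith only [h0, h2, h4]

/-- (A5) -/
lemma abs_A5 (G : SimpleGraph (Fin n)) (hc : 0 < cc G) (d δ : ℝ) (hd : 0 < d)
    (hδ1 : δ ≤ 1) :
    edgeSum G (fun u v => ∑ x, if G.Adj u x ∧ G.Adj v x then
      ((codeg G u x : ℝ) + codeg G v x) * cost d ((zz G u x + zz G v x) / cc G) else 0) ≤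
      96 * (NN δ G + 2 * SQ δ G) + 32 * d * (cc G * HH G) := by
  rw [edgeSum_x]
  have h1 : triSum G (fun u v x => ((codeg G u x : ℝ) + codeg G v x) *
      cost d ((zz G u x + zz G v x) / cc G)) ≤
      triSum G (fun u v x => ((48 / cc G) * (if rr G u x ≤ 12 then (rr G u x - 1) ^ 2 else 0) +
        (48 / cc G) * (if rr G v x ≤ 12 then (rr G v x - 1) ^ 2 else 0)) +
        ((16 * d) * hv (rr G u x) + (16 * d) * hv (rr G v x))) := by
    refine triSum_mono G _ _ fun u v x _ _ _ => ?_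
    have := pt_A5 (cc G) d (rr G u x) (rr G v x) hc hd (rr_nonneg G u x) (rr_nonneg G v x)
    rw [codeg_eq G hc.ne' u x, codeg_eq G hc.ne' v x]
    unfold zz
    have e1 : cc G * rr G u x + cc G * rr G v x = cc G * (rr G u x + rr G v x) := by ring
    rw [e1]
    linarith only [this]
  rw [triSum_add, triSum_add, triSum_add, triSum_mul, triSum_mul, triSum_mul, triSum_mul,
    tri_ux G hc.ne' (fun u v => if rr G u v ≤ 12 then (rr G u v - 1) ^ 2 else 0),
    tri_vx G hc.ne' (fun u v => if rr G u v ≤ 12 then (rr G u v - 1) ^ 2 else 0),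
    tri_ux G hc.ne' (fun u v => hv (rr G u v)),
    tri_vx G hc.ne' (fun u v => hv (rr G u v))] at h1
  have h2 : edgeSum G (fun u v => rr G u v * (if rr G u v ≤ 12 then (rr G u v - 1) ^ 2 else 0)) ≤
      NN δ G + 2 * SQ δ G := by
    refine le_trans ?_ (edgeSum_rz2 G δ hδ1)
    refine edgeSum_mono G _ _ fun u v _ => ?_
    apply mul_le_mul_of_nonneg_left _ (rr_nonneg G u v)
    split_ifs
    · exact le_refl _
    · positivity
  have e1 : 48 / cc G * (cc G * edgeSum G (fun u v => rr G u v *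
      (if rr G u v ≤ 12 then (rr G u v - 1) ^ 2 else 0))) =
      48 * edgeSum G (fun u v => rr G u v *
      (if rr G u v ≤ 12 then (rr G u v - 1) ^ 2 else 0)) := by
    field_simp
  rw [e1] at h1
  unfold HH
  linarith only [h1, h2]

end Vale.Agent.P046.C.K
end
end

section

section

set_option autoImplicit false

open scoped Classical
open Finset

namespace Vale.Agent.P046.C.K

open Vale.Agent.P046 Vale.Agent.P046.C
open Vale.Agent.P046.OS (triSum triSum_swap12 triSum_swap23 triSum_add triSum_mul triSum_mono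
  edgeSum_codeg_mul codeg_comm card_triangles_not_edge codeg_real codeg_le rr_nonneg)
open Vale.Agent.P046.LB (sum_edgeSum_remove)

variable {n : ℕ}

lemma edgeSum_r2 (G : SimpleGraph (Fin n)) :
    edgeSum G (fun u v => rr G u v ^ 2) ≤ 288 * (numEdges G : ℝ) + HH G := by
  have h1 : edgeSum G (fun u v => rr G u v ^ 2) ≤
      edgeSum G (fun u v => 144 * 1 + rr G u v * hv (rr G u v)) := by
    refine edgeSum_mono G _ _ fun u v _ => ?_
    have hr := rr_nonneg G u v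
    have hh := hv_nonneg (rr G u v)
    rcases le_or_gt (rr G u v) 12 with h | h
    · have : rr G u v ^ 2 ≤ 144 := by nlinarith
      have : 0 ≤ rr G u v * hv (rr G u v) := by positivity
      linarith
    · have e : hv (rr G u v) = rr G u v ^ 2 := by unfold hv; rw [if_pos h]
      rw [e]
      have : 1 * rr G u v ^ 2 ≤ rr G u v * rr G u v ^ 2 :=
        mul_le_mul_of_nonneg_right (by linarith only [h]) (sq_nonneg _)
      linarith
  rw [edgeSum_add, edgeSum_mul, edgeSum_one] at h1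
  unfold HH
  linarith

lemma edgeSum_r1 (G : SimpleGraph (Fin n)) :
    edgeSum G (fun u v => rr G u v) ≤ 24 * (numEdges G : ℝ) + HH G := by
  have h1 : edgeSum G (fun u v => rr G u v) ≤
      edgeSum G (fun u v => 12 * 1 + rr G u v * hv (rr G u v)) := by
    refine edgeSum_mono G _ _ fun u v _ => ?_
    have hr := rr_nonneg G u v
    have hh := hv_nonneg (rr G u v)
    rcases le_or_gt (rr G u v) 12 with h | h
    · have : 0 ≤ rr G u v * hv (rr G u v) := by positivity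
      linarith
    · have e : hv (rr G u v) = rr G u v ^ 2 := by unfold hv; rw [if_pos h]
      rw [e]
      have : rr G u v * 1 ≤ rr G u v * rr G u v ^ 2 :=
        mul_le_mul_of_nonneg_left (by nlinarith only [h, hr]) hr
      linarith
  rw [edgeSum_add, edgeSum_mul, edgeSum_one] at h1
  unfold HH
  linarith

lemma edgeSum_r8 (G : SimpleGraph (Fin n)) (δ : ℝ) (hδ1 : δ ≤ 1) :
    edgeSum G (fun u v => if 8 < rr G u v then rr G u v ^ 3 else 0) ≤ 2 * NN δ G + HH G := by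
  unfold NN HH
  rw [← edgeSum_mul, ← edgeSum_add]
  refine edgeSum_mono G _ _ fun u v _ => ?_
  obtain ⟨r, hr⟩ : ∃ r, r = rr G u v := ⟨_, rfl⟩
  have hr0 : 0 ≤ r := by rw [hr]; exact rr_nonneg G u v
  rw [← hr]
  have hh := hv_nonneg r
  have hb := bg_nonneg δ r
  have h0 : 0 ≤ 2 * (r * ((r - 1) ^ 2 * bg δ r)) := by positivity
  have h1 : 0 ≤ r * hv r := by positivity
  by_cases h8 : 8 < r
  · rw [if_pos h8]
    rcases le_or_gt r 12 with h12 | h12
    · have hb1 : bg δ r = 1 := by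
        unfold bg; rw [if_pos]
        rw [abs_of_pos (by linarith)]; linarith only [hδ1, h8]
      rw [hb1, mul_one]
      have h2 : r ^ 2 ≤ 2 * (r - 1) ^ 2 := by nlinarith only [h8]
      have h3 := mul_le_mul_of_nonneg_left h2 hr0
      have e : r ^ 3 = r * r ^ 2 := by ring
      rw [e]
      linarith only [h1, h3]
    · have e : hv r = r ^ 2 := by unfold hv; rw [if_pos h12]
      rw [e]
      have e : r ^ 3 = r * r ^ 2 := by ring
      rw [e]
      linarith only [h0]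
  · rw [if_neg h8]
    linarith only [h0, h1]

/-- (A6) -/
lemma abs_A6 (G : SimpleGraph (Fin n)) (hc : 1000 ≤ cc G) (d δ : ℝ) (hd : 0 < d) (hd1 : d ≤ 1)
    (hδ1 : δ ≤ 1) :
    edgeSum G (fun u v => ∑ t ∈ (triangles G).filter (fun t => ¬ (u ∈ t ∧ v ∈ t)),
      cost d (BB G t u v / cc G ^ 2)) ≤
      2048 * (wheels G / cc G ^ 3 + 289 * ((numEdges G : ℝ) / cc G) + 1 / cc G * HH G +
        (1 + d * cc G) * (2 * NN δ G + HH G)) := by
  have hc0 : 0 < cc G := by linarith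
  obtain ⟨hc', he, hcc⟩ := num_of G hc
  have hn : 0 < n := by
    rcases Nat.eq_zero_or_pos n with h | h
    · subst h
      unfold cc at hc
      norm_num at hc
    · exact h
  have hE : 0 < numEdges G := by
    have : (0:ℝ) < numEdges G := by linarith only [he]
    exact_mod_cast this
  have h := noiseB G d hd hd1 hn hE (by linarith only [hc])
  have e1 : edgeSum G (fun u v => ∑ t ∈ (triangles G).filter (fun t => ¬ (u ∈ t ∧ v ∈ t)),
      cost d (BB G t u v / cc G ^ 2)) =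
      edgeSum G (fun u v => ∑ t ∈ (triangles G).filter (fun t => ¬ (u ∈ t ∧ v ∈ t)),
      min ((BB G t u v / cc G ^ 2) ^ 2) (4 * d * (BB G t u v / cc G ^ 2))) := by
    refine edgeSum_congr G _ _ fun u v _ => ?_
    refine Finset.sum_congr rfl fun t _ => ?_
    unfold cost
    rw [abs_of_nonneg]
    apply div_nonneg _ (by positivity)
    unfold BB
    refine Finset.sum_nonneg fun x _ => ?_
    split_ifs
    · exact add_nonneg (OS.kk_nonneg G t u x) (OS.kk_nonneg G t v x)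
    · exact le_refl _
  rw [e1]
  refine h.trans ?_
  apply mul_le_mul_of_nonneg_left _ (by norm_num)
  have h2 := edgeSum_r2 G
  have h8 := edgeSum_r8 G δ hδ1
  have h3 : 1 / cc G * edgeSum G (fun u v => rr G u v ^ 2) ≤
      1 / cc G * (288 * (numEdges G : ℝ) + HH G) :=
    mul_le_mul_of_nonneg_left h2 (by positivity)
  have h4 : (1 + d * cc G) * edgeSum G (fun u v => if 8 < rr G u v then rr G u v ^ 3 else 0) ≤
      (1 + d * cc G) * (2 * NN δ G + HH G) :=
    mul_le_mul_of_nonneg_left h8 (by positivity)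
  have e2 : 1 / cc G * (288 * (numEdges G : ℝ) + HH G) =
      288 * ((numEdges G : ℝ) / cc G) + 1 / cc G * HH G := by ring
  linarith only [h3, h4, e2]

/-- bound for the error terms of the `M`-inequality -/
theorem mErr_bound (G : SimpleGraph (Fin n)) (hc : 1000 ≤ cc G) (d δ : ℝ) (hd : 0 < d)
    (hd1 : d ≤ 1) (hδ1 : δ ≤ 1) :
    edgeSum G (mErr G d) ≤
      1 / 8000 * (cc G * MM d G) + (15 + 28928 / (cc G * d)) * MM d G +
      (140000 + 131072 * d * cc G) * NN δ G + (80000 + 70000 * d * cc G) * HH G +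
      6144 * SQ δ G + 12 * 10 ^ 9 * ((numEdges G : ℝ) / cc G) +
      65536 * (wheels G / cc G ^ 3) := by
  have hc0 : 0 < cc G := by linarith
  have e1 : edgeSum G (mErr G d) =
      edgeSum G (fun u v => 2 * |clip d (ww G u v)| *
        (7 * |ww G u v| + 9 * rr G u v + 5 * rr G u v ^ 2)) +
      edgeSum G (fun u v => 2 * |clip d (ww G u v)| * (15 * cc G / numEdges G *
        (qq G u v + |Aw G u v|))) +
      32 * edgeSum G (fun u v => ∑ x, if G.Adj u x ∧ G.Adj v x then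
        ((codeg G u x : ℝ) + codeg G v x) * cost d ((zz G u x + zz G v x) / cc G) else 0) +
      32 * edgeSum G (fun u v => ∑ t ∈ (triangles G).filter (fun t => ¬ (u ∈ t ∧ v ∈ t)),
        cost d (BB G t u v / cc G ^ 2)) +
      28928 / (cc G * d) * edgeSum G (fun u v => huber d (ww G u v)) +
      7232 / cc G * edgeSum G (fun u v => rr G u v) := by
    rw [← edgeSum_mul G 32, ← edgeSum_mul G 32, ← edgeSum_mul, ← edgeSum_mul, ← edgeSum_add,
      ← edgeSum_add, ← edgeSum_add, ← edgeSum_add, ← edgeSum_add]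
    congr 1
    funext u v
    unfold mErr
    ring
  rw [e1]
  have a1 := abs_A4a G hc d hd
  have a2 := abs_A4b G hc d δ hd hd1 hδ1
  have a3 := abs_A5 G hc0 d δ hd hδ1
  have a4 := abs_A6 G hc d δ hd hd1 hδ1
  have a5 := edgeSum_r1 G
  have a6 : 7232 / cc G * edgeSum G (fun u v => rr G u v) ≤
      7232 / cc G * (24 * (numEdges G : ℝ) + HH G) :=
    mul_le_mul_of_nonneg_left a5 (by positivity)
  have hH := HH_nonneg G
  have hN := NN_nonneg δ G
  have hinv : 1 / cc G ≤ 1 / 1000 := by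
    apply div_le_div_of_nonneg_left (by norm_num) (by norm_num) hc
  have g1 : 1 / cc G * HH G ≤ 1 / 1000 * HH G := mul_le_mul_of_nonneg_right hinv hH
  have e2 : 7232 / cc G * (24 * (numEdges G : ℝ) + HH G) =
      173568 * ((numEdges G : ℝ) / cc G) + 7232 * (1 / cc G * HH G) := by ring
  have hV : 0 ≤ (numEdges G : ℝ) / cc G := by positivity
  have hdH : 0 ≤ d * HH G := by positivity
  have hdH1 : d * HH G ≤ HH G := by
    have := mul_le_mul_of_nonneg_right hd1 hH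
    linarith only [this]
  have hdcH : 0 ≤ d * (cc G * HH G) := by positivity
  have hdcN : 0 ≤ d * (cc G * NN δ G) := by positivity
  have e3 : MM d G = edgeSum G (fun u v => huber d (ww G u v)) := rfl
  rw [← e3]
  rw [e2] at a6
  have e4 : (140000 + 131072 * d * cc G) * NN δ G = 140000 * NN δ G +
      131072 * (d * (cc G * NN δ G)) := by ring
  have e5 : (80000 + 70000 * d * cc G) * HH G = 80000 * HH G +
      70000 * (d * (cc G * HH G)) := by ring
  have e6 : (1 + d * cc G) * (2 * NN δ G + HH G) = 2 * NN δ G + HH G +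
      2 * (d * (cc G * NN δ G)) + d * (cc G * HH G) := by ring
  rw [e4, e5]
  rw [e6] at a4
  have e7 : 32 * d * (cc G * HH G) = 32 * (d * (cc G * HH G)) := by ring
  rw [e7] at a3
  have e8 : (15 + 28928 / (cc G * d)) * MM d G = 15 * MM d G + 28928 / (cc G * d) * MM d G := by
    ring
  rw [e8]
  linarith only [a1, a2, a3, a4, a6, hH, hN, g1, hV, hdH1, hdcH]

end Vale.Agent.P046.C.K
end
end

section

section

set_option autoImplicit false

open scoped Classical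
open Finset

namespace Vale.Agent.P046.C.K

open Vale.Agent.P046 Vale.Agent.P046.C
open Vale.Agent.P046.OS (triSum triSum_swap12 triSum_swap23 triSum_add triSum_mul triSum_mono
  edgeSum_codeg_mul codeg_comm card_triangles_not_edge codeg_real codeg_le rr_nonneg)
open Vale.Agent.P046.LB (sum_edgeSum_remove)

variable {n : ℕ}

lemma rr_pos_tri (G : SimpleGraph (Fin n)) (hc : 0 < cc G) (u v x : Fin n) (h1 : G.Adj u x)
    (h2 : G.Adj v x) : 0 < rr G u v := by
  rw [rr_eq_div]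
  apply div_pos _ hc
  have : 0 < codeg G u v := by
    unfold codeg
    apply Finset.card_pos.mpr
    exact ⟨x, by simp only [mem_filter, mem_univ, h1, h2, and_self]⟩
  exact_mod_cast this

/-- (B1) the theta triangle inequality, summed -/
lemma abs_B1 (G : SimpleGraph (Fin n)) (hc : 0 < cc G) (δ D : ℝ)
    (hδ : 0 < δ) (hδ1 : δ ≤ 1e-18) (hD : 0 < D) (hD' : D ≤ 1e-6 * δ ^ 2) :
    -(edgeSum G (fun u v => codeg G u v * theta D (rr G u v))) -
      cc G * edgeSum G (fun u v => bg δ (rr G u v) * gg (rr G u v) * ww G u v) ≤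
      (1 + 1 / 400) * (cc G * TH D G) - 1 / 800 * (cc G * HH G) := by
  have e1 : edgeSum G (fun u v => codeg G u v * theta D (rr G u v)) =
      triSum G (fun u v _ => theta D (rr G u v)) := edgeSum_codeg_mul G _
  have e2 : cc G * edgeSum G (fun u v => bg δ (rr G u v) * gg (rr G u v) * ww G u v) =
      triSum G (fun u v x => bg δ (rr G u v) * gg (rr G u v) * (rr G u x + rr G v x - 2)) := by
    have h0 : (fun u v x => bg δ (rr G u v) * gg (rr G u v) * (rr G u x + rr G v x - 2)) =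
        (fun u v x => bg δ (rr G u v) * gg (rr G u v) * (zz G u x + zz G v x)) := by
      funext u v x
      unfold zz
      ring
    rw [h0, ← edgeSum_mul_x, ← edgeSum_mul]
    refine edgeSum_congr G _ _ fun u v _ => ?_
    unfold ww
    field_simp
  rw [e1, e2]
  have h3 := tri_sym3 G (fun u v x => (-1) * theta D (rr G u v) +
    (-1) * (bg δ (rr G u v) * gg (rr G u v) * (rr G u x + rr G v x - 2)))
  have h4 : triSum G (fun u v x =>
      ((-1) * theta D (rr G u v) +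
        (-1) * (bg δ (rr G u v) * gg (rr G u v) * (rr G u x + rr G v x - 2))) +
      ((-1) * theta D (rr G u x) +
        (-1) * (bg δ (rr G u x) * gg (rr G u x) * (rr G u v + rr G x v - 2))) +
      ((-1) * theta D (rr G v x) +
        (-1) * (bg δ (rr G v x) * gg (rr G v x) * (rr G v u + rr G x u - 2)))) ≤
      triSum G (fun u v x => (((1 + 1 / 400) * (theta D (rr G u v) / rr G u v) +
        (1 + 1 / 400) * (theta D (rr G u x) / rr G u x)) +
        (1 + 1 / 400) * (theta D (rr G v x) / rr G v x)) +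
        (((-1 / 800) * hv (rr G u v) + (-1 / 800) * hv (rr G u x)) +
          (-1 / 800) * hv (rr G v x))) := by
    refine triSum_mono G _ _ fun u v x huv hux hvx => ?_
    have p1 := rr_pos_tri G hc u v x hux hvx
    have p2 := rr_pos_tri G hc u x v huv hvx.symm
    have p3 := rr_pos_tri G hc v x u huv.symm hux.symm
    have := tri_theta δ D (rr G u v) (rr G u x) (rr G v x) p1 p2 p3 hδ hδ1 hD hD'
    rw [rr_comm G x v, rr_comm G v u, rr_comm G x u]
    linarith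
  have h5 : triSum G (fun u v x => (((1 + 1 / 400) * (theta D (rr G u v) / rr G u v) +
        (1 + 1 / 400) * (theta D (rr G u x) / rr G u x)) +
        (1 + 1 / 400) * (theta D (rr G v x) / rr G v x)) +
        (((-1 / 800) * hv (rr G u v) + (-1 / 800) * hv (rr G u x)) +
          (-1 / 800) * hv (rr G v x))) =
      3 * ((1 + 1 / 400) * (cc G * edgeSum G (fun u v =>
        rr G u v * (theta D (rr G u v) / rr G u v)))) -
      3 * (1 / 800 * (cc G * HH G)) := by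
    rw [triSum_add, triSum_add, triSum_add, triSum_add, triSum_add, triSum_mul, triSum_mul,
      triSum_mul, triSum_mul, triSum_mul, triSum_mul,
      tri_uv G hc.ne' (fun u v => theta D (rr G u v) / rr G u v),
      tri_ux G hc.ne' (fun u v => theta D (rr G u v) / rr G u v),
      tri_vx G hc.ne' (fun u v => theta D (rr G u v) / rr G u v),
      tri_uv G hc.ne' (fun u v => hv (rr G u v)),
      tri_ux G hc.ne' (fun u v => hv (rr G u v)),
      tri_vx G hc.ne' (fun u v => hv (rr G u v))]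
    unfold HH
    ring
  have h6 : edgeSum G (fun u v => rr G u v * (theta D (rr G u v) / rr G u v)) ≤ TH D G := by
    unfold TH
    refine edgeSum_mono G _ _ fun u v _ => ?_
    have ht := theta_nonneg D (rr G u v) hD
    rcases (rr_nonneg G u v).lt_or_eq with h | h
    · have : rr G u v * (theta D (rr G u v) / rr G u v) = theta D (rr G u v) := by
        field_simp
      linarith only [this]
    · have h8 : rr G u v * (theta D (rr G u v) / rr G u v) = 0 := by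
        rw [show rr G u v * (theta D (rr G u v) / rr G u v) =
          rr G u v * theta D (rr G u v) / rr G u v by ring, ← h]
        simp only [zero_mul, div_zero]
      linarith only [ht, h8]
  have h7 := mul_le_mul_of_nonneg_left h6 hc.le
  rw [h5] at h4
  beta_reduce at h3
  rw [triSum_add, triSum_mul, triSum_mul] at h3
  linarith only [h3, h4, h7]

lemma pt_B2 (δ D d r w α : ℝ) (hr : 0 ≤ r) (hδ : δ ≤ 1 / 2) (hδ0 : 0 < δ) (hD : 0 < D) (hd : 0 < d)
    (hα : 0 < α) : (1 - bg δ r) * (|thetad D r| * |w|) ≤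
      (α + 3 * δ / d) * huber d w + 9 / α * theta D r := by
  have ht := theta_nonneg D r hD
  have hm := huber_nonneg d w hd
  have h0 : 0 ≤ (α + 3 * δ / d) * huber d w := by positivity
  have h1 : 0 ≤ 9 / α * theta D r := by positivity
  rcases bg_cases δ r with ⟨g1, g2⟩ | ⟨g1, g2⟩
  · rw [g2]; linarith
  · rw [g2, sub_zero, one_mul]
    have hz : |r - 1| ≤ 1 / 2 := by linarith only [hδ, g1]
    rcases le_or_gt |w| d with hw | hw
    · have e1 : huber d w = w ^ 2 := by unfold huber; rw [if_pos hw]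
      have g3 := amgm (2 * α) |w| |thetad D r| (by positivity)
      rw [sq_abs, sq_abs] at g3
      have g4 := thetad_sq D r hr hD hz
      have g5 : 1 / (2 * (2 * α)) * thetad D r ^ 2 ≤ 1 / (2 * (2 * α)) * (36 * theta D r) :=
        mul_le_mul_of_nonneg_left g4 (by positivity)
      have e2 : 1 / (2 * (2 * α)) * (36 * theta D r) = 9 / α * theta D r := by
        field_simp; ring
      have e3 : 2 * α / 2 * w ^ 2 = α * w ^ 2 := by ring
      rw [e1]
      have g6 : 0 ≤ 3 * δ / d * w ^ 2 := by positivity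
      linarith only [g3, g5, e2, g6]
    · have g3 := huber_ge_lin d w hd hw.le
      have g4 := thetad_abs D r hr hD
      have g5 : |thetad D r| * |w| ≤ 3 * δ * |w| :=
        mul_le_mul_of_nonneg_right (by linarith only [g1, g4]) (abs_nonneg _)
      have g6 : 3 * δ * |w| = 3 * δ / d * (d * |w|) := by field_simp
      have g7 : 3 * δ / d * (d * |w|) ≤ 3 * δ / d * huber d w :=
        mul_le_mul_of_nonneg_left g3 (by positivity)
      have g8 : 0 ≤ α * huber d w := by positivity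
      linarith only [h1, g5, g6, g7, g8]

/-- (B2) -/
lemma abs_B2 (G : SimpleGraph (Fin n)) (δ D d α : ℝ) (hδ : δ ≤ 1 / 2) (hδ0 : 0 < δ) (hD : 0 < D)
    (hd : 0 < d) (hα : 0 < α) :
    edgeSum G (fun u v => (1 - bg δ (rr G u v)) * (|thetad D (rr G u v)| * |ww G u v|)) ≤
      (α + 3 * δ / d) * MM d G + 9 / α * TH D G := by
  unfold MM TH
  rw [← edgeSum_mul, ← edgeSum_mul, ← edgeSum_add]
  exact edgeSum_mono G _ _ fun u v _ => pt_B2 δ D d _ _ α (rr_nonneg G u v) hδ hδ0 hD hd hα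

lemma pt_big_lin (δ r : ℝ) (hδ : 0 < δ) : |r - 1| * bg δ r ≤ 1 / δ * ((r - 1) ^ 2 * bg δ r) := by
  rcases bg_cases δ r with ⟨g1, g2⟩ | ⟨g1, g2⟩
  · rw [g2, mul_one, mul_one, ← sq_abs]
    have h1 : δ * |r - 1| ≤ |r - 1| ^ 2 := by
      rw [sq]; exact mul_le_mul_of_nonneg_right g1 (abs_nonneg _)
    rw [div_mul_eq_mul_div, one_mul, le_div_iff₀ hδ]
    linarith
  · rw [g2]; simp

lemma pt_big_one (δ r : ℝ) (hδ : 0 < δ) : bg δ r ≤ 1 / δ ^ 2 * ((r - 1) ^ 2 * bg δ r) := by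
  rcases bg_cases δ r with ⟨g1, g2⟩ | ⟨g1, g2⟩
  · rw [g2, mul_one]
    have h1 : δ ^ 2 ≤ |r - 1| ^ 2 := pow_le_pow_left₀ hδ.le g1 2
    rw [sq_abs] at h1
    rw [div_mul_eq_mul_div, one_mul, le_div_iff₀ (by positivity)]
    linarith
  · rw [g2]; simp

/-- (B3) -/
lemma abs_B3 (G : SimpleGraph (Fin n)) (δ D η κ : ℝ) (hδ : δ ≤ 1 / 2) (hδ0 : 0 < δ) (hD : 0 < D)
    (hκ : 0 < κ) (hη : |rho G - 1| ≤ η) :
    edgeSum G (fun u v => thetad D (rr G u v) * (2 * (rho G - 1) * rr G u v)) ≤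
      18 * κ * TH D G + 16 / κ * RF G + 6 * η / δ * NN δ G := by
  have h1 : edgeSum G (fun u v => thetad D (rr G u v) * (2 * (rho G - 1) * rr G u v)) ≤
      edgeSum G (fun u v => (18 * κ * theta D (rr G u v) + (8 / κ * (rho G - 1) ^ 2) * 1) +
        6 * η / δ * (rr G u v * ((rr G u v - 1) ^ 2 * bg δ (rr G u v)))) := by
    refine edgeSum_mono G _ _ fun u v _ => ?_
    obtain ⟨r, hrd⟩ : ∃ r, r = rr G u v := ⟨_, rfl⟩
    have hr : 0 ≤ r := by rw [hrd]; exact rr_nonneg G u v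
    rw [← hrd]
    have ht := theta_nonneg D r hD
    have hb := bg_nonneg δ r
    have hη0 : 0 ≤ η := le_trans (abs_nonneg _) hη
    have h2 : thetad D r * (2 * (rho G - 1) * r) ≤ 2 * |rho G - 1| * |thetad D r| * r := by
      calc thetad D r * (2 * (rho G - 1) * r) ≤ |thetad D r * (2 * (rho G - 1) * r)| :=
            le_abs_self _
        _ = 2 * |rho G - 1| * |thetad D r| * r := by
            rw [abs_mul, abs_mul, abs_mul, abs_of_nonneg hr, abs_of_pos (by norm_num : (0:ℝ) < 2)]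
            ring
    refine h2.trans ?_
    rcases bg_cases δ r with ⟨g1, g2⟩ | ⟨g1, g2⟩
    · have g3 := thetad_abs D r hr hD
      have g4 := pt_big_lin δ r hδ0
      rw [g2, mul_one, mul_one] at g4
      rw [g2, mul_one]
      have g5 : 2 * |rho G - 1| * |thetad D r| * r ≤ 2 * η * (3 * |r - 1|) * r := by
        apply mul_le_mul_of_nonneg_right _ hr
        apply mul_le_mul _ g3 (abs_nonneg _) (by positivity)
        linarith only [hη]
      have g6 : 2 * η * (3 * |r - 1|) * r ≤ 2 * η * (3 * (1 / δ * (r - 1) ^ 2)) * r := by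
        apply mul_le_mul_of_nonneg_right _ hr
        apply mul_le_mul_of_nonneg_left _ (by positivity)
        linarith only [g4]
      have e1 : 2 * η * (3 * (1 / δ * (r - 1) ^ 2)) * r = 6 * η / δ * (r * (r - 1) ^ 2) := by ring
      have g7 : 0 ≤ 18 * κ * theta D r := by positivity
      have g8 : 0 ≤ 8 / κ * (rho G - 1) ^ 2 := by positivity
      linarith
    · rw [g2]
      have hz : |r - 1| ≤ 1 / 2 := by linarith only [hδ, g1]
      have hr2 : r ≤ 2 := by
        have := (abs_le.mp hz).2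
        linarith only [this]
      have g3 := thetad_sq D r hr hD hz
      have g4 : 2 * |rho G - 1| * |thetad D r| * r ≤ 2 * |rho G - 1| * |thetad D r| * 2 :=
        mul_le_mul_of_nonneg_left hr2 (by positivity)
      have g5 := amgm κ |thetad D r| (4 * |rho G - 1|) hκ
      rw [sq_abs, mul_pow, sq_abs] at g5
      have g6 : κ / 2 * thetad D r ^ 2 ≤ κ / 2 * (36 * theta D r) :=
        mul_le_mul_of_nonneg_left g3 (by positivity)
      have e1 : 1 / (2 * κ) * (4 ^ 2 * (rho G - 1) ^ 2) = 8 / κ * (rho G - 1) ^ 2 := by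
        field_simp; ring
      linarith only [g4, g5, g6, e1]
  rw [edgeSum_add, edgeSum_add, edgeSum_mul, edgeSum_mul, edgeSum_mul, edgeSum_one] at h1
  unfold TH RF NN
  refine h1.trans (le_of_eq ?_)
  ring

end Vale.Agent.P046.C.K
end
end

section

section

set_option autoImplicit false

open scoped Classical
open Finset

namespace Vale.Agent.P046.C.K

open Vale.Agent.P046 Vale.Agent.P046.C
open Vale.Agent.P046.OS (triSum triSum_swap12 triSum_swap23 triSum_add triSum_mul triSum_mono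
  edgeSum_codeg_mul codeg_comm card_triangles_not_edge codeg_real codeg_le rr_nonneg)
open Vale.Agent.P046.LB (sum_edgeSum_remove)

variable {n : ℕ}

/-- (B4) -/
lemma abs_B4 (G : SimpleGraph (Fin n)) (hc : 0 < cc G) (δ D d κ : ℝ) (hδ : δ ≤ 1 / 2)
    (hδ0 : 0 < δ) (hD : 0 < D) (hd : 0 < d) (hκ : 0 < κ) :
    edgeSum G (fun u v => |thetad D (rr G u v)| * (4 * rr G u v + |ww G u v|)) ≤
      18 * κ * (cc G * TH D G) + 64 / κ * ((numEdges G : ℝ) / cc G) + (12 / δ + 12) * NN δ G +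
        (1 + 3 * δ / d) * MM d G + 9 * TH D G := by
  have h1 : edgeSum G (fun u v => |thetad D (rr G u v)| * (4 * rr G u v + |ww G u v|)) ≤
      edgeSum G (fun u v => ((18 * (cc G * κ) * theta D (rr G u v) + (32 / (cc G * κ)) * 1) +
        (12 / δ * (rr G u v * ((rr G u v - 1) ^ 2 * bg δ (rr G u v))) +
        3 * (|rr G u v - 1| * bg δ (rr G u v) * |ww G u v|))) +
        (1 - bg δ (rr G u v)) * (|thetad D (rr G u v)| * |ww G u v|)) := by
    refine edgeSum_mono G _ _ fun u v _ => ?_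
    obtain ⟨r, hrd⟩ : ∃ r, r = rr G u v := ⟨_, rfl⟩
    obtain ⟨w, hwd⟩ : ∃ w, w = ww G u v := ⟨_, rfl⟩
    have hr : 0 ≤ r := by rw [hrd]; exact rr_nonneg G u v
    rw [← hrd, ← hwd]
    have ht := theta_nonneg D r hD
    have g0 : 0 ≤ 18 * (cc G * κ) * theta D r := by positivity
    have g0' : 0 ≤ (32 / (cc G * κ)) * 1 := by positivity
    rcases bg_cases δ r with ⟨g1, g2⟩ | ⟨g1, g2⟩
    · have g3 := thetad_abs D r hr hD
      have g4 := pt_big_lin δ r hδ0
      rw [g2, mul_one, mul_one] at g4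
      rw [g2]
      have g5 : |thetad D r| * (4 * r + |w|) ≤ 3 * |r - 1| * (4 * r + |w|) :=
        mul_le_mul_of_nonneg_right g3 (by positivity)
      have g6 := mul_le_mul_of_nonneg_left g4 (by positivity : 0 ≤ 12 * r)
      have e1 : 12 * r * (1 / δ * (r - 1) ^ 2) = 12 / δ * (r * (r - 1) ^ 2) := by ring
      linarith only [g0, g0', g5, g6, e1]
    · rw [g2]
      have hz : |r - 1| ≤ 1 / 2 := by linarith only [hδ, g1]
      have hr2 : r ≤ 2 := by
        have := (abs_le.mp hz).2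
        linarith only [this]
      have g3 := thetad_sq D r hr hD hz
      have g4 : |thetad D r| * (4 * r) ≤ |thetad D r| * 8 :=
        mul_le_mul_of_nonneg_left (by linarith only [hr2]) (abs_nonneg _)
      have hck : 0 < cc G * κ := by positivity
      have g5 := amgm (cc G * κ) |thetad D r| 8 hck
      rw [sq_abs] at g5
      have g6 : cc G * κ / 2 * thetad D r ^ 2 ≤ cc G * κ / 2 * (36 * theta D r) :=
        mul_le_mul_of_nonneg_left g3 (by positivity)
      have e1 : 1 / (2 * (cc G * κ)) * 8 ^ 2 = (32 / (cc G * κ)) * 1 := by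
        field_simp; ring
      linarith only [g4, g5, g6, e1]
  rw [edgeSum_add, edgeSum_add, edgeSum_add, edgeSum_add, edgeSum_mul, edgeSum_mul, edgeSum_mul,
    edgeSum_mul, edgeSum_one] at h1
  have h2 := abs_zbw G hc δ
  have h3 := abs_B2 G δ D d 1 hδ hδ0 hD hd (by norm_num)
  have e2 : (32 / (cc G * κ)) * (2 * (numEdges G : ℝ)) = 64 / κ * ((numEdges G : ℝ) / cc G) := by
    field_simp; ring
  unfold TH NN at *
  have e3 : (9:ℝ) / 1 = 9 := by norm_num
  rw [e3] at h3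
  linarith

/-- (B5) -/
lemma abs_B5 (G : SimpleGraph (Fin n)) (hc : 1000 ≤ cc G) (δ D d : ℝ) (hδ : δ ≤ 1 / 2)
    (hδ0 : 0 < δ) (hD : 0 < D) (hd : 0 < d) (hd1 : d ≤ 1) :
    edgeSum G (fun u v => (2 * bg δ (rr G u v) + (1 - bg δ (rr G u v)) * (30 / D) *
          ((rr G u v - 1) ^ 2 + 16 / (cc G) ^ 2)) * (16 * rr G u v + 6 * |ww G u v|)) ≤
      (32 / δ ^ 2 + 48 / δ) * NN δ G + 1140 / D * SQ δ G + 37 / D * ((numEdges G : ℝ) / cc G) +
        360 / (D * d) * MM d G := by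
  have hc0 : 0 < cc G := by linarith only [hc]
  have h1 : edgeSum G (fun u v => (2 * bg δ (rr G u v) + (1 - bg δ (rr G u v)) * (30 / D) *
          ((rr G u v - 1) ^ 2 + 16 / (cc G) ^ 2)) * (16 * rr G u v + 6 * |ww G u v|)) ≤
      edgeSum G (fun u v => ((32 / δ ^ 2 * (rr G u v * ((rr G u v - 1) ^ 2 * bg δ (rr G u v))) +
        12 / δ * (|rr G u v - 1| * bg δ (rr G u v) * |ww G u v|)) +
        (1140 / D * ((rr G u v - 1) ^ 2 * (1 - bg δ (rr G u v))) +
          (18240 / D / cc G ^ 2) * 1)) + 360 / (D * d) * huber d (ww G u v)) := by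
    refine edgeSum_mono G _ _ fun u v _ => ?_
    obtain ⟨r, hrd⟩ : ∃ r, r = rr G u v := ⟨_, rfl⟩
    obtain ⟨w, hwd⟩ : ∃ w, w = ww G u v := ⟨_, rfl⟩
    have hr : 0 ≤ r := by rw [hrd]; exact rr_nonneg G u v
    rw [← hrd, ← hwd]
    have hm := huber_nonneg d w hd
    have k1 : 0 ≤ 360 / (D * d) * huber d w := by positivity
    have k2 : 0 ≤ (18240 / D / cc G ^ 2) * 1 := by positivity
    rcases bg_cases δ r with ⟨g1, g2⟩ | ⟨g1, g2⟩
    · rw [g2]
      have g3 := pt_big_one δ r hδ0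
      rw [g2, mul_one] at g3
      have g4 := mul_le_mul_of_nonneg_left g3 (by positivity : 0 ≤ 32 * r)
      have e1 : 32 * r * (1 / δ ^ 2 * (r - 1) ^ 2) = 32 / δ ^ 2 * (r * (r - 1) ^ 2) := by ring
      have g5 : 1 ≤ 1 / δ * |r - 1| := by
        rw [div_mul_eq_mul_div, one_mul, le_div_iff₀ hδ0]; linarith only [g1]
      have g6 := mul_le_mul_of_nonneg_left g5 (by positivity : 0 ≤ 12 * |w|)
      have e2 : 12 * |w| * (1 / δ * |r - 1|) = 12 / δ * (|r - 1| * |w|) := by ring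
      rw [e1] at g4
      rw [e2] at g6
      linarith only [k1, k2, g4, g6]
    · rw [g2]
      have hz : |r - 1| ≤ 1 / 2 := by linarith only [hδ, g1]
      have hr2 : r ≤ 2 := by
        have := (abs_le.mp hz).2
        linarith only [this]
      have g3 := abs_w_le d w hd hd1
      have hcc : 16 / cc G ^ 2 ≤ 1 := by
        rw [div_le_one (by positivity)]; nlinarith only [hc]
      have hcc0 : 0 < 16 / cc G ^ 2 := by positivity
      have hz2 : (r - 1) ^ 2 ≤ 1 := by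
        rw [← sq_abs]
        have := abs_nonneg (r - 1)
        nlinarith only [this, hδ, g1]
      have hz20 := sq_nonneg (r - 1)
      obtain ⟨a, ha⟩ : ∃ a, a = (r - 1) ^ 2 + 16 / cc G ^ 2 := ⟨_, rfl⟩
      have ha0 : 0 ≤ a := by rw [ha]; linarith only [hcc0, hz20]
      have ha2 : a ≤ 2 := by rw [ha]; linarith only [hcc, hz2]
      obtain ⟨q, hq⟩ : ∃ q, q = 1 / d * huber d w := ⟨_, rfl⟩
      have hq0 : 0 ≤ q := by rw [hq]; positivity
      rw [← hq] at g3
      rw [← ha]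
      have g4 : 16 * r + 6 * |w| ≤ 38 + 6 * q := by linarith only [hr2, g3]
      have g5 : (2 * 0 + (1 - 0) * (30 / D) * a) * (16 * r + 6 * |w|) ≤
          (30 / D) * a * (38 + 6 * q) := by
        have : (2 * 0 + (1 - 0) * (30 / D) * a) = (30 / D) * a := by ring
        rw [this]
        exact mul_le_mul_of_nonneg_left g4 (by positivity)
      have g6 : (30 / D) * a * (38 + 6 * q) = 1140 / D * a + 180 / D * (a * q) := by ring
      have g7 : 180 / D * (a * q) ≤ 180 / D * (2 * q) := by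
        apply mul_le_mul_of_nonneg_left _ (by positivity)
        exact mul_le_mul_of_nonneg_right ha2 hq0
      have g8 : 180 / D * (2 * q) = 360 / (D * d) * huber d w := by
        rw [hq]; field_simp; ring
      have g9 : 1140 / D * a = 1140 / D * (r - 1) ^ 2 + 18240 / D / cc G ^ 2 := by
        rw [ha]; ring
      linarith only [g5, g6, g7, g8, g9]
  rw [edgeSum_add, edgeSum_add, edgeSum_add, edgeSum_add, edgeSum_mul, edgeSum_mul, edgeSum_mul,
    edgeSum_mul, edgeSum_mul, edgeSum_one] at h1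
  have h2 := abs_zbw G hc0 δ
  have h3 := mul_le_mul_of_nonneg_left h2 (by positivity : 0 ≤ 12 / δ)
  have e2 : (18240 / D / cc G ^ 2) * (2 * (numEdges G : ℝ)) ≤
      37 / D * ((numEdges G : ℝ) / cc G) := by
    have : (18240 / D / cc G ^ 2) * (2 * (numEdges G : ℝ)) =
        36480 / cc G / D * ((numEdges G : ℝ) / cc G) := by
      field_simp; ring
    rw [this]
    apply mul_le_mul_of_nonneg_right _ (by positivity)
    apply div_le_div_of_nonneg_right _ hD.le
    rw [div_le_iff₀ hc0]; linarith only [hc, hδ, hδ0]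
  have e3 : 12 / δ * (4 * NN δ G) = 48 / δ * NN δ G := by ring
  rw [e3] at h3
  unfold NN SQ MM at *
  linarith

/-- the theta inequality -/
theorem theta_total (G : SimpleGraph (Fin n)) (δ D d η α κ : ℝ) (hδ0 : 0 < δ) (hδ : δ ≤ 1e-18)
    (hD : 0 < D) (hD' : D ≤ 1e-6 * δ ^ 2) (hd : 0 < d) (hd1 : d ≤ 1) (hα : 0 < α) (hκ : 0 < κ)
    (hc : 1000 / δ ≤ cc G) (hη : |rho G - 1| ≤ η) (hη1 : η ≤ 1 / 2)
    (hT : (triangles G).Nonempty) :
    ∑ t ∈ triangles G, TH D (removeTriangle G t) ≤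
      (triangles G).card * TH D G + (1 + 1 / 400 + 9 / α + 36 * κ) * (cc G * TH D G) -
      1 / 800 * (cc G * HH G) + (α + 3 * δ / d) * (cc G * MM d G) +
      16 / κ * (cc G * RF G) + 6 * η / δ * (cc G * NN δ G) +
      (1 + 3 * δ / d + 360 / (D * d)) * MM d G + 9 * TH D G +
      (12 / δ + 12 + 32 / δ ^ 2 + 48 / δ) * NN δ G + 1140 / D * SQ δ G +
      (64 / κ + 37 / D) * ((numEdges G : ℝ) / cc G) := by
  have hc1 : 1000 ≤ cc G := by
    refine le_trans ?_ hc
    rw [le_div_iff₀ hδ0]; linarith only [hδ]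
  have hc0 : 0 < cc G := by linarith only [hδ0, hδ, hc1]
  have h0 := theta_drift G δ D hδ0 (by linarith only [hδ]) hD hD' hc (hη.trans hη1) hT
  have h1 := abs_B1 G hc0 δ D hδ0 hδ hD hD'
  have h2 := abs_B2 G δ D d α (by linarith only [hδ]) hδ0 hD hd hα
  have h3 := abs_B3 G δ D η κ (by linarith only [hδ]) hδ0 hD hκ hη
  have h4 := abs_B4 G hc0 δ D d κ (by linarith only [hδ]) hδ0 hD hd hκ
  have h5 := abs_B5 G hc1 δ D d (by linarith only [hδ]) hδ0 hD hd hd1
  -- split the drift term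
  have h6 : edgeSum G (fun u v => thetad D (rr G u v) *
      (2 * (rho G - 1) * rr G u v - ww G u v)) ≤
      edgeSum G (fun u v => thetad D (rr G u v) * (2 * (rho G - 1) * rr G u v)) -
      edgeSum G (fun u v => bg δ (rr G u v) * gg (rr G u v) * ww G u v) +
      edgeSum G (fun u v => (1 - bg δ (rr G u v)) * (|thetad D (rr G u v)| * |ww G u v|)) := by
    rw [← edgeSum_sub, ← edgeSum_add]
    refine edgeSum_mono G _ _ fun u v _ => ?_
    rcases bg_cases δ (rr G u v) with ⟨g1, g2⟩ | ⟨g1, g2⟩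
    · rw [g2, thetad_big δ D _ (rr_nonneg G u v) hδ0 hD hD' (by linarith only [hδ0, g1])]
      linarith only []
    · rw [g2]
      have : -(thetad D (rr G u v) * ww G u v) ≤ |thetad D (rr G u v)| * |ww G u v| := by
        rw [← abs_mul]; exact neg_le_abs _
      linarith only [this]
  have h7 := mul_le_mul_of_nonneg_left h6 hc0.le
  have h8 := mul_le_mul_of_nonneg_left h2 hc0.le
  have h9 := mul_le_mul_of_nonneg_left h3 hc0.le
  have e1 : edgeSum G (fun u v => theta D (rr G u v)) = TH D G := rfl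
  rw [e1] at h0
  have e2 : ∑ t ∈ triangles G, TH D (removeTriangle G t) =
      ∑ t ∈ triangles G, edgeSum (removeTriangle G t)
      (fun u v => theta D (rr (removeTriangle G t) u v)) := rfl
  rw [e2]
  linarith

end Vale.Agent.P046.C.K
end
end

section

section

set_option autoImplicit false

open scoped Classical
open Finset

namespace Vale.Agent.P046.C.K

open Vale.Agent.P046 Vale.Agent.P046.C
open Vale.Agent.P046.OS (triSum triSum_swap12 triSum_swap23 triSum_add triSum_mul triSum_mono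
  edgeSum_codeg_mul codeg_comm card_triangles_not_edge codeg_real codeg_le rr_nonneg)
open Vale.Agent.P046.LB (sum_edgeSum_remove)

variable {n : ℕ}

/-- the `M`-inequality, absorbed form -/
theorem M_total (G : SimpleGraph (Fin n)) (δ d η : ℝ) (hδ0 : 0 < δ) (hδ1 : δ ≤ 1)
    (hd : 0 < d) (hd1 : d ≤ 1) (hc : 1000 ≤ cc G) (hη : |rho G - 1| ≤ η) (hη1 : η ≤ 1) :
    ∑ t ∈ triangles G, MM d (removeTriangle G t) ≤
      (triangles G).card * MM d G +
      (1 + δ + 8 * η + 1 / 1000 + 1 / 8000) * (cc G * MM d G) +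
      (131096 * d) * (cc G * NN δ G) + 128000 * (cc G * QQ δ G) +
      9216000 * (cc G * RF G) + (70000 * d + η * d) * (cc G * HH G) +
      (15 + 28928 / (cc G * d)) * MM d G + 140000 * NN δ G + 80000 * HH G +
      6144 * SQ δ G + 12 * 10 ^ 9 * ((numEdges G : ℝ) / cc G) +
      65536 * (wheels G / cc G ^ 3) := by
  have hc0 : 0 < cc G := by linarith
  have hρ : rho G ≤ 2 := by
    have := (abs_le.mp hη).2
    linarith
  have h0 := M_drift G d hd hd1 hc hρ
  rw [edgeSum_mMain G hc0 d] at h0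
  have h1 := abs_A1 G hc0 d δ hd hδ0
  have h2 := abs_A2 G hc0 d δ (1 / 16000) hd hδ0 hδ1 (by norm_num)
  have h3 := abs_A3 G hc0 d η (1 / 8000) hd (by norm_num) hη
  have h4 := mErr_bound G hc d δ hd hd1 hδ1
  have e1 : ∑ t ∈ triangles G, MM d (removeTriangle G t) =
      ∑ t ∈ triangles G, edgeSum (removeTriangle G t)
      (fun u v => huber d (ww (removeTriangle G t) u v)) := rfl
  have e2 : edgeSum G (fun u v => huber d (ww G u v)) = MM d G := rfl
  rw [e2] at h0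
  rw [e1]
  have e3 : (140000 + 131072 * d * cc G) * NN δ G = 140000 * NN δ G +
      131072 * d * (cc G * NN δ G) := by ring
  have e4 : (80000 + 70000 * d * cc G) * HH G = 80000 * HH G +
      70000 * d * (cc G * HH G) := by ring
  rw [e3, e4] at h4
  have e5 : 8 * (1 / 16000 : ℝ) * (cc G * MM d G) = 1 / 2000 * (cc G * MM d G) := by ring
  have e6 : 8 / (1 / 16000 : ℝ) * (cc G * QQ δ G) = 128000 * (cc G * QQ δ G) := by ring
  have e7 : 1152 / (1 / 8000 : ℝ) * (cc G * RF G) = 9216000 * (cc G * RF G) := by ring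
  rw [e5, e6] at h2
  rw [e7] at h3
  linarith

/-- the `R`-inequality, absorbed form -/
theorem R_total (G : SimpleGraph (Fin n)) (δ D η : ℝ) (hδ0 : 0 < δ) (hδ1 : δ ≤ 1)
    (hD : 0 < D) (hD' : D ≤ 1e-6 * δ ^ 2)
    (hc : 1000 ≤ cc G) (hη : |rho G - 1| ≤ η) (hη1 : η ≤ 1 / 1000)
    (hT : (triangles G).Nonempty) :
    ∑ t ∈ triangles G, RF (removeTriangle G t) ≤
      (triangles G).card * RF G - 8 / 10 * (cc G * RF G) + 80 * (cc G * QQ δ G) +
      14400 * η * (cc G * TH D G) + NN δ G + 3480 * ((numEdges G : ℝ) / cc G) := by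
  have hc0 : 0 < cc G := by linarith only [hc]
  obtain ⟨hc', he, hcc⟩ := num_of G hc
  have he0 : (0:ℝ) < numEdges G := by linarith only [he]
  have h0 := R_drift G hc (hη.trans hη1) hT
  have e1 : ∑ t ∈ triangles G, RF (removeTriangle G t) =
      ∑ t ∈ triangles G, (numEdges (removeTriangle G t) : ℝ) *
        (rho (removeTriangle G t) - 1) ^ 2 := rfl
  rw [e1]
  have h1 : 4 * |rho G - 1| * edgeSum G (fun u v => (rr G u v - 1) ^ 2) ≤
      1 / 10 * RF G + 80 * QQ δ G + 14400 * η * TH D G := by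
    rw [← edgeSum_mul]
    have h2 : edgeSum G (fun u v => 4 * |rho G - 1| * (rr G u v - 1) ^ 2) ≤
        edgeSum G (fun u v => ((1 / 20 * (rho G - 1) ^ 2) * 1 +
          80 * ((rr G u v - 1) ^ 4 * (1 - bg δ (rr G u v)))) +
          14400 * η * theta D (rr G u v)) := by
      refine edgeSum_mono G _ _ fun u v _ => ?_
      obtain ⟨r, hrd⟩ : ∃ r, r = rr G u v := ⟨_, rfl⟩
      have hr : 0 ≤ r := by rw [hrd]; exact rr_nonneg G u v
      rw [← hrd]
      have ht := theta_nonneg D r hD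
      have hη0 : 0 ≤ η := le_trans (abs_nonneg _) hη
      rcases bg_cases δ r with ⟨g1, g2⟩ | ⟨g1, g2⟩
      · rw [g2]
        have g3 := sq_le_theta δ D r hr hδ0 hD hD' g1
        have g4 : 4 * |rho G - 1| * (r - 1) ^ 2 ≤ 4 * η * (3600 * theta D r) :=
          mul_le_mul (by linarith only [hη]) g3 (sq_nonneg _) (by positivity)
        have g5 : 0 ≤ (rho G - 1) ^ 2 := sq_nonneg _
        linarith only [g4, g5]
      · rw [g2]
        have g3 := amgm (1 / 10) |rho G - 1| (4 * (r - 1) ^ 2) (by norm_num)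
        rw [sq_abs] at g3
        have g4 : 0 ≤ 14400 * η * theta D r := by positivity
        have e2 : 1 / (2 * (1 / 10 : ℝ)) * (4 * (r - 1) ^ 2) ^ 2 = 80 * (r - 1) ^ 4 := by ring
        rw [e2] at g3
        linarith only [g3, g4]
    rw [edgeSum_add, edgeSum_add, edgeSum_mul G (1 / 20 * (rho G - 1) ^ 2), edgeSum_mul G 80,
      edgeSum_mul G (14400 * η), edgeSum_one] at h2
    unfold RF QQ TH
    linarith only [h2]
  have h2 := mul_le_mul_of_nonneg_left h1 hc0.le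
  have h3 := edgeSum_rz2 G δ hδ1
  have h4 := SQ_le G δ hδ1
  have hN := NN_nonneg δ G
  have hS := SQ_nonneg δ G
  have hce : cc G / numEdges G ≤ 1 / 500 := by
    rw [div_le_div_iff₀ he0 (by norm_num)]
    nlinarith only [hcc, hc]
  have hcV : cc G ≤ 2 * ((numEdges G : ℝ) / cc G) := by
    rw [mul_div_assoc', le_div_iff₀ hc0]; linarith only [hcc]
  have h5 : 60 * cc G / numEdges G * edgeSum G (fun u v => rr G u v * (rr G u v - 1) ^ 2) ≤
      NN δ G + 480 * ((numEdges G : ℝ) / cc G) := by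
    have g1 : 60 * cc G / numEdges G * edgeSum G (fun u v => rr G u v * (rr G u v - 1) ^ 2) ≤
        60 * cc G / numEdges G * (NN δ G + 4 * numEdges G) :=
      mul_le_mul_of_nonneg_left (by linarith only [h3, h4]) (by positivity)
    have e2 : 60 * cc G / numEdges G * (NN δ G + 4 * numEdges G) =
        60 * (cc G / numEdges G * NN δ G) + 240 * cc G := by
      field_simp; ring
    have g2 : cc G / numEdges G * NN δ G ≤ 1 / 500 * NN δ G :=
      mul_le_mul_of_nonneg_right hce hN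
    linarith only [hN, hcV, g1, e2, g2]
  have e3 : (numEdges G : ℝ) * (rho G - 1) ^ 2 = RF G := rfl
  rw [e3] at h0
  linarith only [h0, h2, h5]

end Vale.Agent.P046.C.K
end
end

section

section

set_option autoImplicit false

open scoped Classical
open Finset

namespace Vale.Agent.P046.C.K

open Vale.Agent.P046 Vale.Agent.P046.C
open Vale.Agent.P046.OS (triSum rr_nonneg)

variable {n : ℕ}

lemma wheels_nonneg' (G : SimpleGraph (Fin n)) : 0 ≤ wheels G := by
  unfold wheels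
  refine Finset.sum_nonneg fun u _ => Finset.sum_nonneg fun v _ => Finset.sum_nonneg fun x _ =>
    Finset.sum_nonneg fun s _ => Finset.sum_nonneg fun y _ => ?_
  split_ifs <;> norm_num

lemma tri_nonempty (G : SimpleGraph (Fin n)) (hη : |rho G - 1| ≤ 1 / 2) :
    (triangles G).Nonempty := by
  rw [Finset.nonempty_iff_ne_empty]
  intro h
  have h1 : rho G = 0 := by unfold rho; rw [h]; simp
  rw [h1] at hη
  norm_num at hη

/-- the late one-step inequality -/
theorem late_FF (G : SimpleGraph (Fin n)) (hc : 1e100 ≤ cc G) (hη : |rho G - 1| ≤ 1e-30) :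
    ∑ t ∈ triangles G, FF 1e-23 1e-9 1e-46 1e7 (removeTriangle G t) ≤
      (((triangles G).card : ℝ) + (1 + 1 / 200) * cc G) * FF 1e-23 1e-9 1e-46 1e7 G +
        1e60 * ((numEdges G : ℝ) / cc G + wheels G / cc G ^ 3) := by
  have hc1 : 1000 ≤ cc G := by linarith only [hc]
  have hc0 : 0 < cc G := by linarith only [hc]
  have hT : (triangles G).Nonempty := tri_nonempty G (hη.trans (by norm_num))
  have hD' : (1e-46 : ℝ) ≤ 1e-6 * (1e-20 : ℝ) ^ 2 := by norm_num
  have m := M_total G 1e-20 1e-23 1e-30 (by norm_num) (by norm_num) (by norm_num) (by norm_num)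
    hc1 hη (by norm_num)
  have th := theta_total G 1e-20 1e-46 1e-23 1e-30 90000 (1 / 180000) (by norm_num) (by norm_num)
    (by norm_num) hD' (by norm_num) (by norm_num) (by norm_num) (by norm_num)
    (by norm_num at hc ⊢; linarith only [hc]) hη (by norm_num) hT
  have r := R_total G 1e-20 1e-46 1e-30 (by norm_num) (by norm_num) (by norm_num) hD' hc1 hη
    (by norm_num) hT
  have aN := abs_N G 1e-20 1e-46 (by norm_num) (by norm_num) hD'
  have aQ := abs_Q G 1e-20 1e-46 (by norm_num) (by norm_num) (by norm_num) hD'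
  have aS := abs_S G 1e-20 1e-14 (by norm_num) hc0
  have hcp : 0 ≤ cc G ^ 3 := by positivity
  have hW0 := wheels_nonneg' G
  have key := late_arith (MM 1e-23 G) (TH 1e-46 G) (RF G) (NN 1e-20 G) (QQ 1e-20 G)
    (SQ 1e-20 G) (HH G) (cc G) ((numEdges G : ℝ) / cc G) (wheels G / cc G ^ 3)
    (∑ t ∈ triangles G, MM 1e-23 (removeTriangle G t))
    (∑ t ∈ triangles G, TH 1e-46 (removeTriangle G t))
    (∑ t ∈ triangles G, RF (removeTriangle G t)) ((triangles G).card : ℝ) hc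
    (MM_nonneg _ (by norm_num) G) (TH_nonneg _ (by norm_num) G) (RF_nonneg G) (NN_nonneg _ G)
    (QQ_nonneg _ G) (HH_nonneg G) (by positivity) (by positivity) m th r aN aQ aS
  have e1 : ∑ t ∈ triangles G, FF 1e-23 1e-9 1e-46 1e7 (removeTriangle G t) =
      (∑ t ∈ triangles G, MM 1e-23 (removeTriangle G t)) +
      1e-9 * (∑ t ∈ triangles G, TH 1e-46 (removeTriangle G t)) +
      1e7 * (∑ t ∈ triangles G, RF (removeTriangle G t)) := by
    unfold FF
    rw [Finset.sum_add_distrib, Finset.sum_add_distrib, ← Finset.mul_sum, ← Finset.mul_sum]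
  have e2 : FF 1e-23 1e-9 1e-46 1e7 G = MM 1e-23 G + 1e-9 * TH 1e-46 G + 1e7 * RF G := rfl
  rw [e1, e2]
  exact key

end Vale.Agent.P046.C.K
end
end

section

section

set_option autoImplicit false

open scoped Classical
open Finset

namespace Vale.Agent.P046.C

open Vale.Agent.P046 Vale.Agent.P046.OS

lemma exists_p (n : ℕ) : ∃ p : ℝ, 0 ≤ p ∧ (n : ℝ) = p ^ 1200 := by
  refine ⟨(n:ℝ) ^ (1 / 1200 : ℝ), by positivity, ?_⟩
  rw [← Real.rpow_natCast, ← Real.rpow_mul (Nat.cast_nonneg n)]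
  norm_num

lemma p_large (n : ℕ) (p p0 : ℝ) (hp : 0 ≤ p) (hN : (n : ℝ) = p ^ 1200) (h : p0 ^ 1200 ≤ n) :
    p0 ≤ p := by
  by_contra hneg
  push Not at hneg
  have : p ^ 1200 < p0 ^ 1200 := pow_lt_pow_left₀ hneg hp (by norm_num)
  linarith

lemma sq_trivial (n : ℕ) (k : ℕ) :
    V (fun H => (numEdges H : ℝ) ^ 2) k (⊤ : SimpleGraph (Fin n)) ≤ (n : ℝ) * (n : ℝ) ^ 3 := by
  refine (V_le_sq k _).trans ?_
  have h1 := numEdges_le (⊤ : SimpleGraph (Fin n))
  have h2 : (0:ℝ) ≤ numEdges (⊤ : SimpleGraph (Fin n)) := by positivity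
  have h3 := mul_self_le_mul_self (by positivity) h1
  nlinarith

/-- the log-free second moment bound, given the functional -/
theorem final_sq (F : ∀ n : ℕ, SimpleGraph (Fin n) → ℝ) (C K0 κ κL s0 η : ℝ) (n0 : ℕ)
    (hF : ∀ n, n0 ≤ n → FHyp (F n) C K0 κ κL s0 η) (hη : η ≤ 1 / 10000) (hC : 0 < C) (hκ : 0 < κ) (hκL : 0 ≤ κL)
    (hs0 : 0 < s0) (hs1 : s0 ≤ 1 / 10000) :
    ∃ K : ℝ, 0 < K ∧ ∀ n : ℕ, 2 ≤ n →
      expect (finalGraph n) (fun G => (numEdges G : ℝ) ^ 2) ≤ K * (n : ℝ) ^ 3 := by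
  obtain ⟨A, hA⟩ : ∃ A : ℝ, A = 1 / κ := ⟨_, rfl⟩
  have hA0 : 0 < A := by rw [hA]; positivity
  have hAκ : 1 ≤ A * κ := by
    rw [hA, one_div, inv_mul_cancel₀ hκ.ne']
  obtain ⟨B, hB⟩ : ∃ B : ℝ, B = 4 * C := ⟨_, rfl⟩
  have hB0 : 0 < B := by rw [hB]; positivity
  obtain ⟨K0', hK0'⟩ : ∃ K0' : ℝ, K0' = max K0 0 + 10000 + 65536 * B * κL * 1000 := ⟨_, rfl⟩
  have hx : 0 ≤ 65536 * B * κL * 1000 := by positivity
  have hm0 : 0 ≤ max K0 0 := le_max_right _ _
  have hm1 : K0 ≤ max K0 0 := le_max_left _ _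
  have hK1 : 10000 ≤ K0' := by linarith only [hK0', hx, hm0]
  have hK2 : K0 ≤ K0' := by linarith only [hK0', hx, hm1]
  have hK3 : 65536 * B * κL ≤ (1 / 1000) * K0' := by linarith only [hK0', hm0]
  have hK4 : K0' ≤ 4 * K0' ^ 2 := by nlinarith only [hK0', hx, hm0]
  obtain ⟨p0, hp0⟩ : ∃ p0 : ℝ, p0 = 2 + A * C + 2 * 10 ^ 13 / s0 ^ 8 + (2 * K0' + 3) := ⟨_, rfl⟩
  have hAC : 0 < A * C := by positivity
  have hs8 : 0 < 2 * 10 ^ 13 / s0 ^ 8 := by positivity
  have hp00 : 0 < p0 := by linarith only [hK0', hx, hm0, hp0, hAC, hs8]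
  obtain ⟨K, hK⟩ : ∃ K : ℝ, K = 3 * A * C + 256 * A * B + 2 + K0' ^ 2 := ⟨_, rfl⟩
  have hKpos : 0 < K := by rw [hK]; positivity
  refine ⟨K + p0 ^ 1200 + n0, by positivity, fun n hn => ?_⟩
  have h2 : expect (finalGraph n) (fun G => (numEdges G : ℝ) ^ 2) =
      V (fun H => (numEdges H : ℝ) ^ 2) (n.choose 2) (⊤ : SimpleGraph (Fin n)) := rfl
  rw [h2]
  have hn3 : 0 ≤ (n:ℝ) ^ 3 := by positivity
  by_cases hbig : p0 ^ 1200 ≤ (n:ℝ) ∧ n0 ≤ n
  · obtain ⟨p, hpnn, hN⟩ := exists_p n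
    have hp := p_large n p p0 hpnn hN hbig.1
    have := sq_large n (F n) A B C K0' κ κL s0 η p K0' ((hF n hbig.2).mono hK2) hη hA0 hAκ hB0 hC.le
      hκL hK1 hK3 (by rw [hB]) hs0 hs1 (by linarith only [hK0', hx, hm0]) hK4 hn (by linarith only [hK0', hx, hm0, hp0, hAC, hs8, hp]) hN (by linarith only [hK0', hx, hm0, hp0, hs8, hp])
      (by linarith only [hK0', hx, hm0, hp0, hAC, hp]) (by linarith only [hp0, hAC, hs8, hp]) (n.choose 2) (numEdges_top n).le
    refine this.trans ?_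
    rw [← hK]
    have h5 : 0 ≤ (p0 ^ 1200 + (n0:ℝ)) * (n:ℝ) ^ 3 := by positivity
    linarith only [h5]
  · have h3 : (n:ℝ) ≤ p0 ^ 1200 + n0 := by
      rw [not_and_or] at hbig
      rcases hbig with h | h
      · push Not at h
        have : (0:ℝ) ≤ n0 := Nat.cast_nonneg _
        linarith only [h]
      · push Not at h
        have h4 : (n:ℝ) ≤ n0 := by exact_mod_cast h.le
        have : 0 ≤ p0 ^ 1200 := by positivity
        linarith only [h4, this]
    refine (sq_trivial n _).trans ?_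
    have h5 := mul_le_mul_of_nonneg_right h3 hn3
    have h6 : 0 ≤ K * (n:ℝ) ^ 3 := by positivity
    linarith only [h5, h6]

/-- a small functional makes the graph good -/
lemma good_of_small (n : ℕ) (F : SimpleGraph (Fin n) → ℝ) (A C K0 κ κL s0 η K1 Cψ Es : ℝ)
    (hF : FHyp F C K0 κ κL s0 η) (hη : η ≤ 1 / 10000) (hC : 0 < C) (hA : A * κ = 1) (hA0 : 0 < A)
    (hψ : ∀ G, 0 < numEdges G → Psi G ≤ Cψ * (numEdges G * √(numEdges G * F G) + numEdges G * F G))
    (hCψ : 0 ≤ Cψ) (hn : 0 < n) (hEs0 : 0 < Es)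
    (hK1 : 1 ≤ K1) (hcl : 4 * K1 ^ 2 ≤ 4 * Es ^ 2 / (n:ℝ) ^ 3)
    (hK2 : A * (64 * C) < 16 * K1 ^ 4) (e1 : ℕ) (hEs : Es = e1)
    (G : SimpleGraph (Fin n)) (hG : numEdges G = e1)
    (hlam : F G ≤ 64 * C * Es / (4 * Es ^ 2 / (n:ℝ) ^ 3) ^ 2) :
    LB.Good e1 (1 / 10000) (Cψ * (√(64 * C) + 64 * C) / 4 * (n:ℝ) ^ 3 * 1) G := by
  have hn0 : (0:ℝ) < n := by exact_mod_cast hn
  obtain ⟨c, hc⟩ : ∃ c, c = 4 * Es ^ 2 / (n:ℝ) ^ 3 := ⟨_, rfl⟩
  rw [← hc] at hcl hlam
  have hc0 : 0 < c := by rw [hc]; positivity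
  have hE : (numEdges G : ℝ) = Es := by rw [hG, hEs]
  have hF0 := hF.nonneg G
  refine ⟨hG, ?_, ?_⟩
  · refine le_trans ?_ hη
    by_contra hneg
    push Not at hneg
    have h1 := hF.bad G hneg
    rw [hE] at h1
    have h2 : κ * Es ≤ 64 * C * Es / c ^ 2 := h1.trans hlam
    rw [le_div_iff₀ (by positivity)] at h2
    have h3 : κ * c ^ 2 ≤ 64 * C := by
      have : κ * c ^ 2 * Es ≤ 64 * C * Es := by linarith only [h2]
      exact le_of_mul_le_mul_right this hEs0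
    have h4 : c ^ 2 ≤ A * (64 * C) := by
      calc c ^ 2 = A * κ * c ^ 2 := by rw [hA, one_mul]
        _ = A * (κ * c ^ 2) := by ring
        _ ≤ A * (64 * C) := mul_le_mul_of_nonneg_left h3 hA0.le
    have h5 : (4 * K1 ^ 2) ^ 2 ≤ c ^ 2 := pow_le_pow_left₀ (by positivity) hcl 2
    have h6 : (4 * K1 ^ 2) ^ 2 = 16 * K1 ^ 4 := by ring
    linarith only [hK2, h4, h5]
  · have hEpos : 0 < numEdges G := by
      have : (0:ℝ) < numEdges G := by rw [hE]; exact hEs0
      exact_mod_cast this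
    refine (hψ G hEpos).trans ?_
    rw [hE]
    have hc1 : 1 ≤ c := by
      have := one_le_pow₀ (n := 2) hK1
      linarith only [hcl, this]
    have h1 : Es * F G ≤ 64 * C * (Es / c) ^ 2 := by
      calc Es * F G ≤ Es * (64 * C * Es / c ^ 2) := mul_le_mul_of_nonneg_left hlam hEs0.le
        _ = _ := by field_simp
    have h2 : √(Es * F G) ≤ √(64 * C) * (Es / c) := by
      calc √(Es * F G) ≤ √(64 * C * (Es / c) ^ 2) := Real.sqrt_le_sqrt h1
        _ = √(64 * C) * (Es / c) := by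
            rw [Real.sqrt_mul (by positivity), Real.sqrt_sq (by positivity)]
    have h3 : Es * F G ≤ 64 * C * (Es * (Es / c)) := by
      refine h1.trans ?_
      have : (Es / c) ^ 2 ≤ Es * (Es / c) := by
        rw [sq]
        apply mul_le_mul_of_nonneg_right _ (by positivity)
        exact div_le_self hEs0.le hc1
      have := mul_le_mul_of_nonneg_left this (by positivity : 0 ≤ 64 * C)
      linarith only [this]
    have h4 : Es * √(Es * F G) ≤ √(64 * C) * (Es * (Es / c)) := by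
      calc Es * √(Es * F G) ≤ Es * (√(64 * C) * (Es / c)) := mul_le_mul_of_nonneg_left h2 hEs0.le
        _ = _ := by ring
    have h5 : Es * (Es / c) = (n:ℝ) ^ 3 / 4 := by
      rw [hc]; field_simp
    rw [h5] at h3 h4
    calc Cψ * (Es * √(Es * F G) + Es * F G)
        ≤ Cψ * (√(64 * C) * ((n:ℝ) ^ 3 / 4) + 64 * C * ((n:ℝ) ^ 3 / 4)) :=
          mul_le_mul_of_nonneg_left (by linarith only [h3, h4]) hCψ
      _ = _ := by ring

/-- choice of the level -/
lemma choose_level (n : ℕ) (p K1 : ℝ) (hp2 : 2 ≤ p) (hN : (n : ℝ) = p ^ 1200)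
    (hK12 : 1 ≤ K1) (hpK : K1 ≤ p) :
    ∃ e1 k1 : ℕ, n.choose 2 = e1 + 3 * k1 ∧ K1 * p ^ 1800 ≤ e1 ∧
      (e1 : ℝ) ≤ 2 * (K1 * p ^ 1800) := by
  have hp1 : 1 ≤ p := by linarith
  have hpos : 0 < p := by linarith only [hp2]
  have hs300 : 300 ≤ p ^ 1800 := by
    calc (300:ℝ) ≤ 2 ^ 9 := by norm_num
      _ ≤ p ^ 9 := pow_le_pow_left₀ (by norm_num) hp2 9
      _ ≤ p ^ 1800 := pow_le_pow_right₀ hp1 (by norm_num)
  have hx3 : 3 ≤ K1 * p ^ 1800 := by
    have : 1 * 300 ≤ K1 * p ^ 1800 := mul_le_mul hK12 hs300 (by norm_num) (by linarith)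
    linarith
  have hxN : K1 * p ^ 1800 ≤ (n.choose 2 : ℕ) := by
    rw [choose_two_real]
    have h1 : K1 * p ^ 1800 ≤ p * p ^ 1800 :=
      mul_le_mul_of_nonneg_right hpK (by positivity)
    have h2 : (4:ℝ) ≤ p ^ 2 := by nlinarith only [hp2]
    have h3 : (2:ℝ) ≤ (n:ℝ) := by
      rw [hN]
      exact hp2.trans (le_self_pow₀ hp1 (by norm_num))
    have h4 : p * p ^ 1800 * 4 ≤ (n:ℝ) ^ 2 := by
      rw [hN]
      calc p * p ^ 1800 * 4 ≤ p * p ^ 1800 * p ^ 2 := mul_le_mul_of_nonneg_left h2 (by positivity)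
        _ = p ^ 1803 := by ring
        _ ≤ p ^ 2400 := pow_le_pow_right₀ hp1 (by norm_num)
        _ = (p ^ 1200) ^ 2 := by ring
    nlinarith only [h1, h4, h3]
  exact LB.exists_level (n.choose 2) _ hx3 hxN

/-- the lower bound for a fixed large `n` -/
lemma lower_fixed (n : ℕ) (F : SimpleGraph (Fin n) → ℝ) (A B C K0 κ κL s0 η Cψ K' K1 p : ℝ)
    (hF : FHyp F C K0 κ κL s0 η) (hη : η ≤ 1 / 10000) (hA0 : 0 < A) (hAκ : A * κ = 1) (hB : B = 4 * C)
    (hC : 0 < C) (hκL : 0 ≤ κL) (hK1 : 10000 ≤ K0) (hK3 : 65536 * B * κL ≤ (1 / 1000) * K0)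
    (hs0 : 0 < s0) (hs1 : s0 ≤ 1 / 10000) (hCψ : 0 ≤ Cψ)
    (hψ : ∀ G : SimpleGraph (Fin n), 0 < numEdges G →
      Psi G ≤ Cψ * (numEdges G * √(numEdges G * F G) + numEdges G * F G))
    (hK' : K' = Cψ * (√(64 * C) + 64 * C) / 4) (hK12 : 10000 ≤ K1) (hK14 : 86 * K' ≤ K1)
    (hK16 : K0 ≤ 4 * K1 ^ 2) (hK17 : A * (64 * C) < 16 * K1 ^ 4)
    (hp2 : 2 ≤ p) (hN : (n : ℝ) = p ^ 1200) (hn : 2 ≤ n) (hAC : A * C ≤ p)
    (hs : 2 * 10 ^ 13 / s0 ^ 8 ≤ p) (hpK : 2 * K1 + 3 ≤ p)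
    (hpR : (A * C + 256 * A * B + 2) * K1 ^ 2 * 4 ≤ A * C * p) :
    p ^ 1800 / (400 * (10 ^ 9 * K1 ^ 5 * 1 ^ 5)) ≤
      expect (finalGraph n) (fun G => (numEdges G : ℝ)) := by
  have hp1 : 1 ≤ p := by linarith only [hK12, hpK]
  have hpos : 0 < p := by linarith only [hK12, hpK]
  have hB0 : 0 < B := by rw [hB]; positivity
  have hs2 : (p ^ 1800) ^ 2 = (n:ℝ) ^ 3 := by rw [hN]; ring
  have hK'0 : 0 ≤ K' := by rw [hK']; positivity
  have hs300 : 300 ≤ p ^ 1800 := by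
    calc (300:ℝ) ≤ 2 ^ 9 := by norm_num
      _ ≤ p ^ 9 := pow_le_pow_left₀ (by norm_num) hp2 9
      _ ≤ p ^ 1800 := pow_le_pow_right₀ hp1 (by norm_num)
  obtain ⟨e1, k1, hNe, he1, he2⟩ := choose_level n p K1 hp2 hN (by linarith only [hK12]) (by linarith only [hK12, hpK])
  have he2' : (e1:ℝ) ≤ 2 * K1 * p ^ 1800 := by linarith only [he2]
  have hEs0 : (0:ℝ) < e1 := lt_of_lt_of_le (by positivity) he1
  have hn0 : (0:ℝ) < n := by rw [hN]; positivity
  have hlev := level_large n F A B C K0 κ κL s0 η p K1 e1 hF hη hA0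
    hAκ.ge hB0 hC hκL hK1 hK3 hB.ge hs0 hs1 (by linarith only [hs0, hs1, hK12]) hK16 hK17.le hn hp2 hN
    hAC hs hpK hpR e1 k1 rfl he1 he2' hNe
  have hcl : 4 * K1 ^ 2 ≤ 4 * (e1:ℝ) ^ 2 / (n:ℝ) ^ 3 := by
    rw [le_div_iff₀ (by positivity), ← hs2]
    have := pow_le_pow_left₀ (by positivity) he1 2
    calc 4 * K1 ^ 2 * (p ^ 1800) ^ 2 = 4 * (K1 * p ^ 1800) ^ 2 := by ring
      _ ≤ _ := by linarith only [this]
  have hbad : V (LB.bad e1 (1 / 10000) (K' * (n:ℝ) ^ 3 * 1)) k1 (⊤ : SimpleGraph (Fin n)) ≤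
      1 / 2 := by
    refine le_trans (LB.V_mono _ _ (fun G => ?_) k1 _) hlev
    unfold levBad
    split_ifs with h
    · have hg := good_of_small n F A C K0 κ κL s0 η K1 Cψ e1 hF hη hC hAκ hA0
        hψ hCψ (by omega) hEs0 (by linarith only [hK12]) hcl hK17 e1 rfl G h.1 h.2
      unfold LB.bad
      rw [hK', if_pos hg]
    · exact LB.bad_le_one _ _ _ _
  exact LB.lower_of_bad K' K1 (1 / 10000) (p ^ 1800) 1 (1 / 2) n (le_refl _) (by omega) hs2
    hs300 (le_refl _) (by linarith only [hK12]) hK'0 hK14 le_rfl e1 k1 hNe (by linarith only [he1]) (by linarith only [he2]) hbad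

/-- the lower bound of the right order, given the functional -/
theorem final_lower (F : ∀ n : ℕ, SimpleGraph (Fin n) → ℝ) (C K0 κ κL s0 η Cψ : ℝ) (n0 : ℕ)
    (hF : ∀ n, n0 ≤ n → FHyp (F n) C K0 κ κL s0 η) (hη : η ≤ 1 / 10000) (hC : 0 < C) (hκ : 0 < κ) (hκL : 0 ≤ κL)
    (hs0 : 0 < s0) (hs1 : s0 ≤ 1 / 10000) (hCψ : 0 ≤ Cψ)
    (hψ : ∀ n, n0 ≤ n → ∀ G : SimpleGraph (Fin n), 0 < numEdges G →
      Psi G ≤ Cψ * (numEdges G * √(numEdges G * F n G) + numEdges G * F n G)) :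
    ∃ c : ℝ, 0 < c ∧ ∃ n1 : ℕ, ∀ n : ℕ, n1 ≤ n →
      c * (n : ℝ) ^ (3 / 2 : ℝ) ≤ expect (finalGraph n) (fun G => (numEdges G : ℝ)) := by
  obtain ⟨A, hA⟩ : ∃ A : ℝ, A = 1 / κ := ⟨_, rfl⟩
  have hA0 : 0 < A := by rw [hA]; positivity
  have hAκ : A * κ = 1 := by
    rw [hA, one_div, inv_mul_cancel₀ hκ.ne']
  obtain ⟨B, hB⟩ : ∃ B : ℝ, B = 4 * C := ⟨_, rfl⟩
  have hB0 : 0 < B := by rw [hB]; positivity
  obtain ⟨K0', hK0'⟩ : ∃ K0' : ℝ, K0' = max K0 0 + 10000 + 65536 * B * κL * 1000 := ⟨_, rfl⟩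
  have hx : 0 ≤ 65536 * B * κL * 1000 := by positivity
  have hm0 : 0 ≤ max K0 0 := le_max_right _ _
  have hm1 : K0 ≤ max K0 0 := le_max_left _ _
  obtain ⟨K', hK'⟩ : ∃ K' : ℝ, K' = Cψ * (√(64 * C) + 64 * C) / 4 := ⟨_, rfl⟩
  have hK'0 : 0 ≤ K' := by rw [hK']; positivity
  obtain ⟨K1, hK1'⟩ : ∃ K1 : ℝ, K1 = K0' + 86 * K' + A * (64 * C) := ⟨_, rfl⟩
  have hAC : 0 < A * C := by positivity
  have hAC64 : 0 < A * (64 * C) := by positivity
  have hK12 : 10000 ≤ K1 := by linarith only [hK0', hx, hm0, hK'0, hK1', hAC]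
  have hK16 : K0' ≤ 4 * K1 ^ 2 := by nlinarith only [hK0', hx, hm0, hK'0, hK1', hAC]
  have hK17 : A * (64 * C) < 16 * K1 ^ 4 := by
    have h1 : K1 ≤ K1 ^ 4 := le_self_pow₀ (by linarith only [hK0', hx, hm0, hK'0, hK1', hAC]) (by norm_num)
    linarith only [hK0', hx, hm0, hK'0, hK1', hAC, h1]
  obtain ⟨R, hR⟩ : ∃ R : ℝ, R = (A * C + 256 * A * B + 2) * K1 ^ 2 * 4 / (A * C) := ⟨_, rfl⟩
  have hR0 : 0 < R := by rw [hR]; positivity
  obtain ⟨p0, hp0⟩ : ∃ p0 : ℝ, p0 = 2 + A * C + 2 * 10 ^ 13 / s0 ^ 8 + (2 * K1 + 3) + R := ⟨_, rfl⟩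
  have hs8 : 0 < 2 * 10 ^ 13 / s0 ^ 8 := by positivity
  have hp00 : 0 < p0 := by linarith only [hK0', hx, hm0, hK'0, hK1', hAC, hR0, hp0, hs8]
  refine ⟨1 / (400 * (10 ^ 9 * K1 ^ 5)), by positivity, ⌈p0 ^ 1200⌉₊ + n0 + 2, fun n hn => ?_⟩
  obtain ⟨p, hpnn, hN⟩ := exists_p n
  have hbig : p0 ^ 1200 ≤ (n:ℝ) := by
    refine (Nat.le_ceil _).trans ?_
    have : ⌈p0 ^ 1200⌉₊ ≤ n := by omega
    exact_mod_cast this
  have hp := p_large n p p0 hpnn hN hbig
  have hs : (n:ℝ) ^ (3 / 2 : ℝ) = p ^ 1800 := by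
    rw [hN, ← Real.rpow_natCast p 1200, ← Real.rpow_mul hpnn, ← Real.rpow_natCast p 1800]
    norm_num
  rw [hs]
  have hfin := lower_fixed n (F n) A B C K0' κ κL s0 η Cψ K' K1 p
    ((hF n (by omega)).mono (by linarith only [hK0', hx, hm1])) hη hA0 hAκ hB hC hκL (by linarith only [hK0', hx, hm0]) (by linarith only [hK0', hm0]) hs0 hs1
    hCψ (hψ n (by omega)) hK' hK12 (by linarith only [hK0', hx, hm0, hK1', hAC]) hK16 hK17 (by linarith only [hK0', hx, hm0, hK'0, hK1', hAC, hR0, hp0, hs8, hp]) hN (by (clear * - hn; omega))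
    (by linarith only [hK0', hx, hm0, hK'0, hK1', hAC, hR0, hp0, hs8, hp]) (by linarith only [hK0', hx, hm0, hK'0, hK1', hAC, hR0, hp0, hp]) (by linarith only [hAC, hR0, hp0, hs8, hp]) (by
      have h1 : R * (A * C) ≤ p * (A * C) := mul_le_mul_of_nonneg_right (by linarith only [hK0', hx, hm0, hK'0, hK1', hAC, hp0, hs8, hp]) hAC.le
      rw [hR, div_mul_cancel₀ _ hAC.ne'] at h1
      linarith only [h1])
  refine le_trans (le_of_eq ?_) hfin
  field_simp

end Vale.Agent.P046.C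
end
end

section

section

/-!
The log-free bounds: `E F_n^2 ≤ K n^3` and `E F_n ≥ c n^{3/2}`.
-/

set_option autoImplicit false

open scoped Classical
open Finset

namespace Vale.Agent.P046.C.Fi

open Vale.Agent.P046 Vale.Agent.P046.C

variable {n : ℕ}

lemma cc_le_n (G : SimpleGraph (Fin n)) (hn : 0 < n) : cc G ≤ n := by
  have hn0 : (0:ℝ) < n := by exact_mod_cast hn
  have h1 := numEdges_le G
  have h2 : (0:ℝ) ≤ numEdges G := by positivity
  have h5 : 4 * (numEdges G : ℝ) ^ 2 ≤ (n : ℝ) ^ 4 := by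
    have := mul_self_le_mul_self (by positivity) h1
    linarith only [this]
  unfold cc
  rw [div_le_iff₀ (by positivity)]
  linarith only [h5]

lemma Sm_top (hn : 1000 ≤ n) : Ea.Sm (⊤ : SimpleGraph (Fin n)) (4 / (n:ℝ) ^ 2) := by
  intro u v huv
  have hn' : (1000 : ℝ) ≤ n := by exact_mod_cast hn
  rw [zz_top n (by omega) u v huv, abs_neg, abs_of_nonneg (by positivity)]
  have hm : 0 < (n : ℝ) - 1 := by linarith only [hn']
  rw [div_le_div_iff₀ (by positivity) (by positivity)]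
  nlinarith only [hn']

lemma FF_top (d β D μ : ℝ) (hd : 0 < d) (hβ : 0 < β) (hβ1 : β ≤ 1) (hD : 0 < D) (hμ : 0 < μ)
    (hn : 1000 ≤ n) : FF d β D μ (⊤ : SimpleGraph (Fin n)) ≤ 2 + μ := by
  have hn' : (1000 : ℝ) ≤ n := by exact_mod_cast hn
  have hn0 : (0 : ℝ) < n := by linarith only [hn']
  have hSm := Sm_top hn
  obtain ⟨x, hx⟩ : ∃ x : ℝ, x = 4 / (n:ℝ) ^ 2 := ⟨_, rfl⟩
  rw [← hx] at hSm
  have hx0 : 0 ≤ x := by rw [hx]; positivity
  have hx1 : x ≤ 1 / 1000 := by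
    rw [hx, div_le_div_iff₀ (by positivity) (by norm_num)]
    nlinarith only [hn']
  have hE2 : 2 * (numEdges (⊤ : SimpleGraph (Fin n)) : ℝ) ≤ (n:ℝ) ^ 2 := numEdges_le _
  have hEpos : (0:ℝ) < numEdges (⊤ : SimpleGraph (Fin n)) := by
    rw [numEdges_top, choose_two_real]
    have : 0 < (n:ℝ) - 1 := by linarith only [hn']
    positivity
  have hE : 0 < numEdges (⊤ : SimpleGraph (Fin n)) := by exact_mod_cast hEpos
  have hc0 : 0 < cc (⊤ : SimpleGraph (Fin n)) := cc_pos _ (by omega) hE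
  have hkey : 9 * x ^ 2 * (2 * (numEdges (⊤ : SimpleGraph (Fin n)) : ℝ)) ≤ 1 := by
    calc 9 * x ^ 2 * (2 * (numEdges (⊤ : SimpleGraph (Fin n)) : ℝ)) ≤ 9 * x ^ 2 * (n:ℝ) ^ 2 :=
          mul_le_mul_of_nonneg_left hE2 (by positivity)
      _ = 144 / (n:ℝ) ^ 2 := by rw [hx]; field_simp; norm_num
      _ ≤ 1 := by
          rw [div_le_one (by positivity)]
          nlinarith only [hn']
  -- M
  have hM : MM d (⊤ : SimpleGraph (Fin n)) ≤ 1 := by
    have h1 : MM d (⊤ : SimpleGraph (Fin n)) ≤ edgeSum (⊤ : SimpleGraph (Fin n))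
        (fun _ _ => (9 * x ^ 2) * 1) := by
      unfold MM
      apply OS.edgeSum_mono
      intro u v huv
      have h2 := huber_le_sq d (ww (⊤ : SimpleGraph (Fin n)) u v) hd
      have h3 := Ea.ww_small _ x hc0 hx0 hx1 hSm u v (SimpleGraph.ne_of_adj _ huv)
      have h4 : ww (⊤ : SimpleGraph (Fin n)) u v ^ 2 ≤ (3 * x) ^ 2 := by
        rw [← sq_abs]
        exact pow_le_pow_left₀ (abs_nonneg _) h3 2
      linarith only [h2, h4]
    rw [OS.edgeSum_mul, OS.edgeSum_one] at h1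
    linarith only [hkey, h1]
  have hT : TH D (⊤ : SimpleGraph (Fin n)) ≤ 1 := by
    have h1 : TH D (⊤ : SimpleGraph (Fin n)) ≤ edgeSum (⊤ : SimpleGraph (Fin n))
        (fun _ _ => (9 * x ^ 2) * 1) := by
      unfold TH
      apply OS.edgeSum_mono
      intro u v huv
      have hz := hSm.adj u v huv
      have ez : zz (⊤ : SimpleGraph (Fin n)) u v = rr (⊤ : SimpleGraph (Fin n)) u v - 1 := rfl
      rw [ez] at hz
      have hr := abs_le.mp hz
      have h2 := Lam_le D (hh (rr (⊤ : SimpleGraph (Fin n)) u v)) hD (hh_nonneg _ (by linarith only [hx1, hr]))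
      have h3 := Ea.hh_le_two (rr (⊤ : SimpleGraph (Fin n)) u v) (by linarith)
      have h4 : (rr (⊤ : SimpleGraph (Fin n)) u v - 1) ^ 2 ≤ x ^ 2 := by
        rw [← sq_abs]
        exact pow_le_pow_left₀ (abs_nonneg _) hz 2
      unfold theta
      linarith only [h2, h3, h4, sq_nonneg x]
    rw [OS.edgeSum_mul, OS.edgeSum_one] at h1
    linarith only [hkey, h1]
  have hR : RF (⊤ : SimpleGraph (Fin n)) ≤ 1 := by
    have h1 := rho_of_good (⊤ : SimpleGraph (Fin n)) (by omega) hE x hSm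
    have h2 : (rho (⊤ : SimpleGraph (Fin n)) - 1) ^ 2 ≤ x ^ 2 := by
      rw [← sq_abs]
      exact pow_le_pow_left₀ (abs_nonneg _) h1 2
    unfold RF
    have h3 := mul_le_mul_of_nonneg_left h2 hEpos.le
    have h4 : 0 ≤ x ^ 2 * (numEdges (⊤ : SimpleGraph (Fin n)) : ℝ) := by positivity
    linarith only [hkey, h3]
  have hT0 : 0 ≤ TH D (⊤ : SimpleGraph (Fin n)) := Ea.TH_nonneg' D hD _
  unfold FF
  have a1 : β * TH D (⊤ : SimpleGraph (Fin n)) ≤ 1 := by nlinarith only [hβ1, hβ, hT]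
  have a2 : μ * RF (⊤ : SimpleGraph (Fin n)) ≤ μ * 1 := mul_le_mul_of_nonneg_left hR hμ.le
  linarith only [hM, a1, a2]

/-- the functional satisfies all hypotheses -/
theorem FHyp_FF (hn : 1000 ≤ n) :
    FHyp (n := n) (FF 1e-23 1e-9 1e-46 1e7) 1e60 1e100 (1e7 * (1e-30) ^ 2) (40000 / 1e-9) 1e-40
      1e-30 where
  nonneg := FF_nonneg 1e-23 1e-46 1e-9 1e7 (by norm_num) (by norm_num1) (by norm_num) (by norm_num)
  late := fun G hc hζ => K.late_FF G hc hζ
  early := by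
    intro G hc h4 hG
    have hcn := cc_le_n G (by omega)
    have h := Ea.FF_early G 1e-40 1e-23 1e-9 1e-46 1e7 1e-20 (by omega) (by norm_num)
      (by norm_num) (by norm_num) (by norm_num) (by norm_num) (by norm_num) (by norm_num)
      (by norm_num) (by norm_num) (by norm_num) (by norm_num) (by norm_num) (by norm_num)
      (by norm_num) (by
        refine le_trans ?_ hc
        norm_num) hcn (by
        have h1 : (1e100:ℝ) ^ 2 ≤ cc G ^ 2 := pow_le_pow_left₀ (by norm_num) hc 2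
        calc (2892800:ℝ) ≤ 1e-23 * (1e100) ^ 2 := by norm_num
          _ ≤ 1e-23 * cc G ^ 2 := mul_le_mul_of_nonneg_left h1 (by norm_num)) h4 hG
    refine h.trans ?_
    have h2 : 0 ≤ (numEdges G : ℝ) / cc G + wheels G / cc G ^ 3 := by
      have := wheels_nonneg G
      have : 0 < cc G := lt_of_lt_of_le (by norm_num) hc
      positivity
    have h3 : (300000 + (1e-9:ℝ) * (3 * 10 ^ 7 / 1e-46) + 4000 * 1e7) ≤ 1e60 := by norm_num
    have h4 := mul_le_mul_of_nonneg_right h3 h2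
    linarith only [h2]
  bad := fun G h => FF_bad 1e-23 1e-46 1e-9 1e7 1e-30 (by norm_num) (by norm_num) (by norm_num)
    (by norm_num) (by norm_num) G h
  low := fun G => FF_low 1e-23 1e-46 1e-9 1e7 (by norm_num) (by norm_num) (by norm_num)
    (by norm_num) (by norm_num) G
  top := by
    refine (FF_top 1e-23 1e-9 1e-46 1e7 (by norm_num) (by norm_num) (by norm_num) (by norm_num)
      (by norm_num) hn).trans ?_
    norm_num

/-- the second moment of the number of edges of the final graph -/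
theorem second_moment :
    ∃ K : ℝ, 0 < K ∧ ∀ n : ℕ, 2 ≤ n →
      expect (finalGraph n) (fun G => (numEdges G : ℝ) ^ 2) ≤ K * (n : ℝ) ^ 3 :=
  final_sq (fun n => FF 1e-23 1e-9 1e-46 1e7) 1e60 1e100 (1e7 * (1e-30) ^ 2) (40000 / 1e-9) 1e-40
    1e-30 1000 (fun n hn => FHyp_FF hn) (by norm_num) (by norm_num) (by norm_num) (by norm_num)
    (by norm_num) (by norm_num)

/-- the lower bound of the right order -/
theorem first_moment_lower :
    ∃ c : ℝ, 0 < c ∧ ∃ n1 : ℕ, ∀ n : ℕ, n1 ≤ n →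
      c * (n : ℝ) ^ (3 / 2 : ℝ) ≤ expect (finalGraph n) (fun G => (numEdges G : ℝ)) :=
  final_lower (fun n => FF 1e-23 1e-9 1e-46 1e7) 1e60 1e100 (1e7 * (1e-30) ^ 2) (40000 / 1e-9)
    1e-40 1e-30 (1 / 1e-9) 1000 (fun n hn => FHyp_FF hn) (by norm_num) (by norm_num) (by norm_num)
    (by norm_num) (by norm_num) (by norm_num) (by norm_num) (fun n _ G _ =>
      Psi_le_FF 1e-23 1e-46 1e-9 1e7 (by norm_num) (by norm_num) (by norm_num) (by norm_num)
        (by norm_num) (by norm_num) G)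

end Vale.Agent.P046.C.Fi
end
end

section

section

set_option autoImplicit false

open scoped Classical
open Finset

namespace Vale.Agent.P046

lemma expect_sq_le {α : Type*} [Fintype α] (μ : PMF α) (f : α → ℝ) :
    (expect μ f) ^ 2 ≤ expect μ (fun a => f a ^ 2) := by
  have h : 0 ≤ expect μ (fun a => (f a - expect μ f) ^ 2) :=
    Finset.sum_nonneg fun a _ => mul_nonneg ENNReal.toReal_nonneg (sq_nonneg _)
  set m := expect μ f with hm
  have h2 : expect μ (fun a => (f a - m) ^ 2) = expect μ (fun a => f a ^ 2) - m ^ 2 := by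
    have e1 : expect μ (fun a => (f a - m) ^ 2)
        = expect μ (fun a => f a ^ 2) - 2 * m * expect μ f + m ^ 2 * ∑ a, (μ a).toReal := by
      unfold expect
      rw [Finset.mul_sum, Finset.mul_sum, ← Finset.sum_sub_distrib, ← Finset.sum_add_distrib]
      refine Finset.sum_congr rfl fun a _ => by ring
    rw [e1, sum_toReal, ← hm]
    ring
  linarith only [h, h2]


lemma toReal_toOuterMeasure {α : Type*} [Fintype α]
    (μ : PMF α) (s : Set α) :
    (μ.toOuterMeasure s).toReal = expect μ (fun a => if a ∈ s then 1 else 0) := by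
  rw [PMF.toOuterMeasure_apply_fintype, ENNReal.toReal_sum]
  · unfold expect
    refine Finset.sum_congr rfl fun a _ => ?_
    by_cases h : a ∈ s <;> simp [h]
  · intro a _
    by_cases h : a ∈ s
    · simpa only [h, Set.indicator_of_mem, ne_eq] using PMF.apply_ne_top _ _
    · simp only [h, not_false_eq_true, Set.indicator_of_notMem, ne_eq, ENNReal.zero_ne_top]


end Vale.Agent.P046
end
end

section

section

set_option autoImplicit false

open scoped Classical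
open Finset

namespace Vale.Agent.P046.C.Fi

open Vale.Agent.P046 Vale.Agent.P046.C

lemma s_sq (n : ℕ) : ((n : ℝ) ^ (3 / 2 : ℝ)) ^ 2 = (n : ℝ) ^ 3 := by
  have hn0 : (0 : ℝ) ≤ n := Nat.cast_nonneg n
  rw [← Real.rpow_natCast ((n : ℝ) ^ (3 / 2 : ℝ)) 2, ← Real.rpow_mul hn0,
    ← Real.rpow_natCast (n : ℝ) 3]
  norm_num

/-- the upper bounds -/
theorem upper_theta :
    ∃ K : ℝ, 0 < K ∧ ∀ n : ℕ, 2 ≤ n →
      (∑ G, (finalGraph n G).toReal * (numEdges G : ℝ) ^ 2 ≤ K * (n : ℝ) ^ 3) ∧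
      (∑ G, (finalGraph n G).toReal * (numEdges G : ℝ) ≤ K * (n : ℝ) ^ (3 / 2 : ℝ)) ∧
      ∀ lam : ℝ, 0 < lam →
        ((finalGraph n).toOuterMeasure
          {G | lam * (n : ℝ) ^ (3 / 2 : ℝ) ≤ (numEdges G : ℝ)}).toReal ≤ K / lam ^ 2 := by
  obtain ⟨K0, hK0, hK⟩ := second_moment
  refine ⟨max K0 1, lt_of_lt_of_le one_pos (le_max_right _ _), fun n hn => ?_⟩
  have hn' : (2 : ℝ) ≤ n := by exact_mod_cast hn
  have hK1 : 1 ≤ max K0 1 := le_max_right _ _
  have hKK : K0 ≤ max K0 1 := le_max_left _ _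
  obtain ⟨K, hKdef⟩ : ∃ K, K = max K0 1 := ⟨_, rfl⟩
  rw [← hKdef] at hK1 hKK ⊢
  have hn0 : (0 : ℝ) < n := by linarith only [hn']
  have hs2 := s_sq n
  obtain ⟨s, hs⟩ : ∃ s : ℝ, s = (n : ℝ) ^ (3 / 2 : ℝ) := ⟨_, rfl⟩
  have hs0 : 0 < s := by rw [hs]; exact Real.rpow_pos_of_pos hn0 _
  rw [← hs] at hs2 ⊢
  have hE2 : expect (finalGraph n) (fun G => (numEdges G : ℝ) ^ 2) ≤ K * s ^ 2 := by
    refine (hK n hn).trans ?_
    rw [hs2]
    exact mul_le_mul_of_nonneg_right hKK (by positivity)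
  refine ⟨?_, ?_, ?_⟩
  · have := hE2
    rw [hs2] at this
    exact this
  · change expect (finalGraph n) (fun G => (numEdges G : ℝ)) ≤ K * s
    have h1 := expect_sq_le (finalGraph n) (fun G => (numEdges G : ℝ))
    have h2 : (expect (finalGraph n) (fun G => (numEdges G : ℝ))) ^ 2 ≤ (K * s) ^ 2 := by
      refine (h1.trans hE2).trans ?_
      have h3 : K ≤ K ^ 2 := by nlinarith only [hK1]
      have h4 : (K * s) ^ 2 = K ^ 2 * s ^ 2 := by ring
      rw [h4]
      exact mul_le_mul_of_nonneg_right h3 (sq_nonneg s)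
    exact le_of_sq_le_sq h2 (by positivity)
  · intro lam hlam
    rw [toReal_toOuterMeasure, le_div_iff₀ (by positivity)]
    have h1 : expect (finalGraph n)
        (fun a => if a ∈ {G : SimpleGraph (Fin n) | lam * s ≤ (numEdges G : ℝ)} then (1 : ℝ)
          else 0) * (lam * s) ^ 2 ≤ expect (finalGraph n) (fun G => (numEdges G : ℝ) ^ 2) := by
      unfold expect
      rw [Finset.sum_mul]
      refine Finset.sum_le_sum fun a _ => ?_
      rw [mul_assoc]
      refine mul_le_mul_of_nonneg_left ?_ ENNReal.toReal_nonneg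
      beta_reduce
      by_cases h : a ∈ {G : SimpleGraph (Fin n) | lam * s ≤ (numEdges G : ℝ)}
      · rw [if_pos h, one_mul]
        exact pow_le_pow_left₀ (by positivity) h 2
      · rw [if_neg h, zero_mul]
        positivity
    have h2 := h1.trans hE2
    rw [mul_pow, ← mul_assoc] at h2
    exact le_of_mul_le_mul_right h2 (by positivity)

lemma expect_lin {α : Type*} [Fintype α] (μ : PMF α) (f g : α → ℝ) (b0 b1 b2 : ℝ) :
    expect μ (fun a => b0 + (b1 * f a + b2 * g a)) = b0 + b1 * expect μ f + b2 * expect μ g := by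
  have e0 := expect_const μ b0
  unfold expect at e0 ⊢
  calc ∑ a, (μ a).toReal * (b0 + (b1 * f a + b2 * g a)) =
        ∑ a, ((μ a).toReal * b0 + (b1 * ((μ a).toReal * f a) + b2 * ((μ a).toReal * g a))) :=
        Finset.sum_congr rfl fun a _ => by ring
    _ = ∑ a, (μ a).toReal * b0 + (b1 * ∑ a, (μ a).toReal * f a + b2 * ∑ a, (μ a).toReal * g a) := by
        rw [Finset.sum_add_distrib, Finset.sum_add_distrib, Finset.mul_sum, Finset.mul_sum]
    _ = _ := by rw [e0]; ring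

/-- second moment argument -/
lemma paley (n : ℕ) (c K s : ℝ) (hc : 0 < c) (hK : 0 < K) (hs : 0 < s)
    (h1 : c * s ≤ expect (finalGraph n) (fun G => (numEdges G : ℝ)))
    (h2 : expect (finalGraph n) (fun G => (numEdges G : ℝ) ^ 2) ≤ K * s ^ 2) :
    c ^ 2 / (4 * K) ≤ expect (finalGraph n)
      (fun a => if a ∈ {G : SimpleGraph (Fin n) | (c / 2) * s ≤ (numEdges G : ℝ)} then (1 : ℝ)
          else 0) := by
  obtain ⟨p, hp⟩ : ∃ p, p = expect (finalGraph n)
      (fun a => if a ∈ {G : SimpleGraph (Fin n) | (c / 2) * s ≤ (numEdges G : ℝ)} then (1 : ℝ)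
          else 0) := ⟨_, rfl⟩
  rw [← hp]
  have h3 : expect (finalGraph n) (fun G => (numEdges G : ℝ)) ≤
      expect (finalGraph n) (fun G => (c / 2) * s + ((c / (4 * K * s)) * (numEdges G : ℝ) ^ 2 +
        (K * s / c) * (if G ∈ {G : SimpleGraph (Fin n) | (c / 2) * s ≤ (numEdges G : ℝ)} then (1 : ℝ)
          else 0))) := by
    apply expect_mono
    intro G
    beta_reduce
    have hx : (0:ℝ) ≤ numEdges G := Nat.cast_nonneg _
    obtain ⟨x, hxd⟩ : ∃ x : ℝ, x = numEdges G := ⟨_, rfl⟩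
    by_cases h : G ∈ {G : SimpleGraph (Fin n) | (c / 2) * s ≤ (numEdges G : ℝ)}
    · rw [if_pos h, ← hxd]
      have e1 : (c / (4 * K * s)) * x ^ 2 + (K * s / c) * 1 - x =
          (c * x - 2 * K * s) ^ 2 / (4 * K * s * c) := by
        field_simp
        ring
      have e2 : 0 ≤ (c * x - 2 * K * s) ^ 2 / (4 * K * s * c) := by positivity
      have e3 : 0 ≤ (c / 2) * s := by positivity
      linarith
    · rw [if_neg h]
      have h4 : (numEdges G : ℝ) < (c / 2) * s := by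
        by_contra hneg
        push Not at hneg
        exact h hneg
      have e3 : 0 ≤ (c / (4 * K * s)) * (numEdges G : ℝ) ^ 2 := by positivity
      linarith only [h4, e3]
  have h4 : expect (finalGraph n) (fun G => (c / 2) * s + ((c / (4 * K * s)) * (numEdges G : ℝ) ^ 2 +
        (K * s / c) * (if G ∈ {G : SimpleGraph (Fin n) | (c / 2) * s ≤ (numEdges G : ℝ)} then (1 : ℝ)
          else 0))) = (c / 2) * s + (c / (4 * K * s)) *
        expect (finalGraph n) (fun G => (numEdges G : ℝ) ^ 2) + (K * s / c) * p := by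
    rw [hp]
    exact expect_lin (finalGraph n) (fun G => (numEdges G : ℝ) ^ 2)
      (fun G => if G ∈ {G : SimpleGraph (Fin n) | (c / 2) * s ≤ (numEdges G : ℝ)} then (1 : ℝ)
          else 0) ((c / 2) * s) (c / (4 * K * s)) (K * s / c)
  rw [h4] at h3
  have h5 : (c / (4 * K * s)) * expect (finalGraph n) (fun G => (numEdges G : ℝ) ^ 2) ≤
      (c / (4 * K * s)) * (K * s ^ 2) := mul_le_mul_of_nonneg_left h2 (by positivity)
  have e5 : (c / (4 * K * s)) * (K * s ^ 2) = c * s / 4 := by field_simp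
  rw [e5] at h5
  have h6 : c * s / 4 ≤ (K * s / c) * p := by linarith only [h1, h3, h5]
  rw [div_le_iff₀ (by positivity)]
  have h7 : c * s / 4 * c ≤ K * s * p := by
    have := mul_le_mul_of_nonneg_right h6 hc.le
    calc c * s / 4 * c ≤ (K * s / c) * p * c := this
      _ = _ := by field_simp
  have h8 : (c ^ 2) * s ≤ (p * (4 * K)) * s := by linarith only [h7]
  exact le_of_mul_le_mul_right h8 hs

/-- the lower bounds -/
theorem lower_theta :
    ∃ c : ℝ, 0 < c ∧ ∃ n0 : ℕ, ∀ n : ℕ, n0 ≤ n →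
      (c * (n : ℝ) ^ (3 / 2 : ℝ) ≤ ∑ G, (finalGraph n G).toReal * (numEdges G : ℝ)) ∧
      c ≤ ((finalGraph n).toOuterMeasure
          {G | c * (n : ℝ) ^ (3 / 2 : ℝ) ≤ (numEdges G : ℝ)}).toReal := by
  obtain ⟨c, hc, n1, h1⟩ := first_moment_lower
  obtain ⟨K, hK, h2⟩ := second_moment
  obtain ⟨c', hc'⟩ : ∃ c', c' = min (c / 2) (c ^ 2 / (4 * K)) := ⟨_, rfl⟩
  have hc'1 : c' ≤ c / 2 := by rw [hc']; exact min_le_left _ _
  have hc'2 : c' ≤ c ^ 2 / (4 * K) := by rw [hc']; exact min_le_right _ _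
  have hc'0 : 0 < c' := by rw [hc']; exact lt_min (by positivity) (by positivity)
  refine ⟨c', hc'0, n1 + 2, fun n hn => ?_⟩
  have hn' : (2 : ℝ) ≤ n := by exact_mod_cast (show 2 ≤ n by omega)
  have hn0 : (0 : ℝ) < n := by linarith only [hn']
  have hs2 := s_sq n
  have h1n := h1 n (by omega)
  obtain ⟨s, hs⟩ : ∃ s : ℝ, s = (n : ℝ) ^ (3 / 2 : ℝ) := ⟨_, rfl⟩
  have hs0 : 0 < s := by rw [hs]; exact Real.rpow_pos_of_pos hn0 _
  rw [← hs] at hs2 h1n ⊢
  have h2n := h2 n (by omega)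
  rw [← hs2] at h2n
  refine ⟨?_, ?_⟩
  · refine le_trans ?_ h1n
    apply mul_le_mul_of_nonneg_right _ hs0.le
    linarith only [hc'1, hc'0]
  · rw [toReal_toOuterMeasure]
    refine (hc'2.trans (paley n c K s hc hK hs0 h1n h2n)).trans ?_
    apply expect_mono
    intro G
    beta_reduce
    by_cases h : G ∈ {G : SimpleGraph (Fin n) | (c / 2) * s ≤ (numEdges G : ℝ)}
    · have h3 : G ∈ {G : SimpleGraph (Fin n) | c' * s ≤ (numEdges G : ℝ)} := by
        have h4 : (c / 2) * s ≤ (numEdges G : ℝ) := h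
        have h5 : c' * s ≤ (c / 2) * s := mul_le_mul_of_nonneg_right hc'1 hs0.le
        exact h5.trans h4
      rw [if_pos h, if_pos h3]
    · rw [if_neg h]
      split_ifs <;> norm_num

end Vale.Agent.P046.C.Fi
end
end

section

/-!
From the conditional estimate at a fixed level to the limit theorem.
-/

set_option autoImplicit false

open scoped Classical
open Finset

namespace Vale.Agent.P046.Lv

open Vale.Agent.P046 Vale.Agent.P046.LB Vale.Agent.P046.C.Fi

/-- the predicted number of edges -/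
noncomputable def xn (n : ℕ) : ℝ := (n : ℝ) ^ (3 / 2 : ℝ) / (2 * √2)

/-- deviation of the number of edges -/
noncomputable def dev {n : ℕ} (G : SimpleGraph (Fin n)) : ℝ := |(numEdges G : ℝ) - xn n|

/-- the conditional estimate: outside an event of small probability at some step, the final
deviation is small in mean -/
def Core : Prop := ∀ ε : ℝ, 0 < ε → ∃ n0 : ℕ, ∀ n : ℕ, n0 ≤ n → ∃ k1 : ℕ,
  ∃ b : SimpleGraph (Fin n) → ℝ, (∀ G, 0 ≤ b G) ∧ V b k1 (⊤ : SimpleGraph (Fin n)) ≤ ε ∧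
    ∀ G : SimpleGraph (Fin n), b G < 1 → V dev (n.choose 2) G ≤ ε * (n : ℝ) ^ (3 / 2 : ℝ)

variable {n : ℕ}

/-- after the process has stopped, more steps change nothing -/
lemma V_stop (f : SimpleGraph (Fin n) → ℝ) (l m : ℕ) (G : SimpleGraph (Fin n))
    (hl : numEdges G ≤ l) : V f (l + m) G = V f l G := by
  rw [V_add_steps]
  exact V_congr_final _ _ (fun H hH => V_of_empty _ _ _ hH) l G hl

/-- Markov property at the step `k1` -/
lemma V_split (f : SimpleGraph (Fin n) → ℝ) (k1 : ℕ) :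
    V f (n.choose 2) (⊤ : SimpleGraph (Fin n)) =
      V (V f (n.choose 2)) k1 (⊤ : SimpleGraph (Fin n)) := by
  rw [← V_add_steps, Nat.add_comm, V_stop]
  exact (numEdges_top n).le

lemma V_sq_le (f : SimpleGraph (Fin n) → ℝ) (k : ℕ) (G : SimpleGraph (Fin n)) :
    (V f k G) ^ 2 ≤ V (fun H => f H ^ 2) k G := expect_sq_le _ _

lemma V_nonneg' (f : SimpleGraph (Fin n) → ℝ) (hf : ∀ H, 0 ≤ f H) (k : ℕ)
    (G : SimpleGraph (Fin n)) : 0 ≤ V f k G := by
  have := V_mono (fun _ => 0) f hf k G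
  rwa [V_const] at this

/-- the mean deviation is small -/
lemma dev_bound (K s x ε : ℝ) (hs : 0 < s) (hε : 0 < ε) (hx0 : 0 ≤ x) (hx : x ≤ s)
    (hxn : xn n = x)
    (hK : expect (finalGraph n) (fun G => (numEdges G : ℝ) ^ 2) ≤ K * s ^ 2)
    (k1 : ℕ) (b : SimpleGraph (Fin n) → ℝ) (hb0 : ∀ G, 0 ≤ b G)
    (hb : V b k1 (⊤ : SimpleGraph (Fin n)) ≤ ε ^ 2)
    (hcore : ∀ G : SimpleGraph (Fin n), b G < 1 → V dev (n.choose 2) G ≤ ε ^ 2 * s) :
    expect (finalGraph n) dev ≤ (ε ^ 2 + ε * (K + 2)) * s := by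
  have h0 : expect (finalGraph n) dev = V (V dev (n.choose 2)) k1 (⊤ : SimpleGraph (Fin n)) :=
    V_split dev k1
  rw [h0]
  have hdev0 : ∀ H : SimpleGraph (Fin n), 0 ≤ dev H := fun H => abs_nonneg _
  have h1 : ∀ G : SimpleGraph (Fin n), V dev (n.choose 2) G ≤
      ε ^ 2 * s + (ε / (2 * s) * V (fun H => dev H ^ 2) (n.choose 2) G + s / (2 * ε) * b G) := by
    intro G
    have h2 := V_nonneg' dev hdev0 (n.choose 2) G
    have h3 := V_sq_le dev (n.choose 2) G
    have h4 := hb0 G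
    obtain ⟨y, hy⟩ : ∃ y : ℝ, y = V dev (n.choose 2) G := ⟨_, rfl⟩
    obtain ⟨z, hz⟩ : ∃ z : ℝ, z = V (fun H => dev H ^ 2) (n.choose 2) G := ⟨_, rfl⟩
    have h5 : 0 ≤ s / (2 * ε) * b G := by positivity
    have h8 := hcore G
    rw [← hy] at h2 h3 h8 ⊢
    rw [← hz] at h3 ⊢
    have h6 : 0 ≤ z := (sq_nonneg y).trans h3
    have h7 : 0 ≤ ε / (2 * s) * z := by positivity
    rcases lt_or_ge (b G) 1 with hlt | hge
    · have := h8 hlt
      linarith
    · have e1 : ε / (2 * s) * y ^ 2 + s / (2 * ε) - y = (ε * y - s) ^ 2 / (2 * s * ε) := by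
        field_simp
        ring
      have e2 : 0 ≤ (ε * y - s) ^ 2 / (2 * s * ε) := by positivity
      have e3 : ε / (2 * s) * y ^ 2 ≤ ε / (2 * s) * z :=
        mul_le_mul_of_nonneg_left h3 (by positivity)
      have e4 : s / (2 * ε) ≤ s / (2 * ε) * b G := le_mul_of_one_le_right (by positivity) hge
      have e5 : 0 ≤ ε ^ 2 * s := by positivity
      linarith
  refine (V_mono _ _ h1 k1 ⊤).trans ?_
  rw [V_add_fun (fun _ => ε ^ 2 * s), V_const, V_add_fun (fun H => ε / (2 * s) * _), V_mul_fun,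
    V_mul_fun, ← V_split]
  have h9 : V (fun H => dev H ^ 2) (n.choose 2) (⊤ : SimpleGraph (Fin n)) ≤ (2 * K + 2) * s ^ 2 := by
    have h10 : ∀ H : SimpleGraph (Fin n), dev H ^ 2 ≤ 2 * (numEdges H : ℝ) ^ 2 + 2 * s ^ 2 := by
      intro H
      unfold dev
      rw [sq_abs, hxn]
      have : x ^ 2 ≤ s ^ 2 := pow_le_pow_left₀ hx0 hx 2
      nlinarith [sq_nonneg ((numEdges H : ℝ) + x)]
    refine (V_mono _ _ h10 _ _).trans ?_
    rw [V_add_fun (fun H => 2 * (numEdges H : ℝ) ^ 2), V_mul_fun, V_const]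
    have h11 : V (fun H => (numEdges H : ℝ) ^ 2) (n.choose 2) (⊤ : SimpleGraph (Fin n)) ≤
        K * s ^ 2 := hK
    linarith
  have h12 : ε / (2 * s) * V (fun H => dev H ^ 2) (n.choose 2) (⊤ : SimpleGraph (Fin n)) ≤
      ε / (2 * s) * ((2 * K + 2) * s ^ 2) := mul_le_mul_of_nonneg_left h9 (by positivity)
  have h13 : s / (2 * ε) * V b k1 (⊤ : SimpleGraph (Fin n)) ≤ s / (2 * ε) * ε ^ 2 :=
    mul_le_mul_of_nonneg_left hb (by positivity)
  have e6 : ε / (2 * s) * ((2 * K + 2) * s ^ 2) = ε * (K + 1) * s := by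
    field_simp
  have e7 : s / (2 * ε) * ε ^ 2 = ε * s / 2 := by
    field_simp
  rw [e6] at h12
  rw [e7] at h13
  have h14 : 0 ≤ ε * s := by positivity
  calc ε ^ 2 * s + (ε / (2 * s) * V (fun H => dev H ^ 2) (n.choose 2) (⊤ : SimpleGraph (Fin n)) +
        s / (2 * ε) * V b k1 (⊤ : SimpleGraph (Fin n)))
      ≤ ε ^ 2 * s + (ε * (K + 1) * s + ε * s / 2) := by linarith
    _ ≤ (ε ^ 2 + ε * (K + 2)) * s := by nlinarith

lemma xn_le (n : ℕ) : 0 ≤ xn n ∧ xn n ≤ (n : ℝ) ^ (3 / 2 : ℝ) := by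
  have hs : 0 ≤ (n : ℝ) ^ (3 / 2 : ℝ) := Real.rpow_nonneg (Nat.cast_nonneg _) _
  have h2 : (1:ℝ) ≤ 2 * √2 := by
    have : (1:ℝ) ≤ √2 := Real.one_le_sqrt.mpr (by norm_num)
    linarith
  unfold xn
  exact ⟨by positivity, div_le_self hs h2⟩

/-- convergence in mean -/
theorem l1_of_core (hC : Core) : Filter.Tendsto
    (fun n : ℕ => expect (finalGraph n) dev / (n : ℝ) ^ (3 / 2 : ℝ)) Filter.atTop (nhds 0) := by
  obtain ⟨K, hK0, hK⟩ := C.Fi.second_moment
  rw [Metric.tendsto_atTop]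
  intro η hη
  obtain ⟨ε, hε, hε2⟩ : ∃ ε : ℝ, 0 < ε ∧ ε ^ 2 + ε * (K + 2) < η := by
    refine ⟨min 1 (η / (2 * (K + 3))), by positivity, ?_⟩
    have h1 : min 1 (η / (2 * (K + 3))) ≤ 1 := min_le_left _ _
    have h2 : min 1 (η / (2 * (K + 3))) ≤ η / (2 * (K + 3)) := min_le_right _ _
    have h3 : 0 < min 1 (η / (2 * (K + 3))) := by positivity
    rw [le_div_iff₀ (by positivity)] at h2
    nlinarith
  obtain ⟨n0, hn0⟩ := hC (ε ^ 2) (by positivity)
  refine ⟨n0 + 2, fun n hn => ?_⟩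
  obtain ⟨k1, b, hb0, hb, hcore⟩ := hn0 n (by omega)
  have hnpos : (0:ℝ) < n := by
    have : 0 < n := by omega
    exact_mod_cast this
  have hs : 0 < (n : ℝ) ^ (3 / 2 : ℝ) := Real.rpow_pos_of_pos hnpos _
  have hK2 : expect (finalGraph n) (fun G => (numEdges G : ℝ) ^ 2) ≤
      K * ((n : ℝ) ^ (3 / 2 : ℝ)) ^ 2 := by
    rw [s_sq]
    exact hK n (by omega)
  have h1 := dev_bound K _ (xn n) ε hs hε (xn_le n).1 (xn_le n).2 rfl hK2 k1 b hb0 hb hcore
  have h2 : 0 ≤ expect (finalGraph n) dev := by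
    unfold expect
    exact Finset.sum_nonneg fun G _ => mul_nonneg ENNReal.toReal_nonneg (abs_nonneg _)
  rw [Real.dist_eq, sub_zero, abs_of_nonneg (by positivity), div_lt_iff₀ hs]
  refine lt_of_le_of_lt h1 ?_
  exact mul_lt_mul_of_pos_right hε2 hs

lemma dev_div (n : ℕ) (hn : 0 < n) (G : SimpleGraph (Fin n)) :
    |(numEdges G : ℝ) / (n : ℝ) ^ (3 / 2 : ℝ) - 1 / (2 * √2)| =
      dev G / (n : ℝ) ^ (3 / 2 : ℝ) := by
  have hs : 0 < (n : ℝ) ^ (3 / 2 : ℝ) := Real.rpow_pos_of_pos (by exact_mod_cast hn) _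
  unfold dev xn
  have h2 : (0:ℝ) < 2 * √2 := by positivity
  rw [← abs_of_pos hs, ← abs_div, abs_of_pos hs]
  congr 1
  field_simp

/-- convergence in mean of the normalised number of edges -/
theorem l1_limit (hC : Core) : Filter.Tendsto
    (fun n : ℕ => ∑ G, (finalGraph n G).toReal *
      |(numEdges G : ℝ) / (n : ℝ) ^ (3 / 2 : ℝ) - 1 / (2 * √2)|) Filter.atTop (nhds 0) := by
  refine (l1_of_core hC).congr' ?_
  filter_upwards [Filter.eventually_gt_atTop 0] with n hn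
  unfold expect
  rw [Finset.sum_div]
  refine Finset.sum_congr rfl fun G _ => ?_
  rw [dev_div n hn, mul_div_assoc]

/-- convergence of the expectation -/
theorem mean_limit (hC : Core) : Filter.Tendsto
    (fun n : ℕ => (∑ G, (finalGraph n G).toReal * (numEdges G : ℝ)) / (n : ℝ) ^ (3 / 2 : ℝ))
    Filter.atTop (nhds (1 / (2 * √2))) := by
  rw [tendsto_iff_dist_tendsto_zero]
  refine squeeze_zero (fun n => dist_nonneg) (fun n => ?_) (l1_limit hC)
  rw [Real.dist_eq]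
  have h1 : (∑ G, (finalGraph n G).toReal * (numEdges G : ℝ)) / (n : ℝ) ^ (3 / 2 : ℝ) -
      1 / (2 * √2) = ∑ G, (finalGraph n G).toReal *
        ((numEdges G : ℝ) / (n : ℝ) ^ (3 / 2 : ℝ) - 1 / (2 * √2)) := by
    have h2 := expect_const (finalGraph n) (1 / (2 * √2))
    unfold expect at h2
    conv_lhs => rw [← h2]
    rw [Finset.sum_div, ← Finset.sum_sub_distrib]
    refine Finset.sum_congr rfl fun G _ => ?_
    ring
  rw [h1]
  refine (Finset.abs_sum_le_sum_abs _ _).trans (le_of_eq ?_)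
  refine Finset.sum_congr rfl fun G _ => ?_
  rw [abs_mul, abs_of_nonneg ENNReal.toReal_nonneg]

/-- convergence in probability -/
theorem prob_limit (hC : Core) (ε : ℝ) (hε : 0 < ε) : Filter.Tendsto
    (fun n : ℕ => ((finalGraph n).toOuterMeasure {G | ε ≤
      |(numEdges G : ℝ) / (n : ℝ) ^ (3 / 2 : ℝ) - 1 / (2 * √2)|}).toReal)
    Filter.atTop (nhds 0) := by
  have h1 := (l1_limit hC).const_mul (1 / ε)
  rw [mul_zero] at h1
  refine squeeze_zero (fun n => ENNReal.toReal_nonneg) (fun n => ?_) h1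
  rw [toReal_toOuterMeasure]
  unfold expect
  rw [Finset.mul_sum]
  refine Finset.sum_le_sum fun G _ => ?_
  have h2 : (0:ℝ) ≤ (finalGraph n G).toReal := ENNReal.toReal_nonneg
  rw [mul_left_comm]
  apply mul_le_mul_of_nonneg_left _ h2
  beta_reduce
  by_cases h : G ∈ {G : SimpleGraph (Fin n) | ε ≤
      |(numEdges G : ℝ) / (n : ℝ) ^ (3 / 2 : ℝ) - 1 / (2 * √2)|}
  · rw [if_pos h, one_div, inv_mul_eq_div, le_div_iff₀ hε, one_mul]
    exact h
  · rw [if_neg h]
    positivity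

end Vale.Agent.P046.Lv
end

section

/-!
The level event at a constant level, with arbitrary confidence.
-/

set_option autoImplicit false

open scoped Classical
open Finset

namespace Vale.Agent.P046.Lv

open Vale.Agent.P046 Vale.Agent.P046.OS Vale.Agent.P046.C

/-- parameters and the induction, level version with confidence parameter `L` -/
lemma level_large (n : ℕ) (F : SimpleGraph (Fin n) → ℝ) (A B C K0 κ κL s0 η p K1 Es L : ℝ)
    (hF : FHyp F C K0 κ κL s0 η) (hη : η ≤ 1 / 10000) (hA : 0 < A) (hAκ : 1 ≤ A * κ)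
    (hB : 0 < B) (hC : 0 < C) (hκL : 0 ≤ κL) (hK0 : 10000 ≤ K0)
    (hκ : 65536 * B * κL ≤ (1 / 1000) * K0) (hCB : 4 * C ≤ B)
    (hs0 : 0 < s0) (hs1 : s0 ≤ 1 / 10000) (hK1 : 1 ≤ K1) (hK1' : K0 ≤ 4 * K1 ^ 2)
    (hL : 0 < L) (hK2 : A * (L * C) ≤ 16 * K1 ^ 4)
    (hn : 2 ≤ n) (hp : 2 ≤ p) (hN : (n : ℝ) = p ^ 1200)
    (hAC : A * C ≤ p) (hs : 2 * 10 ^ 13 / s0 ^ 8 ≤ p) (hpK : 2 * K1 + 3 ≤ p)
    (hpR : (A * C + 256 * A * B + 2) * K1 ^ 2 * 4 ≤ A * C * p)
    (e1 k1 : ℕ) (hEs : Es = e1) (hE1 : K1 * p ^ 1800 ≤ Es) (hE2 : Es ≤ 2 * K1 * p ^ 1800)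
    (hk : n.choose 2 = e1 + 3 * k1) :
    V (levBad F e1 (L * C * Es / (4 * Es ^ 2 / (n:ℝ) ^ 3) ^ 2)) k1 (⊤ : SimpleGraph (Fin n)) ≤
      32 / L := by
  have hp0 : 0 < p := by linarith
  have hp1 : 1 ≤ p := by linarith
  have hEs1 : p ^ 1800 ≤ Es := by
    have : 1 * p ^ 1800 ≤ K1 * p ^ 1800 := mul_le_mul_of_nonneg_right hK1 (by positivity)
    linarith
  have hEs5 : 100000 ≤ Es := by
    calc (100000:ℝ) ≤ 2 ^ 17 := by norm_num
      _ ≤ p ^ 17 := pow_le_pow_left₀ (by norm_num) hp 17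
      _ ≤ p ^ 1800 := pow_le_pow_right₀ hp1 (by norm_num)
      _ ≤ Es := hEs1
  have hEs0 : 0 < Es := by linarith only [hs0, hs1, hEs5]
  have hn0 : (0:ℝ) < n := by rw [hN]; positivity
  have hEsn : K1 ^ 2 * (n:ℝ) ^ 3 ≤ Es ^ 2 := by
    have h1 := pow_le_pow_left₀ (by positivity) hE1 2
    calc K1 ^ 2 * (n:ℝ) ^ 3 = (K1 * p ^ 1800) ^ 2 := by rw [hN]; ring
      _ ≤ _ := h1
  have hEsn2 : Es ^ 2 ≤ 4 * K1 ^ 2 * (n:ℝ) ^ 3 := by
    have h1 := pow_le_pow_left₀ hEs0.le hE2 2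
    calc Es ^ 2 ≤ (2 * K1 * p ^ 1800) ^ 2 := h1
      _ = 4 * K1 ^ 2 * (n:ℝ) ^ 3 := by rw [hN]; ring
  obtain ⟨M0, hM0⟩ : ∃ M0, M0 = A * C * ((n : ℝ) ^ 3) ^ 2 / Es ^ 2 := ⟨_, rfl⟩
  have hM0pos : 0 < M0 := by rw [hM0]; positivity
  obtain ⟨hNH, hP⟩ := NHyp_of n A B C K0 κ κL s0 η Es M0 p K1 hη hA hAκ hB hC.le hκL hK0 hκ hCB hs0 hs1
    hK1 hK1' hp hN hE1 hE2 hM0.ge hAC hs hpK
  obtain ⟨lam, hlam⟩ : ∃ lam, lam = L * C * Es / (4 * Es ^ 2 / (n:ℝ) ^ 3) ^ 2 := ⟨_, rfl⟩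
  rw [← hlam]
  have hlam0 : 0 < lam := by rw [hlam]; positivity
  have hAlam : A * lam * Es = L / 16 * M0 := by
    rw [hlam, hM0]; field_simp; ring
  have hAlam2 : A * lam ≤ Es := by
    have h1 : A * lam * Es ≤ Es * Es := by
      rw [hAlam, hM0, ← mul_div_assoc, div_le_iff₀ (by positivity)]
      have h2 : L / 16 * (A * C * ((n:ℝ) ^ 3) ^ 2) ≤ (K1 ^ 2 * (n:ℝ) ^ 3) ^ 2 := by
        have h3 : L / 16 * (A * C) ≤ K1 ^ 4 := by linarith only [hK2]
        calc L / 16 * (A * C * ((n:ℝ) ^ 3) ^ 2) = L / 16 * (A * C) * ((n:ℝ) ^ 3) ^ 2 := by ring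
          _ ≤ K1 ^ 4 * ((n:ℝ) ^ 3) ^ 2 := mul_le_mul_of_nonneg_right h3 (by positivity)
          _ = _ := by ring
      have h4 : (K1 ^ 2 * (n:ℝ) ^ 3) ^ 2 ≤ (Es ^ 2) ^ 2 := pow_le_pow_left₀ (by positivity) hEsn 2
      calc L / 16 * (A * C * ((n : ℝ) ^ 3) ^ 2) ≤ (Es ^ 2) ^ 2 := h2.trans h4
        _ = Es * Es * Es ^ 2 := by ring
    exact le_of_mul_le_mul_right h1 hEs0
  have hden : 0 < A * lam * Es := by positivity
  have hsup := super_level (fun G => Phi F A B (A * C) Es M0 s0 (p ^ 15) G / (A * lam * Es))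
    (levBad F e1 lam) e1 (levBad_le_one F e1 lam) (by
      intro G hG
      have h3 : (numEdges G : ℝ) = Es := by rw [hG, hEs]
      have h4 : Phi F A B (A * C) Es M0 s0 (p ^ 15) G = PhiL F A B (A * C) Es M0 G := by
        unfold Phi; rw [if_pos (by rw [h3]; linarith [hNH.hEq])]
      show levBad F e1 lam G ≤ Phi F A B (A * C) Es M0 s0 (p ^ 15) G / (A * lam * Es)
      rw [h4]
      have h5 : 0 ≤ B * a1L A Es (numEdges G) / cc G ^ 4 * wheels G := by
        have := wheels_nonneg G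
        have : 0 ≤ cc G := by unfold cc; positivity
        have := a1L_nonneg A Es (numEdges G) hA.le hEs0 (by positivity)
        positivity
      have h6 : 0 ≤ a3L (A * C) M0 ((n:ℝ) ^ 3) Es (numEdges G) :=
        a3L_nonneg (A * C) M0 _ Es _ (by positivity) hEs0 h3.ge hM0.ge
      have h7 : a1L A Es (numEdges G) = A * Es := by
        unfold a1L
        rw [h3, div_self hEs0.ne', Real.one_rpow, mul_one]
      unfold levBad
      split_ifs with h8
      · unfold PhiL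
        have := hF.nonneg G
        rw [h7]
        rw [h7] at h5
        have h9 : 0 ≤ A * Es * F G := by (clear * - hA hEs5 this; positivity)
        apply div_nonneg _ hden.le
        linarith only [h5, h6, h9]
      · have h9 : lam < F G := by
          by_contra hneg
          push Not at hneg
          exact h8 ⟨hG, hneg⟩
        rw [le_div_iff₀ hden, one_mul]
        unfold PhiL
        rw [h7]
        rw [h7] at h5
        have h10 : A * Es * lam ≤ A * Es * F G := mul_le_mul_of_nonneg_left h9.le (by positivity)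
        linarith only [h5, h6, h10]) (by
      intro G hG
      have h3 : Es ≤ (numEdges G : ℝ) := by
        rw [hEs]; exact_mod_cast hG.le
      rcases Phi_step F A B C (A * C) K0 κ κL s0 η Es M0 (p ^ 15) hF hNH G h3 with h4 | ⟨h4, h5⟩
      · left
        show 1 ≤ Phi F A B (A * C) Es M0 s0 (p ^ 15) G / (A * lam * Es)
        rw [le_div_iff₀ hden, one_mul]
        refine le_trans ?_ h4
        calc A * lam * Es ≤ Es * Es := mul_le_mul_of_nonneg_right hAlam2 hEs0.le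
          _ = Es ^ 2 := by ring
          _ ≤ (numEdges G : ℝ) ^ 2 := pow_le_pow_left₀ hEs0.le h3 2
      · right
        refine ⟨h4, ?_⟩
        show ∑ t ∈ triangles G, Phi F A B (A * C) Es M0 s0 (p ^ 15) (removeTriangle G t) /
          (A * lam * Es) ≤ _ * (Phi F A B (A * C) Es M0 s0 (p ^ 15) G / (A * lam * Es))
        rw [← Finset.sum_div, ← mul_div_assoc]
        exact div_le_div_of_nonneg_right h5 hden.le) k1 (⊤ : SimpleGraph (Fin n))
      (by rw [numEdges_top]; exact hk)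
  refine hsup.trans ?_
  show Phi F A B (A * C) Es M0 s0 (p ^ 15) ⊤ / (A * lam * Es) ≤ 32 / L
  rw [div_le_iff₀ hden]
  have htop := Phi_top n F A B C (A * C) K0 κ κL s0 η Es M0 p hF hn hA hB hC.le hs0 hp hN hEs0 hP hs
  refine htop.trans ?_
  have e1 : 32 / L * (A * lam * Es) = M0 + M0 := by rw [hAlam]; field_simp; ring
  rw [e1]
  have h1 : (A * C + 256 * A * B + 2) * (n : ℝ) ^ 3 / p ^ 2 ≤ M0 := by
    rw [hM0, div_le_div_iff₀ (by positivity) (by positivity)]
    calc (A * C + 256 * A * B + 2) * (n : ℝ) ^ 3 * Es ^ 2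
        ≤ (A * C + 256 * A * B + 2) * (n : ℝ) ^ 3 * (4 * K1 ^ 2 * (n:ℝ) ^ 3) :=
          mul_le_mul_of_nonneg_left hEsn2 (by positivity)
      _ = ((A * C + 256 * A * B + 2) * K1 ^ 2 * 4) * ((n:ℝ) ^ 3) ^ 2 := by ring
      _ ≤ (A * C * p) * ((n:ℝ) ^ 3) ^ 2 := mul_le_mul_of_nonneg_right hpR (by positivity)
      _ = A * C * ((n:ℝ) ^ 3) ^ 2 * p := by ring
      _ ≤ A * C * ((n:ℝ) ^ 3) ^ 2 * p ^ 2 := by
          apply mul_le_mul_of_nonneg_left _ (by positivity)
          exact le_self_pow₀ hp1 (by norm_num)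
  linarith only [h1]

/-- the functional with its numerals -/
noncomputable def FFc {n : ℕ} (G : SimpleGraph (Fin n)) : ℝ := FF 1e-23 1e-9 1e-46 1e7 G

/-- the level event: at a constant level the functional has its natural size with probability
close to one -/
theorem level_event (L : ℝ) (hL : 0 < L) :
    ∃ K2 : ℝ, 1 ≤ K2 ∧ ∀ K1 : ℝ, K2 ≤ K1 → ∃ n1 : ℕ, ∀ n : ℕ, n1 ≤ n → ∀ e1 k1 : ℕ,
      n.choose 2 = e1 + 3 * k1 → K1 * (n : ℝ) ^ (3 / 2 : ℝ) ≤ e1 →
      (e1 : ℝ) ≤ 2 * K1 * (n : ℝ) ^ (3 / 2 : ℝ) →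
      V (levBad (FFc (n := n)) e1 (L * 1e60 * e1 / (4 * (e1:ℝ) ^ 2 / (n:ℝ) ^ 3) ^ 2)) k1
        (⊤ : SimpleGraph (Fin n)) ≤ 32 / L := by
  obtain ⟨C, hC'⟩ : ∃ C : ℝ, C = 1e60 := ⟨_, rfl⟩
  obtain ⟨K0, hK0'⟩ : ∃ K0 : ℝ, K0 = 1e100 := ⟨_, rfl⟩
  obtain ⟨κ, hκ'⟩ : ∃ κ : ℝ, κ = (1e7 * (1e-30) ^ 2) := ⟨_, rfl⟩
  obtain ⟨κL, hκL'⟩ : ∃ κL : ℝ, κL = (40000 / 1e-9) := ⟨_, rfl⟩
  obtain ⟨s0, hs0'⟩ : ∃ s0 : ℝ, s0 = 1e-40 := ⟨_, rfl⟩
  obtain ⟨η, hη'⟩ : ∃ η : ℝ, η = 1e-30 := ⟨_, rfl⟩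
  have hF : ∀ n, 1000 ≤ n → FHyp (n := n) FFc C K0 κ κL s0 η := by
    intro n hn
    rw [hC', hK0', hκ', hκL', hs0', hη']
    exact Fi.FHyp_FF hn
  have hC : 0 < C := by rw [hC']; norm_num
  have hκ : 0 < κ := by rw [hκ']; norm_num
  have hκL : 0 ≤ κL := by rw [hκL']; norm_num
  have hs0 : 0 < s0 := by rw [hs0']; norm_num
  have hs1 : s0 ≤ 1 / 10000 := by rw [hs0']; norm_num
  have hη : η ≤ 1 / 10000 := by rw [hη']; norm_num
  rw [← hC']
  clear hC' hK0' hκ' hκL' hs0' hη'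
  obtain ⟨A, hA⟩ : ∃ A : ℝ, A = 1 / κ := ⟨_, rfl⟩
  have hA0 : 0 < A := by rw [hA]; positivity
  have hAκ : 1 ≤ A * κ := by
    rw [hA, one_div, inv_mul_cancel₀ hκ.ne']
  obtain ⟨B, hB⟩ : ∃ B : ℝ, B = 4 * C := ⟨_, rfl⟩
  have hB0 : 0 < B := by rw [hB]; positivity
  obtain ⟨K0', hK0'⟩ : ∃ K0' : ℝ, K0' = max K0 0 + 10000 + 65536 * B * κL * 1000 := ⟨_, rfl⟩
  have hx : 0 ≤ 65536 * B * κL * 1000 := by positivity
  have hm0 : 0 ≤ max K0 0 := le_max_right _ _
  have hm1 : K0 ≤ max K0 0 := le_max_left _ _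
  have hALC : 0 < A * (L * C) := by positivity
  refine ⟨K0' + A * (L * C), by linarith only [hK0', hx, hm0, hALC], fun K1 hK1 => ?_⟩
  have hAC : 0 < A * C := by positivity
  have hK12 : 10000 ≤ K1 := by linarith only [hK0', hx, hm0, hALC, hK1]
  have hK16 : K0' ≤ 4 * K1 ^ 2 := by nlinarith only [hK0', hx, hm0, hK1, hs0, hALC]
  have hK17 : A * (L * C) ≤ 16 * K1 ^ 4 := by
    have h1 : K1 ≤ K1 ^ 4 := le_self_pow₀ (by linarith) (by norm_num)
    linarith
  obtain ⟨R, hR⟩ : ∃ R : ℝ, R = (A * C + 256 * A * B + 2) * K1 ^ 2 * 4 / (A * C) := ⟨_, rfl⟩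
  have hR0 : 0 < R := by rw [hR]; positivity
  obtain ⟨p0, hp0⟩ : ∃ p0 : ℝ, p0 = 2 + A * C + 2 * 10 ^ 13 / s0 ^ 8 + (2 * K1 + 3) + R := ⟨_, rfl⟩
  have hs8 : 0 < 2 * 10 ^ 13 / s0 ^ 8 := by positivity
  have hp00 : 0 < p0 := by linarith only [hK0', hx, hm0, hALC, hK1, hAC, hR0, hp0, hs8]
  refine ⟨⌈p0 ^ 1200⌉₊ + 1000, fun n hn e1 k1 hk he1 he2 => ?_⟩
  obtain ⟨p, hpnn, hN⟩ := exists_p n
  have hbig : p0 ^ 1200 ≤ (n:ℝ) := by
    refine (Nat.le_ceil _).trans ?_
    have : ⌈p0 ^ 1200⌉₊ ≤ n := by omega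
    exact_mod_cast this
  have hp := p_large n p p0 hpnn hN hbig
  have hs : (n:ℝ) ^ (3 / 2 : ℝ) = p ^ 1800 := by
    rw [hN, ← Real.rpow_natCast p 1200, ← Real.rpow_mul hpnn, ← Real.rpow_natCast p 1800]
    norm_num
  rw [hs] at he1 he2
  exact level_large n FFc A B C K0' κ κL s0 η p K1 e1 L ((hF n (by omega)).mono (by linarith only [hs0, hs1, hK0', hx, hm1])) hη
    hA0 hAκ hB0 hC hκL (by linarith only [hK0', hx, hm0]) (by linarith only [hK0', hm0]) hB.ge hs0 hs1 (by linarith only [hs0, hs1, hK0', hx, hm0, hALC, hK1]) hK16 hL hK17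
    (by omega) (by linarith only [hK0', hx, hm0, hALC, hK1, hAC, hR0, hp0, hs8, hp]) hN (by linarith only [hK0', hx, hm0, hALC, hK1, hR0, hp0, hs8, hp]) (by linarith only [hK0', hx, hm0, hALC, hK1, hAC, hR0, hp0, hp]) (by linarith only [hAC, hR0, hp0, hs8, hp]) (by
      have h1 : R * (A * C) ≤ p * (A * C) := mul_le_mul_of_nonneg_right (by linarith only [hK0', hx, hm0, hALC, hK1, hAC, hp0, hs8, hp]) hAC.le
      rw [hR, div_mul_cancel₀ _ hAC.ne'] at h1
      linarith only [h1]) e1 k1 rfl he1 he2 hk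

end Vale.Agent.P046.Lv
end

section

/-!
From the functional `FFc` to the degree energies of the cleaned triangle hypergraph.
-/

set_option autoImplicit false

open scoped Classical
open Finset

namespace Vale.Agent.P046.Lv

open Vale.Agent.P046 Vale.Agent.P046.C
open Vale.Agent.P046.K (Hyp hedge deg zd wd)

variable {n : ℕ}

lemma ff_le_theta (x : ℝ) (hx : 0 ≤ x) : ff (x - 1) ≤ 3600 * theta 1e-46 x := by
  have h0 := theta_nonneg 1e-46 x (by norm_num)
  rcases le_or_gt (1e-20 : ℝ) |x - 1| with h | h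
  · have h1 := sq_le_theta 1e-20 1e-46 x hx (by norm_num) (by norm_num) (by norm_num) h
    exact (min_le_right _ _).trans h1
  · have h1 := quart_le_theta 1e-20 1e-46 x hx (by norm_num) (by norm_num) (by norm_num)
      (by norm_num) h
    refine (min_le_left _ _).trans (h1.trans ?_)
    apply mul_le_mul_of_nonneg_right _ h0
    norm_num

lemma gw_le_huber (w : ℝ) : gw w ≤ 1e23 * huber 1e-23 w := by
  have h0 := huber_nonneg 1e-23 w (by norm_num)
  rcases le_or_gt |w| 1e-23 with h | h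
  · have h1 : huber 1e-23 w = w ^ 2 := by unfold huber; rw [if_pos h]
    rw [h1] at h0 ⊢
    refine (min_le_left _ _).trans ?_
    linarith
  · have h1 := huber_ge_lin 1e-23 w (by norm_num) h.le
    refine (min_le_right _ _).trans ?_
    linarith

lemma rr_nonneg' (G : SimpleGraph (Fin n)) (u v : Fin n) : 0 ≤ rr G u v := by
  unfold rr
  positivity

/-- the degree energies are controlled by the functional -/
theorem energy_le_FFc (G : SimpleGraph (Fin n)) :
    ∑ e ∈ G.edgeFinset, (ff (zd (K.TH G) (cc G) e) + gw (wd (K.TH G) (cc G) e)) ≤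
      1e23 * FFc G := by
  have h1 := edgeSum_eq G (fun e => ff (zd (K.TH G) (cc G) e) + gw (wd (K.TH G) (cc G) e))
  have h2 : edgeSum G (fun u v => ff (zd (K.TH G) (cc G) s(u, v)) +
      gw (wd (K.TH G) (cc G) s(u, v))) ≤
      edgeSum G (fun u v => 3600 * theta 1e-46 (rr G u v) + 1e23 * huber 1e-23 (ww G u v)) := by
    unfold edgeSum
    refine Finset.sum_le_sum fun u _ => Finset.sum_le_sum fun v _ => ?_
    by_cases h : G.Adj u v
    · rw [if_pos h, if_pos h]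
      show ff (zd (K.TH G) (cc G) s(u, v)) + gw (wd (K.TH G) (cc G) s(u, v)) ≤
        3600 * theta 1e-46 (rr G u v) + 1e23 * huber 1e-23 (ww G u v)
      rw [zd_TH G u v h, wd_TH G u v h]
      exact add_le_add (ff_le_theta _ (rr_nonneg' G u v)) (gw_le_huber _)
    · rw [if_neg h, if_neg h]
  have h3 : edgeSum G (fun u v => 3600 * theta 1e-46 (rr G u v) + 1e23 * huber 1e-23 (ww G u v)) =
      3600 * C.TH 1e-46 G + 1e23 * MM 1e-23 G := by
    unfold C.TH MM edgeSum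
    rw [Finset.mul_sum, Finset.mul_sum, ← Finset.sum_add_distrib]
    refine Finset.sum_congr rfl fun u _ => ?_
    rw [Finset.mul_sum, Finset.mul_sum, ← Finset.sum_add_distrib]
    refine Finset.sum_congr rfl fun v _ => ?_
    split_ifs
    · rfl
    · ring
  have h4 : 0 ≤ C.TH 1e-46 G := by
    unfold C.TH edgeSum
    refine Finset.sum_nonneg fun u _ => Finset.sum_nonneg fun v _ => ?_
    split_ifs
    · exact theta_nonneg _ _ (by norm_num)
    · exact le_rfl
  have h5 : 0 ≤ MM 1e-23 G := by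
    unfold MM edgeSum
    refine Finset.sum_nonneg fun u _ => Finset.sum_nonneg fun v _ => ?_
    split_ifs
    · exact huber_nonneg _ _ (by norm_num)
    · exact le_rfl
  have h6 : 0 ≤ RF G := by unfold RF; positivity
  have h7 : FFc G = MM 1e-23 G + 1e-9 * C.TH 1e-46 G + 1e7 * RF G := rfl
  rw [h7]
  have h8 : 2 * ∑ e ∈ G.edgeFinset, (ff (zd (K.TH G) (cc G) e) + gw (wd (K.TH G) (cc G) e)) ≤
      3600 * C.TH 1e-46 G + 1e23 * MM 1e-23 G := by
    rw [← h1, ← h3]; exact h2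
  obtain ⟨S, hS⟩ : ∃ S : ℝ, S = ∑ e ∈ G.edgeFinset,
    (ff (zd (K.TH G) (cc G) e) + gw (wd (K.TH G) (cc G) e)) := ⟨_, rfl⟩
  rw [← hS] at h8 ⊢
  obtain ⟨a, ha⟩ : ∃ a : ℝ, a = C.TH 1e-46 G := ⟨_, rfl⟩
  obtain ⟨b, hb⟩ : ∃ b : ℝ, b = MM 1e-23 G := ⟨_, rfl⟩
  obtain ⟨c, hc⟩ : ∃ c : ℝ, c = RF G := ⟨_, rfl⟩
  rw [← ha] at h8 h4 ⊢
  rw [← hb] at h8 h5 ⊢
  rw [← hc] at h6 ⊢
  norm_num at h8 ⊢
  linarith

/-- everything that is needed about the cleaned triangle hypergraph at the level `cc G = D` -/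
theorem level_data (Λ : ℝ) (hΛ : 0 ≤ Λ) : ∃ D1 : ℝ, 1 ≤ D1 ∧ ∀ D A : ℝ, D1 ≤ D → 3 * D ≤ A →
    ∀ (n : ℕ) (G : SimpleGraph (Fin n)), cc G = D → FFc G ≤ Λ * numEdges G / D ^ 2 →
    ∀ B : Finset (Sym2 (Fin n)), A ^ 2 * B.card ≤ numEdges G →
      Hyp (keep G.edgeFinset (K.TH G) B A) (cleaned G.edgeFinset (K.TH G) B A) ∧
      cleaned G.edgeFinset (K.TH G) B A =
        K.live (K.TH G) (keep G.edgeFinset (K.TH G) B A) ∧
      (∀ v, (deg (cleaned G.edgeFinset (K.TH G) B A) v : ℝ) ≤ A) ∧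
      ∑ v ∈ keep G.edgeFinset (K.TH G) B A,
        (min (zd (cleaned G.edgeFinset (K.TH G) B A) D v ^ 4)
          (zd (cleaned G.edgeFinset (K.TH G) B A) D v ^ 2) +
         min (wd (cleaned G.edgeFinset (K.TH G) B A) D v ^ 2)
          |wd (cleaned G.edgeFinset (K.TH G) B A) D v|) ≤
        (keep G.edgeFinset (K.TH G) B A).card * D ^ (-(19 / 10 : ℝ)) ∧
      ∑ v ∈ delSet G.edgeFinset (K.TH G) B A, (1 + (deg (K.TH G) v : ℝ) / D) ≤
        2 * A * B.card + 6e23 * Λ * numEdges G / A ∧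
      (numEdges G : ℝ) / 2 ≤ (keep G.edgeFinset (K.TH G) B A).card := by
  obtain ⟨Λ', hΛ'⟩ : ∃ Λ' : ℝ, Λ' = 1e23 * Λ := ⟨_, rfl⟩
  have hΛ0 : 0 ≤ Λ' := by rw [hΛ']; positivity
  refine ⟨4 + 2 * Λ' + (2 * (200 * Λ' + 48)) ^ 10, by
    have : 0 ≤ (2 * (200 * Λ' + 48)) ^ 10 := by positivity
    linarith, ?_⟩
  intro D A hD hA n G hcc hF B hB
  have hE := energy_le_FFc G
  rw [hcc] at hE
  have hN : (numEdges G : ℝ) = G.edgeFinset.card := rfl
  rw [hN] at hF hB ⊢
  have hsum : ∑ v ∈ G.edgeFinset, (ff (zd (K.TH G) D v) + gw (wd (K.TH G) D v)) ≤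
      Λ' * G.edgeFinset.card / D ^ 2 := by
    refine hE.trans ?_
    have := mul_le_mul_of_nonneg_left hF (by norm_num : (0:ℝ) ≤ 1e23)
    refine this.trans (le_of_eq ?_)
    rw [hΛ']
    ring
  have h := data Λ' D A hΛ0 hD hA G.edgeFinset (K.TH G) (hyp_TH G) hsum B hB
  have e : 6 * Λ' * (G.edgeFinset.card : ℝ) / A = 6e23 * Λ * G.edgeFinset.card / A := by
    rw [hΛ']
    ring
  rw [e] at h
  exact h

end Vale.Agent.P046.Lv
end

section

/-!
Sparse sets, part 6: choice of the parameters, final statement.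
-/

set_option autoImplicit false

open scoped Classical
open Finset

namespace Vale.Agent.P046.M2

open Vale.Agent.P046 Vale.Agent.P046.OS Vale.Agent.P046.C Vale.Agent.P046.LB

variable {n : ℕ}

/-- numerical inequality for one block -/
lemma hx_num (K : ℕ) (hK : 2 ≤ K) (κ N e e' : ℝ) (hκ : κ = 1 / (48 * K)) (hN : 0 < N)
    (he : 0 < e) (he' : 0 ≤ e') (hee : e' ≤ (1 + κ) * e) (hc : 16 * (K:ℝ) ^ 2 ≤ 4 * e ^ 2 / N)
    (μ : ℝ) (hμ : 1 ≤ μ) (hμK : μ ≤ 2 * K) :
    3 * (μ - 1 / 2) * ((1 + κ) * (4 * e' ^ 2 / N) * e' / 3) ≤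
      (μ * ((1 - κ) * (4 * e ^ 2 / N)) - μ ^ 2) * e := by
  have hK' : (2:ℝ) ≤ K := by exact_mod_cast hK
  have hκ0 : 0 < κ := by rw [hκ]; positivity
  have hκ1 : κ ≤ 1 / 96 := by
    rw [hκ]
    apply one_div_le_one_div_of_le (by norm_num)
    linarith
  have hκμ : κ * μ ≤ 1 / 24 := by
    calc κ * μ ≤ κ * (2 * K) := mul_le_mul_of_nonneg_left hμK hκ0.le
      _ = 1 / 24 := by rw [hκ]; field_simp; norm_num
  obtain ⟨c, hcd⟩ : ∃ c, c = 4 * e ^ 2 / N := ⟨_, rfl⟩
  rw [← hcd] at hc ⊢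
  have hc0 : 0 < c := by rw [hcd]; positivity
  have h1 : (1 + κ) * (4 * e' ^ 2 / N) * e' ≤ (1 + 5 * κ) * (c * e) := by
    have h2 : e' ^ 3 ≤ ((1 + κ) * e) ^ 3 := pow_le_pow_left₀ he' hee 3
    have h3 : (1 + κ) ^ 4 ≤ 1 + 5 * κ := by
      have a1 : κ ^ 2 ≤ κ * (1 / 96) := by
        rw [sq]; exact mul_le_mul_of_nonneg_left hκ1 hκ0.le
      have a2 : κ ^ 3 ≤ κ * (1 / 96) := by
        calc κ ^ 3 = κ ^ 2 * κ := by ring
          _ ≤ κ ^ 2 * 1 := mul_le_mul_of_nonneg_left (by linarith) (by positivity)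
          _ ≤ _ := by linarith
      have a3 : κ ^ 4 ≤ κ * (1 / 96) := by
        calc κ ^ 4 = κ ^ 3 * κ := by ring
          _ ≤ κ ^ 3 * 1 := mul_le_mul_of_nonneg_left (by linarith) (by positivity)
          _ ≤ _ := by linarith
      nlinarith
    calc (1 + κ) * (4 * e' ^ 2 / N) * e' = (1 + κ) * (4 / N) * e' ^ 3 := by ring
      _ ≤ (1 + κ) * (4 / N) * ((1 + κ) * e) ^ 3 := mul_le_mul_of_nonneg_left h2 (by positivity)
      _ = (1 + κ) ^ 4 * (c * e) := by rw [hcd]; ring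
      _ ≤ _ := mul_le_mul_of_nonneg_right h3 (by positivity)
  have hμ2 : 0 ≤ μ - 1 / 2 := by linarith
  have h4 : 3 * (μ - 1 / 2) * ((1 + κ) * (4 * e' ^ 2 / N) * e' / 3) ≤
      (μ - 1 / 2) * ((1 + 5 * κ) * (c * e)) := by
    calc 3 * (μ - 1 / 2) * ((1 + κ) * (4 * e' ^ 2 / N) * e' / 3) =
        (μ - 1 / 2) * ((1 + κ) * (4 * e' ^ 2 / N) * e') := by ring
      _ ≤ _ := mul_le_mul_of_nonneg_left h1 hμ2
  refine h4.trans ?_
  have h5 : μ ^ 2 ≤ c / 4 := by
    have : μ ^ 2 ≤ (2 * K) ^ 2 := pow_le_pow_left₀ (by linarith) hμK 2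
    nlinarith
  have h6 : (μ - 1 / 2) * (1 + 5 * κ) * c ≤ μ * ((1 - κ) * c) - μ ^ 2 := by
    have e1 : μ * ((1 - κ) * c) - (μ - 1 / 2) * (1 + 5 * κ) * c =
        c * (1 / 2 - 6 * (κ * μ) + 5 * κ / 2) := by ring
    have h7 : c * (1 / 4) ≤ c * (1 / 2 - 6 * (κ * μ) + 5 * κ / 2) := by
      apply mul_le_mul_of_nonneg_left _ hc0.le
      linarith
    linarith
  calc (μ - 1 / 2) * ((1 + 5 * κ) * (c * e)) = ((μ - 1 / 2) * (1 + 5 * κ) * c) * e := by ring
    _ ≤ _ := mul_le_mul_of_nonneg_right h6 he.le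

/-- the functional is bounded through the potential -/
lemma X_le (κ D Es A : ℝ) (hκ : 0 < κ) (hD : 0 < D) (hEs : 0 < Es) (hA : 0 < A)
    (P : ℝ) (G : SimpleGraph (Fin n)) (hn : 0 < n) (he : Es ≤ (numEdges G : ℝ))
    (hP : A * √(Es * numEdges G) * FC G ≤ P) :
    ((light κ G).card : ℝ) / D + pen (|rho G - 1| ≤ κ) ≤
      (((1 / (clow κ * 1e-9)) / D + (1 / (1e7 * κ ^ 2)) / Es) * (Es ^ 2 / (A * √Es)) /
        √(numEdges G : ℝ)) * (P / Es ^ 2) := by
  have he0 : (0:ℝ) < numEdges G := by linarith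
  have hE : 0 < numEdges G := by exact_mod_cast he0
  have h1 := light_card_le κ G hn hE
  have h2 := lowCount_le κ hκ G
  have h3 := irr_le κ hκ G hE
  have hcl := clow_pos κ hκ
  have hs1 : 0 < √Es := Real.sqrt_pos.mpr hEs
  have hs2 : 0 < √(numEdges G : ℝ) := Real.sqrt_pos.mpr he0
  have hF : FC G ≤ P / (A * (√Es * √(numEdges G : ℝ))) := by
    rw [le_div_iff₀ (by positivity), ← Real.sqrt_mul hEs.le]
    linarith
  have hF0 : 0 ≤ FC G := FF_nonneg 1e-23 1e-46 1e-9 1e7 (by norm_num) (by norm_num) (by norm_num)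
    (by norm_num) G
  have h4 : ((light κ G).card : ℝ) / D ≤ (1 / (clow κ * 1e-9)) / D * FC G := by
    rw [div_mul_eq_mul_div]
    exact div_le_div_of_nonneg_right (h1.trans h2) hD.le
  have h5 : 1 / (1e7 * κ ^ 2 * (numEdges G : ℝ)) * FC G ≤ (1 / (1e7 * κ ^ 2)) / Es * FC G := by
    apply mul_le_mul_of_nonneg_right _ hF0
    rw [div_div]
    apply one_div_le_one_div_of_le (by positivity)
    exact mul_le_mul_of_nonneg_left he (by positivity)
  have h6 : ((light κ G).card : ℝ) / D + pen (|rho G - 1| ≤ κ) ≤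
      ((1 / (clow κ * 1e-9)) / D + (1 / (1e7 * κ ^ 2)) / Es) * FC G := by
    rw [add_mul]
    exact add_le_add h4 (h3.trans h5)
  refine h6.trans ?_
  refine (mul_le_mul_of_nonneg_left hF (by positivity)).trans (le_of_eq ?_)
  field_simp

end Vale.Agent.P046.M2
end

section

/-!
Sparse sets, part 7: the final statement.
-/

set_option autoImplicit false

open scoped Classical
open Finset

namespace Vale.Agent.P046.M2

open Vale.Agent.P046 Vale.Agent.P046.OS Vale.Agent.P046.C Vale.Agent.P046.LB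

/-- the union bound over dense sets -/
lemma union_num (K : ℕ) (R p D x N : ℝ) (hR : 1 ≤ R) (hp : 1 ≤ p) (hD : 0 < D)
    (hx0 : 0 ≤ x) (hx : x ≤ R / p ^ 600) (hN : N = p ^ 1200) :
    (2 * K / D) * ∑ v ∈ Finset.Icc 2 K, N ^ v * (2 ^ ((v + 1) * v) *
      x ^ (((2 * v - 2 : ℕ) : ℝ) - 1 / 2)) ≤
      (2 * K / D) * (K * (2 ^ ((K + 1) * K) * R ^ (2 * K) * p ^ 1500)) := by
  apply mul_le_mul_of_nonneg_left _ (by positivity)
  have hp0 : 0 < p := by linarith
  have hterm : ∀ v ∈ Finset.Icc 2 K, N ^ v * (2 ^ ((v + 1) * v) *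
      x ^ (((2 * v - 2 : ℕ) : ℝ) - 1 / 2)) ≤ 2 ^ ((K + 1) * K) * R ^ (2 * K) * p ^ 1500 := by
    intro v hv
    rw [Finset.mem_Icc] at hv
    have h1 : x ^ (((2 * v - 2 : ℕ) : ℝ) - 1 / 2) ≤ (R / p ^ 600) ^ (((2 * v - 2 : ℕ) : ℝ) - 1 / 2) := by
      apply Real.rpow_le_rpow hx0 hx
      have : (2:ℝ) ≤ ((2 * v - 2 : ℕ) : ℝ) := by exact_mod_cast (by omega : 2 ≤ 2 * v - 2)
      linarith only [this]
    have h2 : (R / p ^ 600) ^ (((2 * v - 2 : ℕ) : ℝ) - 1 / 2) =
        (R / p ^ 600) ^ (2 * v - 2) / √(R / p ^ 600) := by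
      rw [Real.rpow_sub (by positivity), Real.rpow_natCast, ← Real.sqrt_eq_rpow]
    have h3 : 1 / p ^ 300 ≤ √(R / p ^ 600) := by
      apply Real.le_sqrt_of_sq_le
      rw [div_pow, one_pow, ← pow_mul]
      apply div_le_div_of_nonneg_right hR (by positivity)
    have h4 : (R / p ^ 600) ^ (2 * v - 2) / √(R / p ^ 600) ≤
        (R / p ^ 600) ^ (2 * v - 2) * p ^ 300 := by
      have h5 : 0 < √(R / p ^ 600) := lt_of_lt_of_le (by positivity) h3
      rw [div_le_iff₀ h5]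
      have h6 : 1 ≤ p ^ 300 * √(R / p ^ 600) := by
        have := mul_le_mul_of_nonneg_left h3 (by positivity : 0 ≤ p ^ 300)
        have e1 : p ^ 300 * (1 / p ^ 300) = 1 := by field_simp
        linarith only [this, e1]
      calc (R / p ^ 600) ^ (2 * v - 2) = (R / p ^ 600) ^ (2 * v - 2) * 1 := by ring
        _ ≤ (R / p ^ 600) ^ (2 * v - 2) * (p ^ 300 * √(R / p ^ 600)) :=
            mul_le_mul_of_nonneg_left h6 (by positivity)
        _ = _ := by ring
    have h7 : N ^ v * ((R / p ^ 600) ^ (2 * v - 2) * p ^ 300) = R ^ (2 * v - 2) * p ^ 1500 := by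
      have e1 : p ^ (1200 * v) = (p ^ 600) ^ (2 * v - 2) * p ^ 1200 := by
        rw [← pow_mul, ← pow_add]
        congr 1
        omega
      rw [hN, ← pow_mul, e1, div_pow]
      field_simp
    have h8 : R ^ (2 * v - 2) ≤ R ^ (2 * K) := pow_le_pow_right₀ hR (by (clear * - hv; omega))
    have h9 : (2:ℝ) ^ ((v + 1) * v) ≤ 2 ^ ((K + 1) * K) :=
      pow_le_pow_right₀ (by norm_num) (Nat.mul_le_mul (by omega) hv.2)
    have hN0 : 0 ≤ N := by rw [hN]; positivity
    calc N ^ v * (2 ^ ((v + 1) * v) * x ^ (((2 * v - 2 : ℕ) : ℝ) - 1 / 2))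
        ≤ N ^ v * (2 ^ ((v + 1) * v) * ((R / p ^ 600) ^ (2 * v - 2) * p ^ 300)) := by
          apply mul_le_mul_of_nonneg_left _ (by positivity)
          apply mul_le_mul_of_nonneg_left _ (by positivity)
          exact h1.trans (h2.le.trans h4)
      _ = 2 ^ ((v + 1) * v) * (N ^ v * ((R / p ^ 600) ^ (2 * v - 2) * p ^ 300)) := by ring
      _ = 2 ^ ((v + 1) * v) * R ^ (2 * v - 2) * p ^ 1500 := by rw [h7]; ring
      _ ≤ 2 ^ ((K + 1) * K) * R ^ (2 * K) * p ^ 1500 := by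
          apply mul_le_mul_of_nonneg_right _ (by positivity)
          exact mul_le_mul h9 h8 (by positivity) (by positivity)
  refine (Finset.sum_le_sum hterm).trans ?_
  rw [Finset.sum_const, nsmul_eq_mul]
  apply mul_le_mul_of_nonneg_right _ (by positivity)
  rw [Nat.card_Icc]
  exact_mod_cast (by omega : K + 1 - 2 ≤ K)

lemma rho_top (n : ℕ) (hn : 1000 ≤ n) (κ : ℝ) (hκ : 4 / (n:ℝ) ^ 2 ≤ κ) :
    |rho (⊤ : SimpleGraph (Fin n)) - 1| ≤ κ := by
  have hn' : (1000 : ℝ) ≤ n := by exact_mod_cast hn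
  have hEpos : (0:ℝ) < numEdges (⊤ : SimpleGraph (Fin n)) := by
    rw [numEdges_top, choose_two_real]
    have : 0 < (n:ℝ) - 1 := by linarith only [hn']
    positivity
  have hE : 0 < numEdges (⊤ : SimpleGraph (Fin n)) := by exact_mod_cast hEpos
  have h1 := rho_of_good (⊤ : SimpleGraph (Fin n)) (by omega) hE (4 / (n:ℝ) ^ 2) (Fi.Sm_top hn)
  exact h1.trans hκ

lemma top_bound (n : ℕ) (A B C K1 p M0 : ℝ) (e0 : ℕ) (hF : FHyp (n := n) FC C 1e100 (1e7 * (1e-30) ^ 2) (40000 / 1e-9) 1e-40 1e-30)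
    (hn : 2 ≤ n) (hA0 : 0 < A) (hB0 : 0 < B) (hC0 : 0 < C) (hp2 : 2 ≤ p) (hN : (n : ℝ) = p ^ 1200)
    (hEs0 : (0:ℝ) < e0) (hP : (n : ℝ) ^ 2 / p ^ 15 / e0 ≤ p ^ 600)
    (hpz1' : 2 * 10 ^ 13 / (1e-40 : ℝ) ^ 8 ≤ p)
    (hM0 : M0 = A * C * ((n : ℝ) ^ 3) ^ 2 / (e0:ℝ) ^ 2) (hK10 : 0 < K1)
    (hpR : (A * C + 256 * A * B + 2) * K1 ^ 2 * 4 ≤ A * C * p)
    (he1 : K1 * p ^ 1800 ≤ e0) (he2 : (e0:ℝ) ≤ 2 * (K1 * p ^ 1800)) :
    Phi FC A B (A * C) e0 M0 1e-40 (p ^ 15) (⊤ : SimpleGraph (Fin n)) / (e0:ℝ) ^ 2 ≤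
      2 * (A * C) / K1 ^ 4 := by
  have hp1 : 1 ≤ p := by linarith only [hpz1']
  have hp0 : 0 < p := by linarith only [hpz1']
  have hn0 : (0:ℝ) < n := by rw [hN]; positivity
  have hEs2 : K1 ^ 2 * (n:ℝ) ^ 3 ≤ (e0:ℝ) ^ 2 := by
    have h1 := pow_le_pow_left₀ (by positivity) he1 2
    calc K1 ^ 2 * (n:ℝ) ^ 3 = (K1 * p ^ 1800) ^ 2 := by rw [hN]; ring
      _ ≤ _ := h1
  have hEs2' : (e0:ℝ) ^ 2 ≤ 4 * K1 ^ 2 * (n:ℝ) ^ 3 := by
    have h1 := pow_le_pow_left₀ hEs0.le he2 2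
    calc (e0:ℝ) ^ 2 ≤ (2 * (K1 * p ^ 1800)) ^ 2 := h1
      _ = _ := by rw [hN]; ring
  have htop := Phi_top n FC A B C (A * C) 1e100 (1e7 * (1e-30) ^ 2) (40000 / 1e-9) 1e-40 1e-30
    e0 M0 p hF hn hA0 hB0 hC0.le (by norm_num) hp2 hN hEs0 hP hpz1'
  have h1 : (A * C + 256 * A * B + 2) * (n : ℝ) ^ 3 / p ^ 2 ≤ M0 := by
    rw [hM0, div_le_div_iff₀ (by positivity) (by positivity)]
    calc (A * C + 256 * A * B + 2) * (n : ℝ) ^ 3 * (e0:ℝ) ^ 2
        ≤ (A * C + 256 * A * B + 2) * (n : ℝ) ^ 3 * (4 * K1 ^ 2 * (n:ℝ) ^ 3) :=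
          mul_le_mul_of_nonneg_left hEs2' (by positivity)
      _ = ((A * C + 256 * A * B + 2) * K1 ^ 2 * 4) * ((n:ℝ) ^ 3) ^ 2 := by ring
      _ ≤ (A * C * p) * ((n:ℝ) ^ 3) ^ 2 := mul_le_mul_of_nonneg_right hpR (by positivity)
      _ = A * C * ((n:ℝ) ^ 3) ^ 2 * p := by ring
      _ ≤ A * C * ((n:ℝ) ^ 3) ^ 2 * p ^ 2 := by
          apply mul_le_mul_of_nonneg_left _ (by positivity)
          exact le_self_pow₀ hp1 (by norm_num)
  have h2 : Phi FC A B (A * C) e0 M0 1e-40 (p ^ 15) (⊤ : SimpleGraph (Fin n)) ≤ 2 * M0 := by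
    linarith only [htop, h1]
  rw [div_le_div_iff₀ (by positivity) (by positivity)]
  have h3 : (K1 ^ 2 * (n:ℝ) ^ 3) ^ 2 ≤ ((e0:ℝ) ^ 2) ^ 2 := pow_le_pow_left₀ (by positivity) hEs2 2
  have h4 : 2 * M0 * K1 ^ 4 ≤ 2 * (A * C) * (e0:ℝ) ^ 2 := by
    rw [hM0]
    have e1 : 2 * (A * C * ((n:ℝ) ^ 3) ^ 2 / (e0:ℝ) ^ 2) * K1 ^ 4 =
      2 * (A * C) * ((K1 ^ 2 * (n:ℝ) ^ 3) ^ 2 / (e0:ℝ) ^ 2) := by ring
    rw [e1]
    apply mul_le_mul_of_nonneg_left _ (by positivity)
    rw [div_le_iff₀ (by positivity)]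
    linarith only [h3]
  calc _ ≤ 2 * M0 * K1 ^ 4 := mul_le_mul_of_nonneg_right h2 (by positivity)
    _ ≤ _ := h4

lemma c_bound (cL cR D E κ A δ K1 P : ℝ) (hcL0 : 0 < cL) (hcR0 : 0 < cR) (hκ0 : 0 < κ)
    (hA0 : 0 < A) (hδ : 0 < δ) (hK11 : 1 ≤ K1) (hP : 0 < P) (hD : D = δ * P) (hE : 0 < E)
    (he2 : E ≤ 2 * (K1 * P)) :
    (cL / D + cR / E) * (E ^ 2 / (A * √E)) * (9 / κ * (1 / √E)) ≤
      (9 / κ) / A * (2 * cL / δ + cR) * K1 := by
  have hD0 : 0 < D := by rw [hD]; positivity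
  have hse0 : 0 < √E := Real.sqrt_pos.mpr hE
  have h3 : (cL / D + cR / E) * (E ^ 2 / (A * √E)) * (9 / κ * (1 / √E)) =
      (9 / κ) / A * (cL * (E / D) + cR) := by
    have hss : √E * √E = E := Real.mul_self_sqrt hE.le
    have e1 : E ^ 2 / (A * √E) * (9 / κ * (1 / √E)) = (9 / κ) / A * E := by
      have : E ^ 2 / (A * √E) * (9 / κ * (1 / √E)) =
          (9 / κ) / A * (E ^ 2 / (√E * √E)) := by ring
      rw [this, hss]
      congr 1
      field_simp
    calc (cL / D + cR / E) * (E ^ 2 / (A * √E)) * (9 / κ * (1 / √E))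
        = (cL / D + cR / E) * (E ^ 2 / (A * √E) * (9 / κ * (1 / √E))) := by ring
      _ = (cL / D + cR / E) * ((9 / κ) / A * E) := by rw [e1]
      _ = _ := by field_simp
  rw [h3]
  have h4 : E / D ≤ 2 * K1 / δ := by
    rw [hD, div_le_div_iff₀ (by positivity) hδ]
    have := mul_le_mul_of_nonneg_right he2 hδ.le
    linarith only [this]
  have h5 : cL * (E / D) + cR ≤ (2 * cL / δ + cR) * K1 := by
    have h6 := mul_le_mul_of_nonneg_left h4 hcL0.le
    have h7 : cR ≤ cR * K1 := by nlinarith only [hcR0, hK11]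
    have e1 : (2 * cL / δ + cR) * K1 = cL * (2 * K1 / δ) + cR * K1 := by ring
    linarith only [h6, h7, e1]
  calc (9 / κ) / A * (cL * (E / D) + cR) ≤ (9 / κ) / A * ((2 * cL / δ + cR) * K1) :=
        mul_le_mul_of_nonneg_left h5 (by positivity)
    _ = _ := by ring

lemma frac_bound (n : ℕ) (hn : 2 ≤ n) (p K1 E : ℝ) (hp : 0 < p) (hK1 : 0 < K1) (hN : (n : ℝ) = p ^ 1200)
    (he2 : E ≤ 2 * (K1 * p ^ 1800)) :
    E / ((n.choose 2 : ℕ) : ℝ) ≤ 8 * K1 / p ^ 600 := by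
  have hn' : (2:ℝ) ≤ n := by exact_mod_cast hn
  rw [choose_two_real, div_le_div_iff₀ (by
    have : 0 < (n:ℝ) - 1 := by linarith only [hn']
    positivity) (by positivity)]
  have h1 : (n:ℝ) ^ 2 / 4 ≤ (n:ℝ) * ((n:ℝ) - 1) / 2 := by nlinarith only [hn']
  have h2 : E * p ^ 600 ≤ 2 * (K1 * p ^ 1800) * p ^ 600 :=
    mul_le_mul_of_nonneg_right he2 (by positivity)
  have h3 : 2 * (K1 * p ^ 1800) * p ^ 600 = 8 * K1 * ((n:ℝ) ^ 2 / 4) := by rw [hN]; ring
  have h4 := mul_le_mul_of_nonneg_left h1 (by positivity : 0 ≤ 8 * K1)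
  linarith only [h2, h3, h4]

/-- one application of the grid theorem -/
lemma apply_grid (n K : ℕ) (hK : 2 ≤ K) (κ A B C K1 p M0 D c2 : ℝ) (e0 k0 : ℕ)
    (hκ : κ = 1 / (48 * K)) (hA0 : 0 < A) (hB0 : 0 < B) (hC0 : 0 < C)
    (hF : FHyp (n := n) FC C 1e100 (1e7 * (1e-30) ^ 2) (40000 / 1e-9) 1e-40 1e-30)
    (hn1000 : 1000 ≤ n) (hN : (n : ℝ) = p ^ 1200) (hp2 : 2 ≤ p)
    (hNH : NHyp n A B C (A * C) 1e100 (1e7 * (1e-30) ^ 2) (40000 / 1e-9) 1e-40 1e-30 e0 M0 (p ^ 15))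
    (hM0 : M0 = A * C * ((n : ℝ) ^ 3) ^ 2 / (e0:ℝ) ^ 2) (hD0 : 0 < D)
    (hc2 : c2 = ((1 / (clow κ * 1e-9)) / D + (1 / (1e7 * κ ^ 2)) / e0) *
      ((e0:ℝ) ^ 2 / (A * √(e0:ℝ))))
    (hK1c : 2 * (K:ℝ) ≤ K1) (he1 : K1 * p ^ 1800 ≤ e0) (hEs : (3:ℝ) ≤ e0)
    (hNe : n.choose 2 = e0 + 3 * k0) (hκn : 4 / (n:ℝ) ^ 2 ≤ κ)
    (J : ℕ) (e m : ℕ → ℕ) (g1 : e 0 = e0) (g2 : e J = e0 + 3 * k0)
    (g3 : ∀ i, i < J → e (i + 1) = e i + 3 * m i)
    (g4 : ∀ i, i < J → (e (i + 1) : ℝ) ≤ (1 + κ) * e i)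
    (g6 : ∑ i ∈ Finset.range J, m i = k0) :
    V (notSparse K D) k0 (⊤ : SimpleGraph (Fin n)) ≤
      (1 + ∑ j ∈ Finset.range J, c2 / √(e j : ℝ)) *
        (Phi FC A B (A * C) e0 M0 1e-40 (p ^ 15) (⊤ : SimpleGraph (Fin n)) / (e0:ℝ) ^ 2) +
        (2 * K / D) *
        ∑ v ∈ Finset.Icc 2 K, (n : ℝ) ^ v * (2 ^ ((v + 1) * v) *
          ((e0 : ℝ) / ((n.choose 2 : ℕ) : ℝ)) ^ (((2 * v - 2 : ℕ) : ℝ) - 1 / 2)) := by
  have hK' : (2:ℝ) ≤ K := by exact_mod_cast hK
  have hκ0 : 0 < κ := by rw [hκ]; positivity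
  have hp1 : 1 ≤ p := by linarith only [hp2]
  have hp0 : 0 < p := by linarith only [hp2]
  have hn0 : (0:ℝ) < n := by rw [hN]; positivity
  have hnpos : 0 < n := by omega
  have hEs0 : (0:ℝ) < e0 := by linarith only [hEs]
  have hmono := level_mono m e J g3
  have hne0 : ∀ i, i ≤ J → (e0 : ℝ) ≤ e i := by
    intro i hi
    have := hmono i hi
    rw [g1] at this
    exact_mod_cast this
  obtain ⟨Ψ, hΨ⟩ : ∃ Ψ : SimpleGraph (Fin n) → ℝ, Ψ = fun G =>
    Phi FC A B (A * C) e0 M0 1e-40 (p ^ 15) G / (e0:ℝ) ^ 2 := ⟨_, rfl⟩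
  have hFle : ∀ G : SimpleGraph (Fin n), (e0:ℝ) ≤ numEdges G →
      A * √((e0:ℝ) * numEdges G) * FC G ≤ Phi FC A B (A * C) e0 M0 1e-40 (p ^ 15) G := by
    intro G hG
    refine F_le_Phi FC hF.nonneg A B (A * C) e0 M0 1e-40 (p ^ 15) hA0 hB0 (by positivity) hEs0
      hM0.ge hnpos (by positivity) (by norm_num) ?_ G hG
    linarith only [hNH, hNH.hEq]
  have hcl := clow_pos κ hκ0
  have hse0 : 0 < √(e0:ℝ) := Real.sqrt_pos.mpr hEs0
  have hc20 : 0 ≤ c2 := by rw [hc2]; (clear * - hcl hD0 hκ0 hEs hA0; positivity)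
  have H1 : ∀ i, i ≤ J → 3 ≤ e i := by
    intro i hi
    have h1 := hne0 i hi
    have h2 : (3:ℝ) ≤ e i := by linarith only [hEs, h1]
    exact_mod_cast h2
  have H2 : ∀ i, i < J → ∀ G : SimpleGraph (Fin n), numEdges G = e i →
      ((light κ G).card : ℝ) / D + pen (|rho G - 1| ≤ κ) ≤ c2 / √(e i : ℝ) * Ψ G := by
    intro i hi G hG
    have h1 : (e0:ℝ) ≤ numEdges G := by rw [hG]; exact hne0 i hi.le
    have h2 := X_le κ D e0 A hκ0 hD0 hEs0 hA0 _ G hnpos h1 (hFle G h1)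
    rw [← hc2, hG] at h2
    rw [hΨ]
    exact h2
  have H3 : ∀ G : SimpleGraph (Fin n), e 0 ≤ numEdges G → 0 ≤ Ψ G := by
    intro G hG
    rw [g1] at hG
    have h1 : (e0:ℝ) ≤ numEdges G := by exact_mod_cast hG
    have h2 := hFle G h1
    have h3 : 0 ≤ A * √((e0:ℝ) * numEdges G) * FC G := by
      have := hF.nonneg G
      (clear * - hA0 this; positivity)
    rw [hΨ]
    exact div_nonneg (h3.trans h2) (by positivity)
  have H4 : ∀ G : SimpleGraph (Fin n), e 0 < numEdges G → (1 ≤ Ψ G ∨ ((triangles G).Nonempty ∧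
      ∑ t ∈ triangles G, Ψ (removeTriangle G t) ≤ (triangles G).card * Ψ G)) := by
    intro G hG
    rw [g1] at hG
    have h1 : (e0:ℝ) ≤ numEdges G := by exact_mod_cast hG.le
    rw [hΨ]
    rcases Phi_step FC A B C (A * C) 1e100 (1e7 * (1e-30) ^ 2) (40000 / 1e-9) 1e-40 1e-30 e0 M0
      (p ^ 15) hF hNH G h1 with h4 | ⟨h4, h5⟩
    · left
      show 1 ≤ Phi FC A B (A * C) e0 M0 1e-40 (p ^ 15) G / (e0:ℝ) ^ 2
      rw [le_div_iff₀ (by (clear * - hEs; positivity)), one_mul]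
      exact (pow_le_pow_left₀ hEs0.le h1 2).trans h4
    · right
      refine ⟨h4, ?_⟩
      show ∑ t ∈ triangles G, Phi FC A B (A * C) e0 M0 1e-40 (p ^ 15) (removeTriangle G t) /
        (e0:ℝ) ^ 2 ≤ _ * (Phi FC A B (A * C) e0 M0 1e-40 (p ^ 15) G / (e0:ℝ) ^ 2)
      rw [← Finset.sum_div, ← mul_div_assoc]
      exact div_le_div_of_nonneg_right h5 (by (clear * - hEs; positivity))
  have H5 : ∀ i, i ≤ J → 0 < (1 + κ) * (4 * (e i : ℝ) ^ 2 / (n:ℝ) ^ 3) * e i / 3 := by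
    intro i hi
    have := hne0 i hi
    have h2 : (0:ℝ) < e i := by linarith only [hEs, this]
    (clear * - hκ0 h2 hn1000; positivity)
  have H6 : ∀ i, i < J → ∀ G : SimpleGraph (Fin n), numEdges G = e i →
      (1 - κ) * cc G = (1 - κ) * (4 * (e i : ℝ) ^ 2 / (n:ℝ) ^ 3) := by
    intro i _ G hG
    unfold cc
    rw [hG]
  have H7 : ∀ i, i ≤ J → ∀ G : SimpleGraph (Fin n), numEdges G = e i → |rho G - 1| ≤ κ →
      ((triangles G).card : ℝ) ≤ (1 + κ) * (4 * (e i : ℝ) ^ 2 / (n:ℝ) ^ 3) * e i / 3 := by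
    intro i hi G hG hr
    have h1 := hne0 i hi
    have h2 : (0:ℝ) < numEdges G := by rw [hG]; linarith only [hEs, h1]
    rw [T_eq G hnpos (by exact_mod_cast h2)]
    unfold cc
    rw [hG] at h2 ⊢
    have h3 := (abs_le.mp hr).2
    have h4 : 0 ≤ 4 * (e i : ℝ) ^ 2 / (n:ℝ) ^ 3 * e i := by (clear * - h2 hn1000; positivity)
    have h5 := mul_le_mul_of_nonneg_right h3 h4
    linarith only [h5]
  have H8 : ∀ v, 2 ≤ v → v ≤ K → ∀ i, i < J → 3 * (((2 * v - 2 : ℕ) : ℝ) - 1 / 2) *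
      ((1 + κ) * (4 * (e (i + 1) : ℝ) ^ 2 / (n:ℝ) ^ 3) * e (i + 1) / 3) ≤
      (((2 * v - 2 : ℕ) : ℝ) * ((1 - κ) * (4 * (e i : ℝ) ^ 2 / (n:ℝ) ^ 3)) -
        (((2 * v - 2 : ℕ) : ℝ)) ^ 2) * e i := by
    intro v hv2 hvK i hi
    have h1 := hne0 i hi.le
    have h2 : (0:ℝ) < e i := by linarith only [hEs, h1]
    refine hx_num K hK κ ((n:ℝ) ^ 3) (e i) (e (i + 1)) hκ (by positivity) h2 (by (clear * -; positivity))
      (g4 i hi) ?_ _ ?_ ?_
    · rw [le_div_iff₀ (by positivity)]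
      have h3 : (K1 * p ^ 1800) ^ 2 ≤ (e i : ℝ) ^ 2 :=
        pow_le_pow_left₀ (by
          have : 0 ≤ K1 := by linarith only [hK1c, hK']
          (clear * - this hp2; positivity)) (he1.trans h1) 2
      have h4 : (2 * (K:ℝ)) ^ 2 ≤ K1 ^ 2 := pow_le_pow_left₀ (by positivity) hK1c 2
      have h5 : (2 * (K:ℝ)) ^ 2 * (n:ℝ) ^ 3 ≤ K1 ^ 2 * (n:ℝ) ^ 3 :=
        mul_le_mul_of_nonneg_right h4 (by positivity)
      have e1 : K1 ^ 2 * (n:ℝ) ^ 3 = (K1 * p ^ 1800) ^ 2 := by rw [hN]; ring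
      linarith only [h3, h5, e1]
    · have : (2:ℝ) ≤ ((2 * v - 2 : ℕ) : ℝ) := by exact_mod_cast (by omega : 2 ≤ 2 * v - 2)
      linarith only [this]
    · exact_mod_cast (by omega : 2 * v - 2 ≤ 2 * K)
  have hmain := sparse_of_grid (n := n) K κ D hD0 m e J Ψ (fun i => c2 / √(e i : ℝ))
    (fun i => by (clear * - hc20; positivity)) H1 g3 H2 H3 H4
    (fun i => (1 - κ) * (4 * (e i : ℝ) ^ 2 / (n:ℝ) ^ 3))
    (fun i => (1 + κ) * (4 * (e i : ℝ) ^ 2 / (n:ℝ) ^ 3) * e i / 3) H5 H6 H7 H8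
    (by rw [numEdges_top, g2]; exact hNe) (rho_top n hn1000 κ hκn)
  rw [g6, g1, g2, ← hNe] at hmain
  rw [hΨ] at hmain
  exact hmain

lemma second_num (K : ℕ) (R Q δ p D : ℝ) (hδ : 0 < δ) (hp1 : 1 ≤ p) (hD : D = δ * p ^ 1800)
    (hQ : Q = 2 * K * (K * (2 ^ ((K + 1) * K) * R ^ (2 * K))) / δ) (hpQ : 2 * Q ≤ p * δ) :
    (2 * K / D) * (K * (2 ^ ((K + 1) * K) * R ^ (2 * K) * p ^ 1500)) ≤ δ / 2 := by
  have hp0 : 0 < p := by linarith
  obtain ⟨W, hW⟩ : ∃ W : ℝ, W = K * (2 ^ ((K + 1) * K) * R ^ (2 * K)) := ⟨_, rfl⟩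
  rw [← hW] at hQ
  have e1 : (2 * K / D) * (K * (2 ^ ((K + 1) * K) * R ^ (2 * K) * p ^ 1500)) =
      (2 * K / D) * (W * p ^ 1500) := by rw [hW]; ring
  have e2 : (2 * K / D) * (W * p ^ 1500) = Q / p ^ 300 := by
    have e3 : p ^ 1800 = p ^ 300 * p ^ 1500 := by rw [← pow_add]
    rw [hQ, hD, e3]
    field_simp
  rw [e1, e2, div_le_div_iff₀ (by positivity) (by norm_num)]
  have h2 : p * δ ≤ p ^ 300 * δ := by
    apply mul_le_mul_of_nonneg_right _ hδ.le
    exact le_self_pow₀ hp1 (by norm_num)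
  linarith only [hpQ, h2]

lemma sparse_n (K : ℕ) (hK : 2 ≤ K) (κ A B C cL cR c3 K1 R Q δ : ℝ) (hδ : 0 < δ)
    (hκ : κ = 1 / (48 * K)) (hA0 : 0 < A) (hC0 : 0 < C) (hB : B = 4 * C)
    (hcL : cL = 1 / (clow κ * 1e-9)) (hcR : cR = 1 / (1e7 * κ ^ 2))
    (hc3 : c3 = (9 / κ) / A * (2 * cL / δ + cR))
    (hK1c : 2 * (K:ℝ) ≤ K1) (hK1d : 4 * A * C * (1 + c3) ≤ δ * K1)
    (hK1sq : (1e100:ℝ) ≤ 4 * K1 ^ 2) (hR : R = 8 * K1)
    (hQ : Q = 2 * K * (K * (2 ^ ((K + 1) * K) * R ^ (2 * K))) / δ)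
    (hAκ : 1 ≤ A * (1e7 * (1e-30) ^ 2))
    (hBnum : 65536 * B * (40000 / 1e-9) ≤ (1 / 1000) * 1e100)
    (n : ℕ) (p : ℝ) (hp2 : 2 ≤ p) (hN : (n : ℝ) = p ^ 1200)
    (hF : FHyp (n := n) FC C 1e100 (1e7 * (1e-30) ^ 2) (40000 / 1e-9) 1e-40 1e-30)
    (hpz1' : 2 * 10 ^ 13 / (1e-40 : ℝ) ^ 8 ≤ p) (hpAC : A * C ≤ p) (hpK : 2 * K1 + 3 ≤ p)
    (hpR : (A * C + 256 * A * B + 2) * K1 ^ 2 * 4 ≤ A * C * p) (hpQ : 2 * Q ≤ p * δ) :
      ∃ e0 k0 : ℕ, n.choose 2 = e0 + 3 * k0 ∧ K1 * p ^ 1800 ≤ e0 ∧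
        V (notSparse K (δ * p ^ 1800)) k0 (⊤ : SimpleGraph (Fin n)) ≤ δ := by
  have hK' : (2:ℝ) ≤ K := by exact_mod_cast hK
  have hκ0 : 0 < κ := by rw [hκ]; positivity
  have hκ1 : κ ≤ 1 / 96 := by
    rw [hκ]
    apply one_div_le_one_div_of_le (by norm_num)
    linarith only [hK']
  have hB0 : 0 < B := by rw [hB]; positivity
  have hcL0 : 0 < cL := by
    have := clow_pos κ hκ0
    rw [hcL]; positivity
  have hcR0 : 0 < cR := by rw [hcR]; (clear * - hκ0; positivity)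
  have hc30 : 0 < c3 := by rw [hc3]; (clear * - hκ0 hA0 hcL0 hδ hcR0; positivity)
  have hK11 : 1 ≤ K1 := by linarith only [hK1c, hK', hκ1]
  have hK10 : 0 < K1 := by linarith only [hK1c, hK', hκ0, hκ1]
  have hR1 : 1 ≤ R := by rw [hR]; linarith only [hK1c, hK', hκ1]
  have hp1 : 1 ≤ p := by linarith only [hpz1', hκ0, hκ1]
  have hp0 : 0 < p := by linarith only [hpz1', hκ0, hκ1]
  have hn1000 : 1000 ≤ n := by
    have h1 : (1000:ℝ) ≤ n := by
      rw [hN]
      calc (1000:ℝ) ≤ 2 ^ 10 := by norm_num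
        _ ≤ p ^ 10 := pow_le_pow_left₀ (by norm_num) hp2 10
        _ ≤ p ^ 1200 := pow_le_pow_right₀ hp1 (by norm_num)
    exact_mod_cast h1
  obtain ⟨e0, k0, hNe, he1, he2⟩ := choose_level n p K1 hp2 hN hK11 (by linarith only [hpz1', hpK])
  refine ⟨e0, k0, hNe, he1, ?_⟩
  have hp18 : (256:ℝ) ≤ p ^ 1800 := by
    calc (256:ℝ) = 2 ^ 8 := by norm_num
      _ ≤ p ^ 8 := pow_le_pow_left₀ (by norm_num) hp2 8
      _ ≤ p ^ 1800 := pow_le_pow_right₀ hp1 (by norm_num)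
  have hEsK : K1 * 256 ≤ e0 := (mul_le_mul_of_nonneg_left hp18 hK10.le).trans he1
  have hEs3 : (3:ℝ) ≤ e0 := by linarith only [hK1c, hK', hEsK]
  have hEs0 : (0:ℝ) < e0 := by linarith only [hK1c, hK', hκ1, hEsK]
  have hκe : 6 ≤ κ * e0 := by
    have h1 : κ * (K1 * 256) ≤ κ * e0 := mul_le_mul_of_nonneg_left hEsK hκ0.le
    have h2 : κ * (2 * K * 256) ≤ κ * (K1 * 256) := by
      apply mul_le_mul_of_nonneg_left _ hκ0.le
      linarith only [hK1c]
    have h3 : κ * (2 * K * 256) = 32 / 3 := by rw [hκ]; field_simp; norm_num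
    linarith only [h1, h2, h3]
  obtain ⟨J, e, m, g1, g2, g3, g4, g5, g6⟩ := exists_grid κ hκ0 (by linarith only [hκ0, hκ1]) k0 e0 hκe
  have hκn : 4 / (n:ℝ) ^ 2 ≤ κ := by
    have hn0 : (0:ℝ) < n := by rw [hN]; positivity
    rw [hκ, div_le_div_iff₀ (by positivity) (by positivity)]
    have h1 : 4 * (48 * (K:ℝ)) ≤ 96 * K1 := by linarith only [hK1c]
    have h2 : K1 ≤ p := by linarith only [hpz1', hpK, hκ1]
    have h4 : p ≤ n := by rw [hN]; exact le_self_pow₀ hp1 (by norm_num)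
    have h5 : (1000:ℝ) ≤ n := by exact_mod_cast hn1000
    have h3 : 96 * p ≤ (n:ℝ) ^ 2 := by
      calc 96 * p ≤ 1000 * p := by linarith only [hp0]
        _ ≤ (n:ℝ) * n := mul_le_mul h5 h4 hp0.le hn0.le
        _ = (n:ℝ) ^ 2 := by ring
    linarith only [h1, h2, h3]
  obtain ⟨M0, hM0⟩ : ∃ M0, M0 = A * C * ((n : ℝ) ^ 3) ^ 2 / (e0:ℝ) ^ 2 := ⟨_, rfl⟩
  obtain ⟨hNH, hP⟩ := NHyp_of n A B C 1e100 (1e7 * (1e-30) ^ 2) (40000 / 1e-9) 1e-40 1e-30 e0 M0 p
    K1 (by norm_num) hA0 hAκ hB0 hC0.le (by norm_num) (by norm_num)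
    hBnum hB.ge (by norm_num) (by norm_num) hK11 hK1sq hp2 hN he1 (by linarith only [he2]) hM0.ge
    hpAC hpz1' hpK
  obtain ⟨D, hD⟩ : ∃ D, D = δ * p ^ 1800 := ⟨_, rfl⟩
  have hD0 : 0 < D := by rw [hD]; positivity
  rw [← hD]
  obtain ⟨c2, hc2⟩ : ∃ c2 : ℝ, c2 = (cL / D + cR / e0) * ((e0:ℝ) ^ 2 / (A * √(e0:ℝ))) := ⟨_, rfl⟩
  have hse0 : 0 < √(e0:ℝ) := Real.sqrt_pos.mpr hEs0
  have hc20 : 0 ≤ c2 := by rw [hc2]; (clear * - hcL0 hD0 hcR0 hEs3 hA0; positivity)
  have hmain := apply_grid n K hK κ A B C K1 p M0 D c2 e0 k0 hκ hA0 hB0 hC0 hF hn1000 hN hp2 hNH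
    hM0 hD0 (by rw [hc2, hcL, hcR]) hK1c he1 hEs3 hNe hκn J e m g1 g2 g3 g4 g6
  refine hmain.trans ?_
  obtain ⟨Ψt, hΨt⟩ : ∃ Ψt, Ψt =
    Phi FC A B (A * C) e0 M0 1e-40 (p ^ 15) (⊤ : SimpleGraph (Fin n)) / (e0:ℝ) ^ 2 := ⟨_, rfl⟩
  have hΨtop : Ψt ≤ 2 * (A * C) / K1 ^ 4 := by
    rw [hΨt]
    exact top_bound n A B C K1 p M0 e0 hF (by omega) hA0 hB0 hC0 hp2 hN hEs0 hP hpz1' hM0 hK10 hpR
      he1 he2
  rw [← hΨt]
  obtain ⟨S, hS⟩ : ∃ S, S = ∑ j ∈ Finset.range J, c2 / √(e j : ℝ) := ⟨_, rfl⟩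
  have hS0 : 0 ≤ S := by
    rw [hS]
    exact Finset.sum_nonneg fun j _ => by (clear * - hc20; positivity)
  have hsum : S ≤ c3 * K1 := by
    have h1 : S = c2 * ∑ j ∈ Finset.range J, 1 / √(e j : ℝ) := by
      rw [hS, Finset.mul_sum]
      exact Finset.sum_congr rfl fun j _ => by ring
    rw [h1]
    refine (mul_le_mul_of_nonneg_left g5 hc20).trans ?_
    rw [hc2, hc3]
    exact c_bound cL cR D e0 κ A δ K1 (p ^ 1800) hcL0 hcR0 hκ0 hA0 hδ hK11 (by positivity) hD hEs0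
      he2
  rw [← hS]
  have hfirst : (1 + S) * Ψt ≤ δ / 2 := by
    have h1 : 1 + S ≤ (1 + c3) * K1 := by
      have e1 : (1 + c3) * K1 = K1 + c3 * K1 := by ring
      rw [e1]
      linarith only [hsum, hK11]
    calc (1 + S) * Ψt ≤ (1 + S) * (2 * (A * C) / K1 ^ 4) :=
          mul_le_mul_of_nonneg_left hΨtop (by positivity)
      _ ≤ ((1 + c3) * K1) * (2 * (A * C) / K1 ^ 4) :=
          mul_le_mul_of_nonneg_right h1 (by positivity)
      _ = 2 * A * C * (1 + c3) / K1 ^ 3 := by field_simp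
      _ ≤ δ / 2 := by
          rw [div_le_div_iff₀ (by positivity) (by norm_num)]
          have h2 : δ * K1 ≤ δ * K1 ^ 3 := by
            apply mul_le_mul_of_nonneg_left _ hδ.le
            exact le_self_pow₀ hK11 (by norm_num)
          linarith only [hK1d, h2]
  have hsecond := union_num K R p D ((e0 : ℝ) / ((n.choose 2 : ℕ) : ℝ)) n hR1 hp1 hD0
    (by (clear * - hEs3; positivity)) (by
    rw [hR]
    exact frac_bound n (by omega) p K1 e0 hp0 hK10 hN he2) hN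
  have hsecond' := second_num K R Q δ p D hδ hp1 hD hQ hpQ
  linarith only [hfirst, hsecond, hsecond']

lemma sparse_fixed (K : ℕ) (hK : 2 ≤ K) (δ : ℝ) (hδ : 0 < δ) (Λ : ℝ) :
    ∃ K1 p0 : ℝ, Λ ≤ K1 ∧ 1 ≤ K1 ∧ 2 ≤ p0 ∧ ∀ (n : ℕ) (p : ℝ), p0 ≤ p → (n : ℝ) = p ^ 1200 →
      ∃ e0 k0 : ℕ, n.choose 2 = e0 + 3 * k0 ∧ K1 * p ^ 1800 ≤ e0 ∧
        V (notSparse K (δ * p ^ 1800)) k0 (⊤ : SimpleGraph (Fin n)) ≤ δ := by
  have hK' : (2:ℝ) ≤ K := by exact_mod_cast hK
  obtain ⟨κ, hκ⟩ : ∃ κ : ℝ, κ = 1 / (48 * K) := ⟨_, rfl⟩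
  have hκ0 : 0 < κ := by rw [hκ]; positivity
  obtain ⟨A, hA⟩ : ∃ A : ℝ, A = 1e53 := ⟨_, rfl⟩
  obtain ⟨C, hC⟩ : ∃ C : ℝ, C = 1e60 := ⟨_, rfl⟩
  obtain ⟨B, hB⟩ : ∃ B : ℝ, B = 4 * C := ⟨_, rfl⟩
  have hA0 : 0 < A := by rw [hA]; norm_num
  have hC0 : 0 < C := by rw [hC]; norm_num
  have hB0 : 0 < B := by rw [hB]; positivity
  obtain ⟨cL, hcL⟩ : ∃ cL : ℝ, cL = 1 / (clow κ * 1e-9) := ⟨_, rfl⟩
  obtain ⟨cR, hcR⟩ : ∃ cR : ℝ, cR = 1 / (1e7 * κ ^ 2) := ⟨_, rfl⟩
  have hcL0 : 0 < cL := by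
    have := clow_pos κ hκ0
    rw [hcL]; positivity
  have hcR0 : 0 < cR := by rw [hcR]; (clear * - hκ0; positivity)
  obtain ⟨c3, hc3⟩ : ∃ c3 : ℝ, c3 = (9 / κ) / A * (2 * cL / δ + cR) := ⟨_, rfl⟩
  have hc30 : 0 < c3 := by rw [hc3]; (clear * - hκ0 hA hcL0 hδ hcR0; positivity)
  obtain ⟨w, hw⟩ : ∃ w : ℝ, w = 4 * A * C * (1 + c3) / δ := ⟨_, rfl⟩
  have hw0 : 0 ≤ w := by rw [hw]; (clear * - hA hC hc30 hδ; positivity)
  obtain ⟨K1, hK1⟩ : ∃ K1 : ℝ, K1 = |Λ| + 1e51 + 2 * K + w := ⟨_, rfl⟩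
  have hΛa := abs_nonneg Λ
  have hK1Λ : Λ ≤ K1 := by
    have := le_abs_self Λ
    rw [hK1]; linarith only [hK', hw0, this]
  have hK1b : 1e51 ≤ K1 := by rw [hK1]; linarith only [hK', hw0, hΛa]
  have hK1c : 2 * (K:ℝ) ≤ K1 := by rw [hK1]; linarith only [hw0, hΛa]
  have hK1w : w ≤ K1 := by
    have h2 : (0:ℝ) ≤ 1e51 := by norm_num
    rw [hK1]; linarith only [hK', hΛa]
  have hK1d : 4 * A * C * (1 + c3) ≤ δ * K1 := by
    rw [hw, div_le_iff₀ hδ] at hK1w
    linarith only [hK1w]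
  have hK11 : 1 ≤ K1 := by linarith only [hw0, hK1, hΛa]
  have hK10 : 0 < K1 := by linarith only [hK', hw0, hK1, hΛa]
  have hK1sq : (1e100:ℝ) ≤ 4 * K1 ^ 2 := by
    have h1 : (1e51:ℝ) ^ 2 ≤ K1 ^ 2 := pow_le_pow_left₀ (by norm_num) hK1b 2
    have h2 : (1e100:ℝ) ≤ 4 * (1e51) ^ 2 := by norm_num
    linarith only [h1]
  obtain ⟨R, hR⟩ : ∃ R : ℝ, R = 8 * K1 := ⟨_, rfl⟩
  obtain ⟨Q, hQ⟩ : ∃ Q : ℝ, Q = 2 * K * (K * (2 ^ ((K + 1) * K) * R ^ (2 * K))) / δ := ⟨_, rfl⟩
  have hQ0 : 0 ≤ Q := by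
    have : 0 ≤ R := by rw [hR]; positivity
    rw [hQ]; (clear * - hK this hδ; positivity)
  obtain ⟨z1, hz1⟩ : ∃ z1 : ℝ, z1 = 2 * 10 ^ 13 / (1e-40) ^ 8 := ⟨_, rfl⟩
  obtain ⟨z2, hz2⟩ : ∃ z2 : ℝ, z2 = (A * C + 256 * A * B + 2) * K1 ^ 2 * 4 / (A * C) := ⟨_, rfl⟩
  have hz10 : 0 ≤ z1 := by rw [hz1]; positivity
  have hz20 : 0 ≤ z2 := by rw [hz2]; (clear * - hA hC hB0 hK1b; positivity)
  have hQδ : 0 ≤ 2 * Q / δ := by (clear * - hQ0 hδ; positivity)
  have hAC0 : 0 < A * C := by positivity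
  have hAκ : 1 ≤ A * (1e7 * (1e-30) ^ 2) := by rw [hA]; norm_num
  have hBnum : 65536 * B * (40000 / 1e-9) ≤ (1 / 1000) * 1e100 := by rw [hB, hC]; norm_num
  refine ⟨K1, 2 + A * C + z1 + (2 * K1 + 3) + z2 + 2 * Q / δ, hK1Λ, hK11, by linarith only [hw0, hK1, hΛa, hz1, hz20, hQδ, hAC0], ?_⟩
  intro n p hp hN
  have hp2 : 2 ≤ p := by linarith only [hw0, hK1, hΛa, hz1, hz20, hQδ, hAC0, hp]
  have hp1 : 1 ≤ p := by linarith only [hw0, hK1, hΛa, hz1, hz20, hQδ, hAC0, hp]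
  have hn1000 : 1000 ≤ n := by
    have h1 : (1000:ℝ) ≤ n := by
      rw [hN]
      calc (1000:ℝ) ≤ 2 ^ 10 := by norm_num
        _ ≤ p ^ 10 := pow_le_pow_left₀ (by norm_num) hp2 10
        _ ≤ p ^ 1200 := pow_le_pow_right₀ hp1 (by norm_num)
    exact_mod_cast h1
  have hF := Fi.FHyp_FF (n := n) hn1000
  rw [← hC] at hF
  have hz2p : z2 ≤ p := by linarith only [hK', hw0, hK1, hΛa, hz1, hQδ, hAC0, hp]
  have hQp : 2 * Q / δ ≤ p := by linarith only [hw0, hK1, hΛa, hz1, hz20, hAC0, hp]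
  rw [hz2, div_le_iff₀ hAC0] at hz2p
  rw [div_le_iff₀ hδ] at hQp
  have hz1p : z1 ≤ p := by linarith only [hK', hw0, hK1, hΛa, hz20, hQδ, hAC0, hp]
  rw [hz1] at hz1p
  exact sparse_n K hK κ A B C cL cR c3 K1 R Q δ hδ hκ hA0 hC0 hB hcL hcR hc3 hK1c hK1d hK1sq hR hQ
    hAκ hBnum n p hp2 hN hF hz1p (by linarith only [hw0, hK1, hΛa, hz1, hz20, hQδ, hp]) (by linarith only [hz1, hz20, hQδ, hAC0, hp]) (by linarith only [hz2p]) hQp

lemma V_notSparse_le (n K : ℕ) (D : ℝ) (k : ℕ) (G : SimpleGraph (Fin n)) :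
    V (notSparse K D) k G ≤ notSparse K D G := by
  by_cases hns : ∃ B, B ⊆ G.edgeFinset ∧ (B.card : ℝ) ≤ D ∧ Sparse K (G.edgeFinset \ B)
  · have h1 : notSparse K D G = 0 := by
      unfold notSparse
      rw [if_pos hns]
    rw [h1, V_eq_zero (fun G => ∃ B, B ⊆ G.edgeFinset ∧ (B.card : ℝ) ≤ D ∧
      Sparse K (G.edgeFinset \ B)) ?_ _ ?_ k G hns]
    · rintro G t ⟨B, hB1, hB2, hB3⟩
      refine ⟨B ∩ (removeTriangle G t).edgeFinset, Finset.inter_subset_right, ?_, ?_⟩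
      · refine le_trans ?_ hB2
        exact_mod_cast Finset.card_le_card Finset.inter_subset_left
      · apply hB3.mono
        intro x hx
        rw [Finset.mem_sdiff, Finset.mem_inter] at hx
        rw [Finset.mem_sdiff]
        exact ⟨edgeFinset_remove_subset G t hx.1, fun h => hx.2 ⟨h, hx.1⟩⟩
    · intro G hG
      unfold notSparse
      rw [if_pos hG]
  · have h1 : notSparse K D G = 1 := by
      unfold notSparse
      rw [if_neg hns]
    rw [h1]
    exact V_le_one _ (notSparse_le_one K D) k G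

/-- **Sparse sets.** At every level with at most `Λ n^{3/2}` edges, outside an event of
probability at most `δ`, one can delete at most `δ n^{3/2}` edges such that the remaining graph is
`(2,3)`-sparse on every set of at most `K` vertices. -/
theorem sparse (K : ℕ) (δ Λ : ℝ) (hδ : 0 < δ) :
    ∃ n0 : ℕ, ∀ n : ℕ, n0 ≤ n → ∀ e1 k1 : ℕ, n.choose 2 = e1 + 3 * k1 →
      (e1 : ℝ) ≤ Λ * (n : ℝ) ^ (3 / 2 : ℝ) →
      V (notSparse K (δ * (n : ℝ) ^ (3 / 2 : ℝ))) k1 (⊤ : SimpleGraph (Fin n)) ≤ δ := by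
  obtain ⟨K1, p0, h1, h2, h3, h4⟩ := sparse_fixed (K + 2) (by omega) δ hδ Λ
  refine ⟨⌈p0 ^ 1200⌉₊, fun n hn e1 k1 hNe he1 => ?_⟩
  obtain ⟨p, hpnn, hN⟩ := exists_p n
  have hbig : p0 ^ 1200 ≤ n := by
    have := Nat.le_ceil (p0 ^ 1200)
    have h5 : ((⌈p0 ^ 1200⌉₊ : ℕ) : ℝ) ≤ n := by exact_mod_cast hn
    linarith only [this, h5]
  have hp := p_large n p p0 hpnn hN hbig
  have hs : (n:ℝ) ^ (3 / 2 : ℝ) = p ^ 1800 := by
    rw [hN, ← Real.rpow_natCast p 1200, ← Real.rpow_mul hpnn, ← Real.rpow_natCast p 1800]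
    norm_num
  rw [hs] at he1 ⊢
  obtain ⟨e0, k0, h6, h7, h8⟩ := h4 n p hp hN
  have hp0 : 0 < p := by linarith only [h3, hp]
  have h9 : e1 ≤ e0 := by
    have : (e1:ℝ) ≤ e0 := by
      refine he1.trans (le_trans ?_ h7)
      exact mul_le_mul_of_nonneg_right h1 (by positivity)
    exact_mod_cast this
  have h10 : k1 = k0 + (k1 - k0) := by omega
  rw [h10, V_add_steps]
  have hK : ∀ G : SimpleGraph (Fin n), notSparse K (δ * p ^ 1800) G ≤
      notSparse (K + 2) (δ * p ^ 1800) G := by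
    intro G
    by_cases hns : ∃ B, B ⊆ G.edgeFinset ∧ (B.card : ℝ) ≤ δ * p ^ 1800 ∧
        Sparse (K + 2) (G.edgeFinset \ B)
    · obtain ⟨B, hB1, hB2, hB3⟩ := hns
      have e1 : notSparse K (δ * p ^ 1800) G = 0 := by
        unfold notSparse
        rw [if_pos ⟨B, hB1, hB2, fun X hX M hM hne hMX => hB3 X (by omega) M hM hne hMX⟩]
      have e2 : notSparse (K + 2) (δ * p ^ 1800) G = 0 := by
        unfold notSparse
        rw [if_pos ⟨B, hB1, hB2, hB3⟩]
      rw [e1, e2]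
    · have e2 : notSparse (K + 2) (δ * p ^ 1800) G = 1 := by
        unfold notSparse
        rw [if_neg hns]
      rw [e2]
      exact notSparse_le_one _ _ _
  refine le_trans (V_mono _ _ (fun G => ?_) k0 ⊤) h8
  exact (V_notSparse_le n K _ _ G).trans (hK G)

end Vale.Agent.P046.M2
end

section

/-!
The bridge from the hypergraph-level theorem to the conditional estimate `Core`.
-/

set_option autoImplicit false

open scoped Classical
open Finset

namespace Vale.Agent.P046.Lv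

open Vale.Agent.P046
open Vale.Agent.P046.K (Hyp TH zd wd deg)
open Vale.Agent.P046.S (P LH MaxDeg Sep nlive ldeg mon EnergyU)

/-- the conclusion of the hypergraph-level theorem for fixed parameters -/
def HG (ε T D δ : ℝ) (Δ K₀ N₀ : ℕ) : Prop :=
  ∀ (α : Type) [Fintype α] (V0 W : Finset α) (H0 : Finset (Finset α)), Hyp V0 H0 → W ⊆ V0 →
      Hyp W (H0.filter (fun h => h ⊆ W)) →
      MaxDeg (H0.filter (fun h => h ⊆ W)) Δ → Sep K₀ W (H0.filter (fun h => h ⊆ W)) →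
      N₀ ≤ W.card →
      ∑ v ∈ W, (min (zd (H0.filter (fun h => h ⊆ W)) D v ^ 4)
          (zd (H0.filter (fun h => h ⊆ W)) D v ^ 2) +
        min (wd (H0.filter (fun h => h ⊆ W)) D v ^ 2) |wd (H0.filter (fun h => h ⊆ W)) D v|) ≤
        W.card * D ^ (-(19 / 10 : ℝ)) →
      ((V0 \ W).card : ℝ) + (∑ v ∈ V0 \ W, ldeg H0 V0 v) / D ≤ δ * V0.card →
      ∀ φ : Finset α → ℝ, P (LH H0) T φ = φ →
      (∀ A, φ A ≤ |((A ∩ V0).card : ℝ) - V0.card / Real.sqrt (2 * D)| + 3 * nlive H0 A) →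
      φ V0 ≤ ε * (V0.card / Real.sqrt (2 * D))

section generic

variable {α : Type} [Fintype α]

/-- the form used for the cleaned hypergraph -/
lemma HG_clean (ε T D δ A : ℝ) (Δ K₀ N₀ : ℕ) (h : HG ε T D δ Δ K₀ N₀)
    (V0 : Finset α) (H0 : Finset (Finset α)) (B : Finset α) (h0 : Hyp V0 H0)
    (h1 : Hyp (keep V0 H0 B A) (cleaned V0 H0 B A))
    (h2 : cleaned V0 H0 B A = K.live H0 (keep V0 H0 B A))
    (h3 : ∀ v, (deg (cleaned V0 H0 B A) v : ℝ) ≤ A) (hΔ : A ≤ Δ)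
    (h4 : Sep K₀ (keep V0 H0 B A) (cleaned V0 H0 B A))
    (h5 : N₀ ≤ (keep V0 H0 B A).card)
    (h6 : ∑ v ∈ keep V0 H0 B A, (min (zd (cleaned V0 H0 B A) D v ^ 4)
        (zd (cleaned V0 H0 B A) D v ^ 2) +
        min (wd (cleaned V0 H0 B A) D v ^ 2) |wd (cleaned V0 H0 B A) D v|) ≤
        (keep V0 H0 B A).card * D ^ (-(19 / 10 : ℝ)))
    (h7 : ∑ v ∈ delSet V0 H0 B A, (1 + (deg H0 v : ℝ) / D) ≤ δ * V0.card)
    (φ : Finset α → ℝ) (h8 : P (LH H0) T φ = φ)
    (h9 : ∀ A, φ A ≤ |((A ∩ V0).card : ℝ) - V0.card / Real.sqrt (2 * D)| + 3 * nlive H0 A) :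
    φ V0 ≤ ε * (V0.card / Real.sqrt (2 * D)) := by
  have e1 : H0.filter (fun h => h ⊆ keep V0 H0 B A) = cleaned V0 H0 B A := by
    rw [h2]
    rfl
  have hsub : delSet V0 H0 B A ⊆ V0 := Finset.filter_subset _ _
  have e2 : V0 \ keep V0 H0 B A = delSet V0 H0 B A := by
    unfold keep
    rw [Finset.sdiff_sdiff_eq_self hsub]
  have e3 : ∀ v, ldeg H0 V0 v = (deg H0 v : ℝ) := by
    intro v
    unfold ldeg deg K.star
    rw [Finset.card_filter, Nat.cast_sum]
    refine Finset.sum_congr rfl fun k hk => ?_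
    by_cases hv : v ∈ k
    · rw [if_pos hv, if_pos ⟨h0.sub k hk, hv⟩, Nat.cast_one]
    · rw [if_neg hv, if_neg (fun h' => hv h'.2), Nat.cast_zero]
  refine h α V0 (keep V0 H0 B A) H0 h0 (keep_sub V0 H0 B A) ?_ ?_ ?_ h5 ?_ ?_ φ h8 h9
  · rw [e1]; exact h1
  · rw [e1]
    intro v
    have := (h3 v).trans hΔ
    exact_mod_cast this
  · rw [e1]; exact h4
  · rw [e1]; exact h6
  · rw [e2]
    have e4 : ((delSet V0 H0 B A).card : ℝ) + (∑ v ∈ delSet V0 H0 B A, ldeg H0 V0 v) / D =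
        ∑ v ∈ delSet V0 H0 B A, (1 + (deg H0 v : ℝ) / D) := by
      rw [Finset.sum_add_distrib, Finset.sum_const, nsmul_eq_mul, mul_one, Finset.sum_div]
      congr 1
      exact Finset.sum_congr rfl fun v _ => by rw [e3 v]
    rw [e4]
    exact h7

end generic

variable {n : ℕ}

lemma live_sub {β : Type} (H : Finset (Finset β)) (S : Finset β) : K.live H S ⊆ H :=
  Finset.filter_subset _ _

lemma sparse_link (m : ℕ) (G : SimpleGraph (Fin n)) (B : Finset (Sym2 (Fin n)))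
    (hs : M2.Sparse m (G.edgeFinset \ B)) (A : ℝ) :
    K.Sparse m (keep G.edgeFinset (TH G) B A) := by
  intro X hX2 hXK
  by_cases hne : ((keep G.edgeFinset (TH G) B A).filter fun e => e ∈ X.sym2).Nonempty
  · refine hs X hXK _ ?_ hne ?_
    · intro e he
      have h1 := (Finset.mem_filter.mp he).1
      exact Finset.mem_sdiff.mpr ⟨keep_sub _ _ _ _ h1, keep_notMem _ _ _ _ e h1⟩
    · intro e he
      exact (Finset.mem_filter.mp he).2
  · rw [Finset.not_nonempty_iff_eq_empty] at hne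
    rw [hne, Finset.card_empty]
    omega

/-- the target value at the level of `G` -/
lemma xn_eq (G : SimpleGraph (Fin n)) (hn : 0 < n) (hE : 0 < numEdges G) :
    (G.edgeFinset.card : ℝ) / Real.sqrt (2 * C.cc G) = xn n := by
  obtain ⟨s, hs⟩ : ∃ s : ℝ, s = (n : ℝ) ^ (3 / 2 : ℝ) := ⟨_, rfl⟩
  have hs0 : 0 < s := by
    rw [hs]
    exact Real.rpow_pos_of_pos (by exact_mod_cast hn) _
  have hs2 : s ^ 2 = (n : ℝ) ^ 3 := by rw [hs]; exact C.Fi.s_sq n
  have hN : (G.edgeFinset.card : ℝ) = numEdges G := rfl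
  obtain ⟨N, hN'⟩ : ∃ N : ℝ, N = (numEdges G : ℝ) := ⟨_, rfl⟩
  have hN0 : 0 < N := by rw [hN']; exact_mod_cast hE
  have h2 : (0:ℝ) < √2 := Real.sqrt_pos.mpr (by norm_num)
  have h22 : √2 * √2 = 2 := Real.mul_self_sqrt (by norm_num)
  have h1 : Real.sqrt (2 * C.cc G) = 2 * √2 * N / s := by
    unfold C.cc
    rw [← hN', ← hs2]
    rw [Real.sqrt_eq_iff_mul_self_eq (by positivity) (by positivity)]
    field_simp
    nlinarith
  unfold xn
  rw [h1, hN, ← hN', ← hs]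
  field_simp

lemma inter_inst {β : Type} (i1 i2 : DecidableEq β) (A B : Finset β) :
    (@Inter.inter _ (@Finset.instInter β i1) A B) = (@Inter.inter _ (@Finset.instInter β i2) A B) := by
  obtain rfl : i1 = i2 := Subsingleton.elim _ _
  rfl

lemma filter_inst {β : Type} (p : β → Prop) (i1 i2 : DecidablePred p) (A : Finset β) :
    @Finset.filter β p i1 A = @Finset.filter β p i2 A := by
  obtain rfl : i1 = i2 := Subsingleton.elim _ _
  rfl

lemma nlive_eq {β : Type} [Fintype β] (H : Finset (Finset β)) (A : Finset β)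
    (i : DecidablePred fun h : Finset β => h ⊆ A) :
    nlive H A = ((@Finset.filter _ (fun h => h ⊆ A) i H).card : ℝ) := by
  unfold nlive mon
  rw [Finset.card_filter, Nat.cast_sum]
  refine Finset.sum_congr rfl fun h _ => ?_
  by_cases hh : h ⊆ A
  · rw [if_pos hh, if_pos hh, Nat.cast_one]
  · rw [if_neg hh, if_neg hh, Nat.cast_zero]

/-- the value function is dominated by the deviation and the number of live hyperedges -/
lemma phi_dom (G : SimpleGraph (Fin n)) (hn : 0 < n) (hE : 0 < numEdges G)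
    (S : Finset (Sym2 (Fin n))) :
    Vale.Agent.P046.A.phi G dev S ≤ |((@Inter.inter _ (@Finset.instInter (Sym2 (Fin n))
      (fun a b => Classical.propDecidable (a = b))) S G.edgeFinset).card : ℝ) -
      (G.edgeFinset.card : ℝ) / Real.sqrt (2 * C.cc G)| + 3 * nlive (TH G) S := by
  rw [xn_eq G hn hE, nlive_eq (TH G) S (fun h => inferInstance),
    inter_inst (fun a b => Classical.propDecidable (a = b)) (inferInstance) S G.edgeFinset]
  exact Vale.Agent.P046.A.phi_le G (xn n) S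

/-- the conclusion of `level_data` -/
def Clean (G : SimpleGraph (Fin n)) (D A Λ : ℝ) (B : Finset (Sym2 (Fin n))) : Prop :=
  Hyp (keep G.edgeFinset (K.TH G) B A) (cleaned G.edgeFinset (K.TH G) B A) ∧
      cleaned G.edgeFinset (K.TH G) B A =
        K.live (K.TH G) (keep G.edgeFinset (K.TH G) B A) ∧
      (∀ v, (deg (cleaned G.edgeFinset (K.TH G) B A) v : ℝ) ≤ A) ∧
      ∑ v ∈ keep G.edgeFinset (K.TH G) B A,
        (min (zd (cleaned G.edgeFinset (K.TH G) B A) D v ^ 4)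
          (zd (cleaned G.edgeFinset (K.TH G) B A) D v ^ 2) +
         min (wd (cleaned G.edgeFinset (K.TH G) B A) D v ^ 2)
          |wd (cleaned G.edgeFinset (K.TH G) B A) D v|) ≤
        (keep G.edgeFinset (K.TH G) B A).card * D ^ (-(19 / 10 : ℝ)) ∧
      ∑ v ∈ delSet G.edgeFinset (K.TH G) B A, (1 + (deg (K.TH G) v : ℝ) / D) ≤
        2 * A * B.card + 6e23 * Λ * numEdges G / A ∧
      (numEdges G : ℝ) / 2 ≤ (keep G.edgeFinset (K.TH G) B A).card

/-- the conditional estimate at one graph -/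
lemma per_graph (ε T D δ A Λ : ℝ) (Δ K₀ N₀ : ℕ) (G : SimpleGraph (Fin n)) (hn : 0 < n)
    (hE : 0 < numEdges G) (hD : C.cc G = D) (h : HG ε T D δ Δ K₀ N₀)
    (B : Finset (Sym2 (Fin n))) (hs : M2.Sparse (2 * K₀) (G.edgeFinset \ B)) (hΔ : A ≤ Δ)
    (hN : (N₀ : ℝ) ≤ (numEdges G : ℝ) / 2)
    (hw : 2 * A * B.card + 6e23 * Λ * numEdges G / A ≤ δ * numEdges G)
    (hc : Clean G D A Λ B) : V dev (n.choose 2) G ≤ ε * xn n := by
  obtain ⟨c1, c2, c3, c4, c5, c6⟩ := hc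
  have h1 := HG_clean ε T D δ A Δ K₀ N₀ h G.edgeFinset (TH G) B (hyp_TH G) c1 c2 c3 hΔ (by
      apply Vale.Agent.P046.A.sep_of_sparse (le_refl (2 * K₀))
      · intro k hk
        rw [c2] at hk
        have hk2 := live_sub _ _ hk
        unfold TH at hk2
        rw [Finset.mem_image] at hk2
        obtain ⟨t, ht, rfl⟩ := hk2
        unfold triangles at ht
        rw [SimpleGraph.mem_cliqueFinset_iff] at ht
        exact ⟨t, ht.card_eq, rfl⟩
      · intro k hk
        exact c1.sub k hk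
      · exact sparse_link (2 * K₀) G B hs A) (by
      have := hN.trans c6
      exact_mod_cast this) c4 (c5.trans hw) (Vale.Agent.P046.A.phi G dev)
      (Vale.Agent.P046.A.P_phi G dev T) (by
      intro S
      rw [← hD]
      exact phi_dom G hn hE S)
  rw [Vale.Agent.P046.A.phi_self, ← hD, xn_eq G hn hE] at h1
  exact h1

end Vale.Agent.P046.Lv
end

section

/-! The energy theorem in the form used by the hypergraph master theorem. -/

set_option autoImplicit false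

namespace Vale.Agent.P046.K

theorem energyU : Vale.Agent.P046.S.EnergyU := energy

end Vale.Agent.P046.K
end

section

/-!
The conditional estimate `Core`: choice of the constants.
-/

set_option autoImplicit false

open scoped Classical
open Finset

namespace Vale.Agent.P046.Lv

open Vale.Agent.P046 Vale.Agent.P046.C
open Vale.Agent.P046.K (Hyp TH zd wd deg)
open Vale.Agent.P046.S (P LH MaxDeg Sep nlive ldeg mon EnergyU)

/-- choice of the number of edges that may be deleted -/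
lemma choose_ds (ε A δ : ℝ) (hε : 0 < ε) (hA : 0 < A) (hδ : 0 < δ) :
    ∃ d : ℝ, 0 < d ∧ d ≤ ε / 2 ∧ A ^ 2 * d ≤ 1 ∧ 4 * A * d ≤ δ := by
  refine ⟨min (ε / 2) (min (1 / A ^ 2) (δ / (4 * A))), by positivity, min_le_left _ _, ?_, ?_⟩
  · have h : min (ε / 2) (min (1 / A ^ 2) (δ / (4 * A))) ≤ 1 / A ^ 2 :=
      (min_le_right _ _).trans (min_le_left _ _)
    have h2 := mul_le_mul_of_nonneg_left h (by positivity : 0 ≤ A ^ 2)
    rwa [mul_one_div_cancel (by positivity)] at h2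
  · have h : min (ε / 2) (min (1 / A ^ 2) (δ / (4 * A))) ≤ δ / (4 * A) :=
      (min_le_right _ _).trans (min_le_right _ _)
    have h2 := mul_le_mul_of_nonneg_left h (by positivity : 0 ≤ 4 * A)
    rwa [mul_div_cancel₀ _ (by positivity)] at h2

lemma levBad_zero {n : ℕ} (F : SimpleGraph (Fin n) → ℝ) (e1 : ℕ) (lam : ℝ)
    (G : SimpleGraph (Fin n)) (h : levBad F e1 lam G < 1) : numEdges G = e1 ∧ F G ≤ lam := by
  unfold levBad at h
  by_contra hneg
  rw [if_neg hneg] at h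
  exact lt_irrefl _ h

lemma levBad_nonneg {n : ℕ} (F : SimpleGraph (Fin n) → ℝ) (e1 : ℕ) (lam : ℝ)
    (G : SimpleGraph (Fin n)) : 0 ≤ levBad F e1 lam G := by
  unfold levBad
  split_ifs <;> norm_num

lemma notSparse_nonneg {n : ℕ} (K : ℕ) (D : ℝ) (G : SimpleGraph (Fin n)) :
    0 ≤ M2.notSparse K D G := by
  unfold M2.notSparse
  split_ifs <;> norm_num

lemma notSparse_zero {n : ℕ} (K : ℕ) (D : ℝ) (G : SimpleGraph (Fin n))
    (h : M2.notSparse K D G < 1) : ∃ B, B ⊆ G.edgeFinset ∧ (B.card : ℝ) ≤ D ∧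
      M2.Sparse K (G.edgeFinset \ B) := by
  unfold M2.notSparse at h
  by_contra hneg
  rw [if_neg hneg] at h
  exact lt_irrefl _ h

/-- the estimate at one graph with all constants -/
lemma good_graph {n : ℕ} (ε T δ A Λ K1 ds D1 s : ℝ) (e1 K₀ N₀ : ℕ) (G : SimpleGraph (Fin n))
    (hn : 0 < n) (hε : 0 < ε) (hs : (n : ℝ) ^ (3 / 2 : ℝ) = s) (hs0 : 0 < s)
    (hΛ : 0 ≤ Λ) (hK1 : 1 ≤ K1) (hD1 : D1 ≤ 4 * K1 ^ 2)
    (hh : ∀ D ∈ Set.Icc D1 (16 * K1 ^ 2), HG ε T D δ ⌈A⌉₊ K₀ N₀)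
    (hl : ∀ D A' : ℝ, D1 ≤ D → 3 * D ≤ A' → ∀ (m : ℕ) (G' : SimpleGraph (Fin m)), cc G' = D →
      FFc G' ≤ Λ * numEdges G' / D ^ 2 → ∀ B : Finset (Sym2 (Fin m)),
      A' ^ 2 * B.card ≤ numEdges G' → Clean G' D A' Λ B)
    (hA : 48 * K1 ^ 2 ≤ A) (hAδ : 12e23 * Λ ≤ δ * A)
    (hd2 : A ^ 2 * ds ≤ 1) (hd3 : 4 * A * ds ≤ δ) (hds : 0 ≤ ds)
    (he1 : K1 * s ≤ e1) (he2 : (e1 : ℝ) ≤ 2 * K1 * s) (hN₀ : (N₀ : ℝ) ≤ (e1 : ℝ) / 2)
    (h1 : numEdges G = e1)
    (h2 : FFc G ≤ Λ * e1 / (4 * (e1:ℝ) ^ 2 / (n:ℝ) ^ 3) ^ 2)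
    (B : Finset (Sym2 (Fin n))) (hB : (B.card : ℝ) ≤ ds * s)
    (hsp : M2.Sparse (2 * K₀) (G.edgeFinset \ B)) :
    V dev (n.choose 2) G ≤ ε * s := by
  have hs2 : s ^ 2 = (n : ℝ) ^ 3 := by rw [← hs]; exact C.Fi.s_sq n
  have hN1 : (numEdges G : ℝ) = e1 := by exact_mod_cast h1
  have he0 : (0:ℝ) < e1 := lt_of_lt_of_le (by positivity) he1
  have hcc : cc G = 4 * (e1:ℝ) ^ 2 / (n:ℝ) ^ 3 := by
    unfold cc
    rw [hN1]
  have hD4 : 4 * K1 ^ 2 ≤ cc G := by
    rw [hcc, ← hs2, le_div_iff₀ (by positivity)]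
    have := pow_le_pow_left₀ (by positivity) he1 2
    calc 4 * K1 ^ 2 * s ^ 2 = 4 * (K1 * s) ^ 2 := by ring
      _ ≤ _ := by linarith only [this]
  have hD16 : cc G ≤ 16 * K1 ^ 2 := by
    rw [hcc, ← hs2, div_le_iff₀ (by positivity)]
    have := pow_le_pow_left₀ (by positivity) he2 2
    calc 4 * (e1:ℝ) ^ 2 ≤ 4 * (2 * K1 * s) ^ 2 := by linarith only [this]
      _ = 16 * K1 ^ 2 * s ^ 2 := by ring
  have hA0 : 0 < A := lt_of_lt_of_le (by positivity) hA
  have hse : s ≤ e1 := by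
    have : 1 * s ≤ K1 * s := mul_le_mul_of_nonneg_right hK1 hs0.le
    linarith only [he1, this]
  have hb0 : (0:ℝ) ≤ B.card := Nat.cast_nonneg _
  have hAB : A ^ 2 * B.card ≤ numEdges G := by
    rw [hN1]
    calc A ^ 2 * (B.card : ℝ) ≤ A ^ 2 * (ds * s) := mul_le_mul_of_nonneg_left hB (by positivity)
      _ = (A ^ 2 * ds) * s := by ring
      _ ≤ 1 * s := mul_le_mul_of_nonneg_right hd2 hs0.le
      _ ≤ e1 := by linarith only [hse]
  have hF : FFc G ≤ Λ * numEdges G / (cc G) ^ 2 := by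
    rw [hN1, hcc]; exact h2
  have hc := hl (cc G) A (by linarith only [hD1, hD4]) (by linarith only [hA, hD16]) n G rfl hF B hAB
  have hw : 2 * A * B.card + 6e23 * Λ * numEdges G / A ≤ δ * numEdges G := by
    rw [hN1]
    have w1 : 2 * A * (B.card : ℝ) ≤ δ / 2 * e1 := by
      calc 2 * A * (B.card : ℝ) ≤ 2 * A * (ds * s) := mul_le_mul_of_nonneg_left hB (by positivity)
        _ = (4 * A * ds) / 2 * s := by ring
        _ ≤ δ / 2 * s := mul_le_mul_of_nonneg_right (by linarith only [hd3]) hs0.le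
        _ ≤ δ / 2 * e1 := mul_le_mul_of_nonneg_left hse (by
            have : 0 ≤ 4 * A * ds := by (clear * - hA0 hds; positivity)
            linarith only [hd3, this])
    have w2 : 6e23 * Λ * e1 / A ≤ δ / 2 * e1 := by
      rw [div_le_iff₀ hA0]
      have := mul_le_mul_of_nonneg_right hAδ he0.le
      linarith only [this]
    linarith only [w1, w2]
  have h3 := per_graph ε T (cc G) δ A Λ ⌈A⌉₊ K₀ N₀ G hn (by
      have : (0:ℝ) < numEdges G := by rw [hN1]; exact he0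
      exact_mod_cast this) rfl (hh (cc G) ⟨by linarith only [hD1, hD4], hD16⟩) B hsp (Nat.le_ceil A)
      (by rw [hN1]; exact hN₀) hw hc
  refine h3.trans ?_
  have := (xn_le n).2
  rw [hs] at this
  exact mul_le_mul_of_nonneg_left this hε.le

/-- the bridge -/
theorem core_of_energy (hE : EnergyU) : Core := by
  intro ε hε
  obtain ⟨L, hL⟩ : ∃ L : ℝ, L = 64 / ε := ⟨_, rfl⟩
  have hL0 : 0 < L := by rw [hL]; positivity
  obtain ⟨Λ, hΛ⟩ : ∃ Λ : ℝ, Λ = L * 1e60 := ⟨_, rfl⟩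
  have hΛ0 : 0 ≤ Λ := by rw [hΛ]; positivity
  obtain ⟨T, hT, Dh, hDh, hg1⟩ := S.hg_final hE ε hε
  obtain ⟨Dl, hDl, hl⟩ := level_data Λ hΛ0
  obtain ⟨K2, hK2, hlev⟩ := level_event L hL0
  obtain ⟨K1, hK1⟩ : ∃ K1 : ℝ, K1 = K2 + Dh + Dl := ⟨_, rfl⟩
  obtain ⟨n1, hn1⟩ := hlev K1 (by linarith only [hDh, hDl, hK1])
  have hK11 : 1 ≤ K1 := by linarith
  have hK1D : Dh + Dl ≤ 4 * K1 ^ 2 := by nlinarith only [hK2, hK1]
  obtain ⟨δ, hδ, hg2⟩ := hg1 (16 * K1 ^ 2) (by linarith only [hDh, hDl, hK1D])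
  obtain ⟨A, hA⟩ : ∃ A : ℝ, A = 48 * K1 ^ 2 + 12e23 * Λ / δ := ⟨_, rfl⟩
  have hq : 0 ≤ 12e23 * Λ / δ := by positivity
  have hA0 : 0 < A := by
    have : 0 < 48 * K1 ^ 2 := by positivity
    linarith only [hDh, hDl, hK1D, hA, hq]
  have hAδ : 12e23 * Λ ≤ δ * A := by
    have : 12e23 * Λ = δ * (12e23 * Λ / δ) := by field_simp
    rw [this]
    apply mul_le_mul_of_nonneg_left _ hδ.le
    have : 0 < 48 * K1 ^ 2 := by positivity
    linarith only [hDh, hDl, hK1D, hA]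
  obtain ⟨K₀, N₀, hg3⟩ := hg2 ⌈A⌉₊
  obtain ⟨ds, hds0, hds1, hds2, hds3⟩ := choose_ds ε A δ hε hA0 hδ
  obtain ⟨n2, hn2⟩ := M2.sparse (2 * K₀) ds (2 * K1) hds0
  obtain ⟨p0, hp0⟩ : ∃ p0 : ℝ, p0 = 2 + K1 := ⟨_, rfl⟩
  refine ⟨n1 + n2 + 2 * N₀ + 1 + ⌈p0 ^ 1200⌉₊, fun n hn => ?_⟩
  obtain ⟨p, hpnn, hN⟩ := exists_p n
  have hbig : p0 ^ 1200 ≤ (n:ℝ) := by
    refine (Nat.le_ceil _).trans ?_
    have : ⌈p0 ^ 1200⌉₊ ≤ n := by omega
    exact_mod_cast this
  have hp := p_large n p p0 hpnn hN hbig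
  have hnpos : 0 < n := by omega
  have hn1' : (1:ℝ) ≤ n := by exact_mod_cast hnpos
  have hs : (n:ℝ) ^ (3 / 2 : ℝ) = p ^ 1800 := by
    rw [hN, ← Real.rpow_natCast p 1200, ← Real.rpow_mul hpnn, ← Real.rpow_natCast p 1800]
    norm_num
  obtain ⟨e1, k1, hk, he1, he2⟩ := choose_level n p K1 (by linarith only [hDh, hDl, hK2, hK1, hp0, hp]) hN hK11 (by linarith only [hp0, hp])
  rw [← hs] at he1 he2
  obtain ⟨s, hsd⟩ : ∃ s : ℝ, (n : ℝ) ^ (3 / 2 : ℝ) = s := ⟨_, rfl⟩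
  have hs0 : 0 < s := by rw [← hsd]; exact Real.rpow_pos_of_pos (by linarith only [hn1']) _
  have hsn : (n:ℝ) ≤ s := by
    rw [← hsd]
    calc (n:ℝ) = (n:ℝ) ^ (1:ℝ) := (Real.rpow_one _).symm
      _ ≤ (n:ℝ) ^ (3 / 2 : ℝ) := Real.rpow_le_rpow_of_exponent_le hn1' (by norm_num)
  have hb1 := hn1 n (by omega) e1 k1 hk he1 (by linarith only [he2])
  have hb2 := hn2 n (by omega) e1 k1 hk (by linarith only [he2])
  rw [hsd] at he1 he2 hb2
  refine ⟨k1, fun G => levBad FFc e1 (L * 1e60 * e1 / (4 * (e1:ℝ) ^ 2 / (n:ℝ) ^ 3) ^ 2) G +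
    M2.notSparse (2 * K₀) (ds * s) G, fun G => add_nonneg (levBad_nonneg _ _ _ _)
      (notSparse_nonneg _ _ _), ?_, ?_⟩
  · rw [LB.V_add_fun]
    have : (32:ℝ) / L = ε / 2 := by rw [hL]; field_simp; norm_num
    rw [this] at hb1
    linarith only [hds1, hb1, hb2]
  · intro G hG
    beta_reduce at hG
    have g1 := levBad_nonneg (FFc (n := n)) e1
      (L * 1e60 * e1 / (4 * (e1:ℝ) ^ 2 / (n:ℝ) ^ 3) ^ 2) G
    have g2 := notSparse_nonneg (2 * K₀) (ds * s) G
    obtain ⟨g3, g4⟩ := levBad_zero _ _ _ G (by linarith only [hG, g2] : levBad (FFc (n := n)) e1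
      (L * 1e60 * e1 / (4 * (e1:ℝ) ^ 2 / (n:ℝ) ^ 3) ^ 2) G < 1)
    obtain ⟨B, -, hB2, hB3⟩ := notSparse_zero (2 * K₀) (ds * s) G (by linarith only [hG, g1])
    rw [hsd]
    rw [← hΛ] at g4
    refine good_graph ε T δ A Λ K1 ds (Dh + Dl) s e1 K₀ N₀ G hnpos hε hsd hs0 hΛ0 hK11 hK1D
      (fun D hD => hg3 D ⟨by linarith only [hDl, hD, hD.1], hD.2⟩)
      (fun D A' hD hA' m G' hc hF B hB => hl D A' (by linarith only [hDh, hD]) hA' m G' hc hF B hB)
      (by linarith only [hA, hq]) hAδ hds2 hds3 hds0.le he1 (by linarith only [he2]) ?_ g3 g4 B hB2 hB3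
    have h5 : (2 * N₀ : ℕ) ≤ n := by omega
    have h6 : (2:ℝ) * N₀ ≤ n := by exact_mod_cast h5
    have h7 : s ≤ e1 := by
      have : 1 * s ≤ K1 * s := mul_le_mul_of_nonneg_right hK11 hs0.le
      linarith only [he1, this]
    linarith only [hsn, h6, h7]

/-- the conditional estimate -/
theorem core : Core := core_of_energy Vale.Agent.P046.K.energyU

end Vale.Agent.P046.Lv
end
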